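import Vale.Agent.P127.Stk.LibEnt
import Vale.Agent.P127.Stk.LibFloors

/-!
# P127 / U : the adapted path and its cells (helper23)

All variables are real valued functions on a finite probability space.
`x1 x2 y1 y2` : the line `s ↦ (x1 + s y1, x2 + s y2)`; `t` : the time; `v` : the slope of the slab.

* `pol` policy of the path: decides from `(l, T_i)` whether the next step reveals a block of `t`
  (`true`, a-step) or of `v` (`false`, r-step).  It is an arbitrary function.
* `hist i` history after `i` steps, `a i`, `r i` number of digits of `t`, `v` known after `i` steps,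
  `T i = (hist i, t_(a_i), v_(r_i))`.
* `base i b` : cell of the line seen from `T i`, with `b` digits of `y1` and margin `κ`.
* `J i b` : join of the `base i' b`, `i' ≤ i`; exactly nested in `i` and in `b`, and a function of
  `(l, T i)`.
* `f1`, `f2` : the two telescoping sums.
* `chain` : `I(l ; J n b | J 0 b) ≥ ∑ H(J (i+1) b | T (i+1), J i b)`.
-/

set_option autoImplicit false

namespace Vale.Agent.P127.U.Cell

open Finset Vale.Agent.P127 Vale.Agent.P127.Stk

/-- data of an adapted path -/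
structure Pth (Ω : Type) where
  /-- bits per block -/
  m : ℕ
  /-- digits of `t` at the start -/
  a0 : ℕ
  /-- digits of `v` at the start -/
  r0 : ℕ
  /-- margin -/
  κ : ℕ
  x1 : Ω → ℝ
  x2 : Ω → ℝ
  y1 : Ω → ℝ
  y2 : Ω → ℝ
  t : Ω → ℝ
  v : Ω → ℝ
  /-- the policy -/
  pol : ℝ × ℝ × ℝ × ℝ → List Bool → ℤ → ℤ → Bool

namespace Pth

variable {Ω : Type} (C : Pth Ω)

/-- the line -/
def ln (ω : Ω) : ℝ × ℝ × ℝ × ℝ := (C.x1 ω, C.x2 ω, C.y1 ω, C.y2 ω)

/-- number of digits of `t` after the history `h` -/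
def ac (h : List Bool) : ℕ := C.a0 + C.m * h.count true

/-- number of digits of `v` after the history `h` -/
def rc (h : List Bool) : ℕ := C.r0 + C.m * h.count false

/-- the history of the path after `i` steps -/
noncomputable def hist : ℕ → Ω → List Bool
  | 0, _ => []
  | i + 1, ω => C.pol (C.ln ω) (hist i ω) (fl1 (C.ac (hist i ω)) (C.t ω))
      (fl1 (C.rc (hist i ω)) (C.v ω)) :: hist i ω

/-- number of digits of `t` known after `i` steps -/
noncomputable def a (i : ℕ) (ω : Ω) : ℕ := C.ac (C.hist i ω)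

/-- number of digits of `v` known after `i` steps -/
noncomputable def r (i : ℕ) (ω : Ω) : ℕ := C.rc (C.hist i ω)

/-- the information of the path after `i` steps -/
noncomputable def T (i : ℕ) (ω : Ω) : List Bool × ℤ × ℤ :=
  (C.hist i ω, fl1 (C.a i ω) (C.t ω), fl1 (C.r i ω) (C.v ω))

/-- the decision at step `i` : `true` for an a-step -/
noncomputable def dec (i : ℕ) (ω : Ω) : Bool :=
  C.pol (C.ln ω) (C.hist i ω) (fl1 (C.a i ω) (C.t ω)) (fl1 (C.r i ω) (C.v ω))

/-- the rounded time after `i` steps -/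
noncomputable def ta (i : ℕ) (ω : Ω) : ℝ := (fl1 (C.a i ω) (C.t ω) : ℝ) / 2 ^ C.a i ω

/-- the rounded slope after `i` steps -/
noncomputable def vr (i : ℕ) (ω : Ω) : ℝ := (fl1 (C.r i ω) (C.v ω) : ℝ) / 2 ^ C.r i ω

/-- the normal component of the direction, frame of `T i` -/
noncomputable def yN (i : ℕ) (ω : Ω) : ℝ := C.y2 ω - C.vr i ω * C.y1 ω

/-- first coordinate of the position at the time of `T i` -/
noncomputable def X1 (i : ℕ) (ω : Ω) : ℝ := C.x1 ω + C.ta i ω * C.y1 ω

/-- second coordinate of the position at the time of `T i` -/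
noncomputable def X2 (i : ℕ) (ω : Ω) : ℝ := C.x2 ω + C.ta i ω * C.y2 ω

/-- normal coordinate of the position at the time and in the frame of `T i` -/
noncomputable def F (i : ℕ) (ω : Ω) : ℝ := C.X2 i ω - C.vr i ω * C.X1 i ω

/-- the cell at `(i, b)` without join -/
noncomputable def base (i b : ℕ) (ω : Ω) : (List Bool × ℤ × ℤ) × ℤ × ℤ × ℤ × ℤ :=
  (C.T i ω, fl1 b (C.y1 ω), fl1 (b + C.r i ω - C.κ) (C.yN i ω), fl1 (C.a i ω + b - C.κ) (C.X1 i ω),
    fl1 (C.a i ω + C.r i ω + b - 2 * C.κ) (C.F i ω))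

/-- the cell at `(i, b)` : join of the `base i' b`, `i' ≤ i` -/
noncomputable def J (i b : ℕ) (ω : Ω) : ℕ → Option ((List Bool × ℤ × ℤ) × ℤ × ℤ × ℤ × ℤ) :=
  fun i' => if i' ≤ i then some (C.base i' b ω) else none

lemma hist_succ (i : ℕ) (ω : Ω) : C.hist (i + 1) ω = C.dec i ω :: C.hist i ω := rfl

lemma length_hist (i : ℕ) (ω : Ω) : (C.hist i ω).length = i := by
  induction i with
  | zero => rfl
  | succ i ih => rw [hist_succ, List.length_cons, ih]

lemma a_zero (ω : Ω) : C.a 0 ω = C.a0 := by simp [a, ac, hist]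

lemma r_zero (ω : Ω) : C.r 0 ω = C.r0 := by simp [r, rc, hist]

lemma a_succ (i : ℕ) (ω : Ω) : C.a (i + 1) ω = C.a i ω + if C.dec i ω then C.m else 0 := by
  unfold a ac
  rw [hist_succ, List.count_cons]
  cases C.dec i ω <;> simp [Nat.mul_add, Nat.add_assoc]

lemma r_succ (i : ℕ) (ω : Ω) : C.r (i + 1) ω = C.r i ω + if C.dec i ω then 0 else C.m := by
  unfold r rc
  rw [hist_succ, List.count_cons]
  cases C.dec i ω <;> simp [Nat.mul_add, Nat.add_assoc]

lemma a_add_r (i : ℕ) (ω : Ω) : C.a i ω + C.r i ω = C.a0 + C.r0 + C.m * i := by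
  induction i with
  | zero => rw [a_zero, r_zero]; ring
  | succ i ih =>
    rw [a_succ, r_succ]
    cases C.dec i ω <;> simp only [if_true, if_false, Bool.false_eq_true] <;> nlinarith

lemma a_mono (ω : Ω) {i j : ℕ} (h : i ≤ j) : C.a i ω ≤ C.a j ω := by
  induction h with
  | refl => exact le_rfl
  | step _ ih => exact ih.trans (by rw [Nat.succ_eq_add_one, a_succ]; exact Nat.le_add_right _ _)

lemma r_mono (ω : Ω) {i j : ℕ} (h : i ≤ j) : C.r i ω ≤ C.r j ω := by
  induction h with
  | refl => exact le_rfl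
  | step _ ih => exact ih.trans (by rw [Nat.succ_eq_add_one, r_succ]; exact Nat.le_add_right _ _)

/-- coarser digits are a function of finer digits -/
lemma fl1_of_fl1 {s s' : ℕ} (h : s ≤ s') {x y : ℝ} (e : fl1 s' x = fl1 s' y) :
    fl1 s x = fl1 s y := by
  unfold fl1 at *
  rw [floor_pow_aux h, floor_pow_aux h y, e]

variable {C}

lemma T_pred {i : ℕ} {ω ω' : Ω} (h : C.T (i + 1) ω = C.T (i + 1) ω') : C.T i ω = C.T i ω' := by
  unfold T at h
  simp only [Prod.mk.injEq] at h
  obtain ⟨h1, h2, h3⟩ := h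
  have ha : C.a (i + 1) ω = C.a (i + 1) ω' := by unfold a; rw [h1]
  have hr : C.r (i + 1) ω = C.r (i + 1) ω' := by unfold r; rw [h1]
  rw [hist_succ, hist_succ] at h1
  have h4 : C.hist i ω = C.hist i ω' := (List.cons.inj h1).2
  have ha' : C.a i ω = C.a i ω' := by unfold a; rw [h4]
  have hr' : C.r i ω = C.r i ω' := by unfold r; rw [h4]
  unfold T
  refine Prod.ext h4 (Prod.ext ?_ ?_)
  · rw [← ha] at h2
    rw [← ha']
    exact fl1_of_fl1 (C.a_mono ω (Nat.le_succ i)) h2
  · rw [← hr] at h3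
    rw [← hr']
    exact fl1_of_fl1 (C.r_mono ω (Nat.le_succ i)) h3

/-- the information of the path is increasing -/
lemma T_mono {i j : ℕ} (hij : i ≤ j) {ω ω' : Ω} (h : C.T j ω = C.T j ω') : C.T i ω = C.T i ω' := by
  induction hij with
  | refl => exact h
  | step _ ih => exact ih (T_pred h)

lemma T_a {i : ℕ} {ω ω' : Ω} (h : C.T i ω = C.T i ω') : C.a i ω = C.a i ω' := by
  unfold T at h
  simp only [Prod.mk.injEq] at h
  unfold a
  rw [h.1]

lemma T_r {i : ℕ} {ω ω' : Ω} (h : C.T i ω = C.T i ω') : C.r i ω = C.r i ω' := by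
  unfold T at h
  simp only [Prod.mk.injEq] at h
  unfold r
  rw [h.1]

lemma T_ta {i : ℕ} {ω ω' : Ω} (h : C.T i ω = C.T i ω') : C.ta i ω = C.ta i ω' := by
  have h1 := T_a h
  unfold T at h
  simp only [Prod.mk.injEq] at h
  unfold ta
  rw [h.2.1, h1]

lemma T_vr {i : ℕ} {ω ω' : Ω} (h : C.T i ω = C.T i ω') : C.vr i ω = C.vr i ω' := by
  have h1 := T_r h
  unfold T at h
  simp only [Prod.mk.injEq] at h
  unfold vr
  rw [h.2.2, h1]

lemma T_dec {i : ℕ} {ω ω' : Ω} (hl : C.ln ω = C.ln ω') (h : C.T i ω = C.T i ω') :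
    C.dec i ω = C.dec i ω' := by
  unfold T at h
  simp only [Prod.mk.injEq] at h
  unfold dec
  rw [hl, h.1, h.2.1, h.2.2]

/-- `base i b` is a function of the line and `T i` -/
lemma base_congr {i b : ℕ} {ω ω' : Ω} (hl : C.ln ω = C.ln ω') (h : C.T i ω = C.T i ω') :
    C.base i b ω = C.base i b ω' := by
  unfold ln at hl
  simp only [Prod.mk.injEq] at hl
  unfold base F yN X1 X2
  rw [h, T_a h, T_r h, T_ta h, T_vr h, hl.1, hl.2.1, hl.2.2.1, hl.2.2.2]

lemma base_T {i b : ℕ} {ω ω' : Ω} (h : C.base i b ω = C.base i b ω') : C.T i ω = C.T i ω' :=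
  congrArg Prod.fst h

/-- `base i b` is nested in `b` -/
lemma base_mono {i b b' : ℕ} (hb : b' ≤ b) {ω ω' : Ω} (h : C.base i b ω = C.base i b ω') :
    C.base i b' ω = C.base i b' ω' := by
  have hT := base_T h
  unfold base at *
  simp only [Prod.mk.injEq] at h
  obtain ⟨-, h1, h2, h3, h4⟩ := h
  have ha := T_a hT
  have hr := T_r hT
  rw [← hr] at h2
  rw [← ha] at h3
  rw [← ha, ← hr] at h4
  refine Prod.ext hT (Prod.ext ?_ (Prod.ext ?_ (Prod.ext ?_ ?_)))
  · exact fl1_of_fl1 hb h1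
  · show fl1 _ _ = fl1 _ _
    rw [← hr]
    exact fl1_of_fl1 (by omega) h2
  · show fl1 _ _ = fl1 _ _
    rw [← ha]
    exact fl1_of_fl1 (by omega) h3
  · show fl1 _ _ = fl1 _ _
    rw [← ha, ← hr]
    exact fl1_of_fl1 (by omega) h4

lemma J_iff {i b : ℕ} {ω ω' : Ω} :
    C.J i b ω = C.J i b ω' ↔ ∀ i' ≤ i, C.base i' b ω = C.base i' b ω' := by
  constructor
  · intro h i' hi'
    have := congrFun h i'
    unfold J at this
    rw [if_pos hi', if_pos hi'] at this
    exact Option.some.inj this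
  · intro h
    funext i'
    unfold J
    split_ifs with hi'
    · rw [h i' hi']
    · rfl

/-- the cells are exactly nested -/
lemma J_mono {i i' b b' : ℕ} (hi : i' ≤ i) (hb : b' ≤ b) {ω ω' : Ω}
    (h : C.J i b ω = C.J i b ω') : C.J i' b' ω = C.J i' b' ω' :=
  J_iff.2 fun k hk => base_mono hb (J_iff.1 h k (hk.trans hi))

lemma J_T {i b : ℕ} {ω ω' : Ω} (h : C.J i b ω = C.J i b ω') : C.T i ω = C.T i ω' :=
  base_T (J_iff.1 h i le_rfl)

/-- the cell is a function of the line and of `T i` -/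
lemma J_congr {i b : ℕ} {ω ω' : Ω} (hl : C.ln ω = C.ln ω') (h : C.T i ω = C.T i ω') :
    C.J i b ω = C.J i b ω' :=
  J_iff.2 fun _ hk => base_congr hl (T_mono hk h)

end Pth

/-! ### telescoping sums for nested sequences -/

section tele

variable {Ω : Type} [Fintype Ω] (P : Law Ω) {S S' : Type*}

lemma mi_nested (U : Ω → S') {D D' : Ω → S} (h : Fn P D D') :
    mi P U D' D = hc P U D - hc P U D' := by
  unfold mi
  rw [hc_congr P (X := U) (X' := U) (Y := fun ω => (D' ω, D ω)) (Y' := D')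
    (fun ω ω' _ _ e => congrArg Prod.fst e) (fun ω ω' _ _ e => congrArg Prod.fst e)
    (fun ω ω' p p' e => Prod.ext e (h ω ω' p p' e))
    (fun ω ω' _ _ e => congrArg Prod.fst e)]

lemma sum_tele (g : ℕ → ℝ) (n M : ℕ) :
    ∑ i ∈ range n, (g i - g (i + M)) = ∑ j ∈ range M, (g j - g (n + j)) := by
  induction n with
  | zero => simp
  | succ n ih =>
    rw [Finset.sum_range_succ, ih]
    have h1 := Finset.sum_range_succ (fun j => g (n + j)) M
    have h2 := Finset.sum_range_succ' (fun j => g (n + j)) M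
    have h3 : ∑ j ∈ range M, g (n + 1 + j) = ∑ j ∈ range M, g (n + (j + 1)) :=
      Finset.sum_congr rfl fun j _ => by rw [Nat.add_right_comm, Nat.add_assoc]
    rw [Finset.sum_sub_distrib, Finset.sum_sub_distrib, h3]
    simp only [Nat.add_zero] at h2
    linarith

/-- **telescoping** for a nested sequence : `∑_(i<n) I(U ; D (i+M) | D i) ≤ M H(U | D 0)` -/
theorem tele (D : ℕ → Ω → S) (hD : ∀ i j, i ≤ j → Fn P (D i) (D j)) (U : Ω → S') (n M : ℕ) :
    ∑ i ∈ range n, mi P U (D (i + M)) (D i) ≤ M * hc P U (D 0) := by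
  have h1 : ∑ i ∈ range n, mi P U (D (i + M)) (D i) =
      ∑ i ∈ range n, (hc P U (D i) - hc P U (D (i + M))) :=
    Finset.sum_congr rfl fun i _ => mi_nested P U (hD i (i + M) (Nat.le_add_right _ _))
  rw [h1, sum_tele (fun i => hc P U (D i))]
  have h2 : ∀ j ∈ range M, hc P U (D j) - hc P U (D (n + j)) ≤ hc P U (D 0) := by
    intro j _
    have h3 := hc_nonneg P U (D (n + j))
    have h4 := hc_mono_right P U (hD 0 j (Nat.zero_le _))
    linarith
  refine (Finset.sum_le_sum h2).trans ?_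
  rw [Finset.sum_const, card_range, nsmul_eq_mul]

end tele

namespace Pth

variable {Ω : Type} [Fintype Ω] (P : Law Ω) (C : Pth Ω) {S : Type*}

/-- **F1** : the digits of `U` (a block of `y1`) are nearly independent of the future cells -/
theorem f1 (U : Ω → S) (b n M : ℕ) :
    ∑ i ∈ range n, mi P U (C.J (i + M) b) (C.J i b) ≤ M * P.H U :=
  (tele P (fun i => C.J i b) (fun _ _ h ω ω' _ _ e => J_mono h le_rfl e) U n M).trans
    (mul_le_mul_of_nonneg_left (hc_le_H P _ _) (Nat.cast_nonneg _))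

/-- **F2** : the future of the path is nearly independent of further digits of the line -/
theorem f2 (Θ : Ω → S) (i b0 w n B : ℕ) :
    ∑ k ∈ range n, mi P Θ (C.J i (b0 + (k + B) * w)) (C.J i (b0 + k * w)) ≤
      B * hc P Θ (C.T i) := by
  have h := tele P (fun k => C.J i (b0 + k * w)) (fun k k' h ω ω' _ _ e =>
    J_mono le_rfl (Nat.add_le_add_left (Nat.mul_le_mul_right _ h) _) e) Θ n B
  refine h.trans (mul_le_mul_of_nonneg_left ?_ (Nat.cast_nonneg _))
  exact hc_mono_right P Θ fun ω ω' _ _ e => J_T e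

/-- one window of the chain : the path digits cancel -/
theorem window (i k b : ℕ) :
    hc P (C.J (i + k) b) (fun ω => (C.T (i + k) ω, C.J i b ω)) ≤
      mi P C.ln (C.J (i + k) b) (C.J i b) := by
  rw [mi_symm]
  unfold mi
  have h1 : hc P (C.J (i + k) b) (fun ω => (C.ln ω, C.J i b ω)) ≤
      hc P (C.T (i + k)) (fun ω => (C.ln ω, C.J i b ω)) := by
    refine hc_mono_left P ?_
    intro ω ω' _ _ e
    simp only [Prod.mk.injEq] at e
    exact J_congr e.2.1 e.1
  have h2 : hc P (C.T (i + k)) (fun ω => (C.ln ω, C.J i b ω)) ≤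
      hc P (C.T (i + k)) (C.J i b) :=
    hc_mono_right P _ fun ω ω' _ _ e => congrArg Prod.snd e
  have h3 : hc P (C.J (i + k) b) (C.J i b) =
      hc P (C.T (i + k)) (C.J i b) +
        hc P (C.J (i + k) b) (fun ω => (C.T (i + k) ω, C.J i b ω)) := by
    rw [← hc_pair P (C.T (i + k)) (C.J (i + k) b) (C.J i b)]
    refine hc_congr P ?_ ?_ (fun ω ω' _ _ e => e) (fun ω ω' _ _ e => e)
    · intro ω ω' _ _ e
      simp only [Prod.mk.injEq] at e
      exact e.1.2
    · intro ω ω' _ _ e
      simp only [Prod.mk.injEq] at e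
      exact Prod.ext (J_T e.1) e.1
  linarith

end Pth

end Vale.Agent.P127.U.Cell
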