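import Vale.Agent.P127.U.Defs

/-!
# P127 / U : first list of blocks (helper357). All statements are Props, to be proved in separate files.

All entropies are normalised (`S.hc`, ultralimit of `H / (L log 2)`), all scales are sequences
`n : ℕ → ℕ` with limit `S.nu n`; `sc S s` is the scale `⌊s L⌋`.
-/

set_option autoImplicit false

namespace Vale.Agent.P127.U

open Filter Topology Vale.Agent.P127 Vale.Agent.P127.Stk Sys

namespace Sys

variable {S : Sys} {γ δ : Type}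

/-- the scale `⌊s L⌋` -/
noncomputable def sc (S : Sys) (s : ℝ) : ℕ → ℕ := fun i => ⌊s * S.L i⌋₊

/-- the random point `(t, x + t y)` of the random line -/
noncomputable def pt (l : S.RV Ln) (t : S.RV ℝ) : S.RV Pt := fun i ω => (t i ω, pos (l i ω) (t i ω))

/-- direction of the line -/
def dir (l : S.RV Ln) : S.RV (Fin 2 → ℝ) := fun i ω => (l i ω).2

/-- `t ∈ [0,1]` -/
def T01 (t : S.RV ℝ) : Prop := S.Ae fun i ω => 0 ≤ t i ω ∧ t i ω ≤ 1

/-- time deficit `D(n) = n - h(t_n | l)` -/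
noncomputable def Df (l : S.RV Ln) (t : S.RV ℝ) (n : ℕ → ℕ) : ℝ := S.nu n - S.hc (dg n t) (tbs S.L l)

/-- the line seen in the ball of radius `2^-s` around the point of time `t` : the cell of time is
`t_s = qa s t`, the position at the time `t_s` is blown up by `2^s` -/
noncomputable def bl (s : ℕ → ℕ) (l : S.RV Ln) (t : S.RV ℝ) : S.RV Ln := fun i ω =>
  (fun j => Int.fract ((2 : ℝ) ^ s i * pos (l i ω) (qa (s i) (t i ω)) j), (l i ω).2)

/-- the tubelet of length `2^-s` and precision `n` (absolute) around the point of time `t` -/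
noncomputable def tl (s n : ℕ → ℕ) (l : S.RV Ln) (t : S.RV ℝ) :
    S.RV (ℤ × (Fin 2 → ℤ) × (Fin 2 → ℤ)) := fun i ω =>
  (fl1 (s i) (t i ω), fl (n i) (pos (l i ω) (qa (s i) (t i ω))), fl (n i - s i) (l i ω).2)

/-- the slab of direction `θ` and thickness `2^-n` which contains `l` -/
def slab (n : ℕ → ℕ) (θ : S.RV ℝ) (l : S.RV Ln) : S.BX := fun i =>
  ⟨l i, θ i, fun _ => 0, fun _ => n i⟩

end Sys

/-! ### EXC : excess -/

/-- the excess is attained on an extension by a box `W` whose label is independent of every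
variable of `S` given `(B, C)` -/
def PExcAtt : Prop :=
  ∀ (S : Sys) (γ : Type) (C : S.RV γ) (B : S.BX), BxA B →
    ∃ (S' : Sys) (e : Ext S' S) (W : S'.BX), BxA W ∧ SubA (e.pullB B) W ∧
      S'.val (e.pullB B) W (e.pull C) = S.exc B C ∧
      ∀ (δ : Type) (R : S.RV δ),
        S'.hc W.lab (Sys.pr (e.pull R) (Sys.pr (e.pullB B).lab (e.pull C))) =
          S'.hc W.lab (Sys.pr (e.pullB B).lab (e.pull C))

/-- every box gives a lower bound for the excess -/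
def PExcLe : Prop :=
  ∀ (S S' : Sys) (e : Ext S' S) (γ : Type) (C : S.RV γ) (B : S.BX) (W : S'.BX),
    BxA B → BxA W → SubA (e.pullB B) W →
    S'.val (e.pullB B) W (e.pull C) ≤ S.exc B C

/-- the excess does not change on an extension -/
def PExcExt : Prop :=
  ∀ (S S' : Sys) (e : Ext S' S) (γ : Type) (C : S.RV γ) (B : S.BX), BxA B →
    S'.exc (e.pullB B) (e.pull C) = S.exc B C

/-- more conditions, less excess -/
def PExcCond : Prop :=
  ∀ (S : Sys) (γ δ : Type) (C : S.RV γ) (C' : S.RV δ) (B : S.BX), BxA B →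
    S.exc B (Sys.pr C' C) ≤ S.exc B C

/-- equivalent conditions -/
def PExcCongr : Prop :=
  ∀ (S : Sys) (γ δ : Type) (C : S.RV γ) (C' : S.RV δ) (B : S.BX), BxA B → Tame C → Tame C' →
    S.hc C C' = 0 → S.hc C' C = 0 → S.exc B C = S.exc B C'

/-- excess of a coarser box `U`; the last term is the softness of the label `U` -/
def PExcCoarse : Prop :=
  ∀ (S : Sys) (γ : Type) (C : S.RV γ) (B U : S.BX), BxA B → BxA U → SubA B U →
    S.exc U C ≤ S.exc B C + S.av (fun i ω => B.sz i ω - U.sz i ω) - S.hc B.lab (Sys.pr U.lab C) +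
      S.hc U.lab (Sys.pr B.lab C)

/-- the excess is nonnegative -/
def PExcNonneg : Prop :=
  ∀ (S : Sys) (γ : Type) (C : S.RV γ) (B : S.BX), BxA B → 0 ≤ S.exc B C

/-! ### MIX : conditioning on events of positive probability, domination -/

/-- `S'` is dominated by `S` : the law of `π` is at most `K` times the law of `S` -/
structure Dmn (S' S : Sys) where
  π : ∀ i, S'.Ω i → S.Ω i
  L_eq : S'.L = S.L
  K : ℝ
  dom : ∀ᶠ i in (uf : Filter ℕ), ∀ ω, (S'.P i).pr (π i) ω ≤ K * (S.P i).w ω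

/-- pull back of a variable -/
def Dmn.pull {S' S : Sys} {α : Type*} (d : Dmn S' S) (X : S.RV α) : S'.RV α :=
  fun i ω => X i (d.π i ω)

/-- pull back of a box -/
def Dmn.pullB {S' S : Sys} (d : Dmn S' S) (B : S.BX) : S'.BX := fun i => (B i).comp (d.π i)

/-- decomposition of `S` into a dominated part and the rest -/
def PMix : Prop :=
  ∀ (S S' : Sys) (d : Dmn S' S), ∃ (S'' : Sys) (d' : Dmn S'' S) (p : ℝ), 0 < p ∧ p < 1 ∧
    (∀ (α β : Type) (X : S.RV α) (Y : S.RV β), Tame X →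
      S.hc X Y = p * S'.hc (d.pull X) (d.pull Y) + (1 - p) * S''.hc (d'.pull X) (d'.pull Y)) ∧
    (∀ (γ : Type) (C : S.RV γ) (B : S.BX), BxA B →
      S.exc B C = p * S'.exc (d.pullB B) (d.pull C) + (1 - p) * S''.exc (d'.pullB B) (d'.pull C))

/-! ### EXIST : the best constant and extremal systems -/

/-- extremal system for the price `N` and the rate `β` (precision `L`) -/
structure Xtr (N β : ℝ) (S : Sys) (l : S.RV Ln) (t : S.RV ℝ) : Prop where
  ln : LnA l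
  t01 : T01 t
  eq : S.hc (tbs S.L l) (pqs S.L (pt l t)) =
    β + S.exc (tubes S.L l) (one (S := S)) + N * Df l t S.L

/-- the finite inequality implies the conditional inequality for systems -/
def PJS : Prop := ∀ N β : ℝ, 0 ≤ N → 0 ≤ β → JF N β → JS N β

/-- best constant and extremal system -/
def PExist : Prop := ∀ N : ℝ, 0 ≤ N → ∃ β : ℝ, 0 ≤ β ∧ β ≤ 2 ∧ JF N β ∧
  (0 < β → ∃ (S : Sys) (l : S.RV Ln) (t : S.RV ℝ), Xtr N β S l t)

/-- best constant for full time -/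
def PExistU : Prop := ∃ β : ℝ, 0 ≤ β ∧ β ≤ 2 ∧ JU β ∧
  (0 < β → ∃ (S : Sys) (l : S.RV Ln) (t : S.RV ℝ), Xtr 0 β S l t ∧ Df l t S.L = 0)

/-- extremal systems form a face -/
def PFace : Prop := ∀ N β : ℝ, JS N β → ∀ (S S' : Sys) (d : Dmn S' S) (l : S.RV Ln) (t : S.RV ℝ),
  Xtr N β S l t → Xtr N β S' (d.pull l) (d.pull t)

/-! ### LOC : localisations -/

/-- inside the tube of `l` of precision `s` -/
def PLocTube : Prop := ∀ N β : ℝ, 0 ≤ N → JS N β →
  ∀ (S : Sys) (γ : Type) (C : S.RV γ) (l : S.RV Ln) (t : S.RV ℝ) (n s : ℕ → ℕ),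
    S.Bd n → LnA l → T01 t → (∀ i, s i ≤ n i) →
    S.hc (tbs n l) (Sys.pr (pqs n (pt l t)) (Sys.pr (tbs s l) C)) ≤
      β * (S.nu n - S.nu s) + S.exc (tubes n l) (Sys.pr (tbs s l) C) +
        N * (S.nu n - S.nu s - S.hc (dg (fun i => n i - s i) t) (Sys.pr (tbs n l) C))

/-- inside the ball of radius `2^-s` around the point of time `t` : the tubelets -/
def PLocBall : Prop := ∀ N β : ℝ, 0 ≤ N → JS N β →
  ∀ (S : Sys) (γ : Type) (C : S.RV γ) (l : S.RV Ln) (t : S.RV ℝ) (n s : ℕ → ℕ),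
    S.Bd n → LnA l → T01 t → (∀ i, s i ≤ n i) →
    S.hc (dgv (fun i => n i - s i) (dir l)) (Sys.pr (pqs n (pt l t)) C) ≤
      β * (S.nu n - S.nu s) +
        S.exc (tubes (fun i => n i - s i) (bl s l t)) (Sys.pr (pqs s (pt l t)) C) +
        N * (S.nu n - S.nu s - S.hc (dg n t) (Sys.pr (tl s n l t) C))

/-! ### C1, C2 : Cordoba arguments -/

/-- C1 (planar, any shading, price `1`) : the lines lie in a slab `W` of thickness `2^-n` which is a
function of the line and of the point -/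
def PC1 : Prop :=
  ∀ (S : Sys) (γ : Type) (C : S.RV γ) (l : S.RV Ln) (t : S.RV ℝ) (θ : S.RV ℝ) (n : ℕ → ℕ),
    S.Bd n → LnA l → T01 t → BxA (slab n θ l) →
    S.hc (slab n θ l).lab (Sys.pr (pqs n (pt l t)) C) = 0 →
    S.hc (slab n θ l).lab (Sys.pr (tbs n l) C) = 0 →
    S.hc (tbs n l) (Sys.pr (pqs n (pt l t)) C) ≤
      S.exc (tubes n l) C + (S.nu n - S.hc (dg n t) (Sys.pr (tbs n l) C))

/-- C2 : slabs which are full in themselves -/
def PC2 : Prop :=
  ∀ (S : Sys) (γ : Type) (C : S.RV γ) (B : S.BX) (q : S.RV Pt) (k j : ℕ → ℕ),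
    BxA B → Shape B k j → (∀ i, k i = 0) → S.Bd j → InA B q → FullIn B k j q C →
    S.hc B.lab (Sys.pr (pqs j q) C) ≤ S.exc B C

/-- PL : planks which are full in themselves, `h(B | q_j) ≤ β k + Exc(B)` -/
def PPL : Prop := ∀ β : ℝ, 0 ≤ β → JU β →
  ∀ (S : Sys) (γ : Type) (C : S.RV γ) (B : S.BX) (q : S.RV Pt) (k j : ℕ → ℕ),
    BxA B → Shape B k j → S.Bd j → InA B q → FullIn B k j q C →
    S.hc B.lab (Sys.pr (pqs j q) C) ≤ β * S.nu k + S.exc B C

/-- IN : full tubes inside boxes `W` of shape `(k, j)` -/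
def PIn : Prop := ∀ β : ℝ, 0 ≤ β → JU β →
  ∀ (S : Sys) (γ : Type) (C : S.RV γ) (l : S.RV Ln) (t : S.RV ℝ) (W : S.BX) (n k j : ℕ → ℕ),
    S.Bd n → LnA l → T01 t → BxA W → SubA (tubes n l) W → Shape W k j → (∀ i, j i ≤ n i) →
    S.hc (dg n t) (Sys.pr (tbs n l) (Sys.pr W.lab C)) = S.nu n →
    S.hc (tbs n l) (Sys.pr (pqs n (pt l t)) (Sys.pr W.lab C)) ≤
      β * (S.nu n - S.nu j) + S.exc (tubes n l) (Sys.pr W.lab C)

/-! ### E1 : the three basic inequalities for extremal systems -/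

/-- tube inequality -/
def PTube : Prop := ∀ N β : ℝ, 0 ≤ N → JS N β → ∀ (S : Sys) (l : S.RV Ln) (t : S.RV ℝ),
  Xtr N β S l t → ∀ b : ℝ, 0 ≤ b → b ≤ 1 →
    β * b + N * (Df l t S.L - Df l t (S.sc (1 - b))) ≤
      S.hc (dgv (S.sc b) (dir l)) (pqs S.L (pt l t))

/-- coarse inequality -/
def PCoarse : Prop := ∀ N β : ℝ, 0 ≤ N → JS N β → ∀ (S : Sys) (l : S.RV Ln) (t : S.RV ℝ),
  Xtr N β S l t → ∀ c : ℝ, 0 ≤ c → c ≤ 1 →
    S.hc (pqs S.L (pt l t)) (pqs (S.sc c) (pt l t)) ≤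
      (3 - β) * (1 - c) - (N + 1) * (Df l t S.L - Df l t (S.sc c))

/-- fill-in inequality -/
def PFill : Prop := ∀ N β : ℝ, 0 ≤ N → JS N β → ∀ (S : Sys) (l : S.RV Ln) (t : S.RV ℝ),
  Xtr N β S l t → ∀ s : ℝ, 0 ≤ s → s ≤ 1 →
    S.exc (tubes (fun i => S.L i - S.sc s i) (bl (S.sc s) l t)) (pqs (S.sc s) (pt l t)) +
      N * (Df l t S.L - Df l t (S.sc s)) ≤
      S.hc (dgv (fun i => S.L i - S.sc s i) (dir l)) (pqs S.L (pt l t))

/-- total number of points -/
def PTotal : Prop := ∀ N β : ℝ, 0 ≤ N → JS N β → ∀ (S : Sys) (l : S.RV Ln) (t : S.RV ℝ),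
  Xtr N β S l t → S.h (pqs S.L (pt l t)) ≤ 3 - β - (N + 1) * Df l t S.L

/-! ### PLANE, FLAT -/

/-- the lines through a ball of radius `2^-(1-r) L` lie in parallel planes at precision `r` -/
def PPlane : Prop := ∀ N β : ℝ, 2 ≤ N → 0 < β → JS N β → ∀ (S : Sys) (l : S.RV Ln) (t : S.RV ℝ),
  Xtr N β S l t → ∃ r₀ : ℝ, 0 < r₀ ∧ r₀ < 1 ∧ ∀ r : ℝ, 0 < r → r ≤ r₀ →
    ∃ θ : S.RV ℝ, (S.Ae fun i ω => |θ i ω| ≤ 4) ∧
      S.hc (fun i ω => (fl1 (S.sc r i) (θ i ω),
        fl1 (S.sc r i) (co (qa (S.sc r i) (θ i ω)) (dir l i ω) 1)))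
        (pqs (S.sc (1 - r)) (pt l t)) = 0

/-- the time is full on the last levels -/
def PFlat : Prop := ∀ N β : ℝ, 2 ≤ N → 0 < β → JS N β → ∀ (S : Sys) (l : S.RV Ln) (t : S.RV ℝ),
  Xtr N β S l t → ∃ r₀ : ℝ, 0 < r₀ ∧ r₀ < 1 ∧ ∀ r : ℝ, 0 ≤ r → r ≤ r₀ →
    Df l t (S.sc (1 - r)) = Df l t S.L

end Vale.Agent.P127.U
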