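import Vale.Agent.P127.U.BasicA

/-!
# P127 / U : block JS (helper122)

The finite inequality `JF` implies the conditional inequality `JS` for systems.
-/

set_option autoImplicit false

namespace Vale.Agent.P127.U

open Filter Topology Vale.Agent.P127 Vale.Agent.P127.Stk Sys

namespace JSB

section fin

variable {Ω : Type} [Fintype Ω] {A T V : Type*}

/-- conditional entropy is the average over the values of the condition -/
theorem hc_cond_sum (P : Law Ω) (X : Ω → A) (Y : Ω → T) (Z : Ω → V) :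
    Stk.hc P X (fun ω => (Y ω, Z ω)) = ∑ z ∈ img Z, P.pr Z z * Stk.hc (P.cond Z z) X Y := by
  have h1 := P.H_cond_eq (fun ω => (X ω, Y ω)) Z
  have h2 := P.H_cond_eq Y Z
  have h3 : P.H (fun ω => (X ω, (Y ω, Z ω))) = P.H (fun ω => ((X ω, Y ω), Z ω)) :=
    P.H_congr fun ω ω' => by
      simp only [Prod.mk.injEq]
      tauto
  have h4 : ∑ z ∈ img Z, P.pr Z z * Stk.hc (P.cond Z z) X Y =
      ∑ z ∈ img Z, P.pr Z z * (P.cond Z z).H (fun ω => (X ω, Y ω)) -
        ∑ z ∈ img Z, P.pr Z z * (P.cond Z z).H Y := by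
    rw [← Finset.sum_sub_distrib]
    refine Finset.sum_congr rfl fun z _ => ?_
    unfold Stk.hc
    ring
  rw [h4, ← h1, ← h2]
  unfold Stk.hc
  rw [h3]
  ring

theorem cond_avg (P : Law Ω) (C : Ω → V) (ω : Ω) :
    ∑ z ∈ img C, P.pr C z * (P.cond C z).w ω = P.w ω := by
  classical
  rw [Finset.sum_eq_single (C ω)]
  · rcases (P.pr_nonneg C (C ω)).eq_or_lt with h0 | h0
    · have h1 := P.w_le_pr C ω
      rw [← h0] at h1
      rw [← h0, zero_mul, le_antisymm h1 (P.nn ω)]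
    · rw [P.cond_w C (C ω) h0, if_pos rfl]
      field_simp
  · intro z _ hz
    rcases (P.pr_nonneg C z).eq_or_lt with h0 | h0
    · rw [← h0, zero_mul]
    · rw [P.cond_w C z h0, if_neg (Ne.symm hz), mul_zero]
  · intro hn
    exact absurd (mem_img.2 ⟨ω, rfl⟩) hn

theorem cond_supp (P : Law Ω) (C : Ω → V) (z : V) {ω : Ω} (h : 0 < (P.cond C z).w ω) :
    0 < P.w ω := by
  classical
  rcases (P.pr_nonneg C z).eq_or_lt with h0 | h0
  · have h1 : P.cond C z = P := by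
      unfold Law.cond
      rw [dif_neg (by rw [← h0]; exact lt_irrefl 0)]
    rwa [h1] at h
  · rw [P.cond_w C z h0] at h
    split_ifs at h with h2
    · by_contra hcon
      have h3 : P.w ω = 0 := le_antisymm (not_lt.1 hcon) (P.nn ω)
      rw [h3, zero_div] at h
      exact lt_irrefl 0 h
    · exact absurd h (lt_irrefl 0)

theorem cond_supp' (P : Law Ω) (C : Ω → V) (z : V) (hz : 0 < P.pr C z) {ω : Ω}
    (h : 0 < (P.cond C z).w ω) : C ω = z := by
  classical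
  rw [P.cond_w C z hz] at h
  split_ifs at h with h2
  · exact h2
  · exact absurd h (lt_irrefl 0)

/-! ### sums of laws -/

variable {ι : Type} [Fintype ι] {Ω' : ι → Type} [∀ z, Fintype (Ω' z)]

/-- the sum of the laws `Q z` with weights `a z` -/
noncomputable def sumL (a : ι → ℝ) (h0 : ∀ z, 0 ≤ a z) (h1 : ∑ z, a z = 1)
    (Q : ∀ z, Law (Ω' z)) : Law (Σ z, Ω' z) where
  w p := a p.1 * (Q p.1).w p.2
  nn p := mul_nonneg (h0 _) ((Q _).nn _)
  sum_one := by
    rw [Fintype.sum_sigma, ← h1]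
    refine Finset.sum_congr rfl fun z _ => ?_
    show ∑ y, a z * (Q z).w y = a z
    rw [← Finset.mul_sum, (Q z).sum_one, mul_one]

variable {a : ι → ℝ} {h0 : ∀ z, 0 ≤ a z} {h1 : ∑ z, a z = 1} {Q : ∀ z, Law (Ω' z)}

theorem sumL_ex (f : (Σ z, Ω' z) → ℝ) :
    (sumL a h0 h1 Q).ex f = ∑ z, a z * (Q z).ex (fun ω => f ⟨z, ω⟩) := by
  unfold Law.ex sumL
  rw [Fintype.sum_sigma]
  refine Finset.sum_congr rfl fun z _ => ?_
  rw [Finset.mul_sum]
  exact Finset.sum_congr rfl fun ω _ => by ring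

theorem sumL_pr (X : (Σ z, Ω' z) → A) (x : A) :
    (sumL a h0 h1 Q).pr X x = ∑ z, a z * (Q z).pr (fun ω => X ⟨z, ω⟩) x := by
  rw [Law.pr_eq_ex, sumL_ex]
  refine Finset.sum_congr rfl fun z _ => ?_
  rw [Law.pr_eq_ex]

theorem sumL_pr_fst (X : (Σ z, Ω' z) → A) (x : A) (z : ι) :
    (sumL a h0 h1 Q).pr (fun p => (X p, p.1)) (x, z) = a z * (Q z).pr (fun ω => X ⟨z, ω⟩) x := by
  classical
  rw [sumL_pr, Finset.sum_eq_single z]
  · congr 1
    unfold Law.pr
    refine Finset.sum_congr ?_ fun _ _ => rfl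
    ext ω
    simp
  · intro z' _ hz
    have : (Q z').pr (fun ω => (X ⟨z', ω⟩, z')) (x, z) = 0 := by
      unfold Law.pr
      refine Finset.sum_eq_zero fun ω hω => ?_
      have h2 : X ⟨z', ω⟩ = x ∧ z' = z := by simpa using hω
      exact absurd h2.2 hz
    rw [this, mul_zero]
  · intro hn
    exact absurd (Finset.mem_univ _) hn

theorem sumL_H (X : (Σ z, Ω' z) → A) :
    (sumL a h0 h1 Q).H (fun p => (X p, p.1)) =
      ∑ z, a z * (Q z).H (fun ω => X ⟨z, ω⟩) - ∑ z, a z * Real.log (a z) := by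
  unfold Law.H
  rw [sumL_ex, ← Finset.sum_sub_distrib]
  refine Finset.sum_congr rfl fun z _ => ?_
  rcases (h0 z).eq_or_lt with hz | hz
  · rw [← hz]
    ring
  · have e : (Q z).ex (fun ω => -Real.log ((sumL a h0 h1 Q).pr (fun p => (X p, p.1))
        (X ⟨z, ω⟩, z))) =
        (Q z).ex (fun ω => -Real.log ((Q z).pr (fun ω => X ⟨z, ω⟩) (X ⟨z, ω⟩))) -
          Real.log (a z) := by
      have e0 := (Q z).ex_sub
        (fun ω => -Real.log ((Q z).pr (fun ω => X ⟨z, ω⟩) (X ⟨z, ω⟩))) (fun _ => Real.log (a z))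
      rw [(Q z).ex_const] at e0
      rw [← e0]
      refine (Q z).ex_congr fun ω hω => ?_
      rw [sumL_pr_fst, Real.log_mul hz.ne' ((Q z).pr_pos (fun ω => X ⟨z, ω⟩) hω).ne']
      ring
    rw [e]
    ring

theorem sumL_hc (X : (Σ z, Ω' z) → A) (Y : (Σ z, Ω' z) → T) :
    Stk.hc (sumL a h0 h1 Q) X (fun p => (Y p, p.1)) =
      ∑ z, a z * Stk.hc (Q z) (fun ω => X ⟨z, ω⟩) (fun ω => Y ⟨z, ω⟩) := by
  have e : (sumL a h0 h1 Q).H (fun p => (X p, (Y p, p.1))) =
      (sumL a h0 h1 Q).H (fun p => ((X p, Y p), p.1)) :=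
    (sumL a h0 h1 Q).H_congr fun ω ω' => by
      simp only [Prod.mk.injEq]
      tauto
  unfold Stk.hc
  rw [e, sumL_H, sumL_H, sub_sub_sub_cancel_right, ← Finset.sum_sub_distrib]
  exact Finset.sum_congr rfl fun z _ => by ring

/-! ### excess -/

theorem exSet_bdd {γ : Type*} (P : Law Ω) (B : Bx Ω) (C : Ω → γ) {v : ℝ}
    (hv : v ∈ exSet P B C) : v ≤ P.H B.lab := by
  obtain ⟨Ω', _, P', π, W, h1, h2, rfl⟩ := hv
  unfold exV
  have h3 : Stk.hc P' (B.comp π).lab (fun ω => (W.lab ω, C (π ω))) ≤ P'.H (B.comp π).lab :=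
    hc_le_H _ _ _
  have h4 : P'.H (B.comp π).lab = P.H B.lab := H_law_aux P' P π h1 B.lab
  have h5 : 0 ≤ P'.ex fun ω => (B.comp π).sz ω - W.sz ω := by
    refine P'.ex_nonneg fun ω hω => ?_
    obtain ⟨-, -, -, g1, g2, -⟩ := h2 ω hω
    unfold Bx.sz
    have e1 : (W.k ω : ℝ) ≤ (B.comp π).k ω := by exact_mod_cast g1
    have e2 : (W.j ω : ℝ) ≤ (B.comp π).j ω := by exact_mod_cast g2
    linarith
  have h6 : 0 ≤ Real.log 2 := Real.log_nonneg (by norm_num)
  have h7 := mul_nonneg h6 h5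
  linarith

theorem zero_mem {γ : Type*} (P : Law Ω) (B : Bx Ω) (C : Ω → γ)
    (h : ∀ ω, 0 < P.w ω → BxOk B ω) : (0 : ℝ) ∈ exSet P B C := by
  refine ⟨Ω, inferInstance, P, id, B, pr_id P, fun ω hω => ?_, ?_⟩
  · obtain ⟨-, h1, h2⟩ := h ω hω
    refine ⟨rfl, h1, h2, le_rfl, le_rfl, ?_⟩
    show |Real.sin (B.θ ω - B.θ ω)| * (1 / 2 : ℝ) ^ B.k ω ≤ 1 * (1 / 2 : ℝ) ^ B.j ω
    rw [sub_self, Real.sin_zero, abs_zero, zero_mul]
    positivity
  · unfold exV
    have h1 : Stk.hc P (B.comp id).lab (fun ω => (B.lab ω, C (id ω))) = 0 :=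
      hc_zero P fun ω ω' _ _ e => congrArg Prod.fst e
    have h2 : (P.ex fun ω => (B.comp id).sz ω - B.sz ω) = 0 := by
      have : (fun ω => (B.comp id).sz ω - B.sz ω) = fun _ => (0 : ℝ) := by
        funext ω
        exact sub_self _
      rw [this, P.ex_const]
    rw [h1, h2, mul_zero, sub_zero]

theorem near {γ : Type*} (P : Law Ω) (B : Bx Ω) (C : Ω → γ) (h : ∀ ω, 0 < P.w ω → BxOk B ω) :
    ∃ (Ω' : Type) (_ : Fintype Ω') (P' : Law Ω') (π : Ω' → Ω) (W : Bx Ω'),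
      (∀ ω, P'.pr π ω = P.w ω) ∧ (∀ ω, 0 < P'.w ω → Sub 1 (B.comp π) W ω) ∧
      excF P B C - 1 ≤ exV P' (B.comp π) W fun ω => C (π ω) := by
  obtain ⟨v, ⟨Ω', i, P', π, W, h1, h2, rfl⟩, h3⟩ := exists_lt_of_lt_csSup
    (s := exSet P B C) ⟨0, zero_mem P B C h⟩ (sub_one_lt (sSup (exSet P B C)))
  exact ⟨Ω', i, P', π, W, h1, h2, h3.le⟩

/-- the excess given `C` is at least the average of the excesses given the values of `C` -/
theorem excF_cond_sum {γ : Type} (P : Law Ω) (B : Bx Ω) (C : Ω → γ)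
    (h : ∀ ω, 0 < P.w ω → BxOk B ω) :
    ∑ z ∈ img C, P.pr C z * excF (P.cond C z) B (fun _ => ()) ≤ excF P B C + 1 := by
  classical
  have hnear := fun z : {z // z ∈ img C} => near (P.cond C z.1) B (fun _ => ())
    (fun ω hω => h ω (cond_supp P C z.1 hω))
  choose Ω' iF Q π W g1 g2 g3 using hnear
  have a0 : ∀ z : {z // z ∈ img C}, 0 ≤ P.pr C z.1 := fun z => P.pr_nonneg _ _
  have a1 : ∑ z : {z // z ∈ img C}, P.pr C z.1 = 1 := by
    rw [Finset.sum_coe_sort (img C) (fun z => P.pr C z)]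
    exact P.sum_pr_image C
  set M : Law (Σ z, Ω' z) := sumL (fun z : {z // z ∈ img C} => P.pr C z.1) a0 a1 Q with hM
  have hMw : ∀ p : (Σ z, Ω' z), M.w p = P.pr C p.1.1 * (Q p.1).w p.2 := fun p => rfl
  set ρ : (Σ z, Ω' z) → Ω := fun p => π p.1 p.2 with hρ
  set W' : Bx (Σ z, Ω' z) := ⟨fun p => (W p.1).l p.2, fun p => (W p.1).θ p.2,
    fun p => (W p.1).k p.2, fun p => (W p.1).j p.2⟩ with hW'
  have hpos : ∀ p : (Σ z, Ω' z), 0 < M.w p → 0 < P.pr C p.1.1 ∧ 0 < (Q p.1).w p.2 := by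
    intro p hp
    rw [hMw] at hp
    have b1 := P.pr_nonneg C p.1.1
    have b2 := (Q p.1).nn p.2
    constructor
    · rcases b1.eq_or_lt with h2 | h2
      · rw [← h2, zero_mul] at hp
        exact absurd hp (lt_irrefl 0)
      · exact h2
    · rcases b2.eq_or_lt with h2 | h2
      · rw [← h2, mul_zero] at hp
        exact absurd hp (lt_irrefl 0)
      · exact h2
  have hC : ∀ p : (Σ z, Ω' z), 0 < M.w p → C (ρ p) = p.1.1 := by
    intro p hp
    obtain ⟨b1, b2⟩ := hpos p hp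
    refine cond_supp' P C p.1.1 b1 ?_
    rw [← g1 p.1 (ρ p)]
    exact (Q p.1).pr_pos (π p.1) b2
  have hpr : ∀ ω, M.pr ρ ω = P.w ω := by
    intro ω
    rw [hM, sumL_pr]
    have e : ∀ z : {z // z ∈ img C}, (Q z).pr (fun ω' => ρ ⟨z, ω'⟩) ω = (P.cond C z.1).w ω :=
      fun z => g1 z ω
    simp only [e]
    rw [Finset.sum_coe_sort (img C) (fun z => P.pr C z * (P.cond C z).w ω)]
    exact cond_avg P C ω
  have hsub : ∀ p, 0 < M.w p → Sub 1 (B.comp ρ) W' p := fun p hp => g2 p.1 p.2 (hpos p hp).2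
  have hle : exV M (B.comp ρ) W' (fun p => C (ρ p)) ≤ excF P B C :=
    le_csSup ⟨_, fun _ hv => exSet_bdd P B C hv⟩
      ⟨(Σ z, Ω' z), inferInstance, M, ρ, W', hpr, hsub, rfl⟩
  have hge : ∑ z : {z // z ∈ img C}, P.pr C z.1 *
      exV (Q z) (B.comp (π z)) (W z) (fun _ => ()) ≤ exV M (B.comp ρ) W' (fun p => C (ρ p)) := by
    have e1 : Stk.hc M (B.comp ρ).lab (fun p => ((W'.lab p, ()), p.1)) ≤
        Stk.hc M (B.comp ρ).lab (fun p => (W'.lab p, C (ρ p))) := by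
      refine hc_mono_right M _ ?_
      intro p p' hp hp' e
      simp only [Prod.mk.injEq] at e
      show (W'.lab p, C (ρ p)) = (W'.lab p', C (ρ p'))
      rw [hC p hp, hC p' hp', e.1.1, e.2]
    have e2 := sumL_hc (a := fun z : {z // z ∈ img C} => P.pr C z.1) (h0 := a0) (h1 := a1)
      (Q := Q) (B.comp ρ).lab (fun p => (W'.lab p, ()))
    have e3 := sumL_ex (a := fun z : {z // z ∈ img C} => P.pr C z.1) (h0 := a0) (h1 := a1)
      (Q := Q) (fun p => (B.comp ρ).sz p - W'.sz p)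
    rw [← hM] at e2 e3
    rw [e2] at e1
    have e4 : ∑ z : {z // z ∈ img C}, P.pr C z.1 *
        exV (Q z) (B.comp (π z)) (W z) (fun _ => ()) =
        ∑ z : {z // z ∈ img C}, P.pr C z.1 * Stk.hc (Q z) (fun ω => (B.comp ρ).lab ⟨z, ω⟩)
          (fun ω => (W'.lab ⟨z, ω⟩, ())) -
        Real.log 2 * ∑ z : {z // z ∈ img C}, P.pr C z.1 *
          (Q z).ex (fun ω => (B.comp ρ).sz ⟨z, ω⟩ - W'.sz ⟨z, ω⟩) := by
      rw [Finset.mul_sum, ← Finset.sum_sub_distrib]
      refine Finset.sum_congr rfl fun z _ => ?_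
      unfold exV
      have f1 : (B.comp (π z)).lab = fun ω => (B.comp ρ).lab ⟨z, ω⟩ := rfl
      have f2 : (W z).lab = fun ω => W'.lab ⟨z, ω⟩ := rfl
      have f3 : (fun ω => (B.comp (π z)).sz ω - (W z).sz ω) =
        fun ω => (B.comp ρ).sz ⟨z, ω⟩ - W'.sz ⟨z, ω⟩ := rfl
      rw [f1, f2, f3]
      ring
    rw [e4]
    unfold exV
    rw [e3]
    linarith
  have hav : ∑ z ∈ img C, P.pr C z * excF (P.cond C z) B (fun _ => ()) - 1 ≤
      ∑ z : {z // z ∈ img C}, P.pr C z.1 *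
        exV (Q z) (B.comp (π z)) (W z) (fun _ => ()) := by
    have e : ∑ z ∈ img C, P.pr C z * excF (P.cond C z) B (fun _ => ()) - 1 =
        ∑ z : {z // z ∈ img C}, P.pr C z.1 * (excF (P.cond C z.1) B (fun _ => ()) - 1) := by
      simp only [mul_sub, mul_one, Finset.sum_sub_distrib]
      rw [a1, Finset.sum_coe_sort (img C)
        (fun z => P.pr C z * excF (P.cond C z) B (fun _ => ()))]
    rw [e]
    exact Finset.sum_le_sum fun z _ => mul_le_mul_of_nonneg_left (g3 z) (a0 z)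
  linarith

/-- closeness of points -/
theorem hc_pq_close (P : Law Ω) {n : ℕ} (M : ℕ) (q q' : Ω → Pt) (Z : Ω → V)
    (h : ∀ ω, 0 < P.w ω → (q ω).1 = (q' ω).1 ∧
      ∀ i, |(q ω).2 i - (q' ω).2 i| ≤ M * (1 / 2 : ℝ) ^ n) :
    Stk.hc P (fun ω => pq n (q ω)) (fun ω => (pq n (q' ω), Z ω)) ≤ 2 * Real.log (2 * M + 3) := by
  have h1 := hc_fl_close P M (fun ω => (q ω).2) (fun ω => (q' ω).2)
    (fun ω => (fl1 n (q' ω).1, Z ω)) (fun ω hω i => (h ω hω).2 i)
  simp only [Fintype.card_fin, Nat.cast_ofNat] at h1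
  refine le_trans ?_ h1
  have h2 : Stk.hc P (fun ω => pq n (q ω)) (fun ω => (pq n (q' ω), Z ω)) ≤
      Stk.hc P (fun ω => fl n (q ω).2) (fun ω => (pq n (q' ω), Z ω)) := by
    refine hc_mono_left P ?_
    intro ω ω' hω hω' e
    simp only [Prod.mk.injEq, pq] at e ⊢
    rw [(h ω hω).1, (h ω' hω').1]
    exact ⟨e.2.1.1, e.1⟩
  refine h2.trans (hc_mono_right P _ ?_)
  intro ω ω' _ _ e
  simp only [Prod.mk.injEq, pq] at e ⊢
  exact ⟨e.1.2, e.1.1, e.2⟩

end fin

/-- conditional form of the finite inequality -/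
theorem jf_cond {N β : ℝ} (hJ : JF N β) {ε : ℝ} (hε : 0 < ε) :
    ∃ K : ℝ, ∀ (Ω : Type) [Fintype Ω] (γ : Type) (P : Law Ω) (l : Ω → Ln) (t : Ω → ℝ) (n : ℕ)
      (C : Ω → γ), (∀ ω, 0 < P.w ω → LnOk (l ω) ∧ 0 ≤ t ω ∧ t ω ≤ 1) →
      Stk.hc P (fun ω => tb n (l ω)) (fun ω => (pq n (t ω, pos (l ω) (t ω)), C ω)) ≤
        (β + ε) * n * Real.log 2 + K + excF P (tbx n l) C +
        N * (n * Real.log 2 - Stk.hc P (fun ω => fl1 n (t ω)) (fun ω => (tb n (l ω), C ω))) := by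
  obtain ⟨K, hK⟩ := hJ ε hε
  refine ⟨K + 1, ?_⟩
  intro Ω _ γ P l t n C h
  have h1 : ∀ z ∈ img C, P.pr C z * Stk.hc (P.cond C z) (fun ω => tb n (l ω))
      (fun ω => pq n (t ω, pos (l ω) (t ω))) ≤
      P.pr C z * ((β + ε) * n * Real.log 2 + K + N * (n * Real.log 2)) +
      P.pr C z * excF (P.cond C z) (tbx n l) (fun _ => ()) -
      N * (P.pr C z * Stk.hc (P.cond C z) (fun ω => fl1 n (t ω)) (fun ω => tb n (l ω))) := by
    intro z _
    have h2 := hK Ω (P.cond C z) l t n (fun ω hω => h ω (cond_supp P C z hω))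
    have h3 := mul_le_mul_of_nonneg_left h2 (P.pr_nonneg C z)
    refine h3.trans (le_of_eq ?_)
    ring
  have h2 := Finset.sum_le_sum h1
  rw [Finset.sum_sub_distrib, Finset.sum_add_distrib, ← Finset.sum_mul, ← Finset.mul_sum,
    P.sum_pr_image C, ← hc_cond_sum P (fun ω => tb n (l ω)) _ C,
    ← hc_cond_sum P (fun ω => fl1 n (t ω)) _ C] at h2
  have h3 := excF_cond_sum P (tbx n l) C (fun ω hω => ⟨(h ω hω).1, by
    show |(0 : ℝ)| ≤ 4
    rw [abs_zero]
    norm_num, le_rfl⟩)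
  linarith

end JSB

open JSB

/-- **block JS** -/
theorem pJS : PJS := by
  intro N β hN hβ hJ S γ C l q n hn hl hq
  set t : S.RV ℝ := fun i ω => (q i ω).1 with ht
  obtain ⟨c, hc⟩ := hq
  have hT : T01 t := hc.mono fun i ω g => ⟨g.1, g.2.1⟩
  have Ttb := tame_tbs hn hl
  have Tpt := tame_pt hn hl hT
  have Tdg := tame_dg_t hn hT
  -- the point of the line at the time `t`
  have key : S.hc (tbs n l) (Sys.pr (pqs n (pt l t)) C) ≤
      β * S.nu n + S.exc (tubes n l) C +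
        N * (S.nu n - S.hc (dg n t) (Sys.pr (tbs n l) C)) := by
    have hnu : 0 ≤ S.nu n := const_le_ulim hn.ub (Eventually.of_forall fun i => by positivity)
    have UBe : UB fun i => excF (S.P i) (tubes n l i) (C i) / S.nm i := by
      obtain ⟨c', hc'⟩ := Sys.tame_lab (tubes_ok hn hl)
      refine UB.of_le (C := c') ?_ ?_
      · filter_upwards [S.nm_pos, (tubes_ok hn hl).1] with i hi g1
        refine div_nonneg ?_ hi.le
        exact le_csSup ⟨_, fun _ hv => exSet_bdd _ _ _ hv⟩ (zero_mem _ _ _ g1)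
      · filter_upwards [S.nm_pos, hc', (tubes_ok hn hl).1] with i hi g1 g2
        rw [div_le_iff₀ hi]
        refine le_trans ?_ g1
        exact csSup_le ⟨0, zero_mem _ _ _ g2⟩ fun _ hv => exSet_bdd _ _ _ hv
    refine le_of_forall_pos_le_add fun ε hε => ?_
    have hε' : 0 < ε / (S.nu n + 1) := div_pos hε (by linarith)
    obtain ⟨K, hK⟩ := jf_cond hJ hε'
    have U1 := UB.hc Ttb (Sys.pr (pqs n (pt l t)) C)
    have U2 := UB.hc Tdg (Sys.pr (tbs n l) C)
    have U3 := hn.ub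
    have U4 : UB fun i => (β + ε / (S.nu n + 1)) * ((n i : ℝ) / S.L i) +
        excF (S.P i) (tubes n l i) (C i) / S.nm i +
        N * ((n i : ℝ) / S.L i - Stk.hc (S.P i) (dg n t i) (Sys.pr (tbs n l) C i) / S.nm i) :=
      ((UB.const_mul _ U3).add UBe).add (UB.const_mul N (U3.sub U2))
    have h1 := ulim_le_of_sub U1 U4 (S.const_div_nm K) (by
      filter_upwards [S.nm_pos, S.L_pos, hl, hT] with i hi hLi hli hTi
      have hLr : (0 : ℝ) < S.L i := by exact_mod_cast hLi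
      have hlog : 0 < Real.log 2 := Real.log_pos (by norm_num)
      have h2 := hK (S.Ω i) γ (S.P i) (l i) (t i) (n i) (C i)
        (fun ω hω => ⟨hli ω hω, hTi ω hω⟩)
      have h3 := div_le_div_of_nonneg_right h2 hi.le
      refine h3.trans (le_of_eq ?_)
      have e : (n i : ℝ) * Real.log 2 / S.nm i = (n i : ℝ) / S.L i := by
        unfold Sys.nm
        field_simp
      rw [← e]
      show _ = (β + ε / (S.nu n + 1)) * ((n i : ℝ) * Real.log 2 / S.nm i) +
        excF (S.P i) (tbx (n i) (l i)) (C i) / S.nm i +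
        N * ((n i : ℝ) * Real.log 2 / S.nm i -
          Stk.hc (S.P i) (fun ω => fl1 (n i) (t i ω)) (fun ω => (tb (n i) (l i ω), C i ω)) /
            S.nm i) + K / S.nm i
      ring)
    have e1 : ulim (fun i => (β + ε / (S.nu n + 1)) * ((n i : ℝ) / S.L i) +
        excF (S.P i) (tubes n l i) (C i) / S.nm i +
        N * ((n i : ℝ) / S.L i - Stk.hc (S.P i) (dg n t i) (Sys.pr (tbs n l) C i) / S.nm i)) =
        (β + ε / (S.nu n + 1)) * S.nu n + S.exc (tubes n l) C +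
          N * (S.nu n - S.hc (dg n t) (Sys.pr (tbs n l) C)) := by
      rw [ulim_add ((UB.const_mul _ U3).add UBe) (UB.const_mul N (U3.sub U2)),
        ulim_add (UB.const_mul _ U3) UBe, ulim_const_mul _ U3, ulim_const_mul N (U3.sub U2),
        ulim_sub U3 U2]
      rfl
    rw [e1] at h1
    refine le_trans h1 ?_
    have e2 : ε / (S.nu n + 1) * S.nu n ≤ ε := by
      rw [div_mul_eq_mul_div, div_le_iff₀ (by linarith)]
      nlinarith
    linarith
  -- change of the point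
  obtain ⟨M, hM⟩ := exists_nat_ge (|c|)
  have hcl : S.Ae fun i ω => ∀ j, |(q i ω).2 j - (pt l t i ω).2 j| ≤ M * (1 / 2 : ℝ) ^ n i := by
    filter_upwards [hc] with i g ω hω j
    obtain ⟨-, -, g3, g4⟩ := g ω hω
    have hM' : c ≤ M := (le_abs_self c).trans hM
    have hp : (0 : ℝ) ≤ (1 / 2) ^ n i := by positivity
    have e0 : co (((tubes n l) i).θ ω) (fun i' => (q i ω).2 i' -
        pos (((tubes n l) i).l ω) (q i ω).1 i') 0 = (q i ω).2 0 - (pt l t i ω).2 0 := by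
      show co 0 _ 0 = _
      simp [co, pt, ht, tubes, tbx]
    have e1 : co (((tubes n l) i).θ ω) (fun i' => (q i ω).2 i' -
        pos (((tubes n l) i).l ω) (q i ω).1 i') 1 = (q i ω).2 1 - (pt l t i ω).2 1 := by
      show co 0 _ 1 = _
      simp [co, pt, ht, tubes, tbx]
    rw [e0] at g3
    rw [e1] at g4
    fin_cases j
    · exact g3.trans (mul_le_mul_of_nonneg_right hM' hp)
    · exact g4.trans (mul_le_mul_of_nonneg_right hM' hp)
  have z1 : ∀ {δ : Type} (Z : S.RV δ), S.hc (pqs n q) (Sys.pr (pqs n (pt l t)) Z) = 0 := by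
    intro δ Z
    refine hc_zero_of_le (2 * Real.log (2 * M + 3)) ?_
    filter_upwards [hcl] with i g
    exact hc_pq_close (S.P i) M (q i) (pt l t i) (Z i) fun ω hω => ⟨rfl, g ω hω⟩
  have z2 : ∀ {δ : Type} (Z : S.RV δ), S.hc (pqs n (pt l t)) (Sys.pr (pqs n q) Z) = 0 := by
    intro δ Z
    refine hc_zero_of_le (2 * Real.log (2 * M + 3)) ?_
    filter_upwards [hcl] with i g
    refine hc_pq_close (S.P i) M (pt l t i) (q i) (Z i) fun ω hω => ⟨rfl, fun j => ?_⟩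
    rw [abs_sub_comm]
    exact g ω hω j
  have Tq : Tame (pqs n q) := by
    refine tame_pqs hn (2 + M) (hT.mono fun i ω g => ?_) ?_
    · show |t i ω| ≤ _
      rw [abs_le]
      push_cast
      have hM0 : (0 : ℝ) ≤ M := Nat.cast_nonneg _
      constructor <;> linarith [g.1, g.2]
    · filter_upwards [hl, hT, hcl] with i g1 g2 g3 ω hω j
      have b1 := pos_le (g1 ω hω) (g2 ω hω).1 (g2 ω hω).2 j
      have b2 := g3 ω hω j
      have b3 : (M : ℝ) * (1 / 2 : ℝ) ^ n i ≤ M := by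
        have hM0 : (0 : ℝ) ≤ M := Nat.cast_nonneg _
        have : (1 / 2 : ℝ) ^ n i ≤ 1 := pow_le_one₀ (by norm_num) (by norm_num)
        nlinarith
      have b4 := abs_add_le ((q i ω).2 j - (pt l t i ω).2 j) ((pt l t i ω).2 j)
      rw [sub_add_cancel] at b4
      have b5 : |(pt l t i ω).2 j| ≤ 2 := b1
      push_cast
      linarith
  have s1 : S.hc (tbs n l) (Sys.pr (pqs n q) C) ≤ S.hc (tbs n l) (Sys.pr (pqs n (pt l t)) C) := by
    have h1 := hc_le_add Ttb Tpt (Sys.pr (pqs n q) C)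
    rw [z2 C, add_zero] at h1
    refine h1.trans (hc_mono_right Ttb (Eventually.of_forall fun i ω ω' _ _ e => ?_))
    simp only [Sys.pr_apply, Prod.mk.injEq] at e ⊢
    exact ⟨e.1, e.2.2⟩
  have s2 : S.hc (pqs n q) (Sys.pr (tbs n l) C) ≤ S.hc (dg n t) (Sys.pr (tbs n l) C) := by
    have h1 := hc_le_add Tq Tpt (Sys.pr (tbs n l) C)
    rw [z1 (Sys.pr (tbs n l) C), zero_add, hc_pqs_pt hn hl hT] at h1
    exact h1
  have s3 : N * (S.nu n - S.hc (dg n t) (Sys.pr (tbs n l) C)) ≤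
      N * (S.nu n - S.hc (pqs n q) (Sys.pr (tbs n l) C)) :=
    mul_le_mul_of_nonneg_left (by linarith) hN
  linarith

end Vale.Agent.P127.U
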