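import Vale.Agent.P127.U.Ent

/-!
# P127 / U : lines, boxes, excess, the inequality with price `N` (helper357)

* `Ln` line `t ↦ (t, x + t y)`, `Pt` point `(t, P)`.
* `lab θ k j l` label of the box of `l` with wide direction `θ` (width `2^-k`) and thickness `2^-j`
  in the direction normal to `θ`; `k ≤ j`.
* `Bx Ω` random box; `Sub c B W` : the box `W` (same line, coarser) contains `B`.
* `excF P B C` finite excess of `B` given `C` : supremum over extensions of `P` and boxes `W ⊇ B` of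
  `H(B | W, C) - log 2 * E (sz B - sz W)`.  `S.exc B C` : its normalised ultralimit.
* `S.nu n` : limit of `n / L`.
-/

set_option autoImplicit false

namespace Vale.Agent.P127.U

open Filter Topology Vale.Agent.P127 Vale.Agent.P127.Stk

/-- a line `t ↦ (t, x + t y)` -/
abbrev Ln := (Fin 2 → ℝ) × (Fin 2 → ℝ)

/-- a point `(t, P)` -/
abbrev Pt := ℝ × (Fin 2 → ℝ)

/-- position of a line at the time `t` -/
def pos (l : Ln) (t : ℝ) : Fin 2 → ℝ := fun i => l.1 i + t * l.2 i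

/-- coordinates in the frame of angle `θ` : `0` wide direction, `1` normal direction -/
noncomputable def co (θ : ℝ) (v : Fin 2 → ℝ) : Fin 2 → ℝ :=
  ![Real.cos θ * v 0 + Real.sin θ * v 1, -Real.sin θ * v 0 + Real.cos θ * v 1]

/-- the angle rounded to `m` binary digits -/
noncomputable def qa (m : ℕ) (θ : ℝ) : ℝ := (fl1 m θ : ℝ) / 2 ^ m

/-- `k` digits of the first and `j` digits of the second coordinate -/
noncomputable def fkj (k j : ℕ) (v : Fin 2 → ℝ) : ℤ × ℤ := (fl1 k (v 0), fl1 j (v 1))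

/-- the type of the labels of boxes -/
abbrev Lab := ℕ × ℕ × ℤ × (ℤ × ℤ) × (ℤ × ℤ)

/-- label of the box of `l` with wide direction `θ`, width `2^-k`, thickness `2^-j` -/
noncomputable def lab (θ : ℝ) (k j : ℕ) (l : Ln) : Lab :=
  (k, j, fl1 (j - k) θ, fkj k j (co (qa (j - k) θ) l.1), fkj k j (co (qa (j - k) θ) l.2))

/-- label of the tube of `l` with precision `n` -/
noncomputable def tb (n : ℕ) (l : Ln) : (Fin 2 → ℤ) × (Fin 2 → ℤ) := (fl n l.1, fl n l.2)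

/-- a point with precision `n` -/
noncomputable def pq (n : ℕ) (q : Pt) : ℤ × (Fin 2 → ℤ) := (fl1 n q.1, fl n q.2)

/-- a random box -/
structure Bx (Ω : Type) where
  l : Ω → Ln
  θ : Ω → ℝ
  k : Ω → ℕ
  j : Ω → ℕ

namespace Bx

variable {Ω Ω' : Type}

/-- the label of a random box -/
noncomputable def lab (B : Bx Ω) (ω : Ω) : Lab := U.lab (B.θ ω) (B.k ω) (B.j ω) (B.l ω)

/-- size `k + j` : the box has `2^(4 n - 2 (k + j))` tubes of precision `n`, volume `2^-(k+j)` -/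
noncomputable def sz (B : Bx Ω) (ω : Ω) : ℝ := (B.k ω : ℝ) + B.j ω

/-- pull back -/
def comp (B : Bx Ω) (π : Ω' → Ω) : Bx Ω' :=
  ⟨fun ω => B.l (π ω), fun ω => B.θ (π ω), fun ω => B.k (π ω), fun ω => B.j (π ω)⟩

end Bx

/-- normalised line -/
def LnOk (l : Ln) : Prop := (∀ i, |l.1 i| ≤ 1) ∧ ∀ i, |l.2 i| ≤ 1

/-- normalised box -/
def BxOk {Ω : Type} (B : Bx Ω) (ω : Ω) : Prop := LnOk (B.l ω) ∧ |B.θ ω| ≤ 4 ∧ B.k ω ≤ B.j ω

/-- the box `W` contains the box `B` (same line) -/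
def Sub {Ω : Type} (c : ℝ) (B W : Bx Ω) (ω : Ω) : Prop :=
  W.l ω = B.l ω ∧ |W.θ ω| ≤ 4 ∧ W.k ω ≤ W.j ω ∧ W.k ω ≤ B.k ω ∧ W.j ω ≤ B.j ω ∧
    |Real.sin (B.θ ω - W.θ ω)| * (1 / 2 : ℝ) ^ B.k ω ≤ c * (1 / 2 : ℝ) ^ W.j ω

/-- the point `q` is in the box `B` (up to the constant `c`) -/
def Inb {Ω : Type} (c : ℝ) (B : Bx Ω) (q : Ω → Pt) (ω : Ω) : Prop :=
  0 ≤ (q ω).1 ∧ (q ω).1 ≤ 1 ∧
  |co (B.θ ω) (fun i => (q ω).2 i - pos (B.l ω) (q ω).1 i) 0| ≤ c * (1 / 2 : ℝ) ^ B.k ω ∧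
  |co (B.θ ω) (fun i => (q ω).2 i - pos (B.l ω) (q ω).1 i) 1| ≤ c * (1 / 2 : ℝ) ^ B.j ω

section finite

variable {Ω : Type} [Fintype Ω] {γ : Type*}

/-- `H(B | W, C) - log 2 * E (sz B - sz W)` -/
noncomputable def exV (P : Law Ω) (B W : Bx Ω) (C : Ω → γ) : ℝ :=
  Stk.hc P B.lab (fun ω => (W.lab ω, C ω)) - Real.log 2 * P.ex fun ω => B.sz ω - W.sz ω

/-- the values of all boxes containing `B`, on all extensions of `P` -/
def exSet (P : Law Ω) (B : Bx Ω) (C : Ω → γ) : Set ℝ :=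
  {v | ∃ (Ω' : Type) (_ : Fintype Ω') (P' : Law Ω') (π : Ω' → Ω) (W : Bx Ω'),
    (∀ ω, P'.pr π ω = P.w ω) ∧ (∀ ω, 0 < P'.w ω → Sub 1 (B.comp π) W ω) ∧
    v = exV P' (B.comp π) W fun ω => C (π ω)}

/-- the excess of `B` given `C` -/
noncomputable def excF (P : Law Ω) (B : Bx Ω) (C : Ω → γ) : ℝ := sSup (exSet P B C)

/-- the tube of precision `n` as a box -/
def tbx (n : ℕ) (l : Ω → Ln) : Bx Ω := ⟨l, fun _ => 0, fun _ => n, fun _ => n⟩

end finite

/-- finite form of the inequality `h(l | p) ≤ β n + Exc + N D` -/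
def JF (N β : ℝ) : Prop :=
  ∀ ε : ℝ, 0 < ε → ∃ K : ℝ, ∀ (Ω : Type) [Fintype Ω] (P : Law Ω) (l : Ω → Ln) (t : Ω → ℝ) (n : ℕ),
    (∀ ω, 0 < P.w ω → LnOk (l ω) ∧ 0 ≤ t ω ∧ t ω ≤ 1) →
    Stk.hc P (fun ω => tb n (l ω)) (fun ω => pq n (t ω, pos (l ω) (t ω))) ≤
      (β + ε) * n * Real.log 2 + K + excF P (tbx n l) (fun _ => ()) +
      N * (n * Real.log 2 - Stk.hc P (fun ω => fl1 n (t ω)) (fun ω => tb n (l ω)))

namespace Sys

variable {S : Sys} {γ δ : Type}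

/-- limit of `n / L` -/
noncomputable def nu (S : Sys) (n : ℕ → ℕ) : ℝ := ulim fun i => (n i : ℝ) / S.L i

/-- `n = O(L)` -/
def Bd (S : Sys) (n : ℕ → ℕ) : Prop := ∃ C : ℝ, ∀ᶠ i in (uf : Filter ℕ), (n i : ℝ) ≤ C * S.L i

/-- a sequence of random boxes -/
abbrev BX (S : Sys) := ∀ i, Bx (S.Ω i)

/-- the label of a sequence of random boxes -/
noncomputable def BX.lab (B : S.BX) : S.RV Lab := fun i => (B i).lab

/-- the size of a sequence of random boxes -/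
noncomputable def BX.sz (B : S.BX) : S.RV ℝ := fun i => (B i).sz

/-- pull back of a box -/
def Ext.pullB {S' S : Sys} (e : Ext S' S) (B : S.BX) : S'.BX := fun i => (B i).comp (e.π i)

/-- property of the outcomes which holds on the support, eventually -/
def Ae (S : Sys) (p : ∀ i, S.Ω i → Prop) : Prop :=
  ∀ᶠ i in (uf : Filter ℕ), ∀ ω, 0 < (S.P i).w ω → p i ω

/-- tubes of precision `n` -/
def tubes (n : ℕ → ℕ) (l : S.RV Ln) : S.BX := fun i => tbx (n i) (l i)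

/-- label of the tubes of precision `n` -/
noncomputable def tbs (n : ℕ → ℕ) (l : S.RV Ln) : S.RV ((Fin 2 → ℤ) × (Fin 2 → ℤ)) :=
  fun i ω => tb (n i) (l i ω)

/-- points of precision `n` -/
noncomputable def pqs (n : ℕ → ℕ) (q : S.RV Pt) : S.RV (ℤ × (Fin 2 → ℤ)) :=
  fun i ω => pq (n i) (q i ω)

/-- first `n` digits of a real variable -/
noncomputable def dg (n : ℕ → ℕ) (t : S.RV ℝ) : S.RV ℤ := fun i ω => fl1 (n i) (t i ω)

/-- first `n` digits of a vector -/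
noncomputable def dgv (n : ℕ → ℕ) (v : S.RV (Fin 2 → ℝ)) : S.RV (Fin 2 → ℤ) :=
  fun i ω => fl (n i) (v i ω)

/-- the lines are normalised -/
def LnA (l : S.RV Ln) : Prop := S.Ae fun i ω => LnOk (l i ω)

/-- the box is normalised, with precision `O(L)` -/
def BxA (B : S.BX) : Prop :=
  (S.Ae fun i ω => BxOk (B i) ω) ∧ ∃ c : ℝ, S.Ae fun i ω => ((B i).j ω : ℝ) ≤ c * S.L i

/-- the shape of the box is deterministic -/
def Shape (B : S.BX) (k j : ℕ → ℕ) : Prop := S.Ae fun i ω => (B i).k ω = k i ∧ (B i).j ω = j i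

/-- `W` contains `B` up to a constant -/
def SubA (B W : S.BX) : Prop := ∃ c : ℝ, S.Ae fun i ω => Sub c (B i) (W i) ω

/-- `q` is a point of the box `B` up to a constant -/
def InA (B : S.BX) (q : S.RV Pt) : Prop := ∃ c : ℝ, S.Ae fun i ω => Inb c (B i) (q i) ω

/-- normalised excess -/
noncomputable def exc (B : S.BX) (C : S.RV γ) : ℝ :=
  ulim fun i => excF (S.P i) (B i) (C i) / S.nm i

/-- value of the box `W` : `h(B | W, C) - E(sz B - sz W)` -/
noncomputable def val (B W : S.BX) (C : S.RV γ) : ℝ :=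
  S.hc B.lab (Sys.pr W.lab C) - S.av fun i ω => B.sz i ω - W.sz i ω

/-- `q` is uniform in the box `B` of shape `(k, j)` at precision `j`, given `C` -/
def FullIn (B : S.BX) (k j : ℕ → ℕ) (q : S.RV Pt) (C : S.RV γ) : Prop :=
  S.hc (pqs j q) (Sys.pr B.lab C) = 2 * S.nu j - S.nu k

end Sys

open Sys

/-- **the inequality with price `N` and rate `β`**, conditional form: for tubes of precision `n`,
`h(l | q, C) ≤ β n + Exc(l | C) + N (n - h(t | l, C))` -/
def JS (N β : ℝ) : Prop :=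
  ∀ (S : Sys) (γ : Type) (C : S.RV γ) (l : S.RV Ln) (q : S.RV Pt) (n : ℕ → ℕ),
    S.Bd n → LnA l → InA (tubes n l) q →
    S.hc (tbs n l) (Sys.pr (pqs n q) C) ≤
      β * S.nu n + S.exc (tubes n l) C + N * (S.nu n - S.hc (pqs n q) (Sys.pr (tbs n l) C))

/-- **the inequality for full time**, conditional form -/
def JU (β : ℝ) : Prop :=
  ∀ (S : Sys) (γ : Type) (C : S.RV γ) (l : S.RV Ln) (q : S.RV Pt) (n : ℕ → ℕ),
    S.Bd n → LnA l → InA (tubes n l) q →
    S.hc (pqs n q) (Sys.pr (tbs n l) C) = S.nu n →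
    S.hc (tbs n l) (Sys.pr (pqs n q) C) ≤ β * S.nu n + S.exc (tubes n l) C

end Vale.Agent.P127.U
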