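import Vale.Agent.P127.U.FillA

/-!
# P127 / U : points, tubes and tubelets (helper465)

Zero-entropy relations between tubes, points, tubelets, and the counting of the points of a box.
-/

set_option autoImplicit false

namespace Vale.Agent.P127.U.Fi

open Finset Filter Topology Vale.Agent.P127 Vale.Agent.P127.U Sys
open Vale.Agent.P127.Stk (fl fl1 fl_of_fl fl_fract floor_close_aux pr_id)

/-! ### deterministic estimates -/

theorem hp_pos (n : ℕ) : (0 : ℝ) < (1 / 2) ^ n := by positivity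

theorem hp_anti {a b : ℕ} (h : a ≤ b) : (1 / 2 : ℝ) ^ b ≤ (1 / 2) ^ a :=
  pow_le_pow_of_le_one (by norm_num) (by norm_num) h

theorem hp_le_one (n : ℕ) : (1 / 2 : ℝ) ^ n ≤ 1 := pow_le_one₀ (by norm_num) (by norm_num)

theorem fl_close1 {n : ℕ} {v w : Fin 2 → ℝ} (h : fl n v = fl n w) (j : Fin 2) :
    |v j - w j| ≤ (1 / 2 : ℝ) ^ n := fl1_close (congrFun h j)

theorem fl1_of_fl1 {s n : ℕ} (h : s ≤ n) {x y : ℝ} (e : fl1 n x = fl1 n y) : fl1 s x = fl1 s y := by
  have := fl_of_fl (ι := Unit) h (fun _ => x) (fun _ => y) (funext fun _ => e)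
  exact congrFun this ()

theorem abs_le_of_mul {a b A B : ℝ} (ha : |a| ≤ A) (hb : |b| ≤ B) : |a * b| ≤ A * B := by
  rw [abs_mul]
  exact mul_le_mul ha hb (abs_nonneg _) ((abs_nonneg _).trans ha)

theorem abs_add3 {a b c A B C : ℝ} (ha : |a| ≤ A) (hb : |b| ≤ B) (hc : |c| ≤ C) :
    |a + b + c| ≤ A + B + C := by
  have h1 := abs_add_le (a + b) c
  have h2 := abs_add_le a b
  linarith

theorem pos_near {l l' : Ln} {t t' a b c : ℝ} {j : Fin 2} (h1 : |l.1 j - l'.1 j| ≤ a)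
    (h2 : |l.2 j - l'.2 j| ≤ b) (h3 : |t - t'| ≤ c) (ht : |t| ≤ 1) (hl : |l'.2 j| ≤ 1) :
    |pos l t j - pos l' t' j| ≤ a + b + c := by
  have e : pos l t j - pos l' t' j =
      (l.1 j - l'.1 j) + t * (l.2 j - l'.2 j) + (t - t') * l'.2 j := by
    unfold pos; ring
  rw [e]
  refine abs_add3 h1 ?_ ?_
  · simpa using abs_le_of_mul ht h2
  · simpa using abs_le_of_mul h3 hl

theorem qa_nonneg {s : ℕ} {t : ℝ} (h0 : 0 ≤ t) : 0 ≤ qa s t := by
  unfold qa fl1
  have : (0:ℤ) ≤ ⌊(2:ℝ) ^ s * t⌋ := Int.floor_nonneg.2 (by positivity)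
  have h2 : (0:ℝ) ≤ (⌊(2:ℝ) ^ s * t⌋ : ℝ) := by exact_mod_cast this
  positivity

theorem qa_le {s : ℕ} {t : ℝ} : qa s t ≤ t := by
  unfold qa fl1
  rw [div_le_iff₀ (by positivity)]
  have := Int.floor_le ((2:ℝ) ^ s * t)
  linarith

theorem abs_qa_le {s : ℕ} {t : ℝ} (h0 : 0 ≤ t) (h1 : t ≤ 1) : |qa s t| ≤ 1 := by
  rw [abs_of_nonneg (qa_nonneg h0)]
  exact qa_le.trans h1

theorem qa_congr {s : ℕ} {t t' : ℝ} (h : fl1 s t = fl1 s t') : qa s t = qa s t' := by
  unfold qa; rw [h]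

theorem co_zero (v : Fin 2 → ℝ) (j : Fin 2) : co (qa 0 0) v j = v j := by
  have : qa 0 0 = 0 := by simp [qa, fl1]
  rw [this]
  fin_cases j <;> simp [co]

/-- inverse rotation -/
theorem abs_le_of_co {θ : ℝ} {v : Fin 2 → ℝ} {a : ℝ} (h : ∀ i, |co θ v i| ≤ a) (j : Fin 2) :
    |v j| ≤ 2 * a := by
  have h0 := h 0
  have h1 := h 1
  have e := Real.sin_sq_add_cos_sq θ
  have hc := Real.abs_cos_le_one θ
  have hs := Real.abs_sin_le_one θ
  have key : ∀ p q : ℝ, |p| ≤ 1 → |q| ≤ 1 → |p * co θ v 0 + q * co θ v 1| ≤ 2 * a := by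
    intro p q hp hq
    have a1 := abs_le_of_mul hp h0
    have a2 := abs_le_of_mul hq h1
    have a3 := abs_add_le (p * co θ v 0) (q * co θ v 1)
    linarith
  fin_cases j
  · have e1 : v 0 = Real.cos θ * co θ v 0 + (-Real.sin θ) * co θ v 1 := by
      simp only [co, Matrix.cons_val_zero, Matrix.cons_val_one]
      linear_combination (-v 0) * e
    show |v 0| ≤ _
    rw [e1]
    exact key _ _ hc (by rwa [abs_neg])
  · have e1 : v 1 = Real.sin θ * co θ v 0 + Real.cos θ * co θ v 1 := by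
      simp only [co, Matrix.cons_val_zero, Matrix.cons_val_one]
      linear_combination (-v 1) * e
    show |v 1| ≤ _
    rw [e1]
    exact key _ _ hs hc

theorem co_add_mul (θ : ℝ) (v w : Fin 2 → ℝ) (a : ℝ) (i : Fin 2) :
    co θ (fun j => v j + a * w j) i = co θ v i + a * co θ w i := by
  fin_cases i <;> simp [co] <;> ring

section sys

variable {S : Sys} {α β γ δ : Type*}

theorem hc_eq_of_zero {X : S.RV α} {X' : S.RV β} {Z : S.RV γ} (hX : Tame X) (hX' : Tame X')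
    (h : S.hc X (Sys.pr X' Z) = 0) (h' : S.hc X' (Sys.pr X Z) = 0) : S.hc X Z = S.hc X' Z :=
  le_antisymm (hc_le_of_zero hX hX' h) (hc_le_of_zero hX' hX h')

theorem hc_zero_mono {X : S.RV α} {Y : S.RV β} {Y' : S.RV γ} (hX : Tame X) (h : S.hc X Y = 0)
    (hf : Fn Y Y') : S.hc X Y' = 0 :=
  le_antisymm (h ▸ hc_mono_right hX hf) (hc_nonneg hX _)

theorem hc_zero_pair {X : S.RV α} {Y : S.RV β} {Z : S.RV γ} (hX : Tame X) (hY : Tame Y)
    (h : S.hc X Z = 0) (h' : S.hc Y Z = 0) : S.hc (Sys.pr X Y) Z = 0 := by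
  rw [hc_pair hX hY, h, zero_add]
  exact hc_zero_mono hY h' (Eventually.of_forall fun _ _ _ _ _ e => congrArg Prod.snd e)

theorem hc_zero_trans {X : S.RV α} {Y : S.RV β} {Z : S.RV γ} (hX : Tame X) (hY : Tame Y)
    (h : S.hc X Y = 0) (h' : S.hc Y Z = 0) : S.hc X Z = 0 := by
  refine le_antisymm ?_ (hc_nonneg hX _)
  have h1 := hc_le_add hX hY Z
  have h2 : S.hc X (Sys.pr Y Z) = 0 :=
    hc_zero_mono hX h (Eventually.of_forall fun _ _ _ _ _ e => congrArg Prod.fst e)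
  linarith

theorem hc_zero_left {X : S.RV α} {X' : S.RV β} {Z : S.RV γ} (hX : Tame X) (hX' : Tame X')
    (h : S.hc X' Z = 0) (hf : Fn X X') : S.hc X Z = 0 :=
  hc_zero_trans hX hX' (hc_fn hf) h

/-- the parameters `n = s + m`, `n = O(L)` -/
structure Par (S : Sys) (n s m : ℕ → ℕ) : Prop where
  add : ∀ i, s i + m i = n i
  bd : ∃ c : ℝ, ∀ᶠ i in (uf : Filter ℕ), (n i : ℝ) ≤ c * S.L i

namespace Par

variable {n s m : ℕ → ℕ}

theorem sn (h : Par S n s m) (i : ℕ) : s i ≤ n i := by have := h.add i; omega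

theorem mn (h : Par S n s m) (i : ℕ) : m i ≤ n i := by have := h.add i; omega

theorem bds (h : Par S n s m) : ∃ c : ℝ, ∀ᶠ i in (uf : Filter ℕ), (s i : ℝ) ≤ c * S.L i := by
  obtain ⟨c, hc⟩ := h.bd
  refine ⟨c, ?_⟩
  filter_upwards [hc] with i hi
  have : (s i : ℝ) ≤ n i := by exact_mod_cast h.sn i
  linarith

theorem bdm (h : Par S n s m) : ∃ c : ℝ, ∀ᶠ i in (uf : Filter ℕ), (m i : ℝ) ≤ c * S.L i := by
  obtain ⟨c, hc⟩ := h.bd
  refine ⟨c, ?_⟩
  filter_upwards [hc] with i hi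
  have : (m i : ℝ) ≤ n i := by exact_mod_cast h.mn i
  linarith

end Par

theorem ub_nu {n : ℕ → ℕ} (h : ∃ c : ℝ, ∀ᶠ i in (uf : Filter ℕ), (n i : ℝ) ≤ c * S.L i) :
    UB fun i => (n i : ℝ) / S.L i := by
  obtain ⟨c, hc⟩ := h
  refine UB.of_le (C := c) (Eventually.of_forall fun i => by positivity) ?_
  filter_upwards [hc, S.L_pos] with i h1 h2
  have : (0:ℝ) < S.L i := by exact_mod_cast h2
  rwa [div_le_iff₀ this]

theorem nu_add {n s m : ℕ → ℕ} (h : Par S n s m) : S.nu s + S.nu m = S.nu n := by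
  unfold nu
  rw [← ulim_add (ub_nu h.bds) (ub_nu h.bdm)]
  refine ulim_congr (Eventually.of_forall fun i => ?_)
  rw [← add_div, ← h.add i]
  push_cast
  rfl

theorem nu_L : S.nu S.L = 1 := by
  unfold nu
  rw [← ulim_const 1]
  refine ulim_congr ?_
  filter_upwards [S.L_pos] with i hi
  have : (S.L i : ℝ) ≠ 0 := by positivity
  exact div_self this

/-! ### tame variables -/

theorem tame_dirv {n : ℕ → ℕ} (hn : ∃ c : ℝ, ∀ᶠ i in (uf : Filter ℕ), (n i : ℝ) ≤ c * S.L i)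
    {l : S.RV Ln} (hl : LnA l) : Tame (dgv n (dir l)) := by
  obtain ⟨c, hc⟩ := hn
  refine tame_dgv (C := 1) hc ?_
  filter_upwards [hl] with i hi ω hω j
  have := (hi ω hω).2 j
  push_cast
  exact this

theorem tame_posv {n : ℕ → ℕ} (hn : ∃ c : ℝ, ∀ᶠ i in (uf : Filter ℕ), (n i : ℝ) ≤ c * S.L i)
    {l : S.RV Ln} (hl : LnA l) {t : S.RV ℝ} (ht : S.Ae fun i ω => |t i ω| ≤ 1) :
    Tame (dgv n fun i ω => pos (l i ω) (t i ω)) := by
  obtain ⟨c, hc⟩ := hn
  refine tame_dgv (C := 2) hc ?_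
  filter_upwards [hl, ht] with i hi hti ω hω j
  have h1 := (hi ω hω).1 j
  have h2 := (hi ω hω).2 j
  have h3 := hti ω hω
  unfold pos
  have h4 := abs_add_le ((l i ω).1 j) (t i ω * (l i ω).2 j)
  have h5 := abs_le_of_mul h3 h2
  push_cast
  linarith

theorem t01_abs {t : S.RV ℝ} (ht : T01 t) : S.Ae fun i ω => |t i ω| ≤ 1 := by
  filter_upwards [ht] with i hi ω hω
  have := hi ω hω
  rw [abs_of_nonneg this.1]
  exact this.2

theorem t01_tame {t : S.RV ℝ} (ht : T01 t) {n : ℕ → ℕ}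
    (hn : ∃ c : ℝ, ∀ᶠ i in (uf : Filter ℕ), (n i : ℝ) ≤ c * S.L i) : Tame (dg n t) := by
  obtain ⟨c, hc⟩ := hn
  refine tame_dg (C := 1) hc ?_
  filter_upwards [(t01_abs ht)] with i hi ω hω
  have := hi ω hω
  push_cast
  exact this

theorem tame_tbs {n : ℕ → ℕ} (hn : ∃ c : ℝ, ∀ᶠ i in (uf : Filter ℕ), (n i : ℝ) ≤ c * S.L i)
    {l : S.RV Ln} (hl : LnA l) : Tame (tbs n l) := by
  obtain ⟨c, hc⟩ := hn
  have h1 : Tame (S := S) (dgv n fun i ω => (l i ω).1) := by
    refine tame_dgv (C := 1) hc ?_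
    filter_upwards [hl] with i hi ω hω j
    have := (hi ω hω).1 j
    push_cast
    exact this
  exact h1.pr (tame_dirv ⟨c, hc⟩ hl)

theorem tame_pqs {n : ℕ → ℕ} (hn : ∃ c : ℝ, ∀ᶠ i in (uf : Filter ℕ), (n i : ℝ) ≤ c * S.L i)
    {l : S.RV Ln} (hl : LnA l) {t : S.RV ℝ} (ht : T01 t) : Tame (pqs n (pt l t)) :=
  (t01_tame ht hn).pr (tame_posv hn hl (t01_abs ht))

/-! ### points and tubes -/

section rel

variable {n s m : ℕ → ℕ} {l : S.RV Ln} {t t' : S.RV ℝ}

/-- the point is a function of the tube and of the time -/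
theorem zero_pt (hn : ∃ c : ℝ, ∀ᶠ i in (uf : Filter ℕ), (n i : ℝ) ≤ c * S.L i)
    (hl : LnA l) (ht : T01 t) : S.hc (pqs n (pt l t)) (Sys.pr (dg n t) (tbs n l)) = 0 := by
  refine hc_zero_pair (X := dg n t) (t01_tame ht hn) (tame_posv hn hl (t01_abs ht)) ?_ ?_
  · exact hc_fn (Eventually.of_forall fun _ _ _ _ _ e => congrArg Prod.fst e)
  · refine hc_zero_fl n 3 (fun i ω => pos (l i ω) (t i ω)) _ ?_
    filter_upwards [hl, (t01_abs ht)] with i h1 h2 ω ω' hω hω' e j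
    simp only [pr_apply, Prod.mk.injEq] at e
    obtain ⟨e1, e2⟩ := e
    have e3 := (Prod.mk.inj e2).1
    have e4 := (Prod.mk.inj e2).2
    have := pos_near (j := j) (fl_close1 e3 j) (fl_close1 e4 j) (fl1_close e1) (h2 ω' hω')
      ((h1 ω hω).2 j)
    push_cast
    linarith

theorem fn_time : Fn (dg n t) (pqs n (pt l t)) :=
  Eventually.of_forall fun _ _ _ _ _ e => congrArg Prod.fst e

/-- `h(p | l) = h(t | l)` -/
theorem hc_pt (hn : ∃ c : ℝ, ∀ᶠ i in (uf : Filter ℕ), (n i : ℝ) ≤ c * S.L i)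
    (hl : LnA l) (ht : T01 t) : S.hc (pqs n (pt l t)) (tbs n l) = S.hc (dg n t) (tbs n l) :=
  hc_eq_of_zero (tame_pqs hn hl ht) (t01_tame ht hn) (zero_pt hn hl ht)
    (hc_fn (Eventually.of_forall fun _ _ _ _ _ e => by
      simp only [pr_apply, Prod.mk.injEq] at e
      exact congrArg Prod.fst e.1))

/-- the coarse point is a function of a near fine point -/
theorem zero_coarse (h : Par S n s m) (hl : LnA l) (ht : T01 t) (ht' : T01 t')
    (hn : S.Ae fun i ω => |t' i ω - t i ω| ≤ 2 * (1 / 2 : ℝ) ^ s i) :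
    S.hc (pqs s (pt l t)) (pqs n (pt l t')) = 0 := by
  refine hc_zero_pair (X := dg s t) (t01_tame ht h.bds) (tame_posv h.bds hl (t01_abs ht)) ?_ ?_
  · refine hc_zero_fl1 s 5 t _ ?_
    filter_upwards [hn] with i h1 ω ω' hω hω' e
    have e1 := fl1_close (congrArg Prod.fst e)
    simp only [pt] at e1
    have a1 := h1 ω hω
    have a2 := h1 ω' hω'
    have a3 := hp_anti (h.sn i)
    have e2 : t i ω' - t i ω = (t' i ω' - t' i ω) - (t' i ω' - t i ω') + (t' i ω - t i ω) := by ring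
    rw [e2]
    rw [← abs_neg] at a2
    have := abs_add3 e1 a2 a1
    rw [← sub_eq_add_neg] at this
    push_cast
    linarith
  · refine hc_zero_fl s 5 (fun i ω => pos (l i ω) (t i ω)) _ ?_
    filter_upwards [hn, hl] with i h1 h2 ω ω' hω hω' e j
    have e1 := fl_close1 (congrArg Prod.snd e) j
    simp only [pt] at e1
    have a1 := h1 ω hω
    have a2 := h1 ω' hω'
    have a3 := hp_anti (h.sn i)
    have e2 : pos (l i ω') (t i ω') j - pos (l i ω) (t i ω) j =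
        (pos (l i ω') (t' i ω') j - pos (l i ω) (t' i ω) j) +
          (-((t' i ω' - t i ω') * (l i ω').2 j)) + (t' i ω - t i ω) * (l i ω).2 j := by
      unfold pos
      ring
    rw [e2]
    have b1 := abs_le_of_mul a2 ((h2 ω' hω').2 j)
    have b2 := abs_le_of_mul a1 ((h2 ω hω).2 j)
    rw [← abs_neg] at b1
    have := abs_add3 e1 b1 b2
    push_cast
    linarith

/-- the coarse point is a function of the tube and of the coarse time -/
theorem zero_coarse' (h : Par S n s m) (hl : LnA l) (ht : T01 t) :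
    S.hc (pqs s (pt l t)) (Sys.pr (dg s t) (tbs n l)) = 0 := by
  refine hc_zero_pair (X := dg s t) (t01_tame ht h.bds) (tame_posv h.bds hl (t01_abs ht)) ?_ ?_
  · exact hc_fn (Eventually.of_forall fun _ _ _ _ _ e => congrArg Prod.fst e)
  · refine hc_zero_fl s 3 (fun i ω => pos (l i ω) (t i ω)) _ ?_
    filter_upwards [hl, (t01_abs ht)] with i h1 h2 ω ω' hω hω' e j
    simp only [pr_apply, Prod.mk.injEq] at e
    obtain ⟨e1, e2⟩ := e
    have e3 := (Prod.mk.inj e2).1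
    have e4 := (Prod.mk.inj e2).2
    have a3 := hp_anti (h.sn i)
    have := pos_near (j := j) (fl_close1 e3 j) (fl_close1 e4 j) (fl1_close e1) (h2 ω' hω')
      ((h1 ω hω).2 j)
    push_cast
    linarith

theorem fn_coarse (h : Par S n s m) : Fn (pqs s (pt l t)) (pqs n (pt l t)) :=
  Eventually.of_forall fun i ω ω' _ _ e => by
    have e1 := congrArg Prod.fst e
    have e2 := congrArg Prod.snd e
    exact Prod.ext (fl1_of_fl1 (h.sn i) e1) (fl_of_fl (h.sn i) _ _ e2)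

/-! ### tubelets -/

/-- position at the time `t_s` -/
noncomputable def ps (s : ℕ → ℕ) (l : S.RV Ln) (t : S.RV ℝ) : S.RV (Fin 2 → ℝ) := fun i ω =>
  pos (l i ω) (qa (s i) (t i ω))

theorem qa_abs (ht : T01 t) : S.Ae fun i ω => |qa (s i) (t i ω)| ≤ 1 := by
  filter_upwards [ht] with i hi ω hω
  exact abs_qa_le (hi ω hω).1 (hi ω hω).2

theorem tame_ps (hn : ∃ c : ℝ, ∀ᶠ i in (uf : Filter ℕ), (n i : ℝ) ≤ c * S.L i)
    (hl : LnA l) (ht : T01 t) : Tame (dgv n (ps s l t)) :=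
  tame_posv (t := fun i ω => qa (s i) (t i ω)) hn hl (qa_abs ht)

/-- the label of the tubelet -/
theorem fn_tubelet (h : Par S n s m) :
    Fn (BX.lab (tubes m (bl s l t))) (Sys.pr (dgv n (ps s l t)) (dgv m (dir l))) :=
  Eventually.of_forall fun i ω ω' _ _ e => by
    simp only [pr_apply, Prod.mk.injEq] at e
    obtain ⟨e1, e2⟩ := e
    have e3 : fl (s i) (ps s l t i ω) = fl (s i) (ps s l t i ω') := fl_of_fl (h.sn i) _ _ e1
    have e4 : fl (m i) (bl s l t i ω).1 = fl (m i) (bl s l t i ω').1 := by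
      funext j
      have f1 := fl_fract (s i) (m i) (ps s l t i ω) j
      have f2 := fl_fract (s i) (m i) (ps s l t i ω') j
      have g1 : fl (s i + m i) (ps s l t i ω) j = fl (s i + m i) (ps s l t i ω') j := by
        rw [h.add i]
        exact congrFun e1 j
      have g2 := congrFun e3 j
      show fl (m i) (fun j => Int.fract ((2:ℝ) ^ s i * ps s l t i ω j)) j =
        fl (m i) (fun j => Int.fract ((2:ℝ) ^ s i * ps s l t i ω' j)) j
      rw [f1, f2, g1, g2]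
    have e5 : fl (m i) (bl s l t i ω).2 = fl (m i) (bl s l t i ω').2 := e2
    show U.lab 0 (m i) (m i) (bl s l t i ω) = U.lab 0 (m i) (m i) (bl s l t i ω')
    unfold U.lab fkj
    rw [Nat.sub_self]
    have k : ∀ {v w : Fin 2 → ℝ}, fl (m i) v = fl (m i) w → ∀ j,
        fl1 (m i) (co (qa 0 0) v j) = fl1 (m i) (co (qa 0 0) w j) := by
      intro v w hvw j
      rw [co_zero, co_zero]
      exact congrFun hvw j
    rw [k e4, k e4, k e5, k e5]

/-- the label of the tubelet contains the direction -/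
theorem fn_dir : Fn (dgv m (dir l)) (BX.lab (tubes m (bl s l t))) :=
  Eventually.of_forall fun i ω ω' _ _ e => by
    have e' : U.lab 0 (m i) (m i) (bl s l t i ω) = U.lab 0 (m i) (m i) (bl s l t i ω') := e
    unfold U.lab fkj at e'
    simp only [Prod.mk.injEq, Nat.sub_self, co_zero] at e'
    obtain ⟨-, -, -, -, h0, h1⟩ := e'
    show fl (m i) (dir l i ω) = fl (m i) (dir l i ω')
    funext j
    fin_cases j
    · exact h0
    · exact h1

theorem zero_ps_pt (h : Par S n s m) (hl : LnA l) :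
    S.hc (dgv n (ps s l t)) (Sys.pr (dgv m (dir l)) (pqs n (pt l t))) = 0 := by
  refine hc_zero_fl n 3 (ps s l t) _ ?_
  filter_upwards [hl] with i h1 ω ω' hω hω' e j
  simp only [pr_apply, Prod.mk.injEq] at e
  obtain ⟨e1, e2⟩ := e
  have e3 : fl1 (n i) (t i ω') = fl1 (n i) (t i ω) := congrArg Prod.fst e2
  have e4 : |pos (l i ω') (t i ω') j - pos (l i ω) (t i ω) j| ≤ (1 / 2 : ℝ) ^ n i :=
    fl_close1 (congrArg Prod.snd e2) j
  have e5 : |(l i ω').2 j - (l i ω).2 j| ≤ (1 / 2 : ℝ) ^ m i := fl_close1 e1 j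
  have e6 : qa (s i) (t i ω') = qa (s i) (t i ω) := qa_congr (fl1_of_fl1 (h.sn i) e3)
  have e7 := fl1_close e3
  have e8 := qa_close (s i) (t i ω')
  have e9 : (1 / 2 : ℝ) ^ s i * (1 / 2) ^ m i = (1 / 2) ^ n i := by
    rw [← pow_add, h.add i]
  have key : ps s l t i ω' j - ps s l t i ω j =
      (pos (l i ω') (t i ω') j - pos (l i ω) (t i ω) j) +
      -((t i ω' - qa (s i) (t i ω')) * ((l i ω').2 j - (l i ω).2 j)) +
      -((t i ω' - t i ω) * (l i ω).2 j) := by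
    unfold ps
    rw [e6]
    unfold pos
    ring
  rw [key]
  have b1 := abs_le_of_mul e8 e5
  have b2 := abs_le_of_mul e7 ((h1 ω hω).2 j)
  rw [← abs_neg] at b1 b2
  have := abs_add3 e4 b1 b2
  push_cast
  linarith

theorem zero_ps_tb (hl : LnA l) (ht : T01 t) :
    S.hc (dgv n (ps s l t)) (Sys.pr (dg s t) (tbs n l)) = 0 := by
  refine hc_zero_fl n 3 (ps s l t) _ ?_
  filter_upwards [hl, qa_abs (s := s) ht] with i h1 h2 ω ω' hω hω' e j
  simp only [pr_apply, Prod.mk.injEq] at e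
  obtain ⟨e1, e2⟩ := e
  have e3 := (Prod.mk.inj e2).1
  have e4 := (Prod.mk.inj e2).2
  have e6 : qa (s i) (t i ω') = qa (s i) (t i ω) := qa_congr e1
  have := pos_near (j := j) (c := 0) (fl_close1 e3 j) (fl_close1 e4 j)
    (by rw [e6, sub_self, abs_zero] : |qa (s i) (t i ω') - qa (s i) (t i ω)| ≤ 0) (h2 ω' hω')
    ((h1 ω hω).2 j)
  have hp := (hp_pos (n i)).le
  push_cast
  show |pos (l i ω') (qa (s i) (t i ω')) j - pos (l i ω) (qa (s i) (t i ω)) j| ≤ _
  linarith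

theorem bl_ok (hl : LnA l) : LnA (bl s l t) := by
  filter_upwards [hl] with i hi ω hω
  refine ⟨fun j => ?_, (hi ω hω).2⟩
  show |Int.fract _| ≤ 1
  rw [abs_of_nonneg (Int.fract_nonneg _)]
  exact (Int.fract_lt_one _).le

theorem tubes_bxA (hn : ∃ c : ℝ, ∀ᶠ i in (uf : Filter ℕ), (n i : ℝ) ≤ c * S.L i)
    (hl : LnA l) : BxA (tubes n l) := by
  obtain ⟨c, hc⟩ := hn
  refine ⟨?_, c, ?_⟩
  · filter_upwards [hl] with i hi ω hω
    exact ⟨hi ω hω, by show |(0:ℝ)| ≤ 4; norm_num, le_rfl⟩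
  · filter_upwards [hc] with i hi ω _
    exact hi

/-- `h(tubelet | dir, p) = 0` -/
theorem zero_tubelet_pt (h : Par S n s m) (hl : LnA l) (ht : T01 t) :
    S.hc (BX.lab (tubes m (bl s l t))) (Sys.pr (dgv m (dir l)) (pqs n (pt l t))) = 0 := by
  refine hc_zero_left (tubes_bxA h.bdm (bl_ok hl)).tame
    ((tame_ps h.bd hl ht).pr (tame_dirv h.bdm hl)) ?_ (fn_tubelet h)
  refine hc_zero_pair (tame_ps h.bd hl ht) (tame_dirv h.bdm hl) (zero_ps_pt h hl) ?_
  exact hc_fn (Eventually.of_forall fun _ _ _ _ _ e => congrArg Prod.fst e)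

/-- `h(tubelet | l, t_s) = 0` -/
theorem zero_tubelet_tb (h : Par S n s m) (hl : LnA l) (ht : T01 t) :
    S.hc (BX.lab (tubes m (bl s l t))) (Sys.pr (dg s t) (tbs n l)) = 0 := by
  refine hc_zero_left (tubes_bxA h.bdm (bl_ok hl)).tame
    ((tame_ps h.bd hl ht).pr (tame_dirv h.bdm hl)) ?_ (fn_tubelet h)
  refine hc_zero_pair (tame_ps h.bd hl ht) (tame_dirv h.bdm hl) (zero_ps_tb hl ht) ?_
  refine hc_fn (Eventually.of_forall fun i ω ω' _ _ e => ?_)
  simp only [pr_apply, Prod.mk.injEq] at e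
  exact fl_of_fl (h.mn i) _ _ (Prod.mk.inj e.2).2

end rel

end sys

end Vale.Agent.P127.U.Fi
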