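import Vale.Agent.P127.U.Defs

/-!
# P127 / U : labels of boxes are tame (helper205)
-/

set_option autoImplicit false

namespace Vale.Agent.P127.U

open Finset Filter Topology Vale.Agent.P127 Vale.Agent.P127.Stk

theorem fl1_mem (k J c : ℕ) (x : ℝ) (hx : |x| ≤ c) (hk : k ≤ J) :
    fl1 k x ∈ Finset.Icc (-((c : ℤ) * 2 ^ J)) ((c : ℤ) * 2 ^ J) := by
  have h1 := abs_le.1 hx
  have h2 : (2 : ℝ) ^ k ≤ 2 ^ J := pow_le_pow_right₀ (by norm_num) hk
  have h3 : (0 : ℝ) < 2 ^ k := by positivity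
  have hc : (0 : ℝ) ≤ c := Nat.cast_nonneg _
  have h4 : (2 : ℝ) ^ k * c ≤ c * 2 ^ J := by nlinarith
  rw [Finset.mem_Icc]
  constructor
  · show _ ≤ ⌊(2 : ℝ) ^ k * x⌋
    rw [Int.le_floor]
    push_cast
    nlinarith
  · have h5 : (⌊(2 : ℝ) ^ k * x⌋ : ℝ) ≤ ((c : ℤ) * 2 ^ J : ℤ) := by
      refine (Int.floor_le _).trans ?_
      push_cast
      nlinarith
    have h6 : ⌊(2 : ℝ) ^ k * x⌋ ≤ (c : ℤ) * 2 ^ J := by exact_mod_cast h5
    exact h6

theorem card_Icc_aux (m : ℤ) (hm : 0 ≤ m) (N : ℕ) (h : 2 * m + 1 ≤ N) :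
    (Finset.Icc (-m) m).card ≤ N := by
  rw [Int.card_Icc]
  omega

theorem co_le (θ : ℝ) (v : Fin 2 → ℝ) {M : ℝ} (hv : ∀ i, |v i| ≤ M) (i : Fin 2) :
    |co θ v i| ≤ 2 * M := by
  have hM : 0 ≤ M := (abs_nonneg _).trans (hv 0)
  have hc := Real.abs_cos_le_one θ
  have hs := Real.abs_sin_le_one θ
  have key : ∀ a b x y : ℝ, |a| ≤ 1 → |b| ≤ 1 → |x| ≤ M → |y| ≤ M → |a * x + b * y| ≤ 2 * M := by
    intro a b x y ha hb hx hy
    have := abs_add_le (a * x) (b * y)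
    rw [abs_mul, abs_mul] at this
    have h1 : |a| * |x| ≤ 1 * M := mul_le_mul ha hx (abs_nonneg _) (by norm_num)
    have h2 : |b| * |y| ≤ 1 * M := mul_le_mul hb hy (abs_nonneg _) (by norm_num)
    linarith
  fin_cases i
  · exact key _ _ _ _ hc hs (hv 0) (hv 1)
  · exact key _ _ _ _ (by rwa [abs_neg]) hc (hv 0) (hv 1)

variable {Ω : Type} [Fintype Ω]

theorem H_le_log_finset {S : Type*} (P : Law Ω) (X : Ω → S) (N : ℕ) (F : Finset S)
    (hF : F.card ≤ N) (h : ∀ ω, 0 < P.w ω → X ω ∈ F) : P.H X ≤ Real.log N := by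
  have h1 := hc_le_log P X (fun _ => ()) N fun ω _ => ⟨F, hF, fun ω' hω' _ => h ω' hω'⟩
  have h2 : hc P X (fun _ => ()) = P.H X := by
    refine le_antisymm (hc_le_H P _ _) ?_
    unfold hc
    have g1 : P.H (fun _ : Ω => ()) ≤ Real.log (Fintype.card Unit) := P.H_le_log_card _
    simp only [Fintype.card_unit, Nat.cast_one, Real.log_one] at g1
    have g2 : P.H X ≤ P.H (fun ω => (X ω, ())) := H_mono' _ fun ω ω' _ _ e => congrArg Prod.fst e
    linarith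
  rw [← h2]
  exact h1

/-- the label of a box with precision at most `J` has at most `2^(7 (J + 4))` values -/
theorem H_lab_leT (P : Law Ω) (B : Bx Ω) (J : ℕ)
    (h : ∀ ω, 0 < P.w ω → BxOk B ω ∧ B.j ω ≤ J) :
    P.H B.lab ≤ 7 * ((J : ℝ) + 4) * Real.log 2 := by
  classical
  have h8 : (2 : ℤ) ^ J ≥ 1 := by exact_mod_cast Nat.one_le_two_pow
  have c0 : (Finset.range (J + 1)).card ≤ 2 ^ (J + 4) := by
    rw [Finset.card_range, pow_add]
    have := Nat.lt_two_pow_self (n := J)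
    omega
  have c4 : (Finset.Icc (-(((4 : ℕ) : ℤ) * 2 ^ J)) (((4 : ℕ) : ℤ) * 2 ^ J)).card ≤ 2 ^ (J + 4) := by
    refine card_Icc_aux _ (by positivity) _ ?_
    rw [pow_add]
    push_cast
    linarith
  have c2 : (Finset.Icc (-(((2 : ℕ) : ℤ) * 2 ^ J)) (((2 : ℕ) : ℤ) * 2 ^ J)).card ≤ 2 ^ (J + 4) := by
    refine card_Icc_aux _ (by positivity) _ ?_
    rw [pow_add]
    push_cast
    linarith
  set A := Finset.range (J + 1) with hA
  set I4 := Finset.Icc (-(((4 : ℕ) : ℤ) * 2 ^ J)) (((4 : ℕ) : ℤ) * 2 ^ J) with hI4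
  set I2 := Finset.Icc (-(((2 : ℕ) : ℤ) * 2 ^ J)) (((2 : ℕ) : ℤ) * 2 ^ J) with hI2
  have hcard : (A ×ˢ A ×ˢ I4 ×ˢ (I2 ×ˢ I2) ×ˢ (I2 ×ˢ I2)).card ≤ (2 ^ (J + 4)) ^ 7 := by
    simp only [Finset.card_product]
    calc A.card * (A.card * (I4.card * (I2.card * I2.card * (I2.card * I2.card))))
        ≤ 2 ^ (J + 4) * (2 ^ (J + 4) * (2 ^ (J + 4) *
          (2 ^ (J + 4) * 2 ^ (J + 4) * (2 ^ (J + 4) * 2 ^ (J + 4))))) := by
          gcongr
      _ = _ := by ring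
  have h1 := H_le_log_finset P B.lab _ _ hcard (by
    intro ω hω
    obtain ⟨⟨⟨hx, hy⟩, hθ, hkj⟩, hJ⟩ := h ω hω
    have hx2 : ∀ θ i, |co θ (B.l ω).1 i| ≤ (2 : ℕ) := by
      intro θ i
      have := co_le θ (B.l ω).1 hx i
      push_cast
      linarith
    have hy2 : ∀ θ i, |co θ (B.l ω).2 i| ≤ (2 : ℕ) := by
      intro θ i
      have := co_le θ (B.l ω).2 hy i
      push_cast
      linarith
    have hk : B.k ω ≤ J := hkj.trans hJ
    simp only [Finset.mem_product]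
    refine ⟨?_, ?_, ?_, ⟨?_, ?_⟩, ?_, ?_⟩
    · show B.k ω ∈ A
      rw [hA, Finset.mem_range]
      omega
    · show B.j ω ∈ A
      rw [hA, Finset.mem_range]
      omega
    · exact fl1_mem _ J 4 _ (by push_cast; exact hθ) ((Nat.sub_le _ _).trans hJ)
    · exact fl1_mem _ J 2 _ (hx2 _ 0) hk
    · exact fl1_mem _ J 2 _ (hx2 _ 1) hJ
    · exact fl1_mem _ J 2 _ (hy2 _ 0) hk
    · exact fl1_mem _ J 2 _ (hy2 _ 1) hJ)
  refine h1.trans (le_of_eq ?_)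
  push_cast
  rw [← pow_mul, Real.log_pow]
  push_cast
  ring

namespace Sys

variable {S : Sys}

/-- labels of boxes are tame -/
theorem tame_lab {B : S.BX} (h : BxA B) : Tame B.lab := by
  obtain ⟨h1, c, h2⟩ := h
  set c' : ℝ := max c 0 with hc'
  have hc0 : 0 ≤ c' := le_max_right _ _
  have hcc : c ≤ c' := le_max_left _ _
  refine ⟨7 * (c' + 5), ?_⟩
  filter_upwards [h1, h2, S.L_pos] with i g1 g2 hL
  have hLr : (1 : ℝ) ≤ S.L i := by exact_mod_cast hL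
  have hlog : 0 ≤ Real.log 2 := Real.log_nonneg (by norm_num)
  have g3 := H_lab_leT (S.P i) (B i) ⌈c' * S.L i⌉₊ fun ω hω => ⟨g1 ω hω, by
    have k1 := g2 ω hω
    have k2 : ((B i).j ω : ℝ) ≤ (⌈c' * S.L i⌉₊ : ℕ) := by
      refine (k1.trans ?_).trans (Nat.le_ceil _)
      exact mul_le_mul_of_nonneg_right hcc (Nat.cast_nonneg _)
    exact_mod_cast k2⟩
  have g4 : (⌈c' * S.L i⌉₊ : ℝ) < c' * S.L i + 1 := Nat.ceil_lt_add_one (by positivity)
  refine g3.trans ?_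
  have g5 : (⌈c' * S.L i⌉₊ : ℝ) + 4 ≤ (c' + 5) * S.L i := by nlinarith
  have e : 7 * (c' + 5) * S.nm i = 7 * ((c' + 5) * S.L i) * Real.log 2 := by
    unfold Sys.nm
    ring
  rw [e]
  gcongr

end Sys

end Vale.Agent.P127.U
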