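import Vale.Agent.P127.U.Blocks1
import Vale.Agent.P127.U.TameLab
import Vale.Agent.P127.Stk.BaseA

/-!
# P127 / U : basic facts (helper205)

Tameness of digits, `hc_pqs_pt` (the point of the line is known from the tube and the time),
`JS` for the point of the line.
-/

set_option autoImplicit false

namespace Vale.Agent.P127.U

open Finset Filter Topology Vale.Agent.P127 Vale.Agent.P127.Stk Sys Stk.Bs

namespace Sys

variable {S : Sys} {γ δ : Type}

/-! ### properties which hold almost everywhere -/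

theorem Ae.mono {p q : ∀ i, S.Ω i → Prop} (hp : S.Ae p) (h : ∀ i ω, p i ω → q i ω) : S.Ae q := by
  filter_upwards [hp] with i hi ω hω
  exact h i ω (hi ω hω)

theorem Ae.and {p q : ∀ i, S.Ω i → Prop} (hp : S.Ae p) (hq : S.Ae q) :
    S.Ae fun i ω => p i ω ∧ q i ω := by
  filter_upwards [hp, hq] with i hi hi' ω hω
  exact ⟨hi ω hω, hi' ω hω⟩

theorem Ae.of_all {p : ∀ i, S.Ω i → Prop} (h : ∀ i ω, p i ω) : S.Ae p :=
  Eventually.of_forall fun i ω _ => h i ω

/-! ### scales -/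

theorem Bd.nonneg_const {n : ℕ → ℕ} (h : S.Bd n) :
    ∃ C : ℝ, 0 ≤ C ∧ ∀ᶠ i in (uf : Filter ℕ), (n i : ℝ) ≤ C * S.L i := by
  obtain ⟨C, hC⟩ := h
  refine ⟨max C 0, le_max_right _ _, ?_⟩
  filter_upwards [hC] with i hi
  exact hi.trans (mul_le_mul_of_nonneg_right (le_max_left _ _) (Nat.cast_nonneg _))

theorem Bd_L : S.Bd S.L := ⟨1, Eventually.of_forall fun i => by rw [one_mul]⟩

theorem nu_L : S.nu S.L = 1 := by
  unfold nu
  refine (ulim_congr ?_).trans (ulim_const 1)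
  filter_upwards [S.L_pos] with i hi
  have : (0 : ℝ) < S.L i := by exact_mod_cast hi
  exact div_self this.ne'

theorem Bd.ub {n : ℕ → ℕ} (h : S.Bd n) : UB fun i => (n i : ℝ) / S.L i := by
  obtain ⟨C, h0, hC⟩ := h.nonneg_const
  refine UB.of_le (C := C) (Eventually.of_forall fun i => by positivity) ?_
  filter_upwards [hC, S.L_pos] with i hi hL
  have : (0 : ℝ) < S.L i := by exact_mod_cast hL
  rw [div_le_iff₀ this]
  exact hi

/-! ### tameness of digits -/

/-- digits of a bounded variable -/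
theorem tame_dg {n : ℕ → ℕ} (hn : S.Bd n) {X : S.RV ℝ} (c : ℕ) (h : S.Ae fun i ω => |X i ω| ≤ c) :
    Tame (dg n X) := by
  obtain ⟨C, hC0, hC⟩ := hn.nonneg_const
  refine ⟨C + (c + 1), ?_⟩
  filter_upwards [h, hC, S.L_pos] with i hi hni hL
  have hLr : (1 : ℝ) ≤ S.L i := by exact_mod_cast hL
  have hlog : 0 ≤ Real.log 2 := Real.log_nonneg (by norm_num)
  have g1 := H_le_log_finset (S.P i) (dg n X i) ((2 ^ (n i)) * (2 ^ (c + 1)))
    (Finset.Icc (-((c : ℤ) * 2 ^ (n i))) ((c : ℤ) * 2 ^ (n i))) (by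
      refine card_Icc_aux _ (by positivity) _ ?_
      have k1 : (c : ℤ) + 1 ≤ 2 ^ c := by
        have := Nat.lt_two_pow_self (n := c)
        exact_mod_cast this
      have k2 : (1 : ℤ) ≤ 2 ^ (n i) := by exact_mod_cast Nat.one_le_two_pow
      push_cast
      rw [pow_succ]
      nlinarith)
    fun ω hω => fl1_mem _ _ c _ (hi ω hω) le_rfl
  refine g1.trans ?_
  push_cast
  rw [← pow_add, Real.log_pow]
  push_cast
  have e : (C + (c + 1)) * S.nm i = (C + (c + 1)) * S.L i * Real.log 2 := by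
    unfold Sys.nm
    ring
  rw [e]
  have g2 : (0 : ℝ) ≤ c + 1 := by positivity
  have g3 : ((n i : ℝ) + (c + 1)) ≤ (C + (c + 1)) * S.L i := by nlinarith
  exact mul_le_mul_of_nonneg_right g3 hlog

/-- digits of a bounded vector -/
theorem tame_dgv {n : ℕ → ℕ} (hn : S.Bd n) {X : S.RV (Fin 2 → ℝ)} (c : ℕ)
    (h : S.Ae fun i ω => ∀ j, |X i ω j| ≤ c) : Tame (dgv n X) := by
  have h0 := tame_dg hn (X := fun i ω => X i ω 0) c (h.mono fun i ω g => g 0)
  have h1 := tame_dg hn (X := fun i ω => X i ω 1) c (h.mono fun i ω g => g 1)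
  refine (h0.pr h1).mono (Eventually.of_forall fun i ω ω' _ _ e => ?_)
  simp only [Sys.pr_apply, Prod.mk.injEq] at e
  funext j
  fin_cases j
  · exact e.1
  · exact e.2

theorem tame_tbs {n : ℕ → ℕ} (hn : S.Bd n) {l : S.RV Ln} (h : LnA l) : Tame (tbs n l) := by
  have h0 := tame_dgv hn (X := fun i ω => (l i ω).1) 1 (h.mono fun i ω g => by
    push_cast
    exact g.1)
  have h1 := tame_dgv hn (X := fun i ω => (l i ω).2) 1 (h.mono fun i ω g => by
    push_cast
    exact g.2)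
  exact h0.pr h1

theorem tame_dg_t {n : ℕ → ℕ} (hn : S.Bd n) {t : S.RV ℝ} (h : T01 t) : Tame (dg n t) :=
  tame_dg hn 1 (h.mono fun i ω g => by
    push_cast
    rw [abs_le]
    constructor <;> linarith [g.1, g.2])

theorem tame_pqs {n : ℕ → ℕ} (hn : S.Bd n) {q : S.RV Pt} (c : ℕ) (h : S.Ae fun i ω => |(q i ω).1| ≤ c)
    (h' : S.Ae fun i ω => ∀ j, |(q i ω).2 j| ≤ c) : Tame (pqs n q) :=
  (tame_dg hn (X := fun i ω => (q i ω).1) c h).pr (tame_dgv hn (X := fun i ω => (q i ω).2) c h')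

theorem pos_le {l : Ln} (hl : LnOk l) {t : ℝ} (h0 : 0 ≤ t) (h1 : t ≤ 1) (j : Fin 2) :
    |pos l t j| ≤ 2 := by
  unfold pos
  have g1 := abs_add_le (l.1 j) (t * l.2 j)
  have g2 := hl.1 j
  have g3 : |t * l.2 j| ≤ 1 := by
    rw [abs_mul, abs_of_nonneg h0]
    calc t * |l.2 j| ≤ 1 * 1 := mul_le_mul h1 (hl.2 j) (abs_nonneg _) (by norm_num)
      _ = 1 := by norm_num
  linarith

theorem tame_pt {n : ℕ → ℕ} (hn : S.Bd n) {l : S.RV Ln} {t : S.RV ℝ} (h : LnA l) (h' : T01 t) :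
    Tame (pqs n (pt l t)) := by
  refine tame_pqs hn 2 (h'.mono fun i ω g => ?_) ((Ae.and h h').mono fun i ω g j => ?_)
  · push_cast
    show |t i ω| ≤ 2
    rw [abs_le]
    constructor <;> linarith [g.1, g.2]
  · push_cast
    exact pos_le g.1 g.2.1 g.2.2 j

theorem tubes_ok {n : ℕ → ℕ} (hn : S.Bd n) {l : S.RV Ln} (h : LnA l) : BxA (tubes n l) := by
  obtain ⟨C, hC⟩ := hn
  refine ⟨h.mono fun i ω g => ⟨g, ?_, le_rfl⟩, C, ?_⟩
  · show |(0 : ℝ)| ≤ 4
    rw [abs_zero]
    norm_num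
  · filter_upwards [hC] with i hi ω _
    exact hi

theorem in_tubes {n : ℕ → ℕ} {l : S.RV Ln} {t : S.RV ℝ} (h' : T01 t) :
    InA (tubes n l) (pt l t) := by
  refine ⟨1, h'.mono fun i ω g => ⟨g.1, g.2, ?_, ?_⟩⟩
  · have e : (fun j => (pt l t i ω).2 j - pos (((tubes n l) i).l ω) (pt l t i ω).1 j) =
        fun _ => (0 : ℝ) := by
      funext j
      show pos (l i ω) (t i ω) j - pos (l i ω) (t i ω) j = 0
      ring
    rw [e]
    have e2 : co (((tubes n l) i).θ ω) (fun _ => (0 : ℝ)) 0 = 0 := by simp [co]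
    rw [e2, abs_zero]
    positivity
  · have e : (fun j => (pt l t i ω).2 j - pos (((tubes n l) i).l ω) (pt l t i ω).1 j) =
        fun _ => (0 : ℝ) := by
      funext j
      show pos (l i ω) (t i ω) j - pos (l i ω) (t i ω) j = 0
      ring
    rw [e]
    have e2 : co (((tubes n l) i).θ ω) (fun _ => (0 : ℝ)) 1 = 0 := by simp [co]
    rw [e2, abs_zero]
    positivity

/-- the point of the line at precision `n` is known from the tube and the digits of the time -/
theorem hc_pqs_zero {n : ℕ → ℕ} {l : S.RV Ln} {t : S.RV ℝ} (hl : LnA l)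
    (ht : T01 t) {C : S.RV γ} :
    S.hc (pqs n (pt l t)) (Sys.pr (dg n t) (Sys.pr (tbs n l) C)) = 0 := by
  refine hc_zero_of_le (2 * Real.log 9) ?_
  filter_upwards [hl, ht] with i hl ht
  have h1 := hc_fl_diam (S.P i) (n i) 3 (fun ω => pos (l i ω) (t i ω))
    (fun ω => (fl1 (n i) (t i ω), tb (n i) (l i ω), C i ω)) (by
      intro ω ω' hω hω' e j
      simp only [Prod.mk.injEq, tb] at e
      obtain ⟨e1, ⟨e2, e3⟩, -⟩ := e
      have g1 := fl1_close e1
      have g2 := fl_close e2 j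
      have g3 := fl_close e3 j
      unfold pos
      have e4 : (l i ω).1 j + t i ω * (l i ω).2 j - ((l i ω').1 j + t i ω' * (l i ω').2 j) =
          ((l i ω).1 j - (l i ω').1 j) + t i ω * ((l i ω).2 j - (l i ω').2 j) +
          (t i ω - t i ω') * (l i ω').2 j := by ring
      rw [e4]
      have b1 : |t i ω * ((l i ω).2 j - (l i ω').2 j)| ≤ (1 / 2) ^ n i := by
        rw [abs_mul, abs_of_nonneg (ht ω hω).1]
        calc t i ω * |(l i ω).2 j - (l i ω').2 j| ≤ 1 * (1 / 2) ^ n i :=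
              mul_le_mul (ht ω hω).2 g3 (abs_nonneg _) (by norm_num)
          _ = _ := one_mul _
      have b2 : |(t i ω - t i ω') * (l i ω').2 j| ≤ (1 / 2) ^ n i := by
        rw [abs_mul]
        calc |t i ω - t i ω'| * |(l i ω').2 j| ≤ (1 / 2) ^ n i * 1 :=
              mul_le_mul g1 ((hl ω' hω').2 j) (abs_nonneg _) (by positivity)
          _ = _ := mul_one _
      have c1 := abs_add_le ((l i ω).1 j - (l i ω').1 j + t i ω * ((l i ω).2 j - (l i ω').2 j))
        ((t i ω - t i ω') * (l i ω').2 j)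
      have c2 := abs_add_le ((l i ω).1 j - (l i ω').1 j) (t i ω * ((l i ω).2 j - (l i ω').2 j))
      push_cast
      linarith)
  simp only [Fintype.card_fin] at h1
  norm_num at h1
  refine le_trans (Stk.hc_mono_left _ ?_) h1
  intro ω ω' _ _ e
  have e1 := congrArg Prod.fst e
  have e2 := congrArg (fun q => q.2.1) e
  exact Prod.ext e2 e1

theorem hc_pqs_pt {n : ℕ → ℕ} (hn : S.Bd n) {l : S.RV Ln} {t : S.RV ℝ} (hl : LnA l)
    (ht : T01 t) {C : S.RV γ} :
    S.hc (pqs n (pt l t)) (Sys.pr (tbs n l) C) = S.hc (dg n t) (Sys.pr (tbs n l) C) := by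
  have T1 := tame_pt hn hl ht
  have T2 := tame_dg_t hn ht
  refine le_antisymm ?_ ?_
  · have h1 := hc_le_add T1 T2 (Sys.pr (tbs n l) C)
    rw [hc_pqs_zero hl ht, zero_add] at h1
    exact h1
  · exact hc_mono_left T1 T2 (Eventually.of_forall fun i ω ω' _ _ e =>
      congrArg (fun q => q.1.1) e)

/-- drop the trivial condition -/
theorem hc_one_right {α : Type*} {X : S.RV α} {δ : Type*} {Y : S.RV δ} :
    S.hc X (Sys.pr Y (one (S := S))) = S.hc X Y :=
  hc_congr (Eventually.of_forall fun _ _ _ _ _ e => congrArg Prod.fst e)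
    (Eventually.of_forall fun _ _ _ _ _ e => congrArg Prod.fst e)
    (Eventually.of_forall fun _ _ _ _ _ e => Prod.ext e rfl)
    (Eventually.of_forall fun _ _ _ _ _ e => congrArg Prod.fst e)

end Sys

/-- the inequality for the point of the line, full precision, no condition -/
theorem JS.line {N β : ℝ} (h : JS N β) {S : Sys} {l : S.RV Ln} {t : S.RV ℝ} (hl : LnA l)
    (ht : T01 t) :
    S.hc (tbs S.L l) (pqs S.L (pt l t)) ≤
      β + S.exc (tubes S.L l) (one (S := S)) + N * Df l t S.L := by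
  have h1 := h S Unit (one (S := S)) l (pt l t) S.L Bd_L hl (in_tubes ht)
  rw [hc_pqs_pt Bd_L hl ht, hc_one_right, hc_one_right, nu_L, mul_one] at h1
  unfold Df
  rw [nu_L]
  exact h1

theorem Dmn.ae {S S' : Sys} (d : Dmn S' S) {p : ∀ i, S.Ω i → Prop} (h : S.Ae p) :
    S'.Ae fun i ω => p i (d.π i ω) := by
  filter_upwards [h, d.dom] with i hi hd ω hω
  refine hi _ ?_
  have h1 : 0 < (S'.P i).pr (d.π i) (d.π i ω) := (S'.P i).pr_pos _ hω
  have h2 := hd (d.π i ω)
  rcases ((S.P i).nn (d.π i ω)).eq_or_lt with h0 | h0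
  · rw [← h0, mul_zero] at h2
    linarith
  · exact h0

end Vale.Agent.P127.U
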