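import Vale.Agent.P127.U.Blocks1

/-!
# P127 / U : approximate determination (helper572)

* `hc_cmp` : `H(X | Z) ≤ H(X' | Z') + H(X | X', Z) + H(Z' | Z)`
* `hc_fl_apx` : digits of a vector which is known up to `M 2^-s`
* `hc_fl1_apx` : the same for numbers
* `tame_fl`, `tame_fl1` : digits of bounded variables
* `hc_cmp_sys` : comparison for systems, up to constants
-/

set_option autoImplicit false

namespace Vale.Agent.P127.U.Apx

open Filter Topology Vale.Agent.P127 Vale.Agent.P127.Stk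

section finite

variable {Ω : Type} [Fintype Ω] {α β γ δ : Type*} (P : Law Ω)

theorem hc_cmp (X : Ω → α) (X' : Ω → β) (Z : Ω → γ) (Z' : Ω → δ) :
    hc P X Z ≤ hc P X' Z' + hc P X (fun ω => (X' ω, Z ω)) + hc P Z' Z := by
  have h1 := hc_le_add P X X' Z
  have h2 := hc_le_add' P X' Z' Z
  have h3 : hc P X' (fun ω => (Z' ω, Z ω)) ≤ hc P X' Z' :=
    hc_mono_right P X' (fun ω ω' _ _ e => congrArg Prod.fst e)
  linarith

theorem hc_pair_le (X : Ω → α) (Y : Ω → β) (Z : Ω → γ) :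
    hc P (fun ω => (X ω, Y ω)) Z ≤ hc P X Z + hc P Y Z := by
  rw [hc_pair]
  have : hc P Y (fun ω => (X ω, Z ω)) ≤ hc P Y Z :=
    hc_mono_right P Y (fun ω ω' _ _ e => congrArg Prod.snd e)
  linarith

/-- `Y` is known up to few values -/
theorem hc_via (X : Ω → α) (Y : Ω → β) (Z : Ω → γ) :
    hc P X Z ≤ hc P X (fun ω => (Y ω, Z ω)) + hc P Y Z := hc_le_add' P X Y Z

/-- the digits of a vector which is known up to `M 2^-s` -/
theorem hc_fl_apx {ι : Type} [Fintype ι] (s M : ℕ) (v : Ω → ι → ℝ) (Z : Ω → γ)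
    (h : ∀ ω ω', 0 < P.w ω → 0 < P.w ω' → Z ω = Z ω' → ∀ i, |v ω i - v ω' i| ≤ M * (1 / 2 : ℝ) ^ s) :
    hc P (fun ω => fl s (v ω)) Z ≤ Fintype.card ι * Real.log (2 * M + 3) := by
  classical
  have h1 : hc P (fun ω => fl s (v ω)) Z ≤
      Real.log (((2 * (M + 1) + 1) ^ Fintype.card ι : ℕ) : ℝ) := by
    refine hc_le_log P _ _ _ fun ω hω => ?_
    refine ⟨Fintype.piFinset fun i => Finset.Icc (fl s (v ω) i - (M + 1)) (fl s (v ω) i + (M + 1)), ?_, ?_⟩
    · rw [Fintype.card_piFinset]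
      have : ∀ i, (Finset.Icc (fl s (v ω) i - ((M : ℤ) + 1)) (fl s (v ω) i + ((M : ℤ) + 1))).card =
          2 * (M + 1) + 1 := by
        intro i
        rw [Int.card_Icc]
        omega
      simp only [this, Finset.prod_const, Finset.card_univ]
      exact le_rfl
    · intro ω' hω' e
      rw [Fintype.mem_piFinset]
      intro i
      have h2 := abs_le.1 (fl_sub_le (h ω' ω hω' hω e) i)
      rw [Finset.mem_Icc]
      constructor <;> linarith [h2.1, h2.2]
  refine h1.trans (le_of_eq ?_)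
  push_cast
  rw [Real.log_pow]
  congr 2
  ring

theorem hc_fl1_apx (s M : ℕ) (v : Ω → ℝ) (Z : Ω → γ)
    (h : ∀ ω ω', 0 < P.w ω → 0 < P.w ω' → Z ω = Z ω' → |v ω - v ω'| ≤ M * (1 / 2 : ℝ) ^ s) :
    hc P (fun ω => fl1 s (v ω)) Z ≤ Real.log (2 * M + 3) := by
  have h1 := hc_fl_apx P (ι := Unit) s M (fun ω _ => v ω) Z (fun ω ω' p p' e _ => h ω ω' p p' e)
  have h2 : hc P (fun ω => fl1 s (v ω)) Z = hc P (fun ω => fl s (fun _ : Unit => v ω)) Z := by
    refine hc_congr P ?_ ?_ (fun _ _ _ _ e => e) (fun _ _ _ _ e => e)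
    · intro ω ω' _ _ e
      exact congrFun (congrArg Prod.fst e) ()
    · intro ω ω' _ _ e
      funext i
      exact congrArg Prod.fst e
  rw [h2]
  refine h1.trans (le_of_eq ?_)
  simp

/-- two numbers with the same digits are close -/
theorem fl1_close {s : ℕ} {x y : ℝ} (h : fl1 s x = fl1 s y) : |x - y| ≤ (1 / 2 : ℝ) ^ s := by
  have h1 : ⌊(2 : ℝ) ^ s * x⌋ = ⌊(2 : ℝ) ^ s * y⌋ := h
  have a1 := Int.floor_le ((2 : ℝ) ^ s * x)
  have a2 := Int.lt_floor_add_one ((2 : ℝ) ^ s * x)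
  have b1 := Int.floor_le ((2 : ℝ) ^ s * y)
  have b2 := Int.lt_floor_add_one ((2 : ℝ) ^ s * y)
  rw [h1] at a1 a2
  have hp : (0 : ℝ) < 2 ^ s := by positivity
  have h3 : (2 : ℝ) ^ s * |x - y| ≤ 1 := by
    rw [← abs_of_pos hp, ← abs_mul, mul_sub, abs_le]
    constructor <;> linarith
  rw [one_div, inv_pow, ← one_div, le_div_iff₀ hp]
  linarith

theorem fl_close {ι : Type} {s : ℕ} {v w : ι → ℝ} (h : fl s v = fl s w) (i : ι) :
    |v i - w i| ≤ (1 / 2 : ℝ) ^ s := fl1_close (congrFun h i)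

theorem fl1_of_fl1 {s s' : ℕ} (h : s ≤ s') {x y : ℝ} (hv : fl1 s' x = fl1 s' y) : fl1 s x = fl1 s y := by
  have := congrFun (fl_of_fl (ι := Unit) h (fun _ => x) (fun _ => y) (funext fun _ => hv)) ()
  exact this

/-- the rounded number -/
theorem qa_le (s : ℕ) (x : ℝ) : qa s x ≤ x := by
  unfold qa fl1
  rw [div_le_iff₀ (by positivity)]
  have := Int.floor_le ((2 : ℝ) ^ s * x)
  linarith

theorem lt_qa (s : ℕ) (x : ℝ) : x < qa s x + (1 / 2 : ℝ) ^ s := by
  unfold qa fl1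
  have := Int.lt_floor_add_one ((2 : ℝ) ^ s * x)
  have hp : (0 : ℝ) < 2 ^ s := by positivity
  rw [one_div, inv_pow, ← one_div, ← add_div, lt_div_iff₀ hp]
  linarith

theorem abs_sub_qa (s : ℕ) (x : ℝ) : |x - qa s x| ≤ (1 / 2 : ℝ) ^ s := by
  have h1 := qa_le s x
  have h2 := lt_qa s x
  rw [abs_le]
  have : (0 : ℝ) < (1 / 2) ^ s := by positivity
  constructor <;> linarith

theorem qa_congr {s : ℕ} {x y : ℝ} (h : fl1 s x = fl1 s y) : qa s x = qa s y := by
  unfold qa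
  rw [h]

theorem qa_mul (s : ℕ) (x : ℝ) : (2 : ℝ) ^ s * qa s x = ⌊(2 : ℝ) ^ s * x⌋ := by
  unfold qa fl1
  field_simp

theorem pos_sub (l : Ln) (t u : ℝ) (i : Fin 2) : pos l t i - pos l u i = (t - u) * l.2 i := by
  unfold pos
  ring

end finite

section systems

variable {S : Sys} {α β γ δ : Type*}

theorem tame_fl {ι : Type} [Fintype ι] {n : ℕ → ℕ} (hn : S.Bd n) {v : S.RV (ι → ℝ)} {M : ℕ}
    (h : S.Ae fun i ω => ∀ j, |v i ω j| ≤ M) : Sys.Tame (fun i ω => fl (n i) (v i ω) : S.RV (ι → ℤ)) := by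
  obtain ⟨c, hc⟩ := hn
  have hl : 0 < Real.log 2 := Real.log_pos (by norm_num)
  refine ⟨Fintype.card ι * (c + (Real.log (4 * M + 3) / Real.log 2)), ?_⟩
  filter_upwards [hc, h, S.L_pos] with i h1 h2 h3
  have h4 : (1:ℝ) ≤ S.L i := by exact_mod_cast h3
  have k1 := hc_fl_apx (S.P i) (n i) (2 * M * 2 ^ n i) (v i) (fun _ => ()) (by
    intro ω ω' p p' _ j
    have a := h2 ω p j
    have b := h2 ω' p' j
    have : |v i ω j - v i ω' j| ≤ 2 * M := by
      calc |v i ω j - v i ω' j| ≤ |v i ω j| + |v i ω' j| := abs_sub _ _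
        _ ≤ 2 * M := by linarith
    push_cast
    rw [one_div, inv_pow, mul_assoc, mul_inv_cancel₀ (by positivity), mul_one]
    exact this)
  have k2 : (S.P i).H (fun ω => fl (n i) (v i ω)) = Stk.hc (S.P i) (fun ω => fl (n i) (v i ω)) (fun _ => ()) := by
    unfold Stk.hc
    have e1 : (S.P i).H (fun _ => ()) = 0 := by
      have := Stk.hc_zero (S.P i) (X := fun _ => ()) (Y := fun _ => ()) (fun _ _ _ _ _ => rfl)
      unfold Stk.hc at this
      have e2 : (S.P i).H (fun _ : S.Ω i => ((), ())) = (S.P i).H (fun _ => ()) :=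
        Stk.H_congr' (S.P i) (fun _ _ _ _ _ => rfl) (fun _ _ _ _ _ => rfl)
      have e3 := Law.H_le_log_card (S.P i) (F := Unit) (fun _ => ())
      simp at e3
      exact le_antisymm e3 ((S.P i).H_nonneg _)
    rw [e1, sub_zero]
    exact Stk.H_congr' (S.P i) (fun ω ω' _ _ e => Prod.ext e rfl) (fun ω ω' _ _ e => congrArg Prod.fst e)
  have k3 : Real.log (2 * ((2 * M * 2 ^ n i : ℕ) : ℝ) + 3) ≤ n i * Real.log 2 + Real.log (4 * M + 3) := by
    rw [← Real.log_pow, ← Real.log_mul (by positivity) (by positivity)]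
    apply Real.log_le_log (by positivity)
    push_cast
    have : (1:ℝ) ≤ 2 ^ n i := one_le_pow₀ (by norm_num)
    nlinarith
  have hM : 0 ≤ Real.log (4 * M + 3) := Real.log_nonneg (by
    have : (0:ℝ) ≤ M := Nat.cast_nonneg _
    linarith)
  show (S.P i).H (fun ω => fl (n i) (v i ω)) ≤ _
  rw [k2]
  refine k1.trans ?_
  unfold Sys.nm
  have k4 : (n i : ℝ) * Real.log 2 ≤ c * S.L i * Real.log 2 := by gcongr
  have k5 : Real.log (4 * M + 3) ≤ (Real.log (4 * M + 3) / Real.log 2) * (S.L i * Real.log 2) := by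
    rw [div_mul_eq_mul_div, le_div_iff₀ hl]
    nlinarith [mul_nonneg (mul_nonneg hM hl.le) (sub_nonneg.2 h4)]
  calc (Fintype.card ι : ℝ) * Real.log (2 * ((2 * M * 2 ^ n i : ℕ) : ℝ) + 3)
      ≤ Fintype.card ι * (c * S.L i * Real.log 2 + (Real.log (4 * M + 3) / Real.log 2) * (S.L i * Real.log 2)) := by
        gcongr
        linarith
    _ = _ := by ring

theorem tame_fl1 {n : ℕ → ℕ} (hn : S.Bd n) {v : S.RV ℝ} {M : ℕ}
    (h : S.Ae fun i ω => |v i ω| ≤ M) : Sys.Tame (fun i ω => fl1 (n i) (v i ω) : S.RV ℤ) := by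
  have h1 := tame_fl (S := S) (ι := Unit) hn (v := fun i ω _ => v i ω) (M := M) (by
    filter_upwards [h] with i hi ω hω _
    exact hi ω hω)
  exact h1.mono (Eventually.of_forall fun i ω ω' _ _ e => congrFun e ())

theorem tame_dg {n : ℕ → ℕ} (hn : S.Bd n) {t : S.RV ℝ} (ht : Sys.T01 t) : Sys.Tame (Sys.dg n t) :=
  tame_fl1 (M := 1) hn (by
    filter_upwards [ht] with i hi ω hω
    obtain ⟨a, b⟩ := hi ω hω
    rw [abs_of_nonneg a]
    exact_mod_cast b)

theorem tame_dir {n : ℕ → ℕ} (hn : S.Bd n) {l : S.RV Ln} (hl : Sys.LnA l) :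
    Sys.Tame (Sys.dgv n (Sys.dir l)) :=
  tame_fl (M := 1) hn (by
    filter_upwards [hl] with i hi ω hω j
    have := (hi ω hω).2 j
    exact_mod_cast this)

theorem tame_tbs {n : ℕ → ℕ} (hn : S.Bd n) {l : S.RV Ln} (hl : Sys.LnA l) :
    Sys.Tame (Sys.tbs n l) := by
  have h1 : Sys.Tame (fun i ω => fl (n i) (l i ω).1 : S.RV (Fin 2 → ℤ)) :=
    tame_fl (M := 1) hn (by
      filter_upwards [hl] with i hi ω hω j
      have := (hi ω hω).1 j
      exact_mod_cast this)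
  exact (h1.pr (tame_dir hn hl)).mono (Eventually.of_forall fun i ω ω' _ _ e => e)

theorem tame_pqs {n : ℕ → ℕ} (hn : S.Bd n) {q : S.RV Pt} {M : ℕ}
    (h : S.Ae fun i ω => |(q i ω).1| ≤ M ∧ ∀ j, |(q i ω).2 j| ≤ M) : Sys.Tame (Sys.pqs n q) := by
  have h1 : Sys.Tame (fun i ω => fl1 (n i) (q i ω).1 : S.RV ℤ) :=
    tame_fl1 (M := M) hn (by
      filter_upwards [h] with i hi ω hω
      exact (hi ω hω).1)
  have h2 : Sys.Tame (fun i ω => fl (n i) (q i ω).2 : S.RV (Fin 2 → ℤ)) :=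
    tame_fl (M := M) hn (by
      filter_upwards [h] with i hi ω hω
      exact (hi ω hω).2)
  exact (h1.pr h2).mono (Eventually.of_forall fun i ω ω' _ _ e => e)

theorem abs_pos_le {l : Ln} (hl : LnOk l) {t : ℝ} (h0 : 0 ≤ t) (h1 : t ≤ 1) (j : Fin 2) : |pos l t j| ≤ 2 := by
  unfold pos
  calc |l.1 j + t * l.2 j| ≤ |l.1 j| + |t * l.2 j| := abs_add_le _ _
    _ ≤ 1 + 1 * 1 := by
        rw [abs_mul, abs_of_nonneg h0]
        have := hl.1 j
        have := hl.2 j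
        gcongr
    _ = 2 := by norm_num

theorem tame_pt {n : ℕ → ℕ} (hn : S.Bd n) {l : S.RV Ln} {t : S.RV ℝ} (hl : Sys.LnA l) (ht : Sys.T01 t) :
    Sys.Tame (Sys.pqs n (Sys.pt l t)) :=
  tame_pqs (M := 2) hn (by
    filter_upwards [hl, ht] with i h1 h2 ω hω
    obtain ⟨a, b⟩ := h2 ω hω
    refine ⟨?_, fun j => ?_⟩
    · show |t i ω| ≤ _
      rw [abs_of_nonneg a]
      push_cast
      linarith
    · have := abs_pos_le (h1 ω hω) a b j
      exact_mod_cast this)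

/-- comparison for systems, up to constants -/
theorem hc_cmp_sys {X : S.RV α} {X' : S.RV β} {Z : S.RV γ} {Z' : S.RV δ} (hX : Sys.Tame X) (hX' : Sys.Tame X')
    (c : ℝ) (h : ∀ᶠ i in (uf : Filter ℕ), Stk.hc (S.P i) (X i) (fun ω => (X' i ω, Z i ω)) +
      Stk.hc (S.P i) (Z' i) (Z i) ≤ c) : S.hc X Z ≤ S.hc X' Z' :=
  Sys.hc_le_of_le c hX hX' (by
    filter_upwards [h] with i hi
    have := hc_cmp (S.P i) (X i) (X' i) (Z i) (Z' i)
    linarith)

theorem UB.nu {n : ℕ → ℕ} (hn : S.Bd n) : UB fun i => (n i : ℝ) / S.L i := by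
  obtain ⟨c, hc⟩ := hn
  refine UB.of_le (C := c) (Eventually.of_forall fun i => by positivity) ?_
  filter_upwards [hc, S.L_pos] with i h1 h2
  have : (0:ℝ) < S.L i := by exact_mod_cast h2
  rw [div_le_iff₀ this]
  exact h1

theorem bd_mono {n s : ℕ → ℕ} (hn : S.Bd n) (h : ∀ i, s i ≤ n i) : S.Bd s := by
  obtain ⟨c, hc⟩ := hn
  refine ⟨c, ?_⟩
  filter_upwards [hc] with i hi
  have : (s i : ℝ) ≤ n i := by exact_mod_cast h i
  linarith

theorem nu_sub {n s : ℕ → ℕ} (hn : S.Bd n) (h : ∀ i, s i ≤ n i) :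
    S.nu (fun i => n i - s i) = S.nu n - S.nu s := by
  unfold Sys.nu
  rw [← ulim_sub (UB.nu hn) (UB.nu (bd_mono hn h))]
  refine ulim_congr (Eventually.of_forall fun i => ?_)
  simp only
  rw [Nat.cast_sub (h i)]
  ring

end systems

end Vale.Agent.P127.U.Apx
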