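import Vale.Agent.P127.U.ExcB
import Vale.Agent.P127.U.ApxS
import Vale.Agent.P127.H205.CntA

/-!
# P127 / U : block C1, the planar Cordoba inequality for any shading (helper630)
-/

set_option autoImplicit false

namespace Vale.Agent.P127.U.C1

open Filter Topology Vale.Agent.P127 Vale.Agent.P127.Stk

/-! ### the level of a number -/

open Classical in
/-- the greatest `k ≤ n` with `M ≤ 2 * 2^-k` -/
noncomputable def lev (n : ℕ) (M : ℝ) : ℕ :=
  Nat.findGreatest (fun k => M ≤ 2 * (1 / 2 : ℝ) ^ k) n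

theorem lev_le (n : ℕ) (M : ℝ) : lev n M ≤ n := Nat.findGreatest_le n

theorem le_lev {n : ℕ} {M : ℝ} (hM : M ≤ 2) : M ≤ 2 * (1 / 2 : ℝ) ^ lev n M := by
  classical
  exact Nat.findGreatest_spec (P := fun k => M ≤ 2 * (1 / 2 : ℝ) ^ k) (Nat.zero_le n) (by simpa using hM)

theorem lev_lt {n : ℕ} {M : ℝ} (h : lev n M < n) : (1 / 2 : ℝ) ^ lev n M < M := by
  classical
  have h1 : ¬ (M ≤ 2 * (1 / 2 : ℝ) ^ (lev n M + 1)) :=
    Nat.findGreatest_is_greatest (P := fun k => M ≤ 2 * (1 / 2 : ℝ) ^ k) (Nat.lt_succ_self _) h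
  rw [pow_succ] at h1
  have := not_le.1 h1
  linarith

/-- relative angle of two lines -/
noncomputable def ang (l l' : Ln) : ℝ := max |l.2 0 - l'.2 0| |l.2 1 - l'.2 1|

theorem le_ang (l l' : Ln) (j : Fin 2) : |l.2 j - l'.2 j| ≤ ang l l' := by
  fin_cases j
  · exact le_max_left _ _
  · exact le_max_right _ _

theorem ang_le {l l' : Ln} (h : LnOk l) (h' : LnOk l') : ang l l' ≤ 2 := by
  have key : ∀ j, |l.2 j - l'.2 j| ≤ 2 := by
    intro j
    have := abs_sub (l.2 j) (l'.2 j)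
    have := h.2 j
    have := h'.2 j
    linarith
  exact max_le (key 0) (key 1)

theorem exists_ang (l l' : Ln) : ∃ j, |l.2 j - l'.2 j| = ang l l' := by
  rcases max_choice |l.2 0 - l'.2 0| |l.2 1 - l'.2 1| with h | h
  · exact ⟨0, h.symm⟩
  · exact ⟨1, h.symm⟩

/-! ### geometry -/

theorem half_anti {a b : ℕ} (h : a ≤ b) : (1 / 2 : ℝ) ^ b ≤ (1 / 2) ^ a :=
  pow_le_pow_of_le_one (by norm_num) (by norm_num) h

theorem half_pos' (n : ℕ) : (0 : ℝ) < (1 / 2) ^ n := by positivity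

/-- two lines through the same point -/
theorem meet {n : ℕ} {l l' : Ln} {t t' : ℝ} (hl' : LnOk l')
    (e1 : fl1 n t = fl1 n t') (e2 : fl n (pos l t) = fl n (pos l' t')) (j : Fin 2) :
    |(l.1 j - l'.1 j) + t * (l.2 j - l'.2 j)| ≤ 2 * (1 / 2 : ℝ) ^ n := by
  have a1 := U.fl1_close e1
  have a2 := Apx.fl_close e2 j
  have e : (l.1 j - l'.1 j) + t * (l.2 j - l'.2 j) =
      (pos l t j - pos l' t' j) - (t - t') * l'.2 j := by
    unfold pos
    ring
  rw [e]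
  have a3 : |(t - t') * l'.2 j| ≤ (1 / 2 : ℝ) ^ n := by
    rw [abs_mul]
    calc |t - t'| * |l'.2 j| ≤ (1 / 2 : ℝ) ^ n * 1 :=
          mul_le_mul a1 (hl'.2 j) (abs_nonneg _) (half_pos' n).le
      _ = _ := mul_one _
  have := abs_sub (pos l t j - pos l' t' j) ((t - t') * l'.2 j)
  linarith

/-- two lines through the same point at distance `2^-g` -/
theorem close_of_meet {n : ℕ} {l l' : Ln} {t t' : ℝ} (hl : LnOk l) (hl' : LnOk l')
    (h0 : 0 ≤ t) (h1 : t ≤ 1)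
    (e1 : fl1 n t = fl1 n t') (e2 : fl n (pos l t) = fl n (pos l' t')) (j : Fin 2) :
    |l.1 j - l'.1 j| ≤ 4 * (1 / 2 : ℝ) ^ lev n (ang l l') ∧
    |l.2 j - l'.2 j| ≤ 4 * (1 / 2 : ℝ) ^ lev n (ang l l') := by
  set g := lev n (ang l l') with hg
  have a1 := meet hl' e1 e2 j
  have a2 : |l.2 j - l'.2 j| ≤ 2 * (1 / 2 : ℝ) ^ g := (le_ang l l' j).trans (le_lev (ang_le hl hl'))
  have a3 : |t * (l.2 j - l'.2 j)| ≤ 2 * (1 / 2 : ℝ) ^ g := by
    rw [abs_mul, abs_of_nonneg h0]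
    calc t * |l.2 j - l'.2 j| ≤ 1 * (2 * (1 / 2 : ℝ) ^ g) :=
          mul_le_mul h1 a2 (abs_nonneg _) (by norm_num)
      _ = _ := one_mul _
  have a4 := half_anti (lev_le n (ang l l'))
  rw [← hg] at a4
  have a5 := half_pos' g
  constructor
  · have e : l.1 j - l'.1 j = ((l.1 j - l'.1 j) + t * (l.2 j - l'.2 j)) - t * (l.2 j - l'.2 j) := by
      ring
    rw [e]
    have := abs_sub ((l.1 j - l'.1 j) + t * (l.2 j - l'.2 j)) (t * (l.2 j - l'.2 j))
    linarith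
  · linarith

/-- change of the frame for the difference of two lines in the same slab -/
theorem frame_slab {θ θ' : ℝ} {n g : ℕ} (hg : g ≤ n) {v w : Fin 2 → ℝ}
    (hθ : fl1 (n - 0) θ = fl1 (n - 0) θ')
    (h : fkj 0 n (co (qa (n - 0) θ) v) = fkj 0 n (co (qa (n - 0) θ') w))
    (hvw : ∀ j, |v j - w j| ≤ 4 * (1 / 2 : ℝ) ^ g) :
    |(fkj g n (co (qa (n - g) θ) v)).1 - (fkj g n (co (qa (n - g) θ') w)).1| ≤ (18 : ℕ) ∧
    |(fkj g n (co (qa (n - g) θ) v)).2 - (fkj g n (co (qa (n - g) θ') w)).2| ≤ (18 : ℕ) := by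
  rw [Nat.sub_zero] at hθ h
  have hq : qa n θ = qa n θ' := Apx.qa_congr hθ
  have hq' : qa (n - g) θ = qa (n - g) θ' := Apx.qa_congr (Apx.fl1_of_fl1 (Nat.sub_le n g) hθ)
  rw [← hq] at h
  rw [← hq']
  set φ := qa n θ with hφ
  set χ := qa (n - g) θ with hχ
  unfold fkj at h
  rw [Prod.mk.injEq] at h
  have u1 := U.fl1_close h.2
  rw [← co_sub] at u1
  have b0 : |co φ (fun j => v j - w j) 0| ≤ 8 * (1 / 2 : ℝ) ^ g := by
    have := abs_co_le (θ := φ) hvw 0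
    linarith
  have c0 : |co χ (fun j => v j - w j) 0| ≤ 8 * (1 / 2 : ℝ) ^ g := by
    have := abs_co_le (θ := χ) hvw 0
    linarith
  have hs : |Real.sin (χ - φ)| ≤ 2 * (1 / 2 : ℝ) ^ (n - g) := by
    have a1 := qa_close (n - g) θ
    have a2 := qa_close n θ
    have a3 : (1 / 2 : ℝ) ^ n ≤ (1 / 2) ^ (n - g) := half_anti (Nat.sub_le n g)
    have e : χ - φ = (θ - φ) - (θ - χ) := by ring
    have a4 : |χ - φ| ≤ |θ - φ| + |θ - χ| := by
      rw [e]
      exact abs_sub _ _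
    have a5 : |Real.sin (χ - φ)| ≤ |χ - φ| := Real.abs_sin_le_abs
    linarith
  have c1 : |co χ (fun j => v j - w j) 1| ≤ 17 * (1 / 2 : ℝ) ^ n := by
    rw [co_rot1 φ χ]
    have e5 : (1 / 2 : ℝ) ^ (n - g) * (1 / 2) ^ g = (1 / 2) ^ n := by
      rw [← pow_add]; congr 1; omega
    have hc := Real.abs_cos_le_one (χ - φ)
    calc |-Real.sin (χ - φ) * co φ (fun j => v j - w j) 0 +
          Real.cos (χ - φ) * co φ (fun j => v j - w j) 1|
        ≤ |Real.sin (χ - φ)| * |co φ (fun j => v j - w j) 0| +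
          |Real.cos (χ - φ)| * |co φ (fun j => v j - w j) 1| := by
          refine (abs_add_le _ _).trans ?_
          rw [abs_mul, abs_mul, abs_neg]
      _ ≤ (2 * (1 / 2 : ℝ) ^ (n - g)) * (8 * (1 / 2 : ℝ) ^ g) + 1 * (1 / 2) ^ n :=
          add_le_add (mul_le_mul hs b0 (abs_nonneg _) (by positivity))
            (mul_le_mul hc u1 (abs_nonneg _) (by norm_num))
      _ = 16 * ((1 / 2 : ℝ) ^ (n - g) * (1 / 2) ^ g) + (1 / 2) ^ n := by ring
      _ = 17 * (1 / 2) ^ n := by rw [e5]; ring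
  rw [co_sub] at c0 c1
  have d0 := U.fl1_sub_le (m := g) (N := 8) (by push_cast; exact c0)
  have d1 := U.fl1_sub_le (m := n) (N := 17) (by push_cast; exact c1)
  push_cast at d0 d1 ⊢
  exact ⟨by simp only [fkj]; linarith, by simp only [fkj]; linarith⟩

/-- the boxes of two lines in the same slab through the same point -/
theorem lab_meet {n : ℕ} {l l' : Ln} {t t' θ θ' : ℝ} (hl : LnOk l) (hl' : LnOk l')
    (h0 : 0 ≤ t) (h1 : t ≤ 1)
    (e1 : fl1 n t = fl1 n t') (e2 : fl n (pos l t) = fl n (pos l' t'))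
    (hs : lab θ 0 n l = lab θ' 0 n l') :
    LabCl 18 (lab θ (lev n (ang l l')) n l) (lab θ' (lev n (ang l l')) n l') := by
  have hc := close_of_meet hl hl' h0 h1 e1 e2
  set g := lev n (ang l l') with hg
  have hgn : g ≤ n := lev_le _ _
  unfold lab at hs ⊢
  simp only [Prod.mk.injEq, true_and] at hs
  obtain ⟨s1, s2, s3⟩ := hs
  have f1 := frame_slab hgn s1 s2 fun j => (hc j).1
  have f2 := frame_slab hgn s1 s3 fun j => (hc j).2
  rw [Nat.sub_zero] at s1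
  refine ⟨rfl, rfl, Apx.fl1_of_fl1 (Nat.sub_le n g) s1, ?_, ?_, ?_, ?_⟩
  · exact_mod_cast f1.1
  · exact_mod_cast f1.2
  · exact_mod_cast f2.1
  · exact_mod_cast f2.2

/-- the box of a line, known from its tube and the angle -/
theorem lab_tube {n g : ℕ} (hg : g ≤ n) {l l' : Ln} {θ θ' : ℝ} (e : tb n l = tb n l')
    (hθ : fl1 n θ = fl1 n θ') : LabCl 3 (lab θ g n l) (lab θ' g n l') := by
  have hq' : qa (n - g) θ = qa (n - g) θ' := Apx.qa_congr (Apx.fl1_of_fl1 (Nat.sub_le n g) hθ)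
  unfold tb at e
  rw [Prod.mk.injEq] at e
  have key : ∀ v w : Fin 2 → ℝ, fl n v = fl n w →
      |(fkj g n (co (qa (n - g) θ) v)).1 - (fkj g n (co (qa (n - g) θ') w)).1| ≤ (3 : ℕ) ∧
      |(fkj g n (co (qa (n - g) θ) v)).2 - (fkj g n (co (qa (n - g) θ') w)).2| ≤ (3 : ℕ) := by
    intro v w hvw
    rw [← hq']
    have a := fun j => Apx.fl_close hvw j
    have c0 := abs_co_le (θ := qa (n - g) θ) a 0
    have c1 := abs_co_le (θ := qa (n - g) θ) a 1
    rw [co_sub] at c0 c1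
    have := half_anti hg
    have d0 := U.fl1_sub_le (m := g) (N := 2) (by push_cast; exact c0.trans (by linarith))
    have d1 := U.fl1_sub_le (m := n) (N := 2) (by push_cast; exact c1)
    push_cast at d0 d1 ⊢
    exact ⟨by simp only [fkj]; linarith, by simp only [fkj]; linarith⟩
  have k1 := key _ _ e.1
  have k2 := key _ _ e.2
  refine ⟨rfl, rfl, Apx.fl1_of_fl1 (Nat.sub_le n g) hθ, ?_, ?_, ?_, ?_⟩
  · exact_mod_cast k1.1
  · exact_mod_cast k1.2
  · exact_mod_cast k2.1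
  · exact_mod_cast k2.2

theorem _root_.Vale.Agent.P127.U.LabCl.trans {N M : ℕ} {a b c : Lab} (h : LabCl N a b) (h' : LabCl M b c) :
    LabCl (N + M) a c := by
  obtain ⟨h1, h2, h3, h4, h5, h6, h7⟩ := h
  obtain ⟨k1, k2, k3, k4, k5, k6, k7⟩ := h'
  have key : ∀ x y z : ℤ, |x - y| ≤ N → |y - z| ≤ M → |x - z| ≤ ((N + M : ℕ) : ℤ) := by
    intro x y z hx hy
    rw [abs_le] at hx hy ⊢
    push_cast
    constructor <;> linarith [hx.1, hx.2, hy.1, hy.2]
  exact ⟨h1.trans k1, h2.trans k2, h3.trans k3, key _ _ _ h4 k4, key _ _ _ h5 k5,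
    key _ _ _ h6 k6, key _ _ _ h7 k7⟩

/-- the time of the point of two lines -/
theorem time_close {n g : ℕ} {l l' m m' : Ln} {t s u v : ℝ} (hl' : LnOk l') (hm' : LnOk m')
    (ht : 0 ≤ t ∧ t ≤ 1) (hs : 0 ≤ s ∧ s ≤ 1)
    (e1 : fl1 n t = fl1 n u) (e2 : fl n (pos l t) = fl n (pos l' u))
    (f1 : fl1 n s = fl1 n v) (f2 : fl n (pos m s) = fl n (pos m' v))
    (c1 : tb n l = tb n m) (c2 : tb n l' = tb n m')
    (hg : g = lev n (ang l l')) :
    |t - s| ≤ 8 * 2 ^ g * (1 / 2 : ℝ) ^ n := by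
  have hp2 : (1 : ℝ) ≤ 2 ^ g := one_le_pow₀ (by norm_num)
  rcases (lev_le n (ang l l')).lt_or_eq with hlt | heq
  · obtain ⟨j, hj⟩ := exists_ang l l'
    have b0 := lev_lt hlt
    rw [← hg, ← hj] at b0
    have a1 := meet hl' e1 e2 j
    have a2 := meet hm' f1 f2 j
    unfold tb at c1 c2
    rw [Prod.mk.injEq] at c1 c2
    have x1 := Apx.fl_close c1.1 j
    have y1 := Apx.fl_close c1.2 j
    have x2 := Apx.fl_close c2.1 j
    have y2 := Apx.fl_close c2.2 j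
    set D := (l.1 j - l'.1 j) + t * (l.2 j - l'.2 j) with hD
    set E := (m.1 j - m'.1 j) + s * (m.2 j - m'.2 j) with hE
    have e : (t - s) * (l.2 j - l'.2 j) = (D - E) - ((l.1 j - m.1 j) - (l'.1 j - m'.1 j)) -
        s * ((l.2 j - m.2 j) - (l'.2 j - m'.2 j)) := by
      rw [hD, hE]
      ring
    have a3 : |D - E| ≤ 4 * (1 / 2 : ℝ) ^ n := by
      have := abs_sub D E
      linarith
    have a4 : |(l.1 j - m.1 j) - (l'.1 j - m'.1 j)| ≤ 2 * (1 / 2 : ℝ) ^ n := by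
      have := abs_sub (l.1 j - m.1 j) (l'.1 j - m'.1 j)
      linarith
    have a5 : |(l.2 j - m.2 j) - (l'.2 j - m'.2 j)| ≤ 2 * (1 / 2 : ℝ) ^ n := by
      have := abs_sub (l.2 j - m.2 j) (l'.2 j - m'.2 j)
      linarith
    have a6 : |s * ((l.2 j - m.2 j) - (l'.2 j - m'.2 j))| ≤ 2 * (1 / 2 : ℝ) ^ n := by
      rw [abs_mul, abs_of_nonneg hs.1]
      calc s * |(l.2 j - m.2 j) - (l'.2 j - m'.2 j)| ≤ 1 * (2 * (1 / 2 : ℝ) ^ n) :=
            mul_le_mul hs.2 a5 (abs_nonneg _) (by norm_num)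
        _ = _ := one_mul _
    have a7 : |(t - s) * (l.2 j - l'.2 j)| ≤ 8 * (1 / 2 : ℝ) ^ n := by
      rw [e]
      have b1 := abs_sub (D - E - ((l.1 j - m.1 j) - (l'.1 j - m'.1 j)))
        (s * ((l.2 j - m.2 j) - (l'.2 j - m'.2 j)))
      have b2 := abs_sub (D - E) ((l.1 j - m.1 j) - (l'.1 j - m'.1 j))
      linarith
    rw [abs_mul] at a7
    have a8 : |t - s| * (1 / 2 : ℝ) ^ g ≤ 8 * (1 / 2 : ℝ) ^ n :=
      (mul_le_mul_of_nonneg_left b0.le (abs_nonneg _)).trans a7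
    have e3 : |t - s| = (|t - s| * (1 / 2 : ℝ) ^ g) * 2 ^ g := by
      rw [mul_assoc, ← mul_pow]
      norm_num
    rw [e3]
    calc (|t - s| * (1 / 2 : ℝ) ^ g) * 2 ^ g ≤ (8 * (1 / 2 : ℝ) ^ n) * 2 ^ g :=
          mul_le_mul_of_nonneg_right a8 (by positivity)
      _ = _ := by ring
  · rw [hg, heq]
    have : (8 : ℝ) * 2 ^ n * (1 / 2) ^ n = 8 := by
      rw [mul_assoc, ← mul_pow]
      norm_num
    rw [this, abs_le]
    constructor <;> linarith [ht.1, ht.2, hs.1, hs.2]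

section finite

variable {Ω : Type} [Fintype Ω] {γ : Type*} (P : Law Ω)

/-- labels which are close for outcomes with the same `Y` -/
theorem hc_labCl_fib (X : Ω → Lab) (Y : Ω → γ) (N : ℕ)
    (h : ∀ ω ω', 0 < P.w ω → 0 < P.w ω' → Y ω' = Y ω → LabCl N (X ω') (X ω)) :
    Stk.hc P X Y ≤ Real.log (((2 * N + 1) ^ 4 : ℕ) : ℝ) := by
  classical
  refine Stk.hc_le_log P X _ _ fun ω hω => ?_
  let I : ℤ → Finset ℤ := fun a => Finset.Icc (a - N) (a + N)
  have hI : ∀ a, (I a).card = 2 * N + 1 := by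
    intro a
    show (Finset.Icc (a - N) (a + N)).card = _
    rw [Int.card_Icc]
    omega
  have hmem : ∀ a b : ℤ, |a - b| ≤ N → a ∈ I b := by
    intro a b hab
    have := abs_le.1 hab
    show a ∈ Finset.Icc (b - N) (b + N)
    rw [Finset.mem_Icc]
    constructor <;> linarith [this.1, this.2]
  set x := X ω with hx
  refine ⟨{x.1} ×ˢ {x.2.1} ×ˢ {x.2.2.1} ×ˢ (I x.2.2.2.1.1 ×ˢ I x.2.2.2.1.2) ×ˢ
    (I x.2.2.2.2.1 ×ˢ I x.2.2.2.2.2), ?_, ?_⟩
  · simp only [Finset.card_product, Finset.card_singleton, hI]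
    apply le_of_eq
    ring
  · intro ω' hω' e
    obtain ⟨h1, h2, h3, h4, h5, h6, h7⟩ := h ω ω' hω hω' e
    simp only [Finset.mem_product, Finset.mem_singleton]
    exact ⟨h1, h2, h3, ⟨hmem _ _ h4, hmem _ _ h5⟩, hmem _ _ h6, hmem _ _ h7⟩

/-- the time, given both tubes and the level -/
theorem hc_time_le (n : ℕ) (l l' : Ω → Ln) (t t' : Ω → ℝ) (g : Ω → ℕ) (Z : Ω → γ)
    (h : ∀ ω, 0 < P.w ω → LnOk (l' ω) ∧ (0 ≤ t ω ∧ t ω ≤ 1) ∧
      fl1 n (t ω) = fl1 n (t' ω) ∧ fl n (pos (l ω) (t ω)) = fl n (pos (l' ω) (t' ω)) ∧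
      g ω = lev n (ang (l ω) (l' ω))) :
    Stk.hc P (fun ω => fl1 n (t ω)) (fun ω => (tb n (l' ω), (g ω, (tb n (l ω), Z ω)))) ≤
      P.ex (fun ω => (g ω : ℝ)) * Real.log 2 + Real.log 19 := by
  have h1 := H205.hc_fl1_diam_var P n t (fun ω => (tb n (l' ω), (g ω, (tb n (l ω), Z ω))))
    (fun y => 8 * 2 ^ y.2.1) (by
      intro ω ω' p p' e
      simp only [Prod.mk.injEq] at e
      obtain ⟨e1, e2, e3, -⟩ := e
      obtain ⟨a1, a2, a3, a4, a5⟩ := h ω p
      obtain ⟨b1, b2, b3, b4, b5⟩ := h ω' p'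
      push_cast
      exact time_close a1 b1 a2 b2 a3 a4 b3 b4 e3 e1 a5)
  refine h1.trans ?_
  have h2 : P.ex (fun ω => (g ω : ℝ)) * Real.log 2 + Real.log 19 =
      P.ex (fun ω => Real.log 2 * (g ω : ℝ) + Real.log 19) := by
    rw [P.ex_add, P.ex_const, P.ex_const_mul]
    ring
  rw [h2]
  refine P.ex_mono fun ω _ => ?_
  push_cast
  have hp : (1 : ℝ) ≤ 2 ^ g ω := one_le_pow₀ (by norm_num)
  have h3 : Real.log 2 * (g ω : ℝ) + Real.log 19 = Real.log (2 ^ g ω * 19) := by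
    rw [Real.log_mul (by positivity) (by norm_num), Real.log_pow]
    ring
  rw [h3]
  apply Real.log_le_log (by positivity)
  linarith

end finite

section systems

variable {S : Sys} {α β γ : Type*}

/-- levels have no entropy -/
theorem hc_level {n : ℕ → ℕ} (hn : S.Bd n) (G : S.RV ℕ) (hG : ∀ i ω, G i ω ≤ n i) (Y : S.RV β) :
    S.hc G Y = 0 := by
  obtain ⟨c, hc⟩ := hn
  have hl : 0 < Real.log 2 := Real.log_pos (by norm_num)
  set d : ℝ := max c 0 + 1 with hd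
  have hd0 : 0 < d := by positivity
  have hlim : Tendsto (fun i => Real.log (d * (S.L i : ℝ) + 1) ^ 1 /
      (Real.log 2 / d * (d * (S.L i : ℝ) + 1) + - (Real.log 2 / d))) (uf : Filter ℕ) (𝓝 0) := by
    have h1 : Tendsto (fun i => d * (S.L i : ℝ) + 1) (uf : Filter ℕ) atTop :=
      tendsto_atTop_add_const_right _ _
        ((tendsto_natCast_atTop_atTop.comp S.Ltop).const_mul_atTop hd0)
    exact (Real.tendsto_pow_log_div_mul_add_atTop (Real.log 2 / d) (-(Real.log 2 / d)) 1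
      (by positivity)).comp h1
  refine ulim_eq (squeeze_zero' ?_ ?_ hlim)
  · filter_upwards [S.nm_pos] with i hi
    exact div_nonneg (Stk.hc_nonneg _ _ _) hi.le
  · filter_upwards [S.nm_pos, hc, S.L_pos] with i hi h1 h2
    have hL : (1 : ℝ) ≤ S.L i := by exact_mod_cast h2
    have e : Real.log 2 / d * (d * (S.L i : ℝ) + 1) + - (Real.log 2 / d) = S.nm i := by
      unfold Sys.nm
      field_simp
      ring
    rw [e, pow_one]
    refine div_le_div_of_nonneg_right ?_ hi.le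
    have h3 := Stk.hc_le_log (S.P i) (G i) (Y i) (n i + 1) (fun ω _ => by
      refine ⟨Finset.range (n i + 1), by simp, fun ω' _ _ => ?_⟩
      rw [Finset.mem_range]
      have := hG i ω'
      omega)
    refine h3.trans ?_
    push_cast
    apply Real.log_le_log (by positivity)
    have h4 : c * (S.L i : ℝ) ≤ d * S.L i := by
      apply mul_le_mul_of_nonneg_right _ (by linarith)
      rw [hd]
      have := le_max_left c 0
      linarith
    linarith

theorem tame_level {n : ℕ → ℕ} (hn : S.Bd n) (G : S.RV ℕ) (hG : ∀ i ω, G i ω ≤ n i) :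
    Sys.Tame G := by
  obtain ⟨c, hc⟩ := hn
  have hl : 0 < Real.log 2 := Real.log_pos (by norm_num)
  refine ⟨c / Real.log 2, ?_⟩
  filter_upwards [hc] with i h1
  have h3 := Stk.hc_le_log (S.P i) (G i) (fun _ => ()) (n i + 1) (fun ω _ => by
    refine ⟨Finset.range (n i + 1), by simp, fun ω' _ _ => ?_⟩
    rw [Finset.mem_range]
    have := hG i ω'
    omega)
  rw [hc_unit] at h3
  refine h3.trans ?_
  push_cast
  have h4 : Real.log ((n i : ℝ) + 1) ≤ n i := by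
    have := Real.log_le_sub_one_of_pos (x := (n i : ℝ) + 1) (by positivity)
    linarith
  have e : c / Real.log 2 * S.nm i = c * S.L i := by
    unfold Sys.nm
    field_simp
  rw [e]
  linarith

/-- entropy bounded by an average -/
theorem hc_le_av {X : S.RV α} {Y : S.RV β} {f : S.RV ℝ} (c : ℝ) (hX : Sys.Tame X) (hf : Sys.OL f)
    (h : ∀ᶠ i in (uf : Filter ℕ),
      Stk.hc (S.P i) (X i) (Y i) ≤ (S.P i).ex (f i) * Real.log 2 + c) : S.hc X Y ≤ S.av f := by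
  refine ulim_le_of_sub (Sys.UB.hc hX Y) (Sys.UB.av hf) (S.const_div_nm c) ?_
  filter_upwards [h, S.nm_pos, S.L_pos] with i h1 h2 h3
  have hL : (0 : ℝ) < S.L i := by exact_mod_cast h3
  have hl : 0 < Real.log 2 := Real.log_pos (by norm_num)
  have e : (S.P i).ex (f i) / S.L i = (S.P i).ex (f i) * Real.log 2 / S.nm i := by
    unfold Sys.nm
    field_simp
  rw [e, ← add_div]
  exact div_le_div_of_nonneg_right h1 h2.le

theorem ol_nat {n : ℕ → ℕ} (hn : S.Bd n) {G : S.RV ℕ} (hG : ∀ i ω, G i ω ≤ n i) :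
    Sys.OL (S := S) fun i ω => (G i ω : ℝ) := by
  obtain ⟨c, hc⟩ := hn
  refine ⟨c, ?_⟩
  filter_upwards [hc] with i hi ω _
  rw [abs_of_nonneg (Nat.cast_nonneg _)]
  have : (G i ω : ℝ) ≤ n i := by exact_mod_cast hG i ω
  linarith

theorem av_nat (n : ℕ → ℕ) : S.av (fun i _ => (n i : ℝ)) = S.nu n := by
  unfold Sys.av Sys.nu
  refine ulim_congr (Eventually.of_forall fun i => ?_)
  show (S.P i).ex (fun _ => (n i : ℝ)) / S.L i = _
  rw [(S.P i).ex_const]

end systems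

/-- label of a tube as a box -/
theorem lab_tube_eq (n : ℕ) (l : Ln) : lab 0 n n l =
    (n, n, 0, (fl n l.1 0, fl n l.1 1), (fl n l.2 0, fl n l.2 1)) := by
  have h0 : ∀ m, fl1 m (0 : ℝ) = 0 := fun m => by simp [fl1]
  have h1 : ∀ m, qa m (0 : ℝ) = 0 := fun m => by simp [qa, h0]
  have h2 : ∀ v : Fin 2 → ℝ, fkj n n (co 0 v) = (fl n v 0, fl n v 1) := by
    intro v
    simp only [fkj, co, Real.cos_zero, Real.sin_zero, one_mul, zero_mul, add_zero, neg_zero,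
      zero_add, Matrix.cons_val_zero, Matrix.cons_val_one]
    rfl
  unfold lab
  rw [h0, h1, h2, h2]

theorem lab_tube_iff (n : ℕ) (l l' : Ln) : lab 0 n n l = lab 0 n n l' ↔ tb n l = tb n l' := by
  rw [lab_tube_eq, lab_tube_eq]
  unfold tb
  simp only [Prod.mk.injEq, true_and]
  constructor
  · rintro ⟨⟨a, b⟩, c, d⟩
    constructor
    · funext j
      fin_cases j
      · exact a
      · exact b
    · funext j
      fin_cases j
      · exact c
      · exact d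
  · rintro ⟨a, b⟩
    exact ⟨⟨congrFun a 0, congrFun a 1⟩, congrFun b 0, congrFun b 1⟩

end Vale.Agent.P127.U.C1

namespace Vale.Agent.P127.U

open Filter Topology Vale.Agent.P127 Vale.Agent.P127.Stk Sys C1

/-- **C1** (planar Cordoba, any shading) -/
theorem pC1_of (hE : PExcLe) : PC1 := by
  intro S γ C l t θ n hn hl ht hσ hz1 hz2
  have hTq : Tame (pqs n (pt l t)) := Apx.tame_pt hn hl ht
  have hTl : Tame (tbs n l) := Apx.tame_tbs hn hl
  have hTt : Tame (dg n t) := Apx.tame_dg hn ht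
  have hTσ : Tame (slab n θ l).lab := BxA.tame hσ
  -- copies
  obtain ⟨S', e, hW, hind⟩ :=
    exists_copies S (Sys.pr (pqs n (pt l t)) (Sys.pr (slab n θ l).lab C)) 1
  have hn' : S'.Bd n := by
    obtain ⟨c, hc⟩ := hn
    refine ⟨c, ?_⟩
    filter_upwards [hc] with i hi
    rw [(e 0).L_eq]
    exact hi
  let G : S'.RV ℕ := fun i ω => lev (n i) (ang (l i ((e 0).π i ω)) (l i ((e 1).π i ω)))
  have hGn : ∀ i ω, G i ω ≤ n i := fun i ω => lev_le _ _
  let W1 : S'.BX := fun i => ⟨fun ω => l i ((e 1).π i ω), fun ω => θ i ((e 1).π i ω), G i,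
    fun _ => n i⟩
  let A : S'.RV _ := (e 0).pull (tbs n l)
  let A' : S'.RV _ := (e 1).pull (tbs n l)
  let T : S'.RV _ := (e 0).pull (dg n t)
  let D : S'.RV _ := (e 0).pull (Sys.pr (slab n θ l).lab C)
  -- good outcomes
  have good : ∀ᶠ i in (uf : Filter ℕ), ∀ ω, 0 < (S'.P i).w ω →
      (LnOk (l i ((e 0).π i ω)) ∧ LnOk (l i ((e 1).π i ω))) ∧
      (0 ≤ t i ((e 0).π i ω) ∧ t i ((e 0).π i ω) ≤ 1) ∧
      (fl1 (n i) (t i ((e 0).π i ω)) = fl1 (n i) (t i ((e 1).π i ω)) ∧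
        fl (n i) (pos (l i ((e 0).π i ω)) (t i ((e 0).π i ω))) =
          fl (n i) (pos (l i ((e 1).π i ω)) (t i ((e 1).π i ω)))) ∧
      lab (θ i ((e 0).π i ω)) 0 (n i) (l i ((e 0).π i ω)) =
        lab (θ i ((e 1).π i ω)) 0 (n i) (l i ((e 1).π i ω)) ∧
      C i ((e 0).π i ω) = C i ((e 1).π i ω) ∧ |θ i ((e 1).π i ω)| ≤ 4 := by
    filter_upwards [hl, ht, hσ.1] with i g1 g2 g3 ω hω
    have p0 := (e 0).w_pos i hω
    have p1 := (e 1).w_pos i hω
    have h1 := hW 1 i ω hω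
    simp only [Sys.pr_apply, Prod.mk.injEq, pqs, pq, pt] at h1
    obtain ⟨⟨h2, h3⟩, h4, h5⟩ := h1
    exact ⟨⟨g1 _ p0, g1 _ p1⟩, g2 _ p0, ⟨h2.symm, h3.symm⟩, h4.symm, h5.symm, (g3 _ p1).2.1⟩
  -- tameness
  have tA : Tame A := (e 0).tame hTl
  have tA' : Tame A' := (e 1).tame hTl
  have tT : Tame T := (e 0).tame hTt
  have tG : Tame G := tame_level hn' G hGn
  -- the box W1
  have hB : BxA (tubes n l) := by
    obtain ⟨c, hc⟩ := hn
    refine ⟨?_, c, ?_⟩
    · filter_upwards [hl] with i g ω hω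
      refine ⟨g ω hω, ?_, le_rfl⟩
      show |(0 : ℝ)| ≤ 4
      rw [abs_zero]
      norm_num
    · filter_upwards [hc] with i hi ω _
      exact hi
  have hB1 : BxA ((e 1).pullB (tubes n l)) := (e 1).bxA hB
  have hSub : SubA ((e 1).pullB (tubes n l)) W1 := by
    refine ⟨1, ?_⟩
    filter_upwards [good] with i g ω hω
    obtain ⟨-, -, -, -, -, g6⟩ := g ω hω
    refine ⟨rfl, g6, hGn i ω, hGn i ω, le_rfl, ?_⟩
    exact mul_le_mul_of_nonneg_right (Real.abs_sin_le_one _) (by positivity)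
  have hW1 : BxA W1 := bxA_of_sub hB1 hSub
  have tW1 : Tame (BX.lab W1) := BxA.tame hW1
  -- (1) lower bound
  have s1 : S.hc (tbs n l) (Sys.pr (pqs n (pt l t)) C) ≤ S'.hc A' (Sys.pr T (Sys.pr A D)) := by
    have a1 := hc_cond_zero hTl hTσ hz1
    have a2 : S.hc (tbs n l) (Sys.pr (slab n θ l).lab (Sys.pr (pqs n (pt l t)) C)) ≤
        S.hc (tbs n l) (Sys.pr (pqs n (pt l t)) (Sys.pr (slab n θ l).lab C)) :=
      hc_mono_right hTl (Eventually.of_forall fun i ω ω' _ _ e => by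
        simp only [Sys.pr_apply, Prod.mk.injEq] at e ⊢
        exact ⟨e.2.1, e.1, e.2.2⟩)
    have a3 := hind 1 (tbs n l) (Sys.pr T A) (fun i ω ω' h => by
      have h0 := h 0 (by decide)
      simp only [Sys.pr_apply, T, A, Ext.pull, h0])
    have a4 : S'.hc A' (Sys.pr (Sys.pr T A)
        ((e 1).pull (Sys.pr (pqs n (pt l t)) (Sys.pr (slab n θ l).lab C)))) ≤
        S'.hc A' (Sys.pr T (Sys.pr A D)) := by
      refine hc_mono_right tA' ?_
      filter_upwards with i ω ω' p p' h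
      have w1 := hW 1 i ω p
      have w2 := hW 1 i ω' p'
      simp only [Sys.pr_apply, Prod.mk.injEq, Ext.pull, D, A, T] at h w1 w2 ⊢
      obtain ⟨⟨h1, h2⟩, h3, h4, h5⟩ := h
      exact ⟨h1, h2, by rw [← w1.2.1, ← w2.2.1]; exact h4, by rw [← w1.2.2, ← w2.2.2]; exact h5⟩
    rw [← a1]
    refine a2.trans ?_
    rw [← a3]
    exact a4
  have s2 : S.hc (dg n t) (Sys.pr (tbs n l) C) ≤ S'.hc T (Sys.pr A D) := by
    have a1 := hc_cond_zero hTt hTσ hz2
    have a2 : S.hc (dg n t) (Sys.pr (slab n θ l).lab (Sys.pr (tbs n l) C)) ≤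
        S.hc (dg n t) (Sys.pr (tbs n l) (Sys.pr (slab n θ l).lab C)) :=
      hc_mono_right hTt (Eventually.of_forall fun i ω ω' _ _ e => by
        simp only [Sys.pr_apply, Prod.mk.injEq] at e ⊢
        exact ⟨e.2.1, e.1, e.2.2⟩)
    have a3 : S'.hc T (Sys.pr A D) =
        S.hc (dg n t) (Sys.pr (tbs n l) (Sys.pr (slab n θ l).lab C)) :=
      (e 0).hc (dg n t) (Sys.pr (tbs n l) (Sys.pr (slab n θ l).lab C))
    rw [a3, ← a1]
    exact a2
  -- (2) both orders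
  have s3 := hc_pair tT tA' (Sys.pr A D)
  have s4 := hc_le_add (tT.pr tA') tG (Sys.pr A D)
  have s5 : S'.hc G (Sys.pr A D) = 0 := hc_level hn' G hGn _
  have s6 : S'.hc (Sys.pr T A') (Sys.pr G (Sys.pr A D)) ≤
      S'.hc (Sys.pr A' T) (Sys.pr G (Sys.pr A D)) :=
    hc_mono_left (tA'.pr tT) (tT.pr tA') (Eventually.of_forall fun i ω ω' _ _ e => by
      simp only [Sys.pr_apply, Prod.mk.injEq] at e ⊢
      exact ⟨e.1.2, e.1.1⟩)
  have s7 := hc_pair tA' tT (Sys.pr G (Sys.pr A D))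
  -- (3) the time
  have s8 : S'.hc T (Sys.pr A' (Sys.pr G (Sys.pr A D))) ≤ S'.av (fun i ω => (G i ω : ℝ)) := by
    refine hc_le_av (Real.log 19) tT (ol_nat hn' hGn) ?_
    filter_upwards [good] with i g
    exact hc_time_le (S'.P i) (n i) (fun ω => l i ((e 0).π i ω)) (fun ω => l i ((e 1).π i ω))
      (fun ω => t i ((e 0).π i ω)) (fun ω => t i ((e 1).π i ω)) (G i) (D i) (fun ω hω => by
        obtain ⟨g1, g2, g3, g4, g5, g6⟩ := g ω hω
        exact ⟨g1.2, g2, g3.1, g3.2, rfl⟩)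
  -- (4) the line
  have s9 := hc_le_add tA' tW1 (Sys.pr G (Sys.pr A D))
  have s10 : S'.hc (BX.lab W1) (Sys.pr G (Sys.pr A D)) = 0 := by
    refine hc_zero_of_le (Real.log (((2 * (18 + (3 + 18)) + 1) ^ 4 : ℕ) : ℝ)) ?_
    filter_upwards [good] with i g
    refine hc_labCl_fib (S'.P i) _ _ _ fun ω ω' p p' h => ?_
    obtain ⟨⟨a1, a2⟩, a3, a4, a5, a6, -⟩ := g ω p
    obtain ⟨⟨b1, b2⟩, b3, b4, b5, b6, -⟩ := g ω' p'
    have c1 := lab_meet a1 a2 a3.1 a3.2 a4.1 a4.2 a5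
    have c2 := lab_meet b1 b2 b3.1 b3.2 b4.1 b4.2 b5
    simp only [Sys.pr_apply, Prod.mk.injEq] at h
    obtain ⟨h1, h2, h3⟩ := h
    have h4 : lev (n i) (ang (l i ((e 0).π i ω')) (l i ((e 1).π i ω'))) =
        lev (n i) (ang (l i ((e 0).π i ω)) (l i ((e 1).π i ω))) := h1
    have h5 : tb (n i) (l i ((e 0).π i ω')) = tb (n i) (l i ((e 0).π i ω)) := h2
    have h6 : lab (θ i ((e 0).π i ω')) 0 (n i) (l i ((e 0).π i ω')) =
        lab (θ i ((e 0).π i ω)) 0 (n i) (l i ((e 0).π i ω)) := congrArg Prod.fst h3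
    have h7 : fl1 (n i) (θ i ((e 0).π i ω')) = fl1 (n i) (θ i ((e 0).π i ω)) :=
      congrArg (fun q => q.2.2.1) h6
    have c3 := lab_tube (lev_le (n i) (ang (l i ((e 0).π i ω)) (l i ((e 1).π i ω)))) h5 h7
    rw [h4] at c2
    have c4 := c2.symm.trans (c3.trans c1)
    show LabCl _ (lab (θ i ((e 1).π i ω'))
        (lev (n i) (ang (l i ((e 0).π i ω')) (l i ((e 1).π i ω')))) (n i) (l i ((e 1).π i ω')))
      (lab (θ i ((e 1).π i ω))
        (lev (n i) (ang (l i ((e 0).π i ω)) (l i ((e 1).π i ω)))) (n i) (l i ((e 1).π i ω)))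
    rw [h4]
    exact c4
  have s11 : S'.hc A' (Sys.pr (BX.lab W1) (Sys.pr G (Sys.pr A D))) ≤
      S'.hc A' (Sys.pr (BX.lab W1) ((e 1).pull C)) := by
    refine hc_mono_right tA' ?_
    filter_upwards with i ω ω' p p' h
    have w1 := hW 1 i ω p
    have w2 := hW 1 i ω' p'
    simp only [Sys.pr_apply, Prod.mk.injEq, Ext.pull, D] at h w1 w2 ⊢
    obtain ⟨h1, h2, h3, h4, h5⟩ := h
    exact ⟨h1, by rw [w1.2.2, w2.2.2]; exact h5⟩
  have s12 : S'.hc A' (Sys.pr (BX.lab W1) ((e 1).pull C)) =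
      S'.hc (BX.lab ((e 1).pullB (tubes n l))) (Sys.pr (BX.lab W1) ((e 1).pull C)) := by
    refine hc_congr ?_ ?_ (Eventually.of_forall fun _ _ _ _ _ e => e)
      (Eventually.of_forall fun _ _ _ _ _ e => e)
    · exact Eventually.of_forall fun i ω ω' _ _ h =>
        (lab_tube_iff (n i) _ _).1 (congrArg Prod.fst h)
    · exact Eventually.of_forall fun i ω ω' _ _ h =>
        (lab_tube_iff (n i) _ _).2 (congrArg Prod.fst h)
  have s13 := hE S S' (e 1) γ C (tubes n l) W1 hB hW1 hSub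
  have s14 : S'.av (fun i ω => BX.sz ((e 1).pullB (tubes n l)) i ω - BX.sz W1 i ω) =
      S.nu n - S'.av (fun i ω => (G i ω : ℝ)) := by
    have h1 : (fun i ω => BX.sz ((e 1).pullB (tubes n l)) i ω - BX.sz W1 i ω : S'.RV ℝ) =
        fun i ω => (n i : ℝ) - (G i ω : ℝ) := by
      funext i ω
      show ((n i : ℝ) + n i) - ((G i ω : ℝ) + n i) = _
      ring
    rw [h1, av_sub (f := fun i _ => (n i : ℝ)) (ol_nat (G := fun i _ => n i) hn' (fun _ _ => le_rfl))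
      (ol_nat hn' hGn), av_nat]
    have h2 : S'.nu n = S.nu n := by
      unfold nu
      rw [(e 0).L_eq]
    rw [h2]
  unfold Sys.val at s13
  rw [s14] at s13
  linarith

theorem pC1 : PC1 := pC1_of pExcLe

end Vale.Agent.P127.U
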