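import Vale.Agent.P127.U.ExcBase
import Vale.Agent.P127.U.ApxS

/-!
# P127 / U / PL : finite tools (helper499)

* `hc_le_exlog` : counting bound with a variable number of values
* `hc_le_av` : the same for systems, in digits
-/

set_option autoImplicit false

namespace Vale.Agent.P127.U.PL

open Filter Topology Vale.Agent.P127 Vale.Agent.P127.Stk Vale.Agent.P127.U Sys

section finite

variable {Ω : Type} [Fintype Ω] {α β γ : Type*} (P : Law Ω)

/-- counting bound: given `Y` there are at most `N` values of `X` -/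
theorem hc_le_exlog (X : Ω → α) (Y : Ω → β) (N : Ω → ℕ)
    (h : ∀ ω, 0 < P.w ω → ∃ F : Finset α, F.card ≤ N ω ∧
      ∀ ω', 0 < P.w ω' → Y ω' = Y ω → X ω' ∈ F) : Stk.hc P X Y ≤ P.ex fun ω => Real.log (N ω) := by
  classical
  let F : β → Finset α := fun y => (Finset.univ.filter fun ω => 0 < P.w ω ∧ Y ω = y).image X
  have hF1 : ∀ ω, 0 < P.w ω → (F (Y ω)).card ≤ N ω := by
    intro ω hω
    obtain ⟨G, g1, g2⟩ := h ω hω
    refine (Finset.card_le_card ?_).trans g1
    intro x hx
    rw [Finset.mem_image] at hx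
    obtain ⟨ω', h1, rfl⟩ := hx
    rw [Finset.mem_filter] at h1
    exact g2 ω' h1.2.1 h1.2.2
  have hF2 : ∀ ω, 0 < P.w ω → X ω ∈ F (Y ω) := by
    intro ω hω
    rw [Finset.mem_image]
    exact ⟨ω, by rw [Finset.mem_filter]; exact ⟨Finset.mem_univ _, hω, rfl⟩, rfl⟩
  have hpos : ∀ ω, 0 < P.w ω → 0 < (F (Y ω)).card := fun ω hω => Finset.card_pos.2 ⟨_, hF2 ω hω⟩
  have hg := P.gibbs_cond X Y (fun x y => if x ∈ F y then 1 / ((F y).card : ℝ) else 0)
    (fun x y => by split_ifs <;> positivity) ?_ (fun ω hω => by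
      rw [if_pos (hF2 ω hω)]
      have : (0:ℝ) < (F (Y ω)).card := by exact_mod_cast hpos ω hω
      positivity)
  · refine le_trans (le_of_eq rfl) (hg.trans ?_)
    refine P.ex_mono fun ω hω => ?_
    rw [if_pos (hF2 ω hω), one_div, Real.log_inv, neg_neg]
    have h1 : (0:ℝ) < (F (Y ω)).card := by exact_mod_cast hpos ω hω
    exact Real.log_le_log h1 (by exact_mod_cast hF1 ω hω)
  · intro y G
    rw [← Finset.sum_filter, Finset.sum_const, nsmul_eq_mul, mul_one_div]
    have : (G.filter (fun x => x ∈ F y)).card ≤ (F y).card :=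
      Finset.card_le_card fun x hx => (Finset.mem_filter.1 hx).2
    have h2 : ((G.filter (fun x => x ∈ F y)).card : ℝ) ≤ (F y).card := by exact_mod_cast this
    rcases (Finset.card_pos (s := F y) |>.not.2 |> fun _ => Nat.eq_zero_or_pos (F y).card) with h0 | h0
    · rw [h0]; simp
    · have h0' : (0:ℝ) < (F y).card := by exact_mod_cast h0
      exact div_le_one_of_le₀ h2 h0'.le

end finite

end Vale.Agent.P127.U.PL
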