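import Vale.Agent.P127.U.ExcBase

/-!
# P127 / U : block EXC, second part (helper379)

`pExcNonneg`, `pExcCongr`, `pExcLe`, `pExcCoarse_of`.
-/

set_option autoImplicit false

namespace Vale.Agent.P127.U

open Filter Topology Vale.Agent.P127 Vale.Agent.P127.Stk Sys

namespace ExcB

/-! ### coarsening of a box -/

theorem fl1_nest {a b : ℕ} (hab : a ≤ b) {x y : ℝ} (h : fl1 b x = fl1 b y) :
    fl1 a x = fl1 a y := by
  have key : ∀ z : ℝ, fl1 a z = fl1 b z / ((2 ^ (b - a) : ℕ) : ℤ) := by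
    intro z
    unfold fl1
    rw [← Int.floor_div_natCast]
    congr 1
    have h1 : ((2:ℝ)) ^ b = 2 ^ (b - a) * 2 ^ a := by
      rw [← pow_add]
      congr 1
      omega
    rw [h1]
    push_cast
    field_simp
  rw [key x, key y, h]

/-- the label of a coarser box with the same wide direction -/
theorem lab_coarse {θ θ' : ℝ} {k j k' j' : ℕ} (hkj : k ≤ j) (hkj' : k' ≤ j')
    (hk : k' ≤ k) (hj : j' ≤ j) (hd : j' - k' ≤ j - k) {l l' : Ln}
    (h : lab θ k j l = lab θ' k j l') : LabCl 4 (lab θ k' j' l) (lab θ' k' j' l') := by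
  have h1 := lab_close (c := 0) (ψ := θ) (k' := k') (j' := j') (N := 3) hkj hkj' hk hj (by
    rw [sub_self, Real.sin_zero, abs_zero, zero_mul, zero_mul]) (by norm_num) (by norm_num) h
  have h2 : fl1 (j' - k') θ = fl1 (j' - k') θ' := by
    have h3 : fl1 (j - k) θ = fl1 (j - k) θ' := by
      unfold lab at h
      simp only [Prod.mk.injEq, true_and] at h
      exact h.1
    exact fl1_nest hd h3
  have h4 : lab θ' k' j' l' = lab θ k' j' l' := by
    unfold lab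
    have : qa (j' - k') θ = qa (j' - k') θ' := by
      unfold qa
      rw [h2]
    rw [h2, this]
  rw [h4]
  exact h1

section finite

variable {Ω : Type} [Fintype Ω] {γ : Type*}

/-- a variable known up to closeness of labels has bounded entropy -/
theorem hc_labCl' (P : Law Ω) (X : Ω → Lab) (Y : Ω → γ) (N : ℕ)
    (h : ∀ ω ω', 0 < P.w ω → 0 < P.w ω' → Y ω' = Y ω → LabCl N (X ω') (X ω)) :
    Stk.hc P X Y ≤ Real.log (((2 * N + 1) ^ 4 : ℕ) : ℝ) := by
  classical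
  refine Stk.hc_le_log P X _ _ fun ω hω => ?_
  let I : ℤ → Finset ℤ := fun a => Finset.Icc (a - N) (a + N)
  have hI : ∀ a, (I a).card = 2 * N + 1 := by
    intro a
    show (Finset.Icc (a - N) (a + N)).card = _
    rw [Int.card_Icc]
    omega
  have hmem : ∀ a b : ℤ, |a - b| ≤ N → a ∈ I b := by
    intro a b hab
    have := abs_le.1 hab
    show a ∈ Finset.Icc (b - N) (b + N)
    rw [Finset.mem_Icc]
    constructor <;> linarith [this.1, this.2]
  set x := X ω with hx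
  refine ⟨{x.1} ×ˢ {x.2.1} ×ˢ {x.2.2.1} ×ˢ (I x.2.2.2.1.1 ×ˢ I x.2.2.2.1.2) ×ˢ
    (I x.2.2.2.2.1 ×ˢ I x.2.2.2.2.2), ?_, ?_⟩
  · simp only [Finset.card_product, Finset.card_singleton, hI]
    apply le_of_eq
    ring
  · intro ω' hω' e
    obtain ⟨h1, h2, h3, h4, h5, h6, h7⟩ := h ω ω' hω hω' e
    simp only [Finset.mem_product, Finset.mem_singleton]
    exact ⟨h1, h2, h3, ⟨hmem _ _ h4, hmem _ _ h5⟩, hmem _ _ h6, hmem _ _ h7⟩

/-- the box `W` made coarser by `m` digits -/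
def crs (m : ℕ) (W : Bx Ω) : Bx Ω :=
  ⟨W.l, W.θ, fun ω => min (W.k ω) (W.j ω - m), fun ω => W.j ω - m⟩

omit [Fintype Ω] in
theorem crs_sub {c : ℝ} {m : ℕ} (hm : c ≤ 2 ^ m) {B W : Bx Ω} {ω : Ω} (h : Sub c B W ω) :
    Sub 1 B (crs m W) ω := by
  obtain ⟨h1, h2, h3, h4, h5, h6⟩ := h
  refine ⟨h1, h2, min_le_right _ _, (min_le_left _ _).trans h4, (Nat.sub_le _ _).trans h5, ?_⟩
  show |Real.sin (B.θ ω - W.θ ω)| * (1 / 2 : ℝ) ^ B.k ω ≤ 1 * (1 / 2 : ℝ) ^ (W.j ω - m)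
  rcases le_total m (W.j ω) with hmj | hmj
  · refine h6.trans ?_
    have e1 : (1 / 2 : ℝ) ^ (W.j ω) = (1 / 2) ^ (W.j ω - m) * (1 / 2) ^ m := by
      rw [← pow_add]
      congr 1
      omega
    rw [e1]
    have e2 : c * (1 / 2 : ℝ) ^ m ≤ 1 := by
      rw [one_div, inv_pow, ← div_eq_mul_inv]
      exact (div_le_one (by positivity)).2 hm
    calc c * ((1 / 2 : ℝ) ^ (W.j ω - m) * (1 / 2) ^ m)
        = (c * (1 / 2) ^ m) * (1 / 2 : ℝ) ^ (W.j ω - m) := by ring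
      _ ≤ 1 * (1 / 2 : ℝ) ^ (W.j ω - m) := mul_le_mul_of_nonneg_right e2 (by positivity)
  · have e1 : W.j ω - m = 0 := by omega
    rw [e1, pow_zero, mul_one]
    have e2 := Real.abs_sin_le_one (B.θ ω - W.θ ω)
    have e3 : (1 / 2 : ℝ) ^ B.k ω ≤ 1 := pow_le_one₀ (by norm_num) (by norm_num)
    exact mul_le_one₀ e2 (by positivity) e3

/-- coarsening by `m` digits costs a bounded amount -/
theorem exV_crs (P : Law Ω) (B W : Bx Ω) (C : Ω → γ) (m : ℕ)
    (hW : ∀ ω, 0 < P.w ω → W.k ω ≤ W.j ω) :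
    exV P B W C ≤ exV P B (crs m W) C + (Real.log (((2 * 4 + 1) ^ 4 : ℕ) : ℝ) +
      Real.log 2 * (2 * m)) := by
  have h1 : Stk.hc P (crs m W).lab (fun ω => (W.lab ω, C ω)) ≤
      Real.log (((2 * 4 + 1) ^ 4 : ℕ) : ℝ) := by
    refine hc_labCl' P _ _ 4 fun ω ω' hω hω' e => ?_
    have e1 : W.lab ω' = W.lab ω := congrArg Prod.fst e
    have ek : W.k ω' = W.k ω := congrArg (fun q => q.1) e1
    have ej : W.j ω' = W.j ω := congrArg (fun q => q.2.1) e1
    have hkj := hW ω hω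
    show LabCl 4 (lab (W.θ ω') (min (W.k ω') (W.j ω' - m)) (W.j ω' - m) (W.l ω'))
      (lab (W.θ ω) (min (W.k ω) (W.j ω - m)) (W.j ω - m) (W.l ω))
    rw [ek, ej]
    refine lab_coarse (k := W.k ω) (j := W.j ω) hkj (min_le_right _ _) (min_le_left _ _)
      (Nat.sub_le _ _) ?_ ?_
    · rcases le_total (W.k ω) (W.j ω - m) with h2 | h2
      · rw [min_eq_left h2]
        omega
      · rw [min_eq_right h2]
        omega
    · have e2 : lab (W.θ ω') (W.k ω') (W.j ω') (W.l ω') = lab (W.θ ω) (W.k ω) (W.j ω) (W.l ω) := e1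
      rw [ek, ej] at e2
      exact e2
  have h2 := Stk.hc_le_add' P B.lab (crs m W).lab (fun ω => (W.lab ω, C ω))
  -- `H(B | W, C) ≤ H(B | W', W, C) + H(W' | W, C)`
  have h3 : Stk.hc P B.lab (fun ω => (W.lab ω, C ω)) ≤
      Stk.hc P B.lab (fun ω => ((crs m W).lab ω, W.lab ω, C ω)) +
        Stk.hc P (crs m W).lab (fun ω => (W.lab ω, C ω)) := h2
  have h4 : Stk.hc P B.lab (fun ω => ((crs m W).lab ω, W.lab ω, C ω)) ≤
      Stk.hc P B.lab (fun ω => ((crs m W).lab ω, C ω)) := by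
    refine Stk.hc_mono_right P B.lab fun ω ω' _ _ e => ?_
    simp only [Prod.mk.injEq] at e ⊢
    exact ⟨e.1, e.2.2⟩
  have h5 : (P.ex fun ω => B.sz ω - (crs m W).sz ω) ≤ (P.ex fun ω => B.sz ω - W.sz ω) + 2 * m := by
    have e1 : (P.ex fun ω => (B.sz ω - W.sz ω) + 2 * (m : ℝ)) =
        (P.ex fun ω => B.sz ω - W.sz ω) + 2 * m := by
      rw [P.ex_add, P.ex_const]
    rw [← e1]
    refine P.ex_mono fun ω hω => ?_
    have hkj := hW ω hω
    have k1 : (W.j ω : ℝ) ≤ ((W.j ω - m : ℕ) : ℝ) + m := by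
      have : W.j ω ≤ (W.j ω - m) + m := by omega
      exact_mod_cast this
    have k2 : (W.k ω : ℝ) ≤ ((min (W.k ω) (W.j ω - m) : ℕ) : ℝ) + m := by
      have : W.k ω ≤ min (W.k ω) (W.j ω - m) + m := by
        rcases le_total (W.k ω) (W.j ω - m) with h2 | h2
        · rw [min_eq_left h2]
          omega
        · rw [min_eq_right h2]
          omega
      exact_mod_cast this
    show B.sz ω - (((min (W.k ω) (W.j ω - m) : ℕ) : ℝ) + ((W.j ω - m : ℕ) : ℝ)) ≤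
      B.sz ω - ((W.k ω : ℝ) + W.j ω) + 2 * m
    linarith
  have h6 : Real.log 2 * (P.ex fun ω => B.sz ω - (crs m W).sz ω) ≤
      Real.log 2 * ((P.ex fun ω => B.sz ω - W.sz ω) + 2 * m) :=
    mul_le_mul_of_nonneg_left h5 (Real.log_nonneg (by norm_num))
  unfold exV
  rw [mul_add] at h6
  linarith

/-- finite form of `pExcLe` -/
theorem exV_le_excF' {P : Law Ω} {B : Bx Ω} {C : Ω → γ} {Ω' : Type} [Fintype Ω'] {P' : Law Ω'}
    {π : Ω' → Ω} {W : Bx Ω'} {c : ℝ} {m : ℕ} (hm : c ≤ 2 ^ m) (h1 : ∀ ω, P'.pr π ω = P.w ω)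
    (h2 : ∀ ω, 0 < P'.w ω → Sub c (B.comp π) W ω) :
    exV P' (B.comp π) W (fun ω => C (π ω)) ≤ excF P B C +
      (Real.log (((2 * 4 + 1) ^ 4 : ℕ) : ℝ) + Real.log 2 * (2 * m)) := by
  have h3 := exV_crs P' (B.comp π) W (fun ω => C (π ω)) m fun ω hω => (h2 ω hω).2.2.1
  have h4 := exV_le_excF (C := C) h1 fun ω hω => crs_sub hm (h2 ω hω)
  linarith

/-- finite form of `pExcCongr` -/
theorem excF_le_add {δ : Type*} {P : Law Ω} {B : Bx Ω} (C : Ω → γ) (C' : Ω → δ)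
    (h : ∀ ω, 0 < P.w ω → BxOk B ω) : excF P B C ≤ excF P B C' + Stk.hc P C' C := by
  refine csSup_le ⟨0, zero_mem_exSet h⟩ ?_
  rintro v ⟨Ω', _, P', π, W, h1, h2, rfl⟩
  have h3 := exV_le_excF (C := C') h1 h2
  have h4 : Stk.hc P' (B.comp π).lab (fun ω => (W.lab ω, C (π ω))) ≤
      Stk.hc P' (B.comp π).lab (fun ω => (C' (π ω), W.lab ω, C (π ω))) +
        Stk.hc P' (fun ω => C' (π ω)) (fun ω => (W.lab ω, C (π ω))) :=
    Stk.hc_le_add' P' (B.comp π).lab (fun ω => C' (π ω)) (fun ω => (W.lab ω, C (π ω)))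
  have h5 : Stk.hc P' (B.comp π).lab (fun ω => (C' (π ω), W.lab ω, C (π ω))) ≤
      Stk.hc P' (B.comp π).lab (fun ω => (W.lab ω, C' (π ω))) := by
    refine Stk.hc_mono_right P' _ fun ω ω' _ _ e => ?_
    simp only [Prod.mk.injEq] at e ⊢
    exact ⟨e.2.1, e.1⟩
  have h6 : Stk.hc P' (fun ω => C' (π ω)) (fun ω => (W.lab ω, C (π ω))) ≤
      Stk.hc P' (fun ω => C' (π ω)) (fun ω => C (π ω)) :=
    Stk.hc_mono_right P' _ fun ω ω' _ _ e => congrArg Prod.snd e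
  have h7 : Stk.hc P' (fun ω => C' (π ω)) (fun ω => C (π ω)) = Stk.hc P C' C :=
    Stk.hc_of_law P' P π h1 C' C
  unfold exV at h3 ⊢
  linarith

end finite

/-! ### transitivity of inclusion of boxes -/

theorem sin_add_abs (a b : ℝ) : |Real.sin (a + b)| ≤ |Real.sin a| + |Real.sin b| := by
  rw [Real.sin_add]
  refine (abs_add_le _ _).trans ?_
  rw [abs_mul, abs_mul]
  have h1 := Real.abs_cos_le_one a
  have h2 := Real.abs_cos_le_one b
  have h3 := abs_nonneg (Real.sin a)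
  have h4 := abs_nonneg (Real.sin b)
  have h5 : |Real.sin a| * |Real.cos b| ≤ |Real.sin a| * 1 := mul_le_mul_of_nonneg_left h2 h3
  have h6 : |Real.cos a| * |Real.sin b| ≤ 1 * |Real.sin b| := mul_le_mul_of_nonneg_right h1 h4
  linarith

theorem sub_trans {Ω : Type} {c c' : ℝ} {B U W : Bx Ω} {ω : Ω} (hc : 0 ≤ c)
    (h : Sub c B U ω) (h' : Sub c' U W ω) : Sub (c + c') B W ω := by
  obtain ⟨h1, h2, h3, h4, h5, h6⟩ := h
  obtain ⟨g1, g2, g3, g4, g5, g6⟩ := h'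
  refine ⟨g1.trans h1, g2, g3, g4.trans h4, g5.trans h5, ?_⟩
  have e1 : B.θ ω - W.θ ω = (B.θ ω - U.θ ω) + (U.θ ω - W.θ ω) := by ring
  have e2 := sin_add_abs (B.θ ω - U.θ ω) (U.θ ω - W.θ ω)
  rw [← e1] at e2
  have p1 : (1 / 2 : ℝ) ^ B.k ω ≤ (1 / 2) ^ U.k ω :=
    pow_le_pow_of_le_one (by norm_num) (by norm_num) h4
  have p2 : (1 / 2 : ℝ) ^ U.j ω ≤ (1 / 2) ^ W.j ω :=
    pow_le_pow_of_le_one (by norm_num) (by norm_num) g5
  have p3 : (0 : ℝ) < (1 / 2 : ℝ) ^ B.k ω := by positivity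
  calc |Real.sin (B.θ ω - W.θ ω)| * (1 / 2 : ℝ) ^ B.k ω
      ≤ (|Real.sin (B.θ ω - U.θ ω)| + |Real.sin (U.θ ω - W.θ ω)|) * (1 / 2 : ℝ) ^ B.k ω :=
        mul_le_mul_of_nonneg_right e2 p3.le
    _ = |Real.sin (B.θ ω - U.θ ω)| * (1 / 2 : ℝ) ^ B.k ω +
        |Real.sin (U.θ ω - W.θ ω)| * (1 / 2 : ℝ) ^ B.k ω := by ring
    _ ≤ c * (1 / 2 : ℝ) ^ U.j ω + |Real.sin (U.θ ω - W.θ ω)| * (1 / 2 : ℝ) ^ U.k ω :=
        add_le_add h6 (mul_le_mul_of_nonneg_left p1 (abs_nonneg _))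
    _ ≤ c * (1 / 2 : ℝ) ^ W.j ω + c' * (1 / 2 : ℝ) ^ W.j ω :=
        add_le_add (mul_le_mul_of_nonneg_left p2 hc) g6
    _ = (c + c') * (1 / 2 : ℝ) ^ W.j ω := by ring

theorem sub_mono {Ω : Type} {c c' : ℝ} {B W : Bx Ω} {ω : Ω} (hc : c ≤ c') (h : Sub c B W ω) :
    Sub c' B W ω := by
  obtain ⟨h1, h2, h3, h4, h5, h6⟩ := h
  exact ⟨h1, h2, h3, h4, h5, h6.trans (mul_le_mul_of_nonneg_right hc (by positivity))⟩

theorem subA_trans {S : Sys} {B U W : S.BX} (h : SubA B U) (h' : SubA U W) : SubA B W := by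
  obtain ⟨c, hc⟩ := h
  obtain ⟨c', hc'⟩ := h'
  refine ⟨max c 0 + c', ?_⟩
  filter_upwards [hc, hc'] with i h1 h2 ω hω
  exact sub_trans (le_max_right _ _) (sub_mono (le_max_left _ _) (h1 ω hω)) (h2 ω hω)

theorem subA_pull {S S' : Sys} (e : Ext S' S) {B W : S.BX} (h : SubA B W) :
    SubA (e.pullB B) (e.pullB W) := by
  obtain ⟨c, hc⟩ := h
  refine ⟨c, ?_⟩
  filter_upwards [hc] with i h1 ω hω
  exact h1 _ (e.w_pos i hω)

end ExcB

open ExcB

/-- the excess is nonnegative -/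
theorem pExcNonneg : PExcNonneg := by
  intro S γ C B hB
  refine const_le_ulim (ub_exc hB C) ?_
  filter_upwards [S.nm_pos, hB.ok] with i h1 h2
  exact div_nonneg (excF_nonneg h2) h1.le

/-- every box gives a lower bound for the excess -/
theorem pExcLe : PExcLe := by
  intro S S' e γ C B W hB hW hs
  have hB' := e.bxA hB
  rw [val_eq hB' hW]
  obtain ⟨c, hc⟩ := hs
  obtain ⟨m, hm⟩ : ∃ m : ℕ, c ≤ 2 ^ m := by
    obtain ⟨m, hm⟩ := pow_unbounded_of_one_lt c (one_lt_two (α := ℝ))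
    exact ⟨m, hm.le⟩
  refine ulim_le_of_sub (ub_exV hB' hW _) (ub_exc hB C)
    (S.const_div_nm (Real.log (((2 * 4 + 1) ^ 4 : ℕ) : ℝ) + Real.log 2 * (2 * m))) ?_
  filter_upwards [hc, S.nm_pos] with i h1 h2
  rw [e.nm, ← add_div]
  refine div_le_div_of_nonneg_right ?_ h2.le
  exact exV_le_excF' (C := C i) hm (e.law i) h1

/-- comparison of the excess for two conditions -/
theorem ExcB.exc_le_add {S : Sys} {γ δ : Type} {C : S.RV γ} {C' : S.RV δ} {B : S.BX}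
    (hB : BxA B) (hC' : Tame C') : S.exc B C ≤ S.exc B C' + S.hc C' C := by
  unfold exc Sys.hc
  rw [← ulim_add (ub_exc hB C') (UB.hc hC' C)]
  refine ulim_le (ub_exc hB C) ((ub_exc hB C').add (UB.hc hC' C)) ?_
  filter_upwards [S.nm_pos, hB.ok] with i h1 h2
  rw [← add_div]
  exact div_le_div_of_nonneg_right (excF_le_add _ _ h2) h1.le

/-- equivalent conditions -/
theorem pExcCongr : PExcCongr := by
  intro S γ δ C C' B hB hC hC' h h'
  have h1 := ExcB.exc_le_add (C := C) (C' := C') hB hC'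
  have h2 := ExcB.exc_le_add (C := C') (C' := C) hB hC
  linarith

/-- excess of a coarser box `U` -/
theorem ExcB.pExcCoarse_of (hA : PExcAtt) : PExcCoarse := by
  intro S γ C B U hB hU hs
  obtain ⟨S', e, W, hW, hsW, hv, hind⟩ := hA S γ C U hU
  have hB' := e.bxA hB
  have hU' := e.bxA hU
  have tB := hB'.tame
  have tU := hU'.tame
  have tW := hW.tame
  -- the value of `W` for `B`
  have h1 := pExcLe S S' e γ C B W hB hW (subA_trans (subA_pull e hs) hsW)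
  rw [← hv]
  unfold val at h1 ⊢
  -- averages
  have oB := ol_sz hB'
  have oU := ol_sz hU'
  have oW := ol_sz hW
  have a1 : S'.av (fun i ω => (e.pullB B).sz i ω - W.sz i ω) =
      S'.av (BX.sz (e.pullB B)) - S'.av (BX.sz W) := av_sub oB oW
  have a2 : S'.av (fun i ω => (e.pullB U).sz i ω - W.sz i ω) =
      S'.av (BX.sz (e.pullB U)) - S'.av (BX.sz W) := av_sub oU oW
  have a3 : S.av (fun i ω => B.sz i ω - U.sz i ω) =
      S.av (BX.sz B) - S.av (BX.sz U) := av_sub (ol_sz hB) (ol_sz hU)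
  have a4 : S'.av (BX.sz (e.pullB B)) = S.av (BX.sz B) := e.av (BX.sz B)
  have a5 : S'.av (BX.sz (e.pullB U)) = S.av (BX.sz U) := e.av (BX.sz U)
  -- entropies
  have b1 : S.hc (BX.lab B) (Sys.pr (BX.lab U) C) =
      S'.hc (BX.lab (e.pullB B)) (Sys.pr (BX.lab (e.pullB U)) (e.pull C)) :=
    (e.hc (BX.lab B) (Sys.pr (BX.lab U) C)).symm
  have b2 : S.hc (BX.lab U) (Sys.pr (BX.lab B) C) =
      S'.hc (BX.lab (e.pullB U)) (Sys.pr (BX.lab (e.pullB B)) (e.pull C)) :=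
    (e.hc (BX.lab U) (Sys.pr (BX.lab B) C)).symm
  -- independence of `W` and `B` given `(U, C)`
  have c1 : S'.mi (BX.lab (e.pullB B)) (BX.lab W)
      (Sys.pr (BX.lab (e.pullB U)) (e.pull C)) = 0 := by
    rw [mi_comm tB tW]
    unfold Sys.mi
    have := hind Lab (BX.lab B)
    have e1 : e.pull (BX.lab B) = BX.lab (e.pullB B) := rfl
    rw [e1] at this
    linarith
  unfold Sys.mi at c1
  have c2 : S'.hc (BX.lab (e.pullB B)) (Sys.pr (BX.lab W)
      (Sys.pr (BX.lab (e.pullB U)) (e.pull C))) =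
      S'.hc (BX.lab (e.pullB B)) (Sys.pr (BX.lab (e.pullB U)) (Sys.pr (BX.lab W) (e.pull C))) :=
    hc_congr (Eventually.of_forall fun _ _ _ _ _ q => congrArg Prod.fst q)
      (Eventually.of_forall fun _ _ _ _ _ q => congrArg Prod.fst q)
      (Eventually.of_forall fun _ _ _ _ _ q => by
        simp only [pr_apply, Prod.mk.injEq] at q ⊢
        exact ⟨q.2.1, q.1, q.2.2⟩)
      (Eventually.of_forall fun _ _ _ _ _ q => by
        simp only [pr_apply, Prod.mk.injEq] at q ⊢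
        exact ⟨q.2.1, q.1, q.2.2⟩)
  have d1 := hc_pair tU tB (Sys.pr (BX.lab W) (e.pull C))
  have d2 := hc_pair tB tU (Sys.pr (BX.lab W) (e.pull C))
  have d3 : S'.hc (Sys.pr (BX.lab (e.pullB U)) (BX.lab (e.pullB B)))
      (Sys.pr (BX.lab W) (e.pull C)) =
      S'.hc (Sys.pr (BX.lab (e.pullB B)) (BX.lab (e.pullB U)))
      (Sys.pr (BX.lab W) (e.pull C)) :=
    hc_congr (Eventually.of_forall fun _ _ _ _ _ q => by
        simp only [pr_apply, Prod.mk.injEq] at q ⊢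
        exact ⟨q.1.2, q.1.1⟩)
      (Eventually.of_forall fun _ _ _ _ _ q => by
        simp only [pr_apply, Prod.mk.injEq] at q ⊢
        exact ⟨q.1.2, q.1.1⟩)
      (Eventually.of_forall fun _ _ _ _ _ q => q) (Eventually.of_forall fun _ _ _ _ _ q => q)
  have d4 : S'.hc (BX.lab (e.pullB U))
      (Sys.pr (BX.lab (e.pullB B)) (Sys.pr (BX.lab W) (e.pull C))) ≤
      S'.hc (BX.lab (e.pullB U)) (Sys.pr (BX.lab (e.pullB B)) (e.pull C)) :=
    hc_mono_right tU (Eventually.of_forall fun _ _ _ _ _ q => by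
      simp only [pr_apply, Prod.mk.injEq] at q ⊢
      exact ⟨q.1, q.2.2⟩)
  have k1 : S'.hc (BX.lab (e.pullB B)) (Sys.pr (BX.lab W) (e.pull C)) -
      S'.av (fun i ω => (e.pullB B).sz i ω - W.sz i ω) ≤ S.exc B C := h1
  have k2 : S'.hc (BX.lab (e.pullB U)) (Sys.pr (BX.lab W) (e.pull C)) -
      S'.av (fun i ω => (e.pullB U).sz i ω - W.sz i ω) ≤
      S.exc B C + S.av (fun i ω => B.sz i ω - U.sz i ω) -
        S.hc (BX.lab B) (Sys.pr (BX.lab U) C) + S.hc (BX.lab U) (Sys.pr (BX.lab B) C) := by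
    linarith
  exact k2

end Vale.Agent.P127.U
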