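import Vale.Agent.P127.U.FillB

/-!
# P127 / U : number of points of a box inside a ball (helper465)
-/

set_option autoImplicit false

namespace Vale.Agent.P127.U.Fi

open Finset Filter Topology Vale.Agent.P127 Vale.Agent.P127.U Sys
open Vale.Agent.P127.Stk (fl fl1 fl_of_fl fl_fract floor_close_aux pr_id)

/-- the information contained in the label of a box -/
theorem lab_data {θ θ' : ℝ} {k j k' j' : ℕ} {l l' : Ln} (h : lab θ k j l = lab θ' k' j' l') :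
    k = k' ∧ j = j' ∧ qa (j - k) θ = qa (j' - k') θ' ∧
    (|co (qa (j - k) θ) l.1 0 - co (qa (j - k) θ) l'.1 0| ≤ (1 / 2 : ℝ) ^ k ∧
      |co (qa (j - k) θ) l.1 1 - co (qa (j - k) θ) l'.1 1| ≤ (1 / 2 : ℝ) ^ j) ∧
    (|co (qa (j - k) θ) l.2 0 - co (qa (j - k) θ) l'.2 0| ≤ (1 / 2 : ℝ) ^ k ∧
      |co (qa (j - k) θ) l.2 1 - co (qa (j - k) θ) l'.2 1| ≤ (1 / 2 : ℝ) ^ j) := by
  unfold lab at h
  rw [Prod.mk.injEq, Prod.mk.injEq, Prod.mk.injEq, Prod.mk.injEq] at h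
  obtain ⟨h1, h2, h3, h4, h5⟩ := h
  subst h1
  subst h2
  have e : qa (j - k) θ = qa (j - k) θ' := by unfold qa; rw [h3]
  rw [← e] at h4 h5
  refine ⟨rfl, rfl, e, ⟨?_, ?_⟩, ⟨?_, ?_⟩⟩
  · exact fl1_close (congrArg Prod.fst h4)
  · exact fl1_close (congrArg Prod.snd h4)
  · exact fl1_close (congrArg Prod.fst h5)
  · exact fl1_close (congrArg Prod.snd h5)

theorem u_near {θ : ℝ} {p q p' q' : Fin 2 → ℝ} {τ τ' r : ℝ} {i : Fin 2}
    (h1 : |co θ p i - co θ p' i| ≤ r) (h2 : |co θ q i - co θ q' i| ≤ r) (h3 : |τ| ≤ 3)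
    (h4 : |τ - τ'| ≤ r) (h5 : |co θ q' i| ≤ 2) :
    |co θ (fun j => p j + τ * q j) i - co θ (fun j => p' j + τ' * q' j) i| ≤ 6 * r := by
  rw [co_add_mul, co_add_mul]
  have e : co θ p i + τ * co θ q i - (co θ p' i + τ' * co θ q' i) =
      (co θ p i - co θ p' i) + τ * (co θ q i - co θ q' i) + (τ - τ') * co θ q' i := by ring
  rw [e]
  have := abs_add3 h1 (abs_le_of_mul h3 h2) (abs_le_of_mul h4 h5)
  linarith

section finite

variable {Ω : Type} [Fintype Ω]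

/-- number of points of precision `n = s + m` in the box `W`, blown up around the point of time `t` -/
theorem count_fin (P : Law Ω) (l : Ω → Ln) (t t' : Ω → ℝ) (W : Bx Ω) (s m n : ℕ) (hn : s + m = n)
    (hl : ∀ ω, 0 < P.w ω → LnOk (l ω)) (ht' : ∀ ω, 0 < P.w ω → |t' ω - t ω| ≤ 2 * (1 / 2 : ℝ) ^ s)
    (hW : ∀ ω, 0 < P.w ω →
      W.l ω = (fun j => Int.fract ((2 : ℝ) ^ s * pos (l ω) (qa s (t ω)) j), (l ω).2) ∧
      W.k ω ≤ W.j ω ∧ W.j ω ≤ m) :
    Stk.hc P (fun ω => pq n (t' ω, pos (l ω) (t' ω)))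
      (fun ω => (W.lab ω, pq s (t ω, pos (l ω) (t ω)))) ≤
      (2 * Real.log 9 + Real.log 13 + 2 * Real.log 15 + 2 * Real.log 7) +
        Real.log 2 * P.ex fun ω => 3 * (m : ℝ) - W.sz ω := by
  set Y : Ω → Lab × (ℤ × (Fin 2 → ℤ)) := fun ω => (W.lab ω, pq s (t ω, pos (l ω) (t ω))) with hY
  -- data
  set v : Ω → Fin 2 → ℝ := fun ω => pos (l ω) (qa s (t ω)) with hv
  set θ : Ω → ℝ := fun ω => qa (W.j ω - W.k ω) (W.θ ω) with hθ
  set u : Ω → Fin 2 → ℝ := fun ω j => (2 : ℝ) ^ s * pos (l ω) (t' ω) j - (fl1 s (v ω j) : ℝ) with hu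
  set τ : Ω → ℝ := fun ω => (2 : ℝ) ^ s * (t' ω - qa s (t ω)) with hτ
  set a : Ω → ℤ := fun ω => fl1 n (t' ω) with ha
  set v0 : Ω → ℤ := fun ω => fl1 s (v ω 0) with hv0
  set v1 : Ω → ℤ := fun ω => fl1 s (v ω 1) with hv1
  set b0 : Ω → ℤ := fun ω => fl1 m (co (θ ω) (u ω) 0) with hb0
  set b1 : Ω → ℤ := fun ω => fl1 m (co (θ ω) (u ω) 1) with hb1
  set x0 : Ω → ℤ := fun ω => fl1 n (pos (l ω) (t' ω) 0) with hx0
  set x1 : Ω → ℤ := fun ω => fl1 n (pos (l ω) (t' ω) 1) with hx1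
  have h2s : (0:ℝ) < 2 ^ s := by positivity
  have hsp : (2:ℝ) ^ s * (1 / 2) ^ s = 1 := by
    rw [← mul_pow]; norm_num
  have hsn : (2:ℝ) ^ s * (1 / 2) ^ n = (1 / 2) ^ m := by
    rw [← hn, pow_add, ← mul_assoc, hsp, one_mul]
  -- basic facts
  have hY1 : ∀ {ω ω'}, Y ω' = Y ω → W.lab ω' = W.lab ω := fun e => congrArg Prod.fst e
  have hY2 : ∀ {ω ω'}, Y ω' = Y ω → fl1 s (t ω') = fl1 s (t ω) := fun e =>
    congrArg Prod.fst (congrArg Prod.snd e)
  have hY3 : ∀ {ω ω'}, Y ω' = Y ω → ∀ j, |pos (l ω') (t ω') j - pos (l ω) (t ω) j| ≤ (1 / 2) ^ s :=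
    fun e j => fl_close1 (congrArg Prod.snd (congrArg Prod.snd e)) j
  have hk : ∀ {ω ω'}, Y ω' = Y ω → W.k ω' = W.k ω := fun e => (lab_data (hY1 e)).1
  have hj : ∀ {ω ω'}, Y ω' = Y ω → W.j ω' = W.j ω := fun e => (lab_data (hY1 e)).2.1
  have hth : ∀ {ω ω'}, Y ω' = Y ω → θ ω' = θ ω := fun e => (lab_data (hY1 e)).2.2.1
  have hueq : ∀ ω, 0 < P.w ω → u ω = fun j => (W.l ω).1 j + τ ω * (W.l ω).2 j := by
    intro ω hω
    rw [(hW ω hω).1]
    funext j
    show (2 : ℝ) ^ s * pos (l ω) (t' ω) j - (⌊(2 : ℝ) ^ s * v ω j⌋ : ℝ) =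
      Int.fract ((2 : ℝ) ^ s * v ω j) + τ ω * (l ω).2 j
    rw [Int.fract, hτ, hv]
    unfold pos
    ring
  have hτ3 : ∀ ω, 0 < P.w ω → |τ ω| ≤ 3 := by
    intro ω hω
    have e : τ ω = (2:ℝ) ^ s * ((t' ω - t ω) + (t ω - qa s (t ω))) := by rw [hτ]; ring
    rw [e, abs_mul, abs_of_pos h2s]
    have h1 := abs_add_le (t' ω - t ω) (t ω - qa s (t ω))
    have h2 := ht' ω hω
    have h3 := qa_close s (t ω)
    calc (2:ℝ) ^ s * |(t' ω - t ω) + (t ω - qa s (t ω))| ≤ 2 ^ s * (3 * (1 / 2) ^ s) :=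
          mul_le_mul_of_nonneg_left (by linarith) h2s.le
      _ = 3 := by rw [mul_left_comm, hsp, mul_one]
  have hττ : ∀ {ω ω'}, Y ω' = Y ω → a ω' = a ω → |τ ω' - τ ω| ≤ (1 / 2) ^ m := by
    intro ω ω' e e'
    have h1 : τ ω' - τ ω = (2:ℝ) ^ s * (t' ω' - t' ω) := by
      rw [hτ]
      simp only
      rw [qa_congr (hY2 e)]
      ring
    rw [h1, abs_mul, abs_of_pos h2s, ← hsn]
    exact mul_le_mul_of_nonneg_left (fl1_close e') h2s.le
  have hq : ∀ ω, 0 < P.w ω → ∀ φ i, |co φ (W.l ω).2 i| ≤ 2 := by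
    intro ω hω φ i
    rw [(hW ω hω).1]
    have := abs_co_le (θ := φ) (hl ω hω).2 i
    linarith
  -- the coordinates of `u`
  have hu0 : ∀ ω ω', 0 < P.w ω → 0 < P.w ω' → Y ω' = Y ω → a ω' = a ω →
      |co (θ ω') (u ω') 0 - co (θ ω) (u ω) 0| ≤ 6 * (1 / 2 : ℝ) ^ W.k ω := by
    intro ω ω' hω hω' e e'
    obtain ⟨d1, d2, d3, ⟨d4, d5⟩, ⟨d6, d7⟩⟩ := lab_data (hY1 e)
    rw [hth e, hueq ω hω, hueq ω' hω']
    rw [d3, d1] at d4 d6
    refine u_near d4 d6 (hτ3 ω' hω') ((hττ e e').trans ?_) (hq ω hω _ _)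
    exact hp_anti ((hW ω hω).2.1.trans (hW ω hω).2.2)
  have hu1 : ∀ ω ω', 0 < P.w ω → 0 < P.w ω' → Y ω' = Y ω → a ω' = a ω →
      |co (θ ω') (u ω') 1 - co (θ ω) (u ω) 1| ≤ 6 * (1 / 2 : ℝ) ^ W.j ω := by
    intro ω ω' hω hω' e e'
    obtain ⟨d1, d2, d3, ⟨d4, d5⟩, ⟨d6, d7⟩⟩ := lab_data (hY1 e)
    rw [hth e, hueq ω hω, hueq ω' hω']
    rw [d3, d2] at d5 d7
    refine u_near d5 d7 (hτ3 ω' hω') ((hττ e e').trans ?_) (hq ω hω _ _)
    exact hp_anti (hW ω hω).2.2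
  -- `v`
  have hvv : ∀ ω ω', 0 < P.w ω → 0 < P.w ω' → Y ω' = Y ω → ∀ j,
      |v ω' j - v ω j| ≤ 3 * (1 / 2 : ℝ) ^ s := by
    intro ω ω' hω hω' e j
    have e1 : v ω' j - v ω j = (pos (l ω') (t ω') j - pos (l ω) (t ω) j) +
        (-((t ω' - qa s (t ω')) * (l ω').2 j)) + (t ω - qa s (t ω)) * (l ω).2 j := by
      rw [hv]; unfold pos; ring
    rw [e1]
    have b1 := abs_le_of_mul (qa_close s (t ω')) ((hl ω' hω').2 j)
    have b2 := abs_le_of_mul (qa_close s (t ω)) ((hl ω hω).2 j)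
    rw [← abs_neg] at b1
    have := abs_add3 (hY3 e j) b1 b2
    linarith
  -- `x`
  have hxx : ∀ ω ω', 0 < P.w ω → 0 < P.w ω' → Y ω' = Y ω → (∀ j, fl1 s (v ω' j) = fl1 s (v ω j)) →
      b0 ω' = b0 ω → b1 ω' = b1 ω → ∀ j,
      |pos (l ω') (t' ω') j - pos (l ω) (t' ω) j| ≤ 2 * (1 / 2 : ℝ) ^ n := by
    intro ω ω' hω hω' e ev e0 e1 j
    have f0 := fl1_close e0
    have f1 := fl1_close e1
    rw [hth e, ← co_sub] at f0 f1
    have g := abs_le_of_co (θ := θ ω) (v := fun j => u ω' j - u ω j) (a := (1 / 2 : ℝ) ^ m) (by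
      intro i
      fin_cases i
      · exact f0
      · exact f1) j
    have g1 : u ω' j - u ω j = (2:ℝ) ^ s * (pos (l ω') (t' ω') j - pos (l ω) (t' ω) j) := by
      rw [hu]
      simp only
      rw [ev j]
      ring
    rw [g1, abs_mul, abs_of_pos h2s, ← hsn] at g
    have g2 : (2:ℝ) ^ s * |pos (l ω') (t' ω') j - pos (l ω) (t' ω) j| ≤
        2 ^ s * (2 * (1 / 2) ^ n) := by linarith
    exact le_of_mul_le_mul_left g2 h2s
  -- chain
  have c0 : Stk.hc P v0 Y ≤ Real.log 9 := by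
    have := near_fl1 P s (fun _ => s) 3 (fun ω => v ω 0) Y (fun _ _ => le_rfl)
      (fun ω ω' p p' e => by push_cast; exact hvv ω ω' p p' e 0)
    simp only [sub_self, P.ex_const] at this
    norm_num at this
    exact this
  have c1 : Stk.hc P v1 (fun ω => (v0 ω, Y ω)) ≤ Real.log 9 := by
    have := near_fl1 P s (fun _ => s) 3 (fun ω => v ω 1) (fun ω => (v0 ω, Y ω)) (fun _ _ => le_rfl)
      (fun ω ω' p p' e => by push_cast; exact hvv ω ω' p p' (congrArg Prod.snd e) 1)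
    simp only [sub_self, P.ex_const] at this
    norm_num at this
    exact this
  have c2 : Stk.hc P a (fun ω => (v1 ω, v0 ω, Y ω)) ≤ Real.log 13 + Real.log 2 * m := by
    have := near_fl1 P n (fun _ => s) 5 t' (fun ω => (v1 ω, v0 ω, Y ω)) (fun _ _ => by omega)
      (fun ω ω' p p' e => by
        have e' : Y ω' = Y ω := congrArg (fun z => z.2.2) e
        have f := fl1_close (hY2 e')
        have g := ht' ω p
        have g' := ht' ω' p'
        have e1 : t' ω' - t' ω = (t ω' - t ω) + (t' ω' - t ω') + (-(t' ω - t ω)) := by ring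
        rw [e1]
        rw [← abs_neg] at g
        have := abs_add3 f g' g
        push_cast
        linarith)
    rw [P.ex_const] at this
    have hns : (n:ℝ) - s = m := by rw [← hn]; push_cast; ring
    rw [hns] at this
    norm_num at this
    exact this
  have c3 : Stk.hc P b0 (fun ω => (a ω, v1 ω, v0 ω, Y ω)) ≤
      Real.log 15 + Real.log 2 * P.ex fun ω => (m : ℝ) - W.k ω := by
    have := near_fl1 P m (fun ω => W.k ω) 6 (fun ω => co (θ ω) (u ω) 0)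
      (fun ω => (a ω, v1 ω, v0 ω, Y ω))
      (fun ω p => (hW ω p).2.1.trans (hW ω p).2.2)
      (fun ω ω' p p' e => by
        push_cast
        exact hu0 ω ω' p p' (congrArg (fun z => z.2.2.2) e) (congrArg (fun z => z.1) e))
    norm_num at this
    exact this
  have c4 : Stk.hc P b1 (fun ω => (b0 ω, a ω, v1 ω, v0 ω, Y ω)) ≤
      Real.log 15 + Real.log 2 * P.ex fun ω => (m : ℝ) - W.j ω := by
    have := near_fl1 P m (fun ω => W.j ω) 6 (fun ω => co (θ ω) (u ω) 1)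
      (fun ω => (b0 ω, a ω, v1 ω, v0 ω, Y ω))
      (fun ω p => (hW ω p).2.2)
      (fun ω ω' p p' e => by
        push_cast
        exact hu1 ω ω' p p' (congrArg (fun z => z.2.2.2.2) e) (congrArg (fun z => z.2.1) e))
    norm_num at this
    exact this
  have c5 : Stk.hc P x0 (fun ω => (b1 ω, b0 ω, a ω, v1 ω, v0 ω, Y ω)) ≤ Real.log 7 := by
    have := near_fl1 P n (fun _ => n) 2 (fun ω => pos (l ω) (t' ω) 0)
      (fun ω => (b1 ω, b0 ω, a ω, v1 ω, v0 ω, Y ω)) (fun _ _ => le_rfl)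
      (fun ω ω' p p' e => by
        push_cast
        refine hxx ω ω' p p' (congrArg (fun z => z.2.2.2.2.2) e) ?_ (congrArg (fun z => z.2.1) e)
          (congrArg (fun z => z.1) e) 0
        intro j
        fin_cases j
        · exact congrArg (fun z => z.2.2.2.2.1) e
        · exact congrArg (fun z => z.2.2.2.1) e)
    simp only [sub_self, P.ex_const] at this
    norm_num at this
    exact this
  have c6 : Stk.hc P x1 (fun ω => (x0 ω, b1 ω, b0 ω, a ω, v1 ω, v0 ω, Y ω)) ≤ Real.log 7 := by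
    have := near_fl1 P n (fun _ => n) 2 (fun ω => pos (l ω) (t' ω) 1)
      (fun ω => (x0 ω, b1 ω, b0 ω, a ω, v1 ω, v0 ω, Y ω)) (fun _ _ => le_rfl)
      (fun ω ω' p p' e => by
        push_cast
        refine hxx ω ω' p p' (congrArg (fun z => z.2.2.2.2.2.2) e) ?_
          (congrArg (fun z => z.2.2.1) e) (congrArg (fun z => z.2.1) e) 1
        intro j
        fin_cases j
        · exact congrArg (fun z => z.2.2.2.2.2.1) e
        · exact congrArg (fun z => z.2.2.2.2.1) e)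
    simp only [sub_self, P.ex_const] at this
    norm_num at this
    exact this
  have c7 : Stk.hc P (fun ω => pq n (t' ω, pos (l ω) (t' ω)))
      (fun ω => (x1 ω, x0 ω, b1 ω, b0 ω, a ω, v1 ω, v0 ω, Y ω)) = 0 := by
    refine Stk.hc_zero P fun ω ω' _ _ e => ?_
    refine Prod.ext (congrArg (fun z => z.2.2.2.2.1) e) ?_
    funext j
    fin_cases j
    · exact congrArg (fun z => z.2.1) e
    · exact congrArg (fun z => z.1) e
  set X := fun ω => pq n (t' ω, pos (l ω) (t' ω)) with hX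
  have d0 := Stk.hc_le_add' P X v0 Y
  have d1 := Stk.hc_le_add' P X v1 (fun ω => (v0 ω, Y ω))
  have d2 := Stk.hc_le_add' P X a (fun ω => (v1 ω, v0 ω, Y ω))
  have d3 := Stk.hc_le_add' P X b0 (fun ω => (a ω, v1 ω, v0 ω, Y ω))
  have d4 := Stk.hc_le_add' P X b1 (fun ω => (b0 ω, a ω, v1 ω, v0 ω, Y ω))
  have d5 := Stk.hc_le_add' P X x0 (fun ω => (b1 ω, b0 ω, a ω, v1 ω, v0 ω, Y ω))
  have d6 := Stk.hc_le_add' P X x1 (fun ω => (x0 ω, b1 ω, b0 ω, a ω, v1 ω, v0 ω, Y ω))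
  have hex : (P.ex fun ω => 3 * (m : ℝ) - W.sz ω) =
      m + (P.ex fun ω => (m : ℝ) - W.k ω) + P.ex fun ω => (m : ℝ) - W.j ω := by
    rw [← P.ex_const (m : ℝ), ← P.ex_add, ← P.ex_add]
    refine P.ex_congr fun ω _ => ?_
    rw [P.ex_const]
    unfold Bx.sz
    ring
  rw [hex]
  have hl2 : 0 ≤ Real.log 2 := Real.log_nonneg (by norm_num)
  rw [mul_add, mul_add]
  linarith

end finite

section sys

variable {S : Sys} {n s m : ℕ → ℕ} {l : S.RV Ln} {t t' : S.RV ℝ}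

theorem av_const {c : ℕ → ℝ} : S.av (fun i _ => c i) = ulim fun i => c i / S.L i := by
  unfold av
  refine ulim_congr (Eventually.of_forall fun i => ?_)
  rw [(S.P i).ex_const]

/-- number of points of a box inside a ball -/
theorem count (h : Par S n s m) (hl : LnA l) (ht : T01 t) (ht' : T01 t')
    (hn : S.Ae fun i ω => |t' i ω - t i ω| ≤ 2 * (1 / 2 : ℝ) ^ s i) {W : S.BX}
    (hW : SubA (tubes m (bl s l t)) W) :
    S.hc (pqs n (pt l t')) (Sys.pr (BX.lab W) (pqs s (pt l t))) ≤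
      3 * S.nu m - S.av W.sz := by
  have hB : BxA (tubes m (bl s l t)) := tubes_bxA h.bdm (bl_ok hl)
  have hWA : BxA W := bxA_of_sub hB hW
  have o1 : OL (S := S) fun i _ => 3 * (m i : ℝ) := by
    obtain ⟨c, hc⟩ := h.bdm
    refine ⟨3 * c, ?_⟩
    filter_upwards [hc] with i hi ω _
    have : (0:ℝ) ≤ m i := Nat.cast_nonneg _
    rw [abs_of_nonneg (by positivity)]
    linarith
  have e1 : 3 * S.nu m - S.av W.sz = S.av fun i ω => 3 * (m i : ℝ) - (W i).sz ω := by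
    have e2 := av_sub o1 (ol_sz hWA)
    have e3 : S.av (fun i _ => 3 * (m i : ℝ)) = 3 * S.nu m := by
      rw [av_const]
      unfold nu
      rw [← ulim_const_mul 3 (ub_nu h.bdm)]
      refine ulim_congr (Eventually.of_forall fun i => ?_)
      ring
    rw [← e3]
    exact e2.symm
  rw [e1]
  have hbd : UB fun i => (S.P i).ex (fun ω => 3 * (m i : ℝ) - (W i).sz ω) / S.L i :=
    UB.av (o1.sub (ol_sz hWA))
  refine ulim_le_of_sub (UB.hc (tame_pqs h.bd hl ht') _) hbd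
    (S.const_div_nm (2 * Real.log 9 + Real.log 13 + 2 * Real.log 15 + 2 * Real.log 7)) ?_
  obtain ⟨c, hc⟩ := hW
  filter_upwards [hl, hn, hc, S.L_pos] with i h1 h2 h3 h4
  have hL : (0:ℝ) < S.L i := by exact_mod_cast h4
  have hl2 : 0 < Real.log 2 := Real.log_pos (by norm_num)
  have := count_fin (S.P i) (l i) (t i) (t' i) (W i) (s i) (m i) (n i) (h.add i) h1 h2
    (fun ω hω => by
      obtain ⟨a1, -, a3, -, a5, -⟩ := h3 ω hω
      exact ⟨a1, a3, a5⟩)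
  have hnm : 0 < S.nm i := by unfold Sys.nm; positivity
  show Stk.hc (S.P i) _ _ / S.nm i ≤ _
  rw [div_le_iff₀ hnm]
  refine this.trans (le_of_eq ?_)
  have e5 : S.nm i = S.L i * Real.log 2 := rfl
  rw [add_mul, div_mul_cancel₀ _ hnm.ne', e5]
  field_simp
  ring

end sys

end Vale.Agent.P127.U.Fi
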