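import Vale.Agent.P127.U.CellD
import Vale.Agent.P127.TV.MStepB

/-!
# P127 / U : the inputs of the M-step (helper23)

For `j ≤ j'`, `D = J j b`, `Θ = T j'`, `W = base j (b + B)`:

* `hc_bad` : `H(X | Y) ≤ 2 √p + p log N` if `X` is a function of `Y` outside an event of
  probability `p`, and takes at most `N` values given `Y`.
* `e`, `A`, `ppi`, `bet`, `s`, `Gs`, `h` : the data of `mstep_lat`; `hA0`, `hA1` : the corner relation.
* `mi_A` : `I(e ; A | D, Θ) ≤ I(e ; J j' b | J j b) + 2 √p + p log 125`, `p = P(Bad j' b)`.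
* `mi_W` : `I(Θ ; W | D) ≤ I(Θ ; J j (b + B) | J j b)`.
-/

set_option autoImplicit false

namespace Vale.Agent.P127.U.CellE

open Finset Vale.Agent.P127 Vale.Agent.P127.Stk Vale.Agent.P127.U.CellD
open Vale.Agent.P127.U.Cell (tele mi_nested)

/-! ### entropy of a variable known outside a small event -/

section bad

variable {Ω : Type} [Fintype Ω] {S T : Type*}

/-- entropy of an indicator -/
theorem H_ind_le (P : Law Ω) (bad : Ω → Prop) : P.H (fun ω => bad ω) ≤ 2 * Real.sqrt (prE P bad) := by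
  classical
  have hp0 : 0 ≤ prE P bad := Finset.sum_nonneg fun ω _ => P.nn ω
  rcases hp0.eq_or_lt with h0 | h0
  · have h1 : ∀ ω, 0 < P.w ω → ¬ bad ω := by
      intro ω hω hb
      have h2 : P.w ω ≤ prE P bad :=
        Finset.single_le_sum (f := P.w) (fun i _ => P.nn i) (by simp [hb])
      linarith
    have h2 : P.H (fun ω => bad ω) ≤ P.H (fun _ : Ω => ()) :=
      H_mono' P fun ω ω' p p' _ => propext ⟨fun h => absurd h (h1 ω p), fun h => absurd h (h1 ω' p')⟩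
    have h3 : P.H (fun _ : Ω => ()) = 0 := by
      have := P.H_le_log_card (fun _ : Ω => ())
      have h4 := P.H_nonneg (fun _ : Ω => ())
      simp at this
      exact le_antisymm this h4
    rw [← h0, Real.sqrt_zero]
    linarith
  · set p := prE P bad with hp
    set r := Real.sqrt p with hr
    have hr0 : 0 < r := Real.sqrt_pos.2 h0
    have hrr : r * r = p := Real.mul_self_sqrt h0.le
    have hq : 0 < 1 + r := by linarith
    have h1 := P.gibbs (fun ω => bad ω) (fun x => if x then r / (1 + r) else 1 / (1 + r))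
      (fun x => by split_ifs <;> positivity) ?_ (fun ω _ => by split_ifs <;> positivity)
    · refine h1.trans ?_
      have h2 : P.ex (fun ω => -Real.log (if bad ω then r / (1 + r) else 1 / (1 + r))) ≤
          P.ex (fun ω => r + (if bad ω then 1 / r else 0)) := by
        refine P.ex_mono fun ω _ => ?_
        split_ifs
        · rw [Real.log_div hr0.ne' hq.ne', neg_sub, ← Real.log_div hq.ne' hr0.ne']
          have := Real.log_le_sub_one_of_pos (div_pos hq hr0)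
          have h3 : (1 + r) / r - 1 = 1 / r := by field_simp; ring
          linarith
        · rw [one_div, Real.log_inv, neg_neg]
          have := Real.log_le_sub_one_of_pos hq
          linarith
      refine h2.trans (le_of_eq ?_)
      rw [P.ex_add, P.ex_const]
      have h3 : P.ex (fun ω => if bad ω then 1 / r else 0) = p * (1 / r) := by
        unfold Law.ex
        rw [hp]
        unfold prE
        rw [Finset.sum_mul, Finset.sum_filter]
        refine Finset.sum_congr rfl fun ω _ => ?_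
        by_cases hb : bad ω <;> simp [hb]
      rw [h3, ← hrr]
      field_simp
      ring
    · have h2 : ∑ x ∈ (img fun ω => bad ω), (if x then r / (1 + r) else 1 / (1 + r)) ≤
          ∑ x ∈ ({True, False} : Finset Prop), (if x then r / (1 + r) else 1 / (1 + r)) := by
        refine Finset.sum_le_sum_of_subset_of_nonneg (fun x _ => ?_) fun x _ _ => by
          split_ifs <;> positivity
        by_cases hx : x <;> simp [hx]
      refine h2.trans (le_of_eq ?_)
      rw [Finset.sum_pair (by simp)]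
      simp
      field_simp
      ring

/-- a variable which is known outside a small event -/
theorem hc_bad (P : Law Ω) (X : Ω → S) (Y : Ω → T) (bad : Ω → Prop) (N : ℕ) (hN : 1 ≤ N)
    (h1 : ∀ ω ω', 0 < P.w ω → 0 < P.w ω' → ¬ bad ω → ¬ bad ω' → Y ω = Y ω' → X ω = X ω')
    (h2 : ∀ ω, 0 < P.w ω → ∃ F : Finset S, F.card ≤ N ∧
      ∀ ω', 0 < P.w ω' → Y ω' = Y ω → X ω' ∈ F) :
    hc P X Y ≤ 2 * Real.sqrt (prE P bad) + prE P bad * Real.log N := by
  classical
  have e1 : hc P X Y ≤ hc P (fun ω => (bad ω, X ω)) Y :=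
    hc_mono_left P fun ω ω' _ _ h => by
      simp only [Prod.mk.injEq] at h
      exact h.1.2
  have e2 := hc_pair P (fun ω => bad ω) X Y
  have e3 := hc_le_H P (fun ω => bad ω) Y
  have e4 := H_ind_le P bad
  have e5 : hc P X (fun ω => (bad ω, Y ω)) = hc P X (fun ω => (Y ω, bad ω)) :=
    hc_congr P (fun _ _ _ _ h => congrArg Prod.fst h) (fun _ _ _ _ h => congrArg Prod.fst h)
      (fun _ _ _ _ h => by simp only [Prod.mk.injEq] at h ⊢; exact ⟨h.2, h.1⟩)
      (fun _ _ _ _ h => by simp only [Prod.mk.injEq] at h ⊢; exact ⟨h.2, h.1⟩)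
  have hlog : 0 ≤ Real.log N := Real.log_nonneg (by exact_mod_cast hN)
  have e6 : hc P X (fun ω => (Y ω, bad ω)) ≤ prE P bad * Real.log N := by
    rw [TV.hc_cond_ex]
    have e7 : P.ex (fun ω => hc (P.cond (fun ω => bad ω) (bad ω)) X Y) ≤
        P.ex (fun ω => if bad ω then Real.log N else 0) := by
      refine P.ex_mono fun ω hω => ?_
      have hz := P.pr_pos (fun ω => bad ω) hω
      have hs : ∀ ω', 0 < (P.cond (fun ω => bad ω) (bad ω)).w ω' → 0 < P.w ω' ∧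
          (bad ω' = bad ω) := by
        intro ω' h
        rw [P.cond_w _ _ hz] at h
        split_ifs at h with h3
        · refine ⟨?_, h3⟩
          by_contra hc
          have : P.w ω' = 0 := le_antisymm (not_lt.1 hc) (P.nn ω')
          rw [this, zero_div] at h
          exact lt_irrefl _ h
        · exact absurd h (lt_irrefl _)
      split_ifs with hb
      · refine hc_le_log _ X Y N fun ω1 h3 => ?_
        obtain ⟨F, hF, hF2⟩ := h2 ω1 (hs ω1 h3).1
        exact ⟨F, hF, fun ω2 h4 h5 => hF2 ω2 (hs ω2 h4).1 h5⟩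
      · refine le_of_eq (hc_zero _ ?_)
        intro ω1 ω2 h3 h4 h5
        have g1 := (hs ω1 h3)
        have g2 := (hs ω2 h4)
        refine h1 ω1 ω2 g1.1 g2.1 ?_ ?_ h5
        · intro h; exact hb (g1.2 ▸ h)
        · intro h; exact hb (g2.2 ▸ h)
    refine e7.trans (le_of_eq ?_)
    unfold Law.ex prE
    rw [Finset.sum_mul, Finset.sum_filter]
    refine Finset.sum_congr rfl fun ω _ => ?_
    by_cases hb : bad ω <;> simp [hb]
  linarith

end bad

/-! ### the data of the M-step -/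

variable {Ω : Type} (C : Pth Ω)

/-- type of the cells -/
abbrev Ce := ℕ → Option Dg

/-- digits of the path of step `j` in a cell -/
def dT (j : ℕ) (d : Ce) : ℤ × ℤ := (d j).elim 0 fun g => g.1

/-- digits of `y1` in a cell -/
def dY (j : ℕ) (d : Ce) : ℤ := (d j).elim 0 fun g => g.2.1

/-- the digits `θ` of step `j'` extend the digits of step `j` of the cell -/
def good (j j' : ℕ) (d : Ce) (θ : ℤ × ℤ) : Prop :=
  θ.1 / ((2 ^ (C.a j' - C.a j) : ℕ) : ℤ) = (dT j d).1 ∧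
    θ.2 / ((2 ^ (C.r j' - C.r j) : ℕ) : ℤ) = (dT j d).2

open Classical in
/-- the window vector: rounded corner values -/
noncomputable def A (j j' b B : ℕ) (d : Ce) (θ : ℤ × ℤ) (w : Dg) : (ℤ × ℤ × ℤ) ⊕ Dg :=
  if good C j j' d θ then Sum.inl (C.rA j j' (b + B) b θ w) else Sum.inr w

/-- the block of `y1`, in units of `2^-b` -/
noncomputable def e (j b B : ℕ) (d : Ce) (w : Dg) : ℝ := 2 ^ b * Pth.cY (b + B) w - dY j d

/-- difference of the times, in units of `2^-a` -/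
noncomputable def dt (_j j' : ℕ) (θ₁ θ₂ : ℤ × ℤ) : ℝ :=
  (θ₂.1 : ℝ) / 2 ^ C.a j' - (θ₁.1 : ℝ) / 2 ^ C.a j'

/-- difference of the slopes -/
noncomputable def dv (_j j' : ℕ) (θ₁ θ₂ : ℤ × ℤ) : ℝ :=
  (θ₂.2 : ℝ) / 2 ^ C.r j' - (θ₁.2 : ℝ) / 2 ^ C.r j'

open Classical in
/-- the shift of the time, in units of `2^-a` -/
noncomputable def s (j j' : ℕ) (d : Ce) (θ₁ θ₂ : ℤ × ℤ) : ℝ :=
  if good C j j' d θ₁ ∧ good C j j' d θ₂ then 2 ^ C.a j * dt C j j' θ₁ θ₂ else 0

/-- the shift of the slope, in units of `2^-r` -/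
noncomputable def Gs (j j' : ℕ) (_d : Ce) (θ₁ θ₂ : ℤ × ℤ) : ℝ := 2 ^ C.r j * dv C j j' θ₁ θ₂

open Classical in
/-- the position in the units of the shifts -/
noncomputable def ppi (j j' b : ℕ) (_d : Ce) (_θ : ℤ × ℤ) (z : (ℤ × ℤ × ℤ) ⊕ Dg) : Fin 2 → ℝ :=
  Sum.elim (fun z => ![2 ^ (C.a j + b) * ((z.2.1 : ℝ) / 2 ^ (C.a j' + b - C.κ)),
    2 ^ (C.a j + C.r j + b) * ((z.2.2 : ℝ) / 2 ^ (C.a j' + C.r j' + b - 2 * C.κ))])
    (fun _ => 0) z

open Classical in
/-- the position at the time `θ₂` transported to the frame of `θ₁` -/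
noncomputable def bet (j j' b B : ℕ) (d : Ce) (θ₁ θ₂ : ℤ × ℤ) (z : (ℤ × ℤ × ℤ) ⊕ Dg) :
    Fin 2 → ℝ :=
  Sum.elim (fun z => if good C j j' d θ₁ ∧ good C j j' d θ₂ then
    ![2 ^ (C.a j + b) * ((z.2.1 : ℝ) / 2 ^ (C.a j' + b - C.κ)),
      2 ^ (C.a j + C.r j + b) * ((z.2.2 : ℝ) / 2 ^ (C.a j' + C.r j' + b - 2 * C.κ) -
        dt C j j' θ₁ θ₂ * ((z.1 : ℝ) / 2 ^ (b + C.r j' - C.κ)) +
        dv C j j' θ₁ θ₂ * ((z.2.1 : ℝ) / 2 ^ (C.a j' + b - C.κ)))] else 0)
    (fun w => ppi C j j' b d θ₁ (A C j j' b B d θ₁ w)) z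

/-- the known part of the displacement -/
noncomputable def h (j j' : ℕ) (d : Ce) (θ₁ θ₂ : ℤ × ℤ) : Fin 2 → ℝ :=
  ![s C j j' d θ₁ θ₂ * dY j d, s C j j' d θ₁ θ₂ * Gs C j j' d θ₁ θ₂ * dY j d]

variable {C}

lemma dT_J (j b : ℕ) (ω : Ω) : dT j (C.J j b ω) = C.T j ω := by
  unfold dT Pth.J
  rw [if_pos le_rfl]
  rfl

lemma dY_J (j b : ℕ) (ω : Ω) : dY j (C.J j b ω) = fl1 b (C.y1 ω) := by
  unfold dY Pth.J
  rw [if_pos le_rfl]
  rfl

lemma good_true {j j' : ℕ} (hj : j ≤ j') (b : ℕ) (ω : Ω) :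
    good C j j' (C.J j b ω) (C.T j' ω) := by
  unfold good
  rw [dT_J]
  unfold Pth.T fl1
  exact ⟨(floor_pow_aux (C.ha hj) _).symm, (floor_pow_aux (C.hr hj) _).symm⟩

/-- digits which agree at a coarser level are close -/
lemma near_of_ediv {p p' : ℕ} (hp : p ≤ p') {x y τ : ℤ}
    (hx : x / ((2 ^ (p' - p) : ℕ) : ℤ) = τ) (hy : y / ((2 ^ (p' - p) : ℕ) : ℤ) = τ) :
    |(y : ℝ) / 2 ^ p' - (x : ℝ) / 2 ^ p'| ≤ q2 p := by
  set k : ℤ := ((2 ^ (p' - p) : ℕ) : ℤ) with hk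
  have hk0 : 0 < k := by rw [hk]; positivity
  have x1 := Int.emod_nonneg x hk0.ne'
  have x2 := Int.emod_lt_of_pos x hk0
  have x3 := Int.mul_ediv_add_emod x k
  have y1 := Int.emod_nonneg y hk0.ne'
  have y2 := Int.emod_lt_of_pos y hk0
  have y3 := Int.mul_ediv_add_emod y k
  rw [hx] at x3
  rw [hy] at y3
  have h1 : |y - x| ≤ k := by
    rw [abs_le]
    constructor <;> omega
  have h2 : |(y : ℝ) - x| ≤ 2 ^ (p' - p) := by
    have : ((|y - x| : ℤ) : ℝ) ≤ (k : ℝ) := by exact_mod_cast h1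
    rw [hk] at this
    push_cast at this
    exact this
  rw [← sub_div, abs_div, abs_of_pos (by positivity : (0 : ℝ) < 2 ^ p'),
    div_le_iff₀ (by positivity)]
  refine h2.trans (le_of_eq ?_)
  have h3 : (2 : ℝ) ^ p' = 2 ^ p * 2 ^ (p' - p) := by rw [← pow_add, Nat.add_sub_cancel' hp]
  rw [h3, ← mul_assoc, mul_comm (q2 p), q2_mul_pow, one_mul]

section rel

variable {j j' b B g : ℕ} (hj : j ≤ j') (hb : 2 * C.κ ≤ b) (hga : C.κ + g ≤ C.a j' - C.a j)
  (hgr : C.κ + g ≤ C.r j' - C.r j)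

include hj hb hga hgr

private lemma rel_aux (d : Ce) (θ₁ θ₂ : ℤ × ℤ) (w : Dg) (g1 : good C j j' d θ₁)
    (g2 : good C j j' d θ₂) :
    |2 ^ (C.a j + b) * rd (C.a j' + b - C.κ) (C.cX j j' (b + B) θ₂ w) -
      2 ^ (C.a j + b) * rd (C.a j' + b - C.κ) (C.cX j j' (b + B) θ₁ w) -
      2 ^ C.a j * dt C j j' θ₁ θ₂ * (2 ^ b * Pth.cY (b + B) w)| ≤ 4 * q2 g ∧
    |2 ^ (C.a j + C.r j + b) * (rd (C.a j' + C.r j' + b - 2 * C.κ) (C.cF j j' (b + B) θ₂ w) -
        dt C j j' θ₁ θ₂ * rd (b + C.r j' - C.κ) (C.cN j j' (b + B) θ₂ w) +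
        dv C j j' θ₁ θ₂ * rd (C.a j' + b - C.κ) (C.cX j j' (b + B) θ₂ w)) -
      2 ^ (C.a j + C.r j + b) * rd (C.a j' + C.r j' + b - 2 * C.κ) (C.cF j j' (b + B) θ₁ w) -
      2 ^ C.a j * dt C j j' θ₁ θ₂ * (2 ^ C.r j * dv C j j' θ₁ θ₂) *
        (2 ^ b * Pth.cY (b + B) w)| ≤ 4 * q2 g := by
  have ha := C.ha hj
  have hr := C.hr hj
  have hs : |dt C j j' θ₁ θ₂| ≤ q2 (C.a j) := near_of_ediv ha g1.1 g2.1
  have hv : |dv C j j' θ₁ θ₂| ≤ q2 (C.r j) := near_of_ediv hr g1.2 g2.2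
  set σ := dt C j j' θ₁ θ₂ with hσ
  set δ := dv C j j' θ₁ θ₂ with hδ
  set y := Pth.cY (b + B) w with hy
  have est : C.st j j' θ₂ w = C.st j j' θ₁ w + σ := by
    rw [hσ]; unfold Pth.st dt; ring
  have esv : C.sv j j' θ₂ w = C.sv j j' θ₁ w + δ := by
    rw [hδ]; unfold Pth.sv dv; ring
  set pX := C.a j' + b - C.κ with hpX
  set pN := b + C.r j' - C.κ with hpN
  set pF := C.a j' + C.r j' + b - 2 * C.κ with hpF
  have x1 := rd_err pX (C.cX j j' (b + B) θ₁ w)
  have x2 := rd_err pX (C.cX j j' (b + B) θ₂ w)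
  have n2 := rd_err pN (C.cN j j' (b + B) θ₂ w)
  have f1 := rd_err pF (C.cF j j' (b + B) θ₁ w)
  have f2 := rd_err pF (C.cF j j' (b + B) θ₂ w)
  have iX : C.cX j j' (b + B) θ₂ w - C.cX j j' (b + B) θ₁ w = σ * y := by
    unfold Pth.cX
    rw [est]
    ring
  have iF : C.cF j j' (b + B) θ₂ w - σ * C.cN j j' (b + B) θ₂ w + δ * C.cX j j' (b + B) θ₂ w -
      C.cF j j' (b + B) θ₁ w = δ * σ * y := by
    unfold Pth.cF Pth.cN Pth.cX
    rw [est, esv]
    ring
  have pa : (2 : ℝ) ^ (C.a j + b) * q2 pX ≤ q2 g := by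
    have h1 : q2 pX ≤ q2 (C.a j + b + g) := q2_le (by omega)
    calc (2 : ℝ) ^ (C.a j + b) * q2 pX ≤ 2 ^ (C.a j + b) * q2 (C.a j + b + g) := by gcongr
      _ = q2 g := by rw [q2_add (C.a j + b) g, ← mul_assoc, q2_mul_pow, one_mul]
  have pf : (2 : ℝ) ^ (C.a j + C.r j + b) * q2 pF ≤ q2 g := by
    have h1 : q2 pF ≤ q2 (C.a j + C.r j + b + g) := q2_le (by omega)
    calc (2 : ℝ) ^ (C.a j + C.r j + b) * q2 pF ≤
        2 ^ (C.a j + C.r j + b) * q2 (C.a j + C.r j + b + g) := by gcongr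
      _ = q2 g := by rw [q2_add (C.a j + C.r j + b) g, ← mul_assoc, q2_mul_pow, one_mul]
  have pn : (2 : ℝ) ^ (C.a j + C.r j + b) * (q2 (C.a j) * q2 pN) ≤ q2 g := by
    have h1 : q2 (C.a j) * q2 pN ≤ q2 (C.a j + C.r j + b + g) := by
      rw [← q2_add]; exact q2_le (by omega)
    calc (2 : ℝ) ^ (C.a j + C.r j + b) * (q2 (C.a j) * q2 pN) ≤
        2 ^ (C.a j + C.r j + b) * q2 (C.a j + C.r j + b + g) := by gcongr
      _ = q2 g := by rw [q2_add (C.a j + C.r j + b) g, ← mul_assoc, q2_mul_pow, one_mul]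
  have px : (2 : ℝ) ^ (C.a j + C.r j + b) * (q2 (C.r j) * q2 pX) ≤ q2 g := by
    have h1 : q2 (C.r j) * q2 pX ≤ q2 (C.a j + C.r j + b + g) := by
      rw [← q2_add]; exact q2_le (by omega)
    calc (2 : ℝ) ^ (C.a j + C.r j + b) * (q2 (C.r j) * q2 pX) ≤
        2 ^ (C.a j + C.r j + b) * q2 (C.a j + C.r j + b + g) := by gcongr
      _ = q2 g := by rw [q2_add (C.a j + C.r j + b) g, ← mul_assoc, q2_mul_pow, one_mul]
  have hg0 := q2_pos g
  constructor
  · have e1 : 2 ^ (C.a j + b) * rd pX (C.cX j j' (b + B) θ₂ w) -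
        2 ^ (C.a j + b) * rd pX (C.cX j j' (b + B) θ₁ w) - 2 ^ C.a j * σ * (2 ^ b * y) =
        2 ^ (C.a j + b) * ((rd pX (C.cX j j' (b + B) θ₂ w) - C.cX j j' (b + B) θ₂ w) -
          (rd pX (C.cX j j' (b + B) θ₁ w) - C.cX j j' (b + B) θ₁ w)) := by
      have : (2 : ℝ) ^ C.a j * σ * (2 ^ b * y) = 2 ^ (C.a j + b) * (σ * y) := by
        rw [pow_add]; ring
      rw [this, ← iX]
      ring
    rw [e1, abs_mul, abs_of_pos (by positivity : (0 : ℝ) < 2 ^ (C.a j + b))]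
    have e2 : |(rd pX (C.cX j j' (b + B) θ₂ w) - C.cX j j' (b + B) θ₂ w) -
        (rd pX (C.cX j j' (b + B) θ₁ w) - C.cX j j' (b + B) θ₁ w)| ≤ 2 * q2 pX :=
      (abs_sub _ _).trans (by linarith)
    calc (2 : ℝ) ^ (C.a j + b) * _ ≤ 2 ^ (C.a j + b) * (2 * q2 pX) := by gcongr
      _ = 2 * (2 ^ (C.a j + b) * q2 pX) := by ring
      _ ≤ _ := by linarith
  · set S : ℝ := 2 ^ (C.a j + C.r j + b) with hS
    have hS0 : 0 < S := by positivity
    set rF2 := rd pF (C.cF j j' (b + B) θ₂ w)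
    set rF1 := rd pF (C.cF j j' (b + B) θ₁ w)
    set rN2 := rd pN (C.cN j j' (b + B) θ₂ w)
    set rX2 := rd pX (C.cX j j' (b + B) θ₂ w)
    have e1 : S * (rF2 - σ * rN2 + δ * rX2) - S * rF1 -
        2 ^ C.a j * σ * (2 ^ C.r j * δ) * (2 ^ b * y) =
        S * (rF2 - C.cF j j' (b + B) θ₂ w) - S * (σ * (rN2 - C.cN j j' (b + B) θ₂ w)) +
          S * (δ * (rX2 - C.cX j j' (b + B) θ₂ w)) - S * (rF1 - C.cF j j' (b + B) θ₁ w) := by
      have : (2 : ℝ) ^ C.a j * σ * (2 ^ C.r j * δ) * (2 ^ b * y) = S * (δ * σ * y) := by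
        rw [hS, pow_add, pow_add]; ring
      rw [this, ← iF]
      ring
    rw [e1]
    have b1 : |S * (rF2 - C.cF j j' (b + B) θ₂ w)| ≤ q2 g := by
      rw [abs_mul, abs_of_pos hS0]
      exact (mul_le_mul_of_nonneg_left f2 hS0.le).trans pf
    have b4 : |S * (rF1 - C.cF j j' (b + B) θ₁ w)| ≤ q2 g := by
      rw [abs_mul, abs_of_pos hS0]
      exact (mul_le_mul_of_nonneg_left f1 hS0.le).trans pf
    have b2 : |S * (σ * (rN2 - C.cN j j' (b + B) θ₂ w))| ≤ q2 g := by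
      rw [abs_mul, abs_of_pos hS0, abs_mul]
      exact (mul_le_mul_of_nonneg_left (mul_le_mul hs n2 (abs_nonneg _) (q2_pos _).le)
        hS0.le).trans pn
    have b3 : |S * (δ * (rX2 - C.cX j j' (b + B) θ₂ w))| ≤ q2 g := by
      rw [abs_mul, abs_of_pos hS0, abs_mul]
      exact (mul_le_mul_of_nonneg_left (mul_le_mul hv x2 (abs_nonneg _) (q2_pos _).le)
        hS0.le).trans px
    rw [abs_le] at b1 b2 b3 b4 ⊢
    constructor <;> linarith

/-- **corner relation, first coordinate** -/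
theorem hA0 (d : Ce) (θ₁ θ₂ : ℤ × ℤ) (w : Dg) :
    |bet C j j' b B d θ₁ θ₂ (A C j j' b B d θ₂ w) 0 - ppi C j j' b d θ₁ (A C j j' b B d θ₁ w) 0 -
      (e j b B d w * s C j j' d θ₁ θ₂ + h C j j' d θ₁ θ₂ 0)| ≤ 4 * q2 g := by
  classical
  have hg0 := q2_pos g
  by_cases g2 : good C j j' d θ₂
  · by_cases g1 : good C j j' d θ₁
    · have hr := (rel_aux (B := B) hj hb hga hgr d θ₁ θ₂ w g1 g2).1
      unfold A bet ppi h s e
      simp only [if_pos g1, if_pos g2, if_pos (And.intro g1 g2), Sum.elim_inl,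
        Matrix.cons_val_zero]
      unfold Pth.rA
      refine le_trans (le_of_eq ?_) hr
      congr 1
      unfold rd
      ring
    · have hn : ¬ (good C j j' d θ₁ ∧ good C j j' d θ₂) := fun h => g1 h.1
      unfold A bet ppi h s
      simp only [if_neg g1, if_pos g2, if_neg hn, Sum.elim_inl, Sum.elim_inr,
        Matrix.cons_val_zero, Pi.zero_apply]
      simpa using hg0.le
  · have hn : ¬ (good C j j' d θ₁ ∧ good C j j' d θ₂) := fun h => g2 h.2
    have : A C j j' b B d θ₂ w = Sum.inr w := by unfold A; rw [if_neg g2]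
    rw [this]
    unfold bet h s
    simp only [if_neg hn, Sum.elim_inr, Matrix.cons_val_zero]
    simpa using hg0.le

/-- **corner relation, second coordinate** -/
theorem hA1 (d : Ce) (θ₁ θ₂ : ℤ × ℤ) (w : Dg) :
    |bet C j j' b B d θ₁ θ₂ (A C j j' b B d θ₂ w) 1 - ppi C j j' b d θ₁ (A C j j' b B d θ₁ w) 1 -
      (e j b B d w * (s C j j' d θ₁ θ₂ * Gs C j j' d θ₁ θ₂) + h C j j' d θ₁ θ₂ 1)| ≤
      4 * q2 g := by
  classical
  have hg0 := q2_pos g
  by_cases g2 : good C j j' d θ₂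
  · by_cases g1 : good C j j' d θ₁
    · have hr := (rel_aux (B := B) hj hb hga hgr d θ₁ θ₂ w g1 g2).2
      unfold A bet ppi h s e Gs
      simp only [if_pos g1, if_pos g2, if_pos (And.intro g1 g2), Sum.elim_inl,
        Matrix.cons_val_one, Matrix.cons_val_zero]
      unfold Pth.rA
      refine le_trans (le_of_eq ?_) hr
      congr 1
      unfold rd
      ring
    · have hn : ¬ (good C j j' d θ₁ ∧ good C j j' d θ₂) := fun h => g1 h.1
      unfold A bet ppi h s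
      simp only [if_neg g1, if_pos g2, if_neg hn, Sum.elim_inl, Sum.elim_inr,
        Matrix.cons_val_one, Matrix.cons_val_zero, Pi.zero_apply]
      simpa using hg0.le
  · have hn : ¬ (good C j j' d θ₁ ∧ good C j j' d θ₂) := fun h => g2 h.2
    have : A C j j' b B d θ₂ w = Sum.inr w := by unfold A; rw [if_neg g2]
    rw [this]
    unfold bet h s
    simp only [if_neg hn, Sum.elim_inr, Matrix.cons_val_one, Matrix.cons_val_zero]
    simpa using hg0.le

end rel

section info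

variable [Fintype Ω] (P : Law Ω) {j j' b B : ℕ}

/-- **second information** -/
theorem mi_W :
    mi P (C.T j') (C.base j (b + B)) (C.J j b) ≤ mi P (C.T j') (C.J j (b + B)) (C.J j b) :=
  mi_mono_right P _ fun ω ω' _ _ h => by
    simp only [Prod.mk.injEq] at h
    exact Pth.J_base le_rfl le_rfl h.1

/-- integer points close to a given point -/
lemma box_card (z : ℤ × ℤ × ℤ) :
    ((Finset.Icc (z.1 - 2) (z.1 + 2)) ×ˢ ((Finset.Icc (z.2.1 - 2) (z.2.1 + 2)) ×ˢ
      (Finset.Icc (z.2.2 - 2) (z.2.2 + 2)))).card = 125 := by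
  rw [Finset.card_product, Finset.card_product, Int.card_Icc, Int.card_Icc, Int.card_Icc]
  have h : ∀ x : ℤ, (x + 2 + 1 - (x - 2)).toNat = 5 := fun x => by
    rw [show x + 2 + 1 - (x - 2) = 5 by ring]; rfl
  rw [h, h, h]

/-- the window vector is known from the later cell, outside a small event -/
theorem hc_A (hj : j ≤ j') (hb : 2 * C.κ ≤ b) (hκ : 2 ≤ C.κ)
    (hB : 2 * C.κ + (C.a j' - C.a j) + (C.r j' - C.r j) ≤ B) :
    hc P (fun ω => A C j j' b B (C.J j b ω) (C.T j' ω) (C.base j (b + B) ω)) (C.J j' b) ≤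
      2 * Real.sqrt (prE P (C.Bad j' b)) + prE P (C.Bad j' b) * Real.log 125 := by
  classical
  have hA : ∀ ω, A C j j' b B (C.J j b ω) (C.T j' ω) (C.base j (b + B) ω) =
      Sum.inl (C.rA j j' (b + B) b (C.T j' ω) (C.base j (b + B) ω)) := fun ω => by
    unfold A
    rw [if_pos (good_true hj b ω)]
  refine (hc_bad P _ (C.J j' b) (C.Bad j' b) 125 (by norm_num) ?_ ?_)
  · intro ω ω' _ _ h1 h2 h3
    rw [hA, hA, Pth.rA_eq hj hb hB h1, Pth.rA_eq hj hb hB h2, Pth.J_base le_rfl le_rfl h3]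
  · intro ω _
    set z := (C.base j' b ω).2.2 with hz
    refine ⟨((Finset.Icc (z.1 - 2) (z.1 + 2)) ×ˢ ((Finset.Icc (z.2.1 - 2) (z.2.1 + 2)) ×ˢ
      (Finset.Icc (z.2.2 - 2) (z.2.2 + 2)))).image Sum.inl, ?_, ?_⟩
    · exact (Finset.card_image_le).trans (le_of_eq (box_card z))
    · intro ω' _ h3
      rw [hA]
      refine Finset.mem_image_of_mem _ ?_
      obtain ⟨n1, n2, n3⟩ := Pth.rA_near hj hb hκ hB ω'
      rw [Pth.J_base le_rfl le_rfl h3] at n1 n2 n3
      rw [abs_le] at n1 n2 n3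
      rw [Finset.mem_product, Finset.mem_product, Finset.mem_Icc, Finset.mem_Icc,
        Finset.mem_Icc]
      rw [hz]
      refine ⟨⟨?_, ?_⟩, ⟨?_, ?_⟩, ?_, ?_⟩ <;> linarith [n1.1, n1.2, n2.1, n2.2, n3.1, n3.2]

/-- **first information** -/
theorem mi_A (hj : j ≤ j') (hb : 2 * C.κ ≤ b) (hκ : 2 ≤ C.κ)
    (hB : 2 * C.κ + (C.a j' - C.a j) + (C.r j' - C.r j) ≤ B) :
    mi P (fun ω => e j b B (C.J j b ω) (C.base j (b + B) ω))
      (fun ω => A C j j' b B (C.J j b ω) (C.T j' ω) (C.base j (b + B) ω))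
      (fun ω => (C.J j b ω, C.T j' ω)) ≤
    mi P (fun ω => fl1 (b + B) (C.y1 ω)) (C.J j' b) (C.J j b) +
      (2 * Real.sqrt (prE P (C.Bad j' b)) + prE P (C.Bad j' b) * Real.log 125) := by
  set E := fun ω => e j b B (C.J j b ω) (C.base j (b + B) ω) with hE
  set AA := fun ω => A C j j' b B (C.J j b ω) (C.T j' ω) (C.base j (b + B) ω) with hAA
  have h1 : mi P E AA (fun ω => (C.J j b ω, C.T j' ω)) ≤
      mi P E (fun ω => (C.J j' b ω, AA ω)) (C.J j b) := by
    have e1 := mi_pair P E (C.T j') AA (C.J j b)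
    have e2 := mi_nonneg P E (C.T j') (C.J j b)
    have e3 : mi P E AA (fun ω => (C.T j' ω, C.J j b ω)) =
        mi P E AA (fun ω => (C.J j b ω, C.T j' ω)) :=
      mi_congr_cond P E AA (fun _ _ _ _ h => by
        simp only [Prod.mk.injEq] at h ⊢; exact ⟨h.2, h.1⟩)
        (fun _ _ _ _ h => by simp only [Prod.mk.injEq] at h ⊢; exact ⟨h.2, h.1⟩)
    have e4 : mi P E (fun ω => (C.T j' ω, AA ω)) (C.J j b) ≤
        mi P E (fun ω => (C.J j' b ω, AA ω)) (C.J j b) :=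
      mi_mono_right P E fun ω ω' _ _ h => by
        simp only [Prod.mk.injEq] at h ⊢
        exact ⟨Pth.J_T h.1.1, h.1.2⟩
    linarith
  have h2 := mi_pair P E (C.J j' b) AA (C.J j b)
  have h3 : mi P E AA (fun ω => (C.J j' b ω, C.J j b ω)) ≤ hc P AA (C.J j' b) :=
    (mi_le_hc' P E AA _).trans (hc_mono_right P AA fun _ _ _ _ h => congrArg Prod.fst h)
  have h4 := hc_A P (C := C) hj hb hκ hB
  have h5 : mi P E (C.J j' b) (C.J j b) ≤
      mi P (fun ω => fl1 (b + B) (C.y1 ω)) (C.J j' b) (C.J j b) :=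
    mi_mono_left P _ fun ω ω' _ _ h => by
      simp only [Prod.mk.injEq] at h
      show e j b B (C.J j b ω) (C.base j (b + B) ω) = e j b B (C.J j b ω') (C.base j (b + B) ω')
      unfold e Pth.cY
      rw [h.2]
      have : (C.base j (b + B) ω).2.1 = (C.base j (b + B) ω').2.1 := h.1
      rw [this]
  linarith

/-- **F1** with the conditional entropy -/
theorem f1' {S : Type*} (U : Ω → S) (b n M : ℕ) :
    ∑ i ∈ range n, mi P U (C.J (i + M) b) (C.J i b) ≤ M * hc P U (C.J 0 b) :=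
  tele P (fun i => C.J i b) (fun _ _ h _ _ _ _ e => Pth.J_mono h le_rfl e) U n M

end info

end Vale.Agent.P127.U.CellE
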