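import Vale.Agent.P127.U.Cell
import Vale.Agent.P127.U.H715.Gen

/-!
# P127 / U : cells along a deterministic path (helper23)

Same as `Cell`, but the numbers of digits `a i`, `r i` of the time and of the slope known at step
`i` are deterministic (the law is conditioned on the pattern of the path).

* `T i = (t_(a_i), v_(r_i))`, `base i b`, `J i b` (join of `base i' b`, `i' ≤ i`).
* `f1`, `f2`, `window` : as in `Cell`.
* `cN cX cF` : corner version of the normal direction and of the position at a virtual time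
  `θ = (τ, φ)` (digits of a time and of a slope at step `j'`), computed from the digits
  `w = base j b'`; `rA` : the same rounded to the precision of `base j' b`.
* `rA_eq` : `rA (T j') (base j (b+B)) = digits of base j' b` outside the event `Bad j' b`.
* `transl` : the displacement produced by two independences.
* `end_eq` : outside `Bad i b` the cell `base i b` is a function of the final label and of `b`
  digits of `y1`.
* `gen` : a generic translation of `(x1, x2, y2)` makes all `Bad` improbable.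
-/

set_option autoImplicit false

namespace Vale.Agent.P127.U.CellD

open Finset Vale.Agent.P127 Vale.Agent.P127.Stk Vale.Agent.P127.U.Cell

/-! ### rounding -/

/-- `2^-p` -/
noncomputable def q2 (p : ℕ) : ℝ := (1 / 2 : ℝ) ^ p

lemma q2_pos (p : ℕ) : 0 < q2 p := by unfold q2; positivity

lemma q2_add (p q : ℕ) : q2 (p + q) = q2 p * q2 q := pow_add _ _ _

lemma q2_le {p q : ℕ} (h : p ≤ q) : q2 q ≤ q2 p :=
  pow_le_pow_of_le_one (by norm_num) (by norm_num) h

lemma q2_mul_pow (p : ℕ) : (2 : ℝ) ^ p * q2 p = 1 := by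
  unfold q2
  rw [← mul_pow]
  norm_num

lemma div_pow_eq (p : ℕ) (x : ℝ) : x / 2 ^ p = x * q2 p := by
  unfold q2
  rw [one_div, inv_pow, div_eq_mul_inv]

/-- rounding down to precision `2^-p` -/
noncomputable def rd (p : ℕ) (x : ℝ) : ℝ := (fl1 p x : ℝ) / 2 ^ p

lemma rd_le (p : ℕ) (x : ℝ) : rd p x ≤ x := by
  unfold rd fl1
  rw [div_le_iff₀ (by positivity)]
  have := Int.floor_le ((2 : ℝ) ^ p * x)
  linarith

lemma lt_rd (p : ℕ) (x : ℝ) : x < rd p x + q2 p := by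
  have h := Int.lt_floor_add_one ((2 : ℝ) ^ p * x)
  unfold rd fl1
  have h2 : x = (2 : ℝ) ^ p * x / 2 ^ p := by field_simp
  have h3 : q2 p = 1 / 2 ^ p := by rw [div_pow_eq, one_mul]
  rw [h3, ← add_div]
  calc x = (2 : ℝ) ^ p * x / 2 ^ p := h2
    _ < _ := by
      rw [div_lt_div_iff_of_pos_right (by positivity)]
      exact h

lemma rd_err (p : ℕ) (x : ℝ) : |rd p x - x| ≤ q2 p := by
  rw [abs_le]
  constructor <;> linarith [rd_le p x, lt_rd p x, q2_pos p]

lemma rd_mono {p q : ℕ} (h : p ≤ q) (x : ℝ) : rd p x ≤ rd q x := by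
  have h1 : ((2 ^ (q - p) : ℕ) : ℤ) * fl1 p x ≤ fl1 q x := by
    unfold fl1
    rw [floor_pow_aux h]
    exact Int.mul_ediv_self_le (by positivity)
  unfold rd
  rw [div_le_div_iff₀ (by positivity) (by positivity)]
  have h2 : ((2 : ℝ) ^ (q - p)) * (fl1 p x : ℝ) ≤ (fl1 q x : ℝ) := by exact_mod_cast h1
  have h3 : (2 : ℝ) ^ q = 2 ^ (q - p) * 2 ^ p := by rw [← pow_add, Nat.sub_add_cancel h]
  rw [h3]
  nlinarith [show (0 : ℝ) < 2 ^ p by positivity]

lemma rd_sub {p q : ℕ} (h : p ≤ q) (x : ℝ) : |rd q x - rd p x| ≤ q2 p := by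
  rw [abs_le]
  constructor <;> linarith [rd_le q x, lt_rd p x, q2_pos p, rd_mono h x]

/-- there is a change of the first `n` digits in `[z - ε, z + ε]` -/
def Nb (n : ℕ) (z ε : ℝ) : Prop := ∃ y, z - ε ≤ y ∧ y ≤ z + ε ∧ fl1 n y ≠ fl1 n (z - ε)

lemma Nb.eq {n : ℕ} {z ε y y' : ℝ} (h : ¬ Nb n z ε) (h1 : |y - z| ≤ ε) (h2 : |y' - z| ≤ ε) :
    fl1 n y = fl1 n y' := by
  unfold Nb at h
  push Not at h
  rw [abs_le] at h1 h2
  rw [h y (by linarith) (by linarith), h y' (by linarith) (by linarith)]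

/-- floors of numbers whose distance is at most one unit -/
lemma fl1_near {n : ℕ} {x y : ℝ} (h : |x - y| ≤ q2 n) : |fl1 n x - fl1 n y| ≤ 2 := by
  have h1 : |(2 : ℝ) ^ n * x - (2 : ℝ) ^ n * y| ≤ (1 : ℕ) := by
    rw [← mul_sub, abs_mul, abs_of_pos (by positivity : (0 : ℝ) < 2 ^ n)]
    calc (2 : ℝ) ^ n * |x - y| ≤ 2 ^ n * q2 n := by gcongr
      _ = 1 := q2_mul_pow n
      _ = ((1 : ℕ) : ℝ) := by norm_num
  have := floor_close_aux h1
  unfold fl1
  simpa using this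

/-- coarser digits are a function of finer digits -/
lemma fl1_fl1 {s s' : ℕ} (h : s ≤ s') {x y : ℝ} (e : fl1 s' x = fl1 s' y) :
    fl1 s x = fl1 s y := by
  unfold fl1 at *
  rw [floor_pow_aux h, floor_pow_aux h y, e]

/-- data of a deterministic path -/
structure Pth (Ω : Type) where
  /-- digits of `t` known at step `i` -/
  a : ℕ → ℕ
  /-- digits of `v` known at step `i` -/
  r : ℕ → ℕ
  ha : Monotone a
  hr : Monotone r
  /-- margin -/
  κ : ℕ
  x1 : Ω → ℝ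
  x2 : Ω → ℝ
  y1 : Ω → ℝ
  y2 : Ω → ℝ
  t : Ω → ℝ
  v : Ω → ℝ

/-- type of the digits of a cell -/
abbrev Dg := (ℤ × ℤ) × ℤ × ℤ × ℤ × ℤ

namespace Pth

variable {Ω : Type} (C : Pth Ω)

/-- the line -/
def ln (ω : Ω) : ℝ × ℝ × ℝ × ℝ := (C.x1 ω, C.x2 ω, C.y1 ω, C.y2 ω)

/-- the information of the path at step `i` -/
noncomputable def T (i : ℕ) (ω : Ω) : ℤ × ℤ := (fl1 (C.a i) (C.t ω), fl1 (C.r i) (C.v ω))

/-- the rounded time -/
noncomputable def ta (i : ℕ) (ω : Ω) : ℝ := rd (C.a i) (C.t ω)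

/-- the rounded slope -/
noncomputable def vr (i : ℕ) (ω : Ω) : ℝ := rd (C.r i) (C.v ω)

/-- normal component of the direction -/
noncomputable def yN (i : ℕ) (ω : Ω) : ℝ := C.y2 ω - C.vr i ω * C.y1 ω

/-- first coordinate of the position -/
noncomputable def X1 (i : ℕ) (ω : Ω) : ℝ := C.x1 ω + C.ta i ω * C.y1 ω

/-- normal coordinate of the position -/
noncomputable def F (i : ℕ) (ω : Ω) : ℝ := C.x2 ω + C.ta i ω * C.y2 ω - C.vr i ω * C.X1 i ω

/-- the digits of the cell at `(i, b)` -/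
noncomputable def base (i b : ℕ) (ω : Ω) : Dg :=
  (C.T i ω, fl1 b (C.y1 ω), fl1 (b + C.r i - C.κ) (C.yN i ω), fl1 (C.a i + b - C.κ) (C.X1 i ω),
    fl1 (C.a i + C.r i + b - 2 * C.κ) (C.F i ω))

/-- the cell at `(i, b)` : join of the `base i' b`, `i' ≤ i` -/
noncomputable def J (i b : ℕ) (ω : Ω) : ℕ → Option Dg :=
  fun i' => if i' ≤ i then some (C.base i' b ω) else none

/-- change of the slope: normal direction -/
lemma yN_step (i j : ℕ) (ω : Ω) :
    C.yN j ω = C.yN i ω - (C.vr j ω - C.vr i ω) * C.y1 ω := by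
  unfold yN
  ring

lemma X1_step (i j : ℕ) (ω : Ω) :
    C.X1 j ω = C.X1 i ω + (C.ta j ω - C.ta i ω) * C.y1 ω := by
  unfold X1
  ring

lemma F_step (i j : ℕ) (ω : Ω) :
    C.F j ω = C.F i ω + (C.ta j ω - C.ta i ω) * C.yN i ω -
      (C.vr j ω - C.vr i ω) * C.X1 j ω := by
  unfold F yN X1
  ring

lemma ta_near {i j : ℕ} (h : i ≤ j) (ω : Ω) : |C.ta j ω - C.ta i ω| ≤ q2 (C.a i) :=
  rd_sub (C.ha h) _

lemma vr_near {i j : ℕ} (h : i ≤ j) (ω : Ω) : |C.vr j ω - C.vr i ω| ≤ q2 (C.r i) :=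
  rd_sub (C.hr h) _

variable {C}

lemma T_mono {i j : ℕ} (h : i ≤ j) {ω ω' : Ω} (e : C.T j ω = C.T j ω') : C.T i ω = C.T i ω' := by
  unfold T at *
  simp only [Prod.mk.injEq] at *
  exact ⟨fl1_fl1 (C.ha h) e.1, fl1_fl1 (C.hr h) e.2⟩

lemma T_ta {i : ℕ} {ω ω' : Ω} (h : C.T i ω = C.T i ω') : C.ta i ω = C.ta i ω' := by
  unfold T at h
  simp only [Prod.mk.injEq] at h
  unfold ta rd
  rw [h.1]

lemma T_vr {i : ℕ} {ω ω' : Ω} (h : C.T i ω = C.T i ω') : C.vr i ω = C.vr i ω' := by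
  unfold T at h
  simp only [Prod.mk.injEq] at h
  unfold vr rd
  rw [h.2]

lemma base_congr {i b : ℕ} {ω ω' : Ω} (hl : C.ln ω = C.ln ω') (h : C.T i ω = C.T i ω') :
    C.base i b ω = C.base i b ω' := by
  unfold ln at hl
  simp only [Prod.mk.injEq] at hl
  unfold base F yN X1
  rw [h, T_ta h, T_vr h, hl.1, hl.2.1, hl.2.2.1, hl.2.2.2]

lemma base_T {i b : ℕ} {ω ω' : Ω} (h : C.base i b ω = C.base i b ω') : C.T i ω = C.T i ω' :=
  congrArg Prod.fst h

lemma base_mono {i b b' : ℕ} (hb : b' ≤ b) {ω ω' : Ω} (h : C.base i b ω = C.base i b ω') :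
    C.base i b' ω = C.base i b' ω' := by
  have hT := base_T h
  unfold base at *
  simp only [Prod.mk.injEq] at h ⊢
  exact ⟨hT, fl1_fl1 hb h.2.1, fl1_fl1 (by omega) h.2.2.1, fl1_fl1 (by omega) h.2.2.2.1,
    fl1_fl1 (by omega) h.2.2.2.2⟩

lemma J_iff {i b : ℕ} {ω ω' : Ω} :
    C.J i b ω = C.J i b ω' ↔ ∀ i' ≤ i, C.base i' b ω = C.base i' b ω' := by
  constructor
  · intro h i' hi'
    have := congrFun h i'
    unfold J at this
    rw [if_pos hi', if_pos hi'] at this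
    exact Option.some.inj this
  · intro h
    funext i'
    unfold J
    split_ifs with hi'
    · rw [h i' hi']
    · rfl

/-- the cells are exactly nested -/
lemma J_mono {i i' b b' : ℕ} (hi : i' ≤ i) (hb : b' ≤ b) {ω ω' : Ω}
    (h : C.J i b ω = C.J i b ω') : C.J i' b' ω = C.J i' b' ω' :=
  J_iff.2 fun k hk => base_mono hb (J_iff.1 h k (hk.trans hi))

lemma J_base {i i' b b' : ℕ} (hi : i' ≤ i) (hb : b' ≤ b) {ω ω' : Ω}
    (h : C.J i b ω = C.J i b ω') : C.base i' b' ω = C.base i' b' ω' :=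
  base_mono hb (J_iff.1 h i' hi)

lemma J_T {i b : ℕ} {ω ω' : Ω} (h : C.J i b ω = C.J i b ω') : C.T i ω = C.T i ω' :=
  base_T (J_iff.1 h i le_rfl)

/-- the cell is a function of the line and of `T i` -/
lemma J_congr {i b : ℕ} {ω ω' : Ω} (hl : C.ln ω = C.ln ω') (h : C.T i ω = C.T i ω') :
    C.J i b ω = C.J i b ω' :=
  J_iff.2 fun _ hk => base_congr hl (T_mono hk h)

section ent

variable [Fintype Ω] (P : Law Ω) (C) {S : Type*}

/-- **F1** : `U` (a block of `y1`) is nearly independent of the future cells -/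
theorem f1 (U : Ω → S) (b n M : ℕ) :
    ∑ i ∈ range n, mi P U (C.J (i + M) b) (C.J i b) ≤ M * P.H U :=
  (tele P (fun i => C.J i b) (fun _ _ h _ _ _ _ e => J_mono h le_rfl e) U n M).trans
    (mul_le_mul_of_nonneg_left (hc_le_H P _ _) (Nat.cast_nonneg _))

/-- **F2** : the future of the path is nearly independent of further digits of the line -/
theorem f2 (Θ : Ω → S) (i b0 w n B : ℕ) :
    ∑ k ∈ range n, mi P Θ (C.J i (b0 + (k + B) * w)) (C.J i (b0 + k * w)) ≤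
      B * hc P Θ (C.T i) := by
  have h := tele P (fun k => C.J i (b0 + k * w)) (fun _ _ h _ _ _ _ e =>
    J_mono le_rfl (Nat.add_le_add_left (Nat.mul_le_mul_right _ h) _) e) Θ n B
  refine h.trans (mul_le_mul_of_nonneg_left ?_ (Nat.cast_nonneg _))
  exact hc_mono_right P Θ fun ω ω' _ _ e => J_T e

/-- one window of the chain : the path digits cancel -/
theorem window (i j b : ℕ) :
    hc P (C.J j b) (fun ω => (C.T j ω, C.J i b ω)) ≤ mi P C.ln (C.J j b) (C.J i b) := by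
  rw [mi_symm]
  unfold mi
  have h1 : hc P (C.J j b) (fun ω => (C.ln ω, C.J i b ω)) ≤
      hc P (C.T j) (fun ω => (C.ln ω, C.J i b ω)) := by
    refine hc_mono_left P ?_
    intro ω ω' _ _ e
    simp only [Prod.mk.injEq] at e
    exact J_congr e.2.1 e.1
  have h2 : hc P (C.T j) (fun ω => (C.ln ω, C.J i b ω)) ≤ hc P (C.T j) (C.J i b) :=
    hc_mono_right P _ fun ω ω' _ _ e => congrArg Prod.snd e
  have h3 : hc P (C.J j b) (C.J i b) =
      hc P (C.T j) (C.J i b) + hc P (C.J j b) (fun ω => (C.T j ω, C.J i b ω)) := by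
    rw [← hc_pair P (C.T j) (C.J j b) (C.J i b)]
    refine hc_congr P ?_ ?_ (fun ω ω' _ _ e => e) (fun ω ω' _ _ e => e)
    · intro ω ω' _ _ e
      simp only [Prod.mk.injEq] at e
      exact e.1.2
    · intro ω ω' _ _ e
      simp only [Prod.mk.injEq] at e
      exact Prod.ext (J_T e.1) e.1
  linarith

/-- the windows add up -/
theorem chain (b : ℕ) (g : ℕ → ℕ) (hg : Monotone g) (n : ℕ) :
    mi P C.ln (C.J (g n) b) (C.J (g 0) b) =
      ∑ k ∈ range n, mi P C.ln (C.J (g (k + 1)) b) (C.J (g k) b) := by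
  induction n with
  | zero =>
    rw [Finset.range_zero, Finset.sum_empty]
    unfold mi
    rw [hc_congr P (X := C.ln) (X' := C.ln) (Y := fun ω => (C.J (g 0) b ω, C.J (g 0) b ω))
      (Y' := C.J (g 0) b) (fun _ _ _ _ e => congrArg Prod.fst e)
      (fun _ _ _ _ e => congrArg Prod.fst e) (fun _ _ _ _ e => Prod.ext e e)
      (fun _ _ _ _ e => congrArg Prod.fst e)]
    ring
  | succ n ih =>
    rw [Finset.sum_range_succ, ← ih]
    have hn : ∀ i j, i ≤ j → Fn P (C.J (g i) b) (C.J (g j) b) := fun i j h _ _ _ _ e =>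
      J_mono (hg h) le_rfl e
    rw [mi_nested P C.ln (hn 0 (n + 1) (Nat.zero_le _)), mi_nested P C.ln (hn 0 n (Nat.zero_le _)),
      mi_nested P C.ln (hn n (n + 1) (Nat.le_succ _))]
    ring

end ent

/-! ### corner version -/

section corner

variable (C)

/-- increment of the virtual time -/
noncomputable def st (j j' : ℕ) (θ : ℤ × ℤ) (w : Dg) : ℝ := (θ.1 : ℝ) / 2 ^ C.a j' -
  (w.1.1 : ℝ) / 2 ^ C.a j

/-- increment of the virtual slope -/
noncomputable def sv (j j' : ℕ) (θ : ℤ × ℤ) (w : Dg) : ℝ := (θ.2 : ℝ) / 2 ^ C.r j' -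
  (w.1.2 : ℝ) / 2 ^ C.r j

/-- corner value of `y1` -/
noncomputable def cY (b' : ℕ) (w : Dg) : ℝ := (w.2.1 : ℝ) / 2 ^ b'

/-- corner value of `yN` in the frame of step `j` -/
noncomputable def c0N (j b' : ℕ) (w : Dg) : ℝ := (w.2.2.1 : ℝ) / 2 ^ (b' + C.r j - C.κ)

/-- corner value of the normal direction in the virtual frame `θ` -/
noncomputable def cN (j j' b' : ℕ) (θ : ℤ × ℤ) (w : Dg) : ℝ :=
  C.c0N j b' w - C.sv j j' θ w * cY b' w

/-- corner value of `X1` at the virtual time `θ` -/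
noncomputable def cX (j j' b' : ℕ) (θ : ℤ × ℤ) (w : Dg) : ℝ :=
  (w.2.2.2.1 : ℝ) / 2 ^ (C.a j + b' - C.κ) + C.st j j' θ w * cY b' w

/-- corner value of `F` at the virtual time and slope `θ` -/
noncomputable def cF (j j' b' : ℕ) (θ : ℤ × ℤ) (w : Dg) : ℝ :=
  (w.2.2.2.2 : ℝ) / 2 ^ (C.a j + C.r j + b' - 2 * C.κ) + C.st j j' θ w * C.c0N j b' w -
    C.sv j j' θ w * C.cX j j' b' θ w

/-- the corner values rounded to the precision of `base j' b` -/
noncomputable def rA (j j' b' b : ℕ) (θ : ℤ × ℤ) (w : Dg) : ℤ × ℤ × ℤ :=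
  (fl1 (b + C.r j' - C.κ) (C.cN j j' b' θ w), fl1 (C.a j' + b - C.κ) (C.cX j j' b' θ w),
    fl1 (C.a j' + C.r j' + b - 2 * C.κ) (C.cF j j' b' θ w))

/-- a change of digits close to the true values at `(i, b)` -/
def Bad (i b : ℕ) (ω : Ω) : Prop :=
  Nb (b + C.r i - C.κ) (C.yN i ω) (2 * q2 (b + C.r i)) ∨
  Nb (C.a i + b - C.κ) (C.X1 i ω) (2 * q2 (C.a i + b)) ∨
  Nb (C.a i + C.r i + b - 2 * C.κ) (C.F i ω) (4 * q2 (C.a i + C.r i + b))

variable {C}

lemma st_true (j j' b' : ℕ) (ω : Ω) :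
    C.st j j' (C.T j' ω) (C.base j b' ω) = C.ta j' ω - C.ta j ω := rfl

lemma sv_true (j j' b' : ℕ) (ω : Ω) :
    C.sv j j' (C.T j' ω) (C.base j b' ω) = C.vr j' ω - C.vr j ω := rfl

/-- errors of the corner values -/
lemma corner_err {j j' b' : ℕ} (hj : j ≤ j') (hb : 2 * C.κ ≤ b') (ω : Ω) :
    |C.cN j j' b' (C.T j' ω) (C.base j b' ω) - C.yN j' ω| ≤ 2 * q2 (b' + C.r j - C.κ) ∧
    |C.cX j j' b' (C.T j' ω) (C.base j b' ω) - C.X1 j' ω| ≤ 2 * q2 (C.a j + b' - C.κ) ∧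
    |C.cF j j' b' (C.T j' ω) (C.base j b' ω) - C.F j' ω| ≤
      4 * q2 (C.a j + C.r j + b' - 2 * C.κ) := by
  have hs := C.ta_near hj ω
  have hv := C.vr_near hj ω
  have ey : |cY b' (C.base j b' ω) - C.y1 ω| ≤ q2 b' := rd_err b' (C.y1 ω)
  have en : |C.c0N j b' (C.base j b' ω) - C.yN j ω| ≤ q2 (b' + C.r j - C.κ) :=
    rd_err _ (C.yN j ω)
  have ex : |((C.base j b' ω).2.2.2.1 : ℝ) / 2 ^ (C.a j + b' - C.κ) - C.X1 j ω| ≤
      q2 (C.a j + b' - C.κ) := rd_err _ (C.X1 j ω)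
  have ef : |((C.base j b' ω).2.2.2.2 : ℝ) / 2 ^ (C.a j + C.r j + b' - 2 * C.κ) - C.F j ω| ≤
      q2 (C.a j + C.r j + b' - 2 * C.κ) := rd_err _ (C.F j ω)
  set s := C.ta j' ω - C.ta j ω with hsdef
  set u := C.vr j' ω - C.vr j ω with hudef
  set y := cY b' (C.base j b' ω) with hy
  set n0 := C.c0N j b' (C.base j b' ω) with hn0
  set x0 := ((C.base j b' ω).2.2.2.1 : ℝ) / 2 ^ (C.a j + b' - C.κ) with hx0
  set f0 := ((C.base j b' ω).2.2.2.2 : ℝ) / 2 ^ (C.a j + C.r j + b' - 2 * C.κ) with hf0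
  have e1 : C.cN j j' b' (C.T j' ω) (C.base j b' ω) = n0 - u * y := rfl
  have e2 : C.cX j j' b' (C.T j' ω) (C.base j b' ω) = x0 + s * y := rfl
  have e3 : C.cF j j' b' (C.T j' ω) (C.base j b' ω) = f0 + s * n0 - u * (x0 + s * y) := rfl
  have t1 : C.yN j' ω = C.yN j ω - u * C.y1 ω := C.yN_step j j' ω
  have t2 : C.X1 j' ω = C.X1 j ω + s * C.y1 ω := C.X1_step j j' ω
  have t3 : C.F j' ω = C.F j ω + s * C.yN j ω - u * C.X1 j' ω := C.F_step j j' ω
  have p1 : |u * (y - C.y1 ω)| ≤ q2 (b' + C.r j - C.κ) := by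
    rw [abs_mul]
    calc |u| * |y - C.y1 ω| ≤ q2 (C.r j) * q2 b' :=
          mul_le_mul hv ey (abs_nonneg _) (q2_pos _).le
      _ = q2 (C.r j + b') := (q2_add _ _).symm
      _ ≤ _ := q2_le (by omega)
  have p2 : |s * (y - C.y1 ω)| ≤ q2 (C.a j + b' - C.κ) := by
    rw [abs_mul]
    calc |s| * |y - C.y1 ω| ≤ q2 (C.a j) * q2 b' :=
          mul_le_mul hs ey (abs_nonneg _) (q2_pos _).le
      _ = q2 (C.a j + b') := (q2_add _ _).symm
      _ ≤ _ := q2_le (by omega)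
  have hX : |x0 + s * y - C.X1 j' ω| ≤ 2 * q2 (C.a j + b' - C.κ) := by
    have : x0 + s * y - C.X1 j' ω = (x0 - C.X1 j ω) + s * (y - C.y1 ω) := by rw [t2]; ring
    rw [this]
    exact (abs_add_le _ _).trans (by linarith)
  refine ⟨?_, ?_, ?_⟩
  · rw [e1, t1]
    have : n0 - u * y - (C.yN j ω - u * C.y1 ω) = (n0 - C.yN j ω) - u * (y - C.y1 ω) := by ring
    rw [this]
    exact (abs_sub _ _).trans (by linarith)
  · rw [e2]
    exact hX
  · rw [e3]
    have : f0 + s * n0 - u * (x0 + s * y) - C.F j' ω =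
        (f0 - C.F j ω) + s * (n0 - C.yN j ω) - u * (x0 + s * y - C.X1 j' ω) := by rw [t3]; ring
    rw [this]
    have p3 : |s * (n0 - C.yN j ω)| ≤ q2 (C.a j + C.r j + b' - 2 * C.κ) := by
      rw [abs_mul]
      calc |s| * |n0 - C.yN j ω| ≤ q2 (C.a j) * q2 (b' + C.r j - C.κ) :=
            mul_le_mul hs en (abs_nonneg _) (q2_pos _).le
        _ = q2 (C.a j + (b' + C.r j - C.κ)) := (q2_add _ _).symm
        _ ≤ _ := q2_le (by omega)
    have p4 : |u * (x0 + s * y - C.X1 j' ω)| ≤ 2 * q2 (C.a j + C.r j + b' - 2 * C.κ) := by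
      rw [abs_mul]
      calc |u| * |x0 + s * y - C.X1 j' ω| ≤ q2 (C.r j) * (2 * q2 (C.a j + b' - C.κ)) :=
            mul_le_mul hv hX (abs_nonneg _) (q2_pos _).le
        _ = 2 * q2 (C.r j + (C.a j + b' - C.κ)) := by rw [q2_add]; ring
        _ ≤ _ := by
          have := q2_le (show C.a j + C.r j + b' - 2 * C.κ ≤ C.r j + (C.a j + b' - C.κ) by omega)
          linarith
    have a1 := abs_sub (f0 - C.F j ω + s * (n0 - C.yN j ω)) (u * (x0 + s * y - C.X1 j' ω))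
    have a2 := abs_add_le (f0 - C.F j ω) (s * (n0 - C.yN j ω))
    linarith

/-- **the corner version is the true one**, outside the event `Bad` -/
theorem rA_eq {j j' b B : ℕ} (hj : j ≤ j') (hb : 2 * C.κ ≤ b)
    (hB : 2 * C.κ + (C.a j' - C.a j) + (C.r j' - C.r j) ≤ B) {ω : Ω} (hω : ¬ C.Bad j' b ω) :
    C.rA j j' (b + B) b (C.T j' ω) (C.base j (b + B) ω) = (C.base j' b ω).2.2 := by
  have ha := C.ha hj
  have hr := C.hr hj
  obtain ⟨h1, h2, h3⟩ := corner_err (C := C) (b' := b + B) hj (by omega) ω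
  unfold Bad at hω
  push Not at hω
  obtain ⟨g1, g2, g3⟩ := hω
  have l1 := q2_le (show b + C.r j' ≤ b + B + C.r j - C.κ by omega)
  have l2 := q2_le (show C.a j' + b ≤ C.a j + (b + B) - C.κ by omega)
  have l3 := q2_le (show C.a j' + C.r j' + b ≤ C.a j + C.r j + (b + B) - 2 * C.κ by omega)
  unfold rA
  refine Prod.ext ?_ (Prod.ext ?_ ?_)
  · exact Nb.eq g1 (by linarith) (by rw [sub_self, abs_zero]; linarith [q2_pos (b + C.r j')])
  · exact Nb.eq g2 (by linarith) (by rw [sub_self, abs_zero]; linarith [q2_pos (C.a j' + b)])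
  · exact Nb.eq g3 (by linarith)
      (by rw [sub_self, abs_zero]; linarith [q2_pos (C.a j' + C.r j' + b)])

/-- the rounded corner version always differs by at most `2` units from the true digits -/
theorem rA_near {j j' b B : ℕ} (hj : j ≤ j') (hb : 2 * C.κ ≤ b) (hκ : 2 ≤ C.κ)
    (hB : 2 * C.κ + (C.a j' - C.a j) + (C.r j' - C.r j) ≤ B) (ω : Ω) :
    |(C.rA j j' (b + B) b (C.T j' ω) (C.base j (b + B) ω)).1 - (C.base j' b ω).2.2.1| ≤ 2 ∧
    |(C.rA j j' (b + B) b (C.T j' ω) (C.base j (b + B) ω)).2.1 - (C.base j' b ω).2.2.2.1| ≤ 2 ∧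
    |(C.rA j j' (b + B) b (C.T j' ω) (C.base j (b + B) ω)).2.2 - (C.base j' b ω).2.2.2.2| ≤ 2 := by
  have ha := C.ha hj
  have hr := C.hr hj
  obtain ⟨h1, h2, h3⟩ := corner_err (C := C) (b' := b + B) hj (by omega) ω
  have e2 : ∀ p q : ℕ, p + 2 ≤ q → 4 * q2 q ≤ q2 p := by
    intro p q h
    have := q2_le h
    rw [q2_add] at this
    have h4 : q2 2 = 1 / 4 := by unfold q2; norm_num
    rw [h4] at this
    linarith
  refine ⟨fl1_near (h1.trans ?_), fl1_near (h2.trans ?_), fl1_near (h3.trans ?_)⟩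
  · have := e2 (b + C.r j' - C.κ) (b + B + C.r j - C.κ) (by omega)
    linarith [q2_pos (b + B + C.r j - C.κ)]
  · have := e2 (C.a j' + b - C.κ) (C.a j + (b + B) - C.κ) (by omega)
    linarith [q2_pos (C.a j + (b + B) - C.κ)]
  · exact e2 (C.a j' + C.r j' + b - 2 * C.κ) (C.a j + C.r j + (b + B) - 2 * C.κ) (by omega)

end corner

end Pth

end Vale.Agent.P127.U.CellD
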