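import Vale.Agent.P127.U.ExcBase

/-!
# P127 / U : block EXC, first part: PExcExt, PExcCond, PExcAtt (helper377)
-/

set_option autoImplicit false

namespace Vale.Agent.P127.U

open Filter Topology Vale.Agent.P127 Vale.Agent.P127.Stk Sys

theorem pExcExt : PExcExt := by
  intro S S' e γ C B _
  unfold Sys.exc
  refine ulim_congr (Eventually.of_forall fun i => ?_)
  have h1 : excF (S'.P i) ((B i).comp (e.π i)) (fun ω => C i (e.π i ω)) =
      excF (S.P i) (B i) (C i) := excF_ext (S'.P i) (S.P i) (e.π i) (e.law i) (B i) (C i)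
  show excF (S'.P i) ((B i).comp (e.π i)) (fun ω => C i (e.π i ω)) / S'.nm i = _
  rw [h1, e.nm]

theorem pExcCond : PExcCond := by
  intro S γ δ C C' B hB
  unfold Sys.exc
  refine ulim_le (ub_exc hB _) (ub_exc hB _) ?_
  filter_upwards [S.nm_pos, hB.1] with i hi h1
  exact div_le_div_of_nonneg_right (excF_cond (C i) (C' i) h1) hi.le

/-- nearly optimal boxes form a system -/
theorem exists_opt (S : Sys) {γ : Type} (C : S.RV γ) (B : S.BX) (hB : BxA B) :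
    ∃ (S' : Sys) (e : Ext S' S) (W : S'.BX), BxA W ∧
      (S'.Ae fun i ω => Sub 1 ((e.pullB B) i) (W i) ω) ∧
      S'.val (e.pullB B) W (e.pull C) = S.exc B C := by
  classical
  have key : ∀ i, ∃ (Ω' : Type) (_ : Fintype Ω') (P' : Law Ω') (π : Ω' → S.Ω i) (W : Bx Ω'),
      (∀ ω, P'.pr π ω = (S.P i).w ω) ∧ ((∀ ω, 0 < (S.P i).w ω → BxOk (B i) ω) →
        (∀ ω, 0 < P'.w ω → Sub 1 ((B i).comp π) W ω) ∧
        excF (S.P i) (B i) (C i) - 1 ≤ exV P' ((B i).comp π) W fun ω => C i (π ω)) := by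
    intro i
    by_cases h : ∀ ω, 0 < (S.P i).w ω → BxOk (B i) ω
    · obtain ⟨Ω', j, P', π, W, h1, h2, h3⟩ := exists_near (C := C i) h
      exact ⟨Ω', j, P', π, W, h1, fun _ => ⟨h2, h3⟩⟩
    · exact ⟨S.Ω i, inferInstance, S.P i, id, B i, Stk.pr_id _, fun h' => absurd h' h⟩
  choose Ω' hf P' π W h1 h2 using key
  let S' : Sys := ⟨Ω', hf, P', S.L, S.Ltop⟩
  let e : Ext S' S := ⟨π, rfl, h1⟩
  let W' : S'.BX := W
  have hsub : S'.Ae fun i ω => Sub 1 ((e.pullB B) i) (W' i) ω := by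
    filter_upwards [hB.1] with i hi ω hω
    exact (h2 i hi).1 ω hω
  have hBe : BxA (e.pullB B) := e.bxA hB
  have hW : BxA W' := bxA_of_sub hBe ⟨1, hsub⟩
  refine ⟨S', e, W', hW, hsub, ?_⟩
  rw [val_eq hBe hW]
  have hub := ub_exc hB C
  have hubV := ub_exV hBe hW (e.pull C)
  unfold Sys.exc
  refine ulim_squeeze (c := fun i => 1 / S.nm i) hubV hub (S.const_div_nm 1) ?_
  filter_upwards [hB.1, S.nm_pos] with i hi hn
  have h3 := (h2 i hi).2
  have h4 : exV (P' i) ((B i).comp (π i)) (W i) (fun ω => C i (π i ω)) ≤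
      excF (S.P i) (B i) (C i) := exV_le_excF (h1 i) (h2 i hi).1
  show |exV (P' i) ((B i).comp (π i)) (W i) (fun ω => C i (π i ω)) / S.nm i -
    excF (S.P i) (B i) (C i) / S.nm i| ≤ 1 / S.nm i
  rw [← sub_div, abs_div, abs_of_pos hn]
  apply div_le_div_of_nonneg_right _ hn.le
  rw [abs_le]
  constructor <;> linarith

/-- the first two components of the label -/
theorem lab_shape {Ω Ω' : Type} {B : Bx Ω} {B' : Bx Ω'} {ω : Ω} {ω' : Ω'}
    (h : B.lab ω = B'.lab ω') : B.k ω = B'.k ω' ∧ B.j ω = B'.j ω' := by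
  unfold Bx.lab lab at h
  simp only [Prod.mk.injEq] at h
  exact ⟨h.1, h.2.1⟩

/-- angles with the same label are close -/
theorem lab_angle {Ω Ω' : Type} {B : Bx Ω} {B' : Bx Ω'} {ω : Ω} {ω' : Ω'}
    (h : B.lab ω = B'.lab ω') : |B.θ ω - B'.θ ω'| ≤ (1 / 2 : ℝ) ^ (B.j ω - B.k ω) := by
  obtain ⟨h1, h2⟩ := lab_shape h
  unfold Bx.lab lab at h
  simp only [Prod.mk.injEq] at h
  have h3 := h.2.2.1
  rw [← h1, ← h2] at h3
  exact fl1_close h3

/-- change of the outcome: a box `W` around `B` at the outcome `ω'` gives a box with the same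
angle and shape around `B` at the outcome `ω` with the same `B`-label -/
theorem sub_change {Ω₁ Ω : Type} {B₁ : Bx Ω₁} {B : Bx Ω} {W₁ : Bx Ω₁} {ω₁ : Ω₁} {ω : Ω}
    {W : Bx Ω} (hB : BxOk B ω) (hB₁ : BxOk B₁ ω₁)
    (h : B.lab ω = B₁.lab ω₁) (hs : Sub 1 B₁ W₁ ω₁) (h1 : W.l ω = B.l ω) (h2 : W.θ ω = W₁.θ ω₁)
    (h3 : W.k ω = W₁.k ω₁) (h4 : W.j ω = W₁.j ω₁) :
    Sub 2 B W ω ∧ LabCl 5 (W.lab ω) (W₁.lab ω₁) := by
  obtain ⟨a1, a2, a3, a4, a5, a6⟩ := hs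
  obtain ⟨b1, b2⟩ := lab_shape h
  have b3 := lab_angle h
  have half_pos : ∀ n : ℕ, (0:ℝ) < (1 / 2) ^ n := fun n => by positivity
  have half_anti : ∀ {a b : ℕ}, a ≤ b → (1 / 2 : ℝ) ^ b ≤ (1 / 2) ^ a := fun {a b} hab =>
    pow_le_pow_of_le_one (by norm_num) (by norm_num) hab
  have hsin : |Real.sin (B.θ ω - W.θ ω)| * (1 / 2 : ℝ) ^ B.k ω ≤ 2 * (1 / 2 : ℝ) ^ W.j ω := by
    have e1 := abs_sin_sub_le (B.θ ω - W.θ ω) (B₁.θ ω₁ - W₁.θ ω₁)
    have e2 : B.θ ω - W.θ ω - (B₁.θ ω₁ - W₁.θ ω₁) = B.θ ω - B₁.θ ω₁ := by rw [h2]; ring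
    rw [e2] at e1
    have e3 := abs_sub_abs_le_abs_sub (Real.sin (B.θ ω - W.θ ω)) (Real.sin (B₁.θ ω₁ - W₁.θ ω₁))
    have e4 : |Real.sin (B.θ ω - W.θ ω)| ≤ |Real.sin (B₁.θ ω₁ - W₁.θ ω₁)| +
        (1 / 2 : ℝ) ^ (B.j ω - B.k ω) := by linarith
    have e5 : (1 / 2 : ℝ) ^ (B.j ω - B.k ω) * (1 / 2) ^ B.k ω = (1 / 2) ^ B.j ω := by
      rw [← pow_add]; congr 1; have := hB.2.2; omega
    rw [h4]
    calc |Real.sin (B.θ ω - W.θ ω)| * (1 / 2 : ℝ) ^ B.k ω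
        ≤ (|Real.sin (B₁.θ ω₁ - W₁.θ ω₁)| + (1 / 2 : ℝ) ^ (B.j ω - B.k ω)) * (1 / 2) ^ B.k ω :=
          mul_le_mul_of_nonneg_right e4 (half_pos _).le
      _ = |Real.sin (B₁.θ ω₁ - W₁.θ ω₁)| * (1 / 2) ^ B₁.k ω₁ + (1 / 2) ^ B.j ω := by
          rw [add_mul, e5, b1]
      _ ≤ 1 * (1 / 2) ^ W₁.j ω₁ + (1 / 2) ^ W₁.j ω₁ := by
          have := half_anti (show W₁.j ω₁ ≤ B.j ω by rw [b2]; exact a5)
          linarith
      _ = _ := by ring
  refine ⟨⟨h1, by rw [h2]; exact a2, by rw [h3, h4]; exact a3, by rw [h3, b1]; exact a4,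
    by rw [h4, b2]; exact a5, hsin⟩, ?_⟩
  have key := lab_close (c := 1) (θ := B₁.θ ω₁) (ψ := W₁.θ ω₁) (k := B₁.k ω₁) (j := B₁.j ω₁)
    (k' := W₁.k ω₁) (j' := W₁.j ω₁) hB₁.2.2 a3 a4 a5 a6 (N := 4) (by norm_num) (by norm_num)
    (l := B₁.l ω₁) (l' := B.l ω) (θ' := B.θ ω) (by
      unfold Bx.lab at h
      rw [b1, b2] at h
      exact h.symm)
  have e : W.lab ω = lab (W₁.θ ω₁) (W₁.k ω₁) (W₁.j ω₁) (B.l ω) := by
    unfold Bx.lab
    rw [h1, h2, h3, h4]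
  have e' : W₁.lab ω₁ = lab (W₁.θ ω₁) (W₁.k ω₁) (W₁.j ω₁) (B₁.l ω₁) := by
    unfold Bx.lab
    rw [a1]
  rw [e, e']
  exact key.symm

theorem pExcAtt : PExcAtt := by
  classical
  intro S γ C B hB
  obtain ⟨S₁, e₁, W₁, hW₁, hs₁, hv₁⟩ := exists_opt S C B hB
  -- independent copy of the line, given the label of `B` and `C`
  let V : S.RV (Lab × γ) := Sys.pr (BX.lab B) C
  obtain ⟨S', f₁, f₂, g1, g2⟩ := exists_glue e₁ (Ext.refl S) V
  have hV : ∀ i ω, (B i).lab (e₁.π i (f₁.π i ω)) = (B i).lab (f₂.π i ω) ∧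
      C i (e₁.π i (f₁.π i ω)) = C i (f₂.π i ω) := by
    intro i ω
    have := g1 i ω
    exact Prod.mk.injEq _ _ _ _ ▸ this
  let W : S'.BX := fun i => ⟨fun ω => (B i).l (f₂.π i ω), fun ω => (W₁ i).θ (f₁.π i ω),
    fun ω => (W₁ i).k (f₁.π i ω), fun ω => (W₁ i).j (f₁.π i ω)⟩
  have hBe : BxA (f₂.pullB B) := f₂.bxA hB
  -- the label of `W` is close to the label of `W₁`
  have key : S'.Ae fun i ω => Sub 2 ((f₂.pullB B) i) (W i) ω ∧
      LabCl 5 ((W i).lab ω) ((W₁ i).lab (f₁.π i ω)) := by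
    have k1 := f₁.ae hs₁
    have k2 := f₁.ae (e₁.bxA hB).1
    filter_upwards [hBe.1, k1, k2] with i r1 r2 r3 ω hω
    exact sub_change (B₁ := (e₁.pullB B) i) (B := (f₂.pullB B) i) (W₁ := W₁ i) (ω₁ := f₁.π i ω)
      (ω := ω) (W := W i) (r1 ω hω) (r3 ω hω) ((hV i ω).1).symm (r2 ω hω) rfl rfl rfl rfl
  have hsub : SubA (f₂.pullB B) W := ⟨2, by filter_upwards [key] with i hi ω hω using (hi ω hω).1⟩
  have hW : BxA W := bxA_of_sub hBe hsub
  have hcl : S'.Ae fun i ω => LabCl 5 (BX.lab W i ω) ((f₁.pull (BX.lab W₁)) i ω) := by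
    filter_upwards [key] with i hi ω hω using (hi ω hω).2
  have hcl' : S'.Ae fun i ω => LabCl 5 ((f₁.pull (BX.lab W₁)) i ω) (BX.lab W i ω) := by
    filter_upwards [hcl] with i hi ω hω using (hi ω hω).symm
  have tW : Tame (BX.lab W) := hW.tame
  have tW₁ : Tame (f₁.pull (BX.lab W₁)) := f₁.tame hW₁.tame
  -- equality of the labels of `B`, and of `C`
  have eB : (f₂.pullB B).lab = f₁.pull (e₁.pull (BX.lab B)) := by
    funext i ω
    exact ((hV i ω).1).symm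
  have eC : f₂.pull C = f₁.pull (e₁.pull C) := by
    funext i ω
    exact ((hV i ω).2).symm
  refine ⟨S', f₂, W, hW, hsub, ?_, ?_⟩
  · -- the value
    rw [← hv₁]
    unfold Sys.val
    congr 1
    · -- the entropy
      rw [eB, eC]
      have h1 : S'.hc (f₁.pull (e₁.pull (BX.lab B))) (Sys.pr (BX.lab W) (f₁.pull (e₁.pull C))) =
          S'.hc (f₁.pull (e₁.pull (BX.lab B)))
            (Sys.pr (f₁.pull (BX.lab W₁)) (f₁.pull (e₁.pull C))) := by
        have tB : Tame (f₁.pull (e₁.pull (BX.lab B))) := f₁.tame (e₁.tame hB.tame)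
        have z1 : S'.hc (BX.lab W) (Sys.pr (f₁.pull (BX.lab W₁)) (f₁.pull (e₁.pull C))) = 0 :=
          hc_of_labCl 5 hcl _
        have z2 : S'.hc (f₁.pull (BX.lab W₁)) (Sys.pr (BX.lab W) (f₁.pull (e₁.pull C))) = 0 :=
          hc_of_labCl 5 hcl' _
        have s1 := hc_cond_zero tB tW z1
        have s2 := hc_cond_zero tB tW₁ z2
        rw [← s1, ← s2]
        exact hc_congr (Eventually.of_forall fun _ _ _ _ _ e => congrArg Prod.fst e)
          (Eventually.of_forall fun _ _ _ _ _ e => congrArg Prod.fst e)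
          (Eventually.of_forall fun _ _ _ _ _ e => by
            simp only [Sys.pr_apply, Prod.mk.injEq] at e ⊢
            exact ⟨e.2.1, e.1, e.2.2⟩)
          (Eventually.of_forall fun _ _ _ _ _ e => by
            simp only [Sys.pr_apply, Prod.mk.injEq] at e ⊢
            exact ⟨e.2.1, e.1, e.2.2⟩)
      rw [h1]
      exact f₁.hc (e₁.pull (BX.lab B)) (Sys.pr (BX.lab W₁) (e₁.pull C))
    · -- the sizes
      have h2 := f₁.av (fun i ω => BX.sz (e₁.pullB B) i ω - BX.sz W₁ i ω)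
      rw [← h2]
      congr 1
      funext i ω
      have h3 := lab_shape (B := (B i).comp (e₁.π i)) (B' := (B i).comp (f₂.π i))
        (ω := f₁.π i ω) (ω' := ω) (hV i ω).1
      show ((B i).k (f₂.π i ω) : ℝ) + (B i).j (f₂.π i ω) -
          (((W₁ i).k (f₁.π i ω) : ℝ) + (W₁ i).j (f₁.π i ω)) =
        ((B i).k (e₁.π i (f₁.π i ω)) : ℝ) + (B i).j (e₁.π i (f₁.π i ω)) -
          (((W₁ i).k (f₁.π i ω) : ℝ) + (W₁ i).j (f₁.π i ω))
      have h4 : (B i).k (e₁.π i (f₁.π i ω)) = (B i).k (f₂.π i ω) := h3.1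
      have h5 : (B i).j (e₁.π i (f₁.π i ω)) = (B i).j (f₂.π i ω) := h3.2
      rw [h4, h5]
  · -- the independence
    intro δ R
    have eV : Sys.pr (f₂.pullB B).lab (f₂.pull C) = f₁.pull (e₁.pull V) := by
      funext i ω
      exact (g1 i ω).symm
    rw [eV]
    -- replace `W` by `W₁`
    have rep : ∀ {T : Type} (Y : S'.RV T), S'.hc (BX.lab W) Y = S'.hc (f₁.pull (BX.lab W₁)) Y := by
      intro T Y
      refine le_antisymm ?_ ?_
      · exact hc_le_of_zero tW tW₁ (hc_of_labCl 5 hcl _)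
      · exact hc_le_of_zero tW₁ tW (hc_of_labCl 5 hcl' _)
    show S'.hc (BX.lab W) _ = S'.hc (BX.lab W) _
    rw [rep, rep]
    have i1 := (g2 (BX.lab W₁) R).1
    rw [i1]
    exact (f₁.hc (BX.lab W₁) (e₁.pull V)).symm

end Vale.Agent.P127.U
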