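import Vale.Agent.P127.U.Blocks1

/-!
# P127 / U : block EXC, common base (helper377)
-/

set_option autoImplicit false

namespace Vale.Agent.P127.U

open Filter Topology Vale.Agent.P127 Vale.Agent.P127.Stk Sys

/-! ### frames -/

theorem qa_close (m : ℕ) (θ : ℝ) : |θ - qa m θ| ≤ (1 / 2 : ℝ) ^ m := by
  unfold qa fl1
  have h2 : (0 : ℝ) < 2 ^ m := by positivity
  have h1 := Int.floor_le ((2:ℝ) ^ m * θ)
  have h3 := (Int.lt_floor_add_one ((2:ℝ) ^ m * θ)).le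
  have e : (1 / 2 : ℝ) ^ m = 1 / 2 ^ m := by rw [div_pow, one_pow]
  rw [e, abs_le]
  constructor
  · rw [← sub_nonneg]
    have : θ - (⌊(2:ℝ) ^ m * θ⌋ : ℝ) / 2 ^ m - -(1 / 2 ^ m) =
        ((2:ℝ) ^ m * θ - ⌊(2:ℝ) ^ m * θ⌋ + 1) / 2 ^ m := by field_simp; ring
    rw [this]
    exact div_nonneg (by linarith) h2.le
  · rw [← sub_nonneg]
    have : 1 / 2 ^ m - (θ - (⌊(2:ℝ) ^ m * θ⌋ : ℝ) / 2 ^ m) =
        ((⌊(2:ℝ) ^ m * θ⌋ : ℝ) + 1 - (2:ℝ) ^ m * θ) / 2 ^ m := by field_simp; ring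
    rw [this]
    exact div_nonneg (by linarith) h2.le

theorem co_sub (θ : ℝ) (v w : Fin 2 → ℝ) (i : Fin 2) :
    co θ (fun j => v j - w j) i = co θ v i - co θ w i := by
  fin_cases i <;> simp [co] <;> ring

theorem co_rot0 (φ ψ : ℝ) (v : Fin 2 → ℝ) :
    co ψ v 0 = Real.cos (ψ - φ) * co φ v 0 + Real.sin (ψ - φ) * co φ v 1 := by
  have h := Real.sin_sq_add_cos_sq φ
  simp only [co, Real.cos_sub, Real.sin_sub, Matrix.cons_val_zero, Matrix.cons_val_one]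
  linear_combination (-Real.cos ψ * v 0 - Real.sin ψ * v 1) * h

theorem co_rot1 (φ ψ : ℝ) (v : Fin 2 → ℝ) :
    co ψ v 1 = -Real.sin (ψ - φ) * co φ v 0 + Real.cos (ψ - φ) * co φ v 1 := by
  have h := Real.sin_sq_add_cos_sq φ
  simp only [co, Real.cos_sub, Real.sin_sub, Matrix.cons_val_zero, Matrix.cons_val_one]
  linear_combination (Real.sin ψ * v 0 - Real.cos ψ * v 1) * h

theorem abs_co_le {θ : ℝ} {v : Fin 2 → ℝ} {a : ℝ} (h : ∀ i, |v i| ≤ a) (i : Fin 2) :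
    |co θ v i| ≤ 2 * a := by
  have hc := Real.abs_cos_le_one θ
  have hs := Real.abs_sin_le_one θ
  have h0 := h 0
  have h1 := h 1
  have ha : 0 ≤ a := (abs_nonneg _).trans h0
  have key : ∀ (p q : ℝ), |p| ≤ 1 → |q| ≤ 1 → |p * v 0 + q * v 1| ≤ 2 * a := by
    intro p q hp hq
    calc |p * v 0 + q * v 1| ≤ |p * v 0| + |q * v 1| := abs_add_le _ _
      _ = |p| * |v 0| + |q| * |v 1| := by rw [abs_mul, abs_mul]
      _ ≤ 1 * a + 1 * a := by gcongr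
      _ = 2 * a := by ring
  fin_cases i
  · simpa [co] using key _ _ hc hs
  · have := key (-Real.sin θ) (Real.cos θ) (by rwa [abs_neg]) hc
    simpa [co] using this

theorem fl1_close {m : ℕ} {x y : ℝ} (h : fl1 m x = fl1 m y) : |x - y| ≤ (1 / 2 : ℝ) ^ m := by
  unfold fl1 at h
  have h2 : (0 : ℝ) < 2 ^ m := by positivity
  have h1 : |(2:ℝ) ^ m * x - (2:ℝ) ^ m * y| < 1 := Int.abs_sub_lt_one_of_floor_eq_floor h
  rw [← mul_sub, abs_mul, abs_of_pos h2] at h1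
  have e : (1 / 2 : ℝ) ^ m = 1 / 2 ^ m := by rw [div_pow, one_pow]
  rw [e, le_div_iff₀ h2]
  linarith

theorem fl1_sub_le {m N : ℕ} {x y : ℝ} (h : |x - y| ≤ N * (1 / 2 : ℝ) ^ m) :
    |fl1 m x - fl1 m y| ≤ (N : ℤ) + 1 := by
  unfold fl1
  apply floor_close_aux
  have h2 : (0 : ℝ) < 2 ^ m := by positivity
  rw [← mul_sub, abs_mul, abs_of_pos h2]
  calc (2 : ℝ) ^ m * |x - y| ≤ 2 ^ m * (N * (1 / 2 : ℝ) ^ m) := mul_le_mul_of_nonneg_left h h2.le
    _ = N := by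
        rw [one_div, inv_pow]
        field_simp

theorem abs_sin_sub_le (a b : ℝ) : |Real.sin a - Real.sin b| ≤ |a - b| := by
  have h := Real.sin_sub_sin a b
  rw [h, abs_mul, abs_mul, abs_two]
  have h1 : |Real.sin ((a - b) / 2)| ≤ |(a - b) / 2| := Real.abs_sin_le_abs
  have h2 := Real.abs_cos_le_one ((a + b) / 2)
  have h3 : |(a - b) / 2| = |a - b| / 2 := by rw [abs_div, abs_two]
  calc 2 * |Real.sin ((a - b) / 2)| * |Real.cos ((a + b) / 2)|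
      ≤ 2 * (|a - b| / 2) * 1 := by
        apply mul_le_mul _ h2 (abs_nonneg _) (by positivity)
        linarith
    _ = |a - b| := by ring

/-- closeness of labels: same shape and angle, digits at distance at most `N` -/
def LabCl (N : ℕ) (a b : Lab) : Prop :=
  a.1 = b.1 ∧ a.2.1 = b.2.1 ∧ a.2.2.1 = b.2.2.1 ∧
    |a.2.2.2.1.1 - b.2.2.2.1.1| ≤ N ∧ |a.2.2.2.1.2 - b.2.2.2.1.2| ≤ N ∧
    |a.2.2.2.2.1 - b.2.2.2.2.1| ≤ N ∧ |a.2.2.2.2.2 - b.2.2.2.2.2| ≤ N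

theorem LabCl.symm {N : ℕ} {a b : Lab} (h : LabCl N a b) : LabCl N b a := by
  obtain ⟨h1, h2, h3, h4, h5, h6, h7⟩ := h
  refine ⟨h1.symm, h2.symm, h3.symm, ?_, ?_, ?_, ?_⟩ <;> rw [abs_sub_comm] <;> assumption

theorem LabCl.refl (N : ℕ) (a : Lab) : LabCl N a a := by
  refine ⟨rfl, rfl, rfl, ?_, ?_, ?_, ?_⟩ <;> simp

/-- vectors with the same digits in the frame of the box `B` have close digits in the frame of a
box `W` which contains `B` -/
theorem frame_close {c : ℝ} {θ ψ : ℝ} {k j k' j' : ℕ} (hkj : k ≤ j) (hkj' : k' ≤ j')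
    (hk : k' ≤ k) (hj : j' ≤ j)
    (hs : |Real.sin (θ - ψ)| * (1 / 2 : ℝ) ^ k ≤ c * (1 / 2 : ℝ) ^ j') {N : ℕ} (hN : c + 3 ≤ N)
    (hN2 : 2 ≤ N)
    {v w : Fin 2 → ℝ} (h : fkj k j (co (qa (j - k) θ) v) = fkj k j (co (qa (j - k) θ) w)) :
    |(fkj k' j' (co (qa (j' - k') ψ) v)).1 - (fkj k' j' (co (qa (j' - k') ψ) w)).1| ≤ (N:ℤ) + 1 ∧
    |(fkj k' j' (co (qa (j' - k') ψ) v)).2 - (fkj k' j' (co (qa (j' - k') ψ) w)).2| ≤ (N:ℤ) + 1 := by
  set φ := qa (j - k) θ with hφ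
  set χ := qa (j' - k') ψ with hχ
  unfold fkj at h
  rw [Prod.mk.injEq] at h
  have u0 := fl1_close h.1
  have u1 := fl1_close h.2
  rw [← co_sub] at u0 u1
  set u : Fin 2 → ℝ := fun j => v j - w j with hu
  have half_pos : ∀ n : ℕ, (0:ℝ) < (1 / 2) ^ n := fun n => by positivity
  have half_anti : ∀ {a b : ℕ}, a ≤ b → (1 / 2 : ℝ) ^ b ≤ (1 / 2) ^ a := fun {a b} hab =>
    pow_le_pow_of_le_one (by norm_num) (by norm_num) hab
  have hc1 := Real.abs_cos_le_one (χ - φ)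
  have hs1 := Real.abs_sin_le_one (χ - φ)
  have v0 : |co χ u 0| ≤ N * (1 / 2 : ℝ) ^ k' := by
    rw [co_rot0 φ χ]
    calc |Real.cos (χ - φ) * co φ u 0 + Real.sin (χ - φ) * co φ u 1|
        ≤ |Real.cos (χ - φ)| * |co φ u 0| + |Real.sin (χ - φ)| * |co φ u 1| := by
          rw [← abs_mul, ← abs_mul]; exact abs_add_le _ _
      _ ≤ 1 * (1 / 2) ^ k + 1 * (1 / 2) ^ j := by gcongr
      _ ≤ 1 * (1 / 2) ^ k' + 1 * (1 / 2) ^ k' := by
          have a1 := half_anti hk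
          have a2 := half_anti (hk.trans hkj)
          linarith
      _ = 2 * (1 / 2) ^ k' := by ring
      _ ≤ _ := by
          apply mul_le_mul_of_nonneg_right _ (half_pos _).le
          exact_mod_cast hN2
  have hsin : |Real.sin (χ - φ)| * (1 / 2 : ℝ) ^ k ≤ (c + 2) * (1 / 2 : ℝ) ^ j' := by
    have e1 : |Real.sin (χ - φ) - Real.sin (ψ - θ)| ≤ (1 / 2) ^ (j' - k') + (1 / 2) ^ (j - k) := by
      refine (abs_sin_sub_le _ _).trans ?_
      have a1 := qa_close (j' - k') ψ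
      have a2 := qa_close (j - k) θ
      have : χ - φ - (ψ - θ) = (θ - φ) - (ψ - χ) := by ring
      rw [this]
      calc |(θ - φ) - (ψ - χ)| ≤ |θ - φ| + |ψ - χ| := abs_sub _ _
        _ ≤ _ := by linarith
    have e2 : |Real.sin (ψ - θ)| = |Real.sin (θ - ψ)| := by
      have e0 : ψ - θ = -(θ - ψ) := by ring
      rw [e0, Real.sin_neg, abs_neg]
    have e3 : |Real.sin (χ - φ)| ≤ |Real.sin (θ - ψ)| + ((1 / 2) ^ (j' - k') + (1 / 2) ^ (j - k)) := by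
      have := abs_sub_abs_le_abs_sub (Real.sin (χ - φ)) (Real.sin (ψ - θ))
      rw [e2] at this
      linarith
    have e4 : (1 / 2 : ℝ) ^ (j - k) * (1 / 2) ^ k = (1 / 2) ^ j := by
      rw [← pow_add]; congr 1; omega
    have e5 : (1 / 2 : ℝ) ^ (j' - k') * (1 / 2) ^ k ≤ (1 / 2) ^ j' := by
      rw [← pow_add]
      apply half_anti
      omega
    calc |Real.sin (χ - φ)| * (1 / 2 : ℝ) ^ k
        ≤ (|Real.sin (θ - ψ)| + ((1 / 2) ^ (j' - k') + (1 / 2) ^ (j - k))) * (1 / 2) ^ k :=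
          mul_le_mul_of_nonneg_right e3 (half_pos _).le
      _ = |Real.sin (θ - ψ)| * (1 / 2) ^ k + (1 / 2 : ℝ) ^ (j' - k') * (1 / 2) ^ k +
          (1 / 2 : ℝ) ^ (j - k) * (1 / 2) ^ k := by ring
      _ ≤ c * (1 / 2) ^ j' + (1 / 2) ^ j' + (1 / 2) ^ j' := by
          rw [e4]
          have := half_anti hj
          linarith
      _ = _ := by ring
  have v1 : |co χ u 1| ≤ N * (1 / 2 : ℝ) ^ j' := by
    rw [co_rot1 φ χ]
    calc |-Real.sin (χ - φ) * co φ u 0 + Real.cos (χ - φ) * co φ u 1|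
        ≤ |Real.sin (χ - φ)| * |co φ u 0| + |Real.cos (χ - φ)| * |co φ u 1| := by
          refine (abs_add_le _ _).trans ?_
          rw [abs_mul, abs_mul, abs_neg]
      _ ≤ |Real.sin (χ - φ)| * (1 / 2) ^ k + 1 * (1 / 2) ^ j := by gcongr
      _ ≤ (c + 2) * (1 / 2) ^ j' + 1 * (1 / 2) ^ j' := by
          have := half_anti hj
          linarith
      _ = (c + 3) * (1 / 2) ^ j' := by ring
      _ ≤ _ := mul_le_mul_of_nonneg_right hN (half_pos _).le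
  rw [co_sub] at v0 v1
  exact ⟨fl1_sub_le v0, fl1_sub_le v1⟩

/-- change of the line: `l'` has the same `B`-label as `l`, then its `W`-label is close -/
theorem lab_close {c : ℝ} {θ ψ : ℝ} {k j k' j' : ℕ} (hkj : k ≤ j) (hkj' : k' ≤ j')
    (hk : k' ≤ k) (hj : j' ≤ j)
    (hs : |Real.sin (θ - ψ)| * (1 / 2 : ℝ) ^ k ≤ c * (1 / 2 : ℝ) ^ j') {N : ℕ} (hN : c + 3 ≤ N)
    (hN2 : 2 ≤ N) {l l' : Ln} {θ' : ℝ} (h : lab θ k j l = lab θ' k j l') :
    LabCl (N + 1) (lab ψ k' j' l) (lab ψ k' j' l') := by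
  unfold lab at h
  simp only [Prod.mk.injEq, true_and] at h
  obtain ⟨h1, h2, h3⟩ := h
  have e : qa (j - k) θ = qa (j - k) θ' := by unfold qa; rw [h1]
  rw [← e] at h2 h3
  obtain ⟨a1, a2⟩ := frame_close hkj hkj' hk hj hs hN hN2 h2
  obtain ⟨b1, b2⟩ := frame_close hkj hkj' hk hj hs hN hN2 h3
  refine ⟨rfl, rfl, rfl, ?_, ?_, ?_, ?_⟩
  · push_cast; exact a1
  · push_cast; exact a2
  · push_cast; exact b1
  · push_cast; exact b2

section finite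

variable {Ω : Type} [Fintype Ω] {γ : Type*}

/-- a variable close to `X'` has bounded entropy given `X'` -/
theorem hc_labCl (P : Law Ω) (X X' : Ω → Lab) (Y : Ω → γ) (N : ℕ)
    (h : ∀ ω, 0 < P.w ω → LabCl N (X ω) (X' ω)) :
    Stk.hc P X (fun ω => (X' ω, Y ω)) ≤ Real.log (((2 * N + 1) ^ 4 : ℕ) : ℝ) := by
  classical
  refine Stk.hc_le_log P X _ _ fun ω hω => ?_
  let I : ℤ → Finset ℤ := fun a => Finset.Icc (a - N) (a + N)
  have hI : ∀ a, (I a).card = 2 * N + 1 := by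
    intro a
    show (Finset.Icc (a - N) (a + N)).card = _
    rw [Int.card_Icc]
    omega
  have hmem : ∀ a b : ℤ, |a - b| ≤ N → a ∈ I b := by
    intro a b hab
    have := abs_le.1 hab
    show a ∈ Finset.Icc (b - N) (b + N)
    rw [Finset.mem_Icc]
    constructor <;> linarith [this.1, this.2]
  set x := X' ω with hx
  refine ⟨{x.1} ×ˢ {x.2.1} ×ˢ {x.2.2.1} ×ˢ (I x.2.2.2.1.1 ×ˢ I x.2.2.2.1.2) ×ˢ
    (I x.2.2.2.2.1 ×ˢ I x.2.2.2.2.2), ?_, ?_⟩
  · simp only [Finset.card_product, Finset.card_singleton, hI]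
    apply le_of_eq
    ring
  · intro ω' hω' e
    simp only [Prod.mk.injEq] at e
    obtain ⟨h1, h2, h3, h4, h5, h6, h7⟩ := h ω' hω'
    rw [e.1] at h1 h2 h3 h4 h5 h6 h7
    simp only [Finset.mem_product, Finset.mem_singleton]
    exact ⟨h1, h2, h3, ⟨hmem _ _ h4, hmem _ _ h5⟩, hmem _ _ h6, hmem _ _ h7⟩

theorem hc_unit (P : Law Ω) {T : Type*} (X : Ω → T) : Stk.hc P X (fun _ => ()) = P.H X := by
  unfold Stk.hc
  have h1 : P.H (fun _ : Ω => ()) = 0 := by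
    have h2 : P.H (fun _ : Ω => ()) ≤ Real.log (Fintype.card Unit) := P.H_le_log_card _
    simp only [Fintype.card_unit, Nat.cast_one, Real.log_one] at h2
    exact le_antisymm h2 (P.H_nonneg _)
  rw [h1, sub_zero]
  refine P.H_congr fun ω ω' => ?_
  simp

theorem fl1_bound {m J : ℕ} (hm : m ≤ J) {x : ℝ} {a : ℕ} (hx : |x| ≤ a) :
    |fl1 m x| ≤ (a : ℤ) * 2 ^ J + 1 := by
  unfold fl1
  have h2 : (0 : ℝ) < 2 ^ m := by positivity
  have h3 : (2:ℝ) ^ m ≤ 2 ^ J := pow_le_pow_right₀ (by norm_num) hm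
  obtain ⟨h4, h5⟩ := abs_le.1 hx
  have h6 : |(2:ℝ) ^ m * x| ≤ a * 2 ^ J := by
    rw [abs_mul, abs_of_pos h2, mul_comm]
    exact mul_le_mul hx h3 h2.le (Nat.cast_nonneg _)
  obtain ⟨h7, h8⟩ := abs_le.1 h6
  have f1 := Int.floor_le ((2:ℝ) ^ m * x)
  have f2 := Int.lt_floor_add_one ((2:ℝ) ^ m * x)
  rw [abs_le]
  constructor
  · have : ((-((a : ℤ) * 2 ^ J + 1) : ℤ) : ℝ) ≤ (⌊(2:ℝ) ^ m * x⌋ : ℝ) := by
      push_cast
      linarith
    exact_mod_cast this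
  · have : (⌊(2:ℝ) ^ m * x⌋ : ℝ) ≤ (((a : ℤ) * 2 ^ J + 1 : ℤ) : ℝ) := by
      push_cast
      linarith
    exact_mod_cast this

/-- number of labels -/
theorem H_lab_le (P : Law Ω) (B : Bx Ω) (J : ℕ)
    (h : ∀ ω, 0 < P.w ω → BxOk B ω ∧ B.j ω ≤ J) :
    P.H B.lab ≤ (7 * J + 16) * Real.log 2 := by
  classical
  have key : Stk.hc P B.lab (fun _ => ()) ≤ Real.log ((2 ^ (7 * J + 16) : ℕ) : ℝ) := by
    refine Stk.hc_le_log P B.lab _ _ fun ω hω => ?_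
    let I : ℕ → Finset ℤ := fun a => Finset.Icc (-((a : ℤ) * 2 ^ J + 1)) ((a : ℤ) * 2 ^ J + 1)
    have hI : ∀ a, (I a).card = 2 * (a * 2 ^ J + 1) + 1 := by
      intro a
      show (Finset.Icc (-((a : ℤ) * 2 ^ J + 1)) ((a : ℤ) * 2 ^ J + 1)).card = _
      rw [Int.card_Icc]
      have : ((a : ℤ) * 2 ^ J + 1 + 1 - -((a : ℤ) * 2 ^ J + 1)) =
          ((2 * (a * 2 ^ J + 1) + 1 : ℕ) : ℤ) := by push_cast; ring
      rw [this, Int.toNat_natCast]
    refine ⟨Finset.range (J + 1) ×ˢ Finset.range (J + 1) ×ˢ I 4 ×ˢ (I 2 ×ˢ I 2) ×ˢ (I 2 ×ˢ I 2),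
      ?_, ?_⟩
    · simp only [Finset.card_product, Finset.card_range, hI]
      have hJ : J + 1 ≤ 2 ^ J := by
        have := Nat.lt_two_pow_self (n := J)
        omega
      have h1 : 1 ≤ 2 ^ J := Nat.one_le_two_pow
      have h4 : 2 * (4 * 2 ^ J + 1) + 1 ≤ 16 * 2 ^ J := by omega
      have h5 : 2 * (2 * 2 ^ J + 1) + 1 ≤ 8 * 2 ^ J := by omega
      calc (J + 1) * ((J + 1) * ((2 * (4 * 2 ^ J + 1) + 1) *
            ((2 * (2 * 2 ^ J + 1) + 1) * (2 * (2 * 2 ^ J + 1) + 1) *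
            ((2 * (2 * 2 ^ J + 1) + 1) * (2 * (2 * 2 ^ J + 1) + 1)))))
          ≤ 2 ^ J * (2 ^ J * ((16 * 2 ^ J) * ((8 * 2 ^ J) * (8 * 2 ^ J) *
            ((8 * 2 ^ J) * (8 * 2 ^ J))))) := by gcongr
        _ = 2 ^ (7 * J + 16) := by
            rw [pow_add, mul_comm 7 J, pow_mul]
            ring
    · intro ω' hω' _
      obtain ⟨⟨⟨hl1, hl2⟩, hθ, hkj⟩, hj⟩ := h ω' hω'
      have mI : ∀ {a : ℕ} {m : ℕ} {x : ℝ}, m ≤ J → |x| ≤ a → fl1 m x ∈ I a := by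
        intro a m x hm hx
        have := abs_le.1 (fl1_bound hm hx)
        exact Finset.mem_Icc.2 this
      have hθ4 : |B.θ ω'| ≤ ((4 : ℕ) : ℝ) := by push_cast; exact hθ
      have h2 : ∀ v : Fin 2 → ℝ, (∀ i, |v i| ≤ 1) → ∀ θ i, |co θ v i| ≤ ((2 : ℕ) : ℝ) := by
        intro v hv θ i
        have := abs_co_le (θ := θ) hv i
        push_cast
        linarith
      simp only [Bx.lab, lab, fkj, Finset.mem_product, Finset.mem_range]
      exact ⟨by omega, by omega, mI (by omega) hθ4,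
        ⟨mI (by omega) (h2 _ hl1 _ _), mI (by omega) (h2 _ hl1 _ _)⟩,
        mI (by omega) (h2 _ hl2 _ _), mI (by omega) (h2 _ hl2 _ _)⟩
  rw [hc_unit] at key
  refine key.trans (le_of_eq ?_)
  push_cast
  rw [Real.log_pow]
  push_cast
  ring

/-! ### finite facts on the excess -/

theorem exV_le_H {P : Law Ω} {B W : Bx Ω} {C : Ω → γ} {c : ℝ}
    (h : ∀ ω, 0 < P.w ω → Sub c B W ω) : exV P B W C ≤ P.H B.lab := by
  unfold exV
  have h1 := Stk.hc_le_H P B.lab (fun ω => (W.lab ω, C ω))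
  have h2 : 0 ≤ P.ex fun ω => B.sz ω - W.sz ω := by
    have := P.ex_mono (f := fun _ => (0:ℝ)) (g := fun ω => B.sz ω - W.sz ω) (fun ω hω => by
      obtain ⟨-, -, -, h4, h5, -⟩ := h ω hω
      have h4' : (W.k ω : ℝ) ≤ B.k ω := by exact_mod_cast h4
      have h5' : (W.j ω : ℝ) ≤ B.j ω := by exact_mod_cast h5
      simp only [Bx.sz]
      linarith)
    rwa [P.ex_const] at this
  have h3 : 0 ≤ Real.log 2 * P.ex fun ω => B.sz ω - W.sz ω :=
    mul_nonneg (Real.log_nonneg (by norm_num)) h2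
  linarith

theorem exSet_bddAbove (P : Law Ω) (B : Bx Ω) (C : Ω → γ) : BddAbove (exSet P B C) := by
  refine ⟨P.H B.lab, ?_⟩
  rintro v ⟨Ω', _, P', π, W, h1, h2, rfl⟩
  have h3 := exV_le_H (C := fun ω => C (π ω)) h2
  have h4 := Stk.H_law_aux P' P π h1 B.lab
  refine h3.trans (le_of_eq ?_)
  rw [← h4]
  rfl

theorem exV_self (P : Law Ω) (B : Bx Ω) (C : Ω → γ) : exV P B B C = 0 := by
  unfold exV
  have h1 : Stk.hc P B.lab (fun ω => (B.lab ω, C ω)) = 0 :=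
    Stk.hc_zero P fun _ _ _ _ e => congrArg Prod.fst e
  have h2 : P.ex (fun ω => B.sz ω - B.sz ω) = 0 := by
    simp only [sub_self]
    exact P.ex_const 0
  rw [h1, h2]
  ring

omit [Fintype Ω] in
theorem sub_self_of_ok {B : Bx Ω} {ω : Ω} (h : BxOk B ω) {c : ℝ} (hc : 0 ≤ c) : Sub c B B ω := by
  refine ⟨rfl, h.2.1, h.2.2, le_rfl, le_rfl, ?_⟩
  rw [sub_self, Real.sin_zero, abs_zero, zero_mul]
  positivity

theorem mem_exSet {P : Law Ω} {B W : Bx Ω} {C : Ω → γ} (h : ∀ ω, 0 < P.w ω → Sub 1 B W ω) :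
    exV P B W C ∈ exSet P B C :=
  ⟨Ω, inferInstance, P, id, W, Stk.pr_id P, h, rfl⟩

theorem zero_mem_exSet {P : Law Ω} {B : Bx Ω} {C : Ω → γ} (h : ∀ ω, 0 < P.w ω → BxOk B ω) :
    (0:ℝ) ∈ exSet P B C := by
  have := mem_exSet (C := C) (fun ω hω => sub_self_of_ok (h ω hω) zero_le_one)
  rwa [exV_self] at this

theorem excF_nonneg {P : Law Ω} {B : Bx Ω} {C : Ω → γ} (h : ∀ ω, 0 < P.w ω → BxOk B ω) :
    0 ≤ excF P B C := le_csSup (exSet_bddAbove P B C) (zero_mem_exSet h)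

theorem excF_le_H {P : Law Ω} {B : Bx Ω} {C : Ω → γ} (h : ∀ ω, 0 < P.w ω → BxOk B ω) :
    excF P B C ≤ P.H B.lab := by
  refine csSup_le ⟨0, zero_mem_exSet h⟩ ?_
  rintro v ⟨Ω', _, P', π, W, h1, h2, rfl⟩
  have h3 := exV_le_H (C := fun ω => C (π ω)) h2
  have h4 := Stk.H_law_aux P' P π h1 B.lab
  refine h3.trans (le_of_eq ?_)
  rw [← h4]
  rfl

/-- every box on an extension gives a lower bound -/
theorem exV_le_excF {P : Law Ω} {B : Bx Ω} {C : Ω → γ} {Ω' : Type} [Fintype Ω'] {P' : Law Ω'}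
    {π : Ω' → Ω} {W : Bx Ω'} (h1 : ∀ ω, P'.pr π ω = P.w ω)
    (h2 : ∀ ω, 0 < P'.w ω → Sub 1 (B.comp π) W ω) :
    exV P' (B.comp π) W (fun ω => C (π ω)) ≤ excF P B C :=
  le_csSup (exSet_bddAbove P B C) ⟨Ω', inferInstance, P', π, W, h1, h2, rfl⟩

/-- boxes on extensions: the set of values does not change -/
theorem exSet_ext {Ω' : Type} [Fintype Ω'] (P' : Law Ω') (P : Law Ω) (π : Ω' → Ω)
    (h : ∀ ω, P'.pr π ω = P.w ω) (B : Bx Ω) (C : Ω → γ) :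
    exSet P' (B.comp π) (fun ω => C (π ω)) = exSet P B C := by
  ext v
  constructor
  · rintro ⟨Ω'', _, P'', π', W, h1, h2, rfl⟩
    refine ⟨Ω'', inferInstance, P'', fun ω => π (π' ω), W, ?_, h2, rfl⟩
    intro ω
    have := Stk.pr_law_aux P'' P' π' h1 π ω
    rw [← h ω, ← this]
    rfl
  · rintro ⟨Ω'', _, P'', π', W, h1, h2, rfl⟩
    obtain ⟨Ω₃, _, Q, π₁, π₂, g1, g2, g3, g4⟩ := Stk.glue_exists P'' P' π' π
      (fun s => (h1 s).trans (h s).symm)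
    have hB : (B.comp π).comp π₂ = (B.comp π').comp π₁ := by
      have : ∀ ω, π (π₂ ω) = π' (π₁ ω) := fun ω => (g1 ω).symm
      show (⟨fun ω => B.l (π (π₂ ω)), fun ω => B.θ (π (π₂ ω)), fun ω => B.k (π (π₂ ω)),
        fun ω => B.j (π (π₂ ω))⟩ : Bx Ω₃) = ⟨fun ω => B.l (π' (π₁ ω)), fun ω => B.θ (π' (π₁ ω)),
        fun ω => B.k (π' (π₁ ω)), fun ω => B.j (π' (π₁ ω))⟩
      simp only [this]
    refine ⟨Ω₃, inferInstance, Q, π₂, W.comp π₁, g3, ?_, ?_⟩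
    · intro ω hω
      rw [hB]
      have hpos : 0 < P''.w (π₁ ω) := by
        rw [← g2]
        exact Q.pr_pos π₁ hω
      exact h2 (π₁ ω) hpos
    · rw [hB]
      have hC : (fun ω => C (π (π₂ ω))) = fun ω => C (π' (π₁ ω)) := by
        funext ω
        rw [g1]
      rw [hC]
      unfold exV
      have e1 := Stk.hc_of_law Q P'' π₁ g2 (B.comp π').lab (fun ω => (W.lab ω, C (π' ω)))
      have e2 := Stk.ex_law_aux Q P'' π₁ g2 (fun ω => (B.comp π').sz ω - W.sz ω)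
      rw [← e1, ← e2]
      rfl

theorem excF_ext {Ω' : Type} [Fintype Ω'] (P' : Law Ω') (P : Law Ω) (π : Ω' → Ω)
    (h : ∀ ω, P'.pr π ω = P.w ω) (B : Bx Ω) (C : Ω → γ) :
    excF P' (B.comp π) (fun ω => C (π ω)) = excF P B C := by
  unfold excF
  rw [exSet_ext P' P π h]

/-- more conditions, less excess -/
theorem excF_cond {δ : Type*} {P : Law Ω} {B : Bx Ω} (C : Ω → γ) (C' : Ω → δ)
    (h : ∀ ω, 0 < P.w ω → BxOk B ω) : excF P B (fun ω => (C' ω, C ω)) ≤ excF P B C := by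
  refine csSup_le ⟨0, zero_mem_exSet h⟩ ?_
  rintro v ⟨Ω', _, P', π, W, h1, h2, rfl⟩
  refine le_trans ?_ (exV_le_excF (C := C) h1 h2)
  unfold exV
  have := Stk.hc_mono_right P' (B.comp π).lab (Y := fun ω => (W.lab ω, C (π ω)))
    (Y' := fun ω => (W.lab ω, (C' (π ω), C (π ω)))) (fun ω ω' _ _ e => by
      simp only [Prod.mk.injEq] at e ⊢
      exact ⟨e.1, e.2.2⟩)
  linarith

/-- a nearly optimal box -/
theorem exists_near {P : Law Ω} {B : Bx Ω} {C : Ω → γ} (h : ∀ ω, 0 < P.w ω → BxOk B ω) :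
    ∃ (Ω' : Type) (_ : Fintype Ω') (P' : Law Ω') (π : Ω' → Ω) (W : Bx Ω'),
      (∀ ω, P'.pr π ω = P.w ω) ∧ (∀ ω, 0 < P'.w ω → Sub 1 (B.comp π) W ω) ∧
      excF P B C - 1 ≤ exV P' (B.comp π) W fun ω => C (π ω) := by
  obtain ⟨v, ⟨Ω', i, P', π, W, h1, h2, rfl⟩, h3⟩ := exists_lt_of_lt_csSup
    (s := exSet P B C) ⟨0, zero_mem_exSet h⟩ (sub_one_lt (sSup (exSet P B C)))
  exact ⟨Ω', i, P', π, W, h1, h2, h3.le⟩

end finite

/-! ### systems -/

namespace Sys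

variable {S : Sys} {γ δ : Type}

theorem BxA.ok {B : S.BX} (h : BxA B) : S.Ae fun i ω => BxOk (B i) ω := h.1

theorem BxA.tame {B : S.BX} (h : BxA B) : Tame (BX.lab B) := by
  obtain ⟨h1, c, hc⟩ := h
  refine ⟨7 * (max c 0 + 1) + 16, ?_⟩
  filter_upwards [h1, hc, S.L_pos] with i g1 g2 g3
  have hL : (1:ℝ) ≤ S.L i := by exact_mod_cast g3
  set J : ℕ := ⌈(max c 0) * S.L i⌉₊ with hJ
  have h2 := H_lab_le (S.P i) (B i) J (fun ω hω => ⟨g1 ω hω, by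
    have h4 := g2 ω hω
    have h5 : ((B i).j ω : ℝ) ≤ (max c 0) * S.L i :=
      h4.trans (mul_le_mul_of_nonneg_right (le_max_left _ _) (by linarith))
    have h6 : ((B i).j ω : ℝ) ≤ J := h5.trans (Nat.le_ceil _)
    exact_mod_cast h6⟩)
  refine h2.trans ?_
  have h7 : (J : ℝ) ≤ (max c 0) * S.L i + 1 := by
    have : 0 ≤ (max c 0) * (S.L i : ℝ) := by positivity
    exact (Nat.ceil_lt_add_one this).le
  have hl : 0 < Real.log 2 := Real.log_pos (by norm_num)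
  unfold Sys.nm
  have hm : 0 ≤ max c 0 := le_max_right _ _
  calc (7 * (J : ℝ) + 16) * Real.log 2 ≤ (7 * ((max c 0) * S.L i + 1) + 16) * Real.log 2 := by
        gcongr
    _ ≤ ((7 * (max c 0 + 1) + 16) * S.L i) * Real.log 2 := by
        apply mul_le_mul_of_nonneg_right _ hl.le
        nlinarith
    _ = _ := by ring

theorem ub_exc {B : S.BX} (h : BxA B) (C : S.RV γ) :
    UB fun i => excF (S.P i) (B i) (C i) / S.nm i := by
  obtain ⟨c, hc⟩ := h.tame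
  refine UB.of_le (C := c) ?_ ?_
  · filter_upwards [S.nm_pos, h.1] with i hi h1
    exact div_nonneg (excF_nonneg h1) hi.le
  · filter_upwards [S.nm_pos, hc, h.1] with i hi h1 h2
    rw [div_le_iff₀ hi]
    exact (excF_le_H h2).trans h1

theorem Ext.ae {S' S : Sys} (e : Ext S' S) {p : ∀ i, S.Ω i → Prop} (h : S.Ae p) :
    S'.Ae fun i ω => p i (e.π i ω) := by
  filter_upwards [h] with i hi ω hω
  exact hi _ (e.w_pos i hω)

theorem Ext.bxA {S' S : Sys} (e : Ext S' S) {B : S.BX} (h : BxA B) : BxA (e.pullB B) := by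
  obtain ⟨h1, c, hc⟩ := h
  refine ⟨e.ae h1, c, ?_⟩
  have := e.ae hc
  filter_upwards [this] with i hi ω hω
  rw [e.L_eq]
  exact hi ω hω

/-- sizes are `O(L)` -/
theorem ol_sz {B : S.BX} (h : BxA B) : OL (BX.sz B) := by
  obtain ⟨h1, c, hc⟩ := h
  refine ⟨2 * c, ?_⟩
  filter_upwards [h1, hc] with i g1 g2 ω hω
  have h2 := g2 ω hω
  have h3 : ((B i).k ω : ℝ) ≤ (B i).j ω := by exact_mod_cast (g1 ω hω).2.2
  have h4 : (0:ℝ) ≤ (B i).k ω := Nat.cast_nonneg _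
  have h5 : (0:ℝ) ≤ (B i).j ω := Nat.cast_nonneg _
  show |((B i).k ω : ℝ) + (B i).j ω| ≤ _
  rw [abs_of_nonneg (by linarith)]
  linarith

/-- a box containing a normalised box is normalised -/
theorem bxA_of_sub {B W : S.BX} (hB : BxA B) (h : SubA B W) : BxA W := by
  obtain ⟨h1, c, hc⟩ := hB
  obtain ⟨c', hc'⟩ := h
  constructor
  · filter_upwards [h1, hc'] with i g1 g2 ω hω
    obtain ⟨a1, a2, a3, -, -, -⟩ := g2 ω hω
    refine ⟨?_, a2, a3⟩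
    rw [a1]
    exact (g1 ω hω).1
  · refine ⟨c, ?_⟩
    filter_upwards [hc, hc'] with i g1 g2 ω hω
    obtain ⟨-, -, -, -, a5, -⟩ := g2 ω hω
    have : ((W i).j ω : ℝ) ≤ (B i).j ω := by exact_mod_cast a5
    exact this.trans (g1 ω hω)

/-- the value as a limit -/
theorem val_eq {B W : S.BX} (hB : BxA B) (hW : BxA W) (C : S.RV γ) :
    S.val B W C = ulim fun i => exV (S.P i) (B i) (W i) (C i) / S.nm i := by
  unfold val hc av
  have h1 : UB fun i => (S.P i).ex (fun ω => (B i).sz ω - (W i).sz ω) / S.L i :=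
    UB.av ((ol_sz hB).sub (ol_sz hW))
  have h2 := UB.hc hB.tame (Sys.pr (BX.lab W) C)
  have e := (ulim_sub h2 h1).symm
  refine Eq.trans e ?_
  refine ulim_congr ?_
  filter_upwards [S.L_pos] with i hi
  have hL : (0:ℝ) < S.L i := by exact_mod_cast hi
  have hl : 0 < Real.log 2 := Real.log_pos (by norm_num)
  unfold exV nm
  rw [sub_div]
  congr 1
  field_simp

theorem ub_exV {B W : S.BX} (hB : BxA B) (hW : BxA W) (C : S.RV γ) :
    UB fun i => exV (S.P i) (B i) (W i) (C i) / S.nm i := by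
  have h1 : UB fun i => (S.P i).ex (fun ω => (B i).sz ω - (W i).sz ω) / S.L i :=
    UB.av ((ol_sz hB).sub (ol_sz hW))
  have h2 := UB.hc hB.tame (Sys.pr (BX.lab W) C)
  obtain ⟨c, hc⟩ := h2.sub h1
  refine ⟨c, ?_⟩
  filter_upwards [hc, S.L_pos] with i h3 hi
  have hL : (0:ℝ) < S.L i := by exact_mod_cast hi
  have hl : 0 < Real.log 2 := Real.log_pos (by norm_num)
  refine le_trans (le_of_eq ?_) h3
  congr 1
  unfold exV nm
  rw [sub_div]
  congr 1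
  field_simp

/-- close labels have the same information -/
theorem hc_of_labCl {X X' : S.RV Lab} (N : ℕ)
    (h : S.Ae fun i ω => LabCl N (X i ω) (X' i ω)) {T : Type*} (Y : S.RV T) :
    S.hc X (Sys.pr X' Y) = 0 := by
  refine hc_zero_of_le (Real.log (((2 * N + 1) ^ 4 : ℕ) : ℝ)) ?_
  filter_upwards [h] with i hi
  exact hc_labCl (S.P i) (X i) (X' i) (Y i) N hi

end Sys

end Vale.Agent.P127.U
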