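import Vale.Agent.P127.U.ApxS
import Vale.Agent.P127.U.ExcBase

/-!
# P127 / U : localisation inside a tube (helper543)

`zm s l` : the line `l` blown up by `2^s` inside its tube of precision `s`.
-/

set_option autoImplicit false

namespace Vale.Agent.P127.U.LocT

open Filter Topology Vale.Agent.P127 Vale.Agent.P127.Stk Sys Apx

/-- the line blown up by `2^s` inside its tube of precision `s` -/
noncomputable def zm (s : ℕ) (l : Ln) : Ln :=
  (fun j => Int.fract ((2 : ℝ) ^ s * l.1 j), fun j => Int.fract ((2 : ℝ) ^ s * l.2 j))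

theorem zm_ok (s : ℕ) (l : Ln) : LnOk (zm s l) := by
  constructor <;> intro i
  · show |Int.fract _| ≤ 1
    rw [abs_of_nonneg (Int.fract_nonneg _)]
    exact (Int.fract_lt_one _).le
  · show |Int.fract _| ≤ 1
    rw [abs_of_nonneg (Int.fract_nonneg _)]
    exact (Int.fract_lt_one _).le

theorem fl1_fract (m s : ℕ) (x : ℝ) :
    fl1 m (Int.fract ((2 : ℝ) ^ s * x)) = fl1 (m + s) x - 2 ^ m * fl1 s x := by
  unfold fl1 Int.fract
  have e : (2 : ℝ) ^ m * ((2 : ℝ) ^ s * x - (⌊(2 : ℝ) ^ s * x⌋ : ℝ)) =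
      (2 : ℝ) ^ (m + s) * x - ((2 ^ m * ⌊(2 : ℝ) ^ s * x⌋ : ℤ) : ℝ) := by
    push_cast
    ring
  rw [e, Int.floor_sub_intCast]

theorem fl1_zm {n s : ℕ} (h : s ≤ n) (x : ℝ) :
    fl1 (n - s) (Int.fract ((2 : ℝ) ^ s * x)) = fl1 n x - 2 ^ (n - s) * fl1 s x := by
  rw [fl1_fract, Nat.sub_add_cancel h]

/-- `tb n l` determines `tb s l` for `s ≤ n` -/
theorem tb_of_tb {n s : ℕ} (h : s ≤ n) {l l' : Ln} (e : tb n l = tb n l') : tb s l = tb s l' := by
  unfold tb at e ⊢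
  rw [Prod.mk.injEq] at e ⊢
  exact ⟨fl_of_fl h _ _ e.1, fl_of_fl h _ _ e.2⟩

theorem zm_of_tb {n s : ℕ} (h : s ≤ n) {l l' : Ln} (e : tb n l = tb n l') :
    tb (n - s) (zm s l) = tb (n - s) (zm s l') := by
  have e2 := tb_of_tb h e
  unfold tb at e e2 ⊢
  rw [Prod.mk.injEq] at e e2 ⊢
  constructor
  · funext j
    show fl1 (n - s) (Int.fract ((2 : ℝ) ^ s * l.1 j)) = fl1 (n - s) (Int.fract ((2 : ℝ) ^ s * l'.1 j))
    rw [fl1_zm h, fl1_zm h]
    have a : fl1 n (l.1 j) = fl1 n (l'.1 j) := congrFun e.1 j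
    have b : fl1 s (l.1 j) = fl1 s (l'.1 j) := congrFun e2.1 j
    rw [a, b]
  · funext j
    show fl1 (n - s) (Int.fract ((2 : ℝ) ^ s * l.2 j)) = fl1 (n - s) (Int.fract ((2 : ℝ) ^ s * l'.2 j))
    rw [fl1_zm h, fl1_zm h]
    have a : fl1 n (l.2 j) = fl1 n (l'.2 j) := congrFun e.2 j
    have b : fl1 s (l.2 j) = fl1 s (l'.2 j) := congrFun e2.2 j
    rw [a, b]

theorem tb_of_zm {n s : ℕ} (h : s ≤ n) {l l' : Ln}
    (e : tb (n - s) (zm s l) = tb (n - s) (zm s l')) (e2 : tb s l = tb s l') :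
    tb n l = tb n l' := by
  unfold tb at e e2 ⊢
  rw [Prod.mk.injEq] at e e2 ⊢
  constructor
  · funext j
    have a : fl1 (n - s) (Int.fract ((2 : ℝ) ^ s * l.1 j)) =
      fl1 (n - s) (Int.fract ((2 : ℝ) ^ s * l'.1 j)) := congrFun e.1 j
    rw [fl1_zm h, fl1_zm h] at a
    have b : fl1 s (l.1 j) = fl1 s (l'.1 j) := congrFun e2.1 j
    show fl1 n (l.1 j) = fl1 n (l'.1 j)
    rw [b] at a
    linarith
  · funext j
    have a : fl1 (n - s) (Int.fract ((2 : ℝ) ^ s * l.2 j)) =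
      fl1 (n - s) (Int.fract ((2 : ℝ) ^ s * l'.2 j)) := congrFun e.2 j
    rw [fl1_zm h, fl1_zm h] at a
    have b : fl1 s (l.2 j) = fl1 s (l'.2 j) := congrFun e2.2 j
    show fl1 n (l.2 j) = fl1 n (l'.2 j)
    rw [b] at a
    linarith

/-! ### labels of tubes -/

theorem co_zero (v : Fin 2 → ℝ) : co 0 v = v := by
  funext i
  fin_cases i <;> simp [co]

theorem qa_zero (m : ℕ) : qa m 0 = 0 := by simp [qa, fl1]

theorem lab_tube_eq {n : ℕ} {l l' : Ln} : lab 0 n n l = lab 0 n n l' ↔ tb n l = tb n l' := by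
  unfold lab tb fkj
  rw [qa_zero, co_zero, co_zero, co_zero, co_zero]
  simp only [Prod.mk.injEq, true_and]
  constructor
  · rintro ⟨⟨a, b⟩, c, d⟩
    constructor <;> funext j <;> fin_cases j <;> assumption
  · rintro ⟨a, b⟩
    exact ⟨⟨congrFun a 0, congrFun a 1⟩, congrFun b 0, congrFun b 1⟩

theorem tbx_lab {Ω : Type} {n : ℕ} {l : Ω → Ln} {ω ω' : Ω} :
    (tbx n l).lab ω = (tbx n l).lab ω' ↔ tb n (l ω) = tb n (l ω') := lab_tube_eq

/-! ### the label of the enlarged box -/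

/-- the label of the box in the original coordinates (up to one unit) -/
noncomputable def shl (s : ℕ) (a : Lab) (T : (Fin 2 → ℤ) × (Fin 2 → ℤ)) : Lab :=
  (a.1 + s, a.2.1 + s, a.2.2.1,
    (a.2.2.2.1.1 + fl1 a.1 (co ((a.2.2.1 : ℝ) / 2 ^ (a.2.1 - a.1)) (fun j => (T.1 j : ℝ)) 0),
     a.2.2.2.1.2 + fl1 a.2.1 (co ((a.2.2.1 : ℝ) / 2 ^ (a.2.1 - a.1)) (fun j => (T.1 j : ℝ)) 1)),
    (a.2.2.2.2.1 + fl1 a.1 (co ((a.2.2.1 : ℝ) / 2 ^ (a.2.1 - a.1)) (fun j => (T.2 j : ℝ)) 0),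
     a.2.2.2.2.2 + fl1 a.2.1 (co ((a.2.2.1 : ℝ) / 2 ^ (a.2.1 - a.1)) (fun j => (T.2 j : ℝ)) 1)))

theorem fl1_add_le (k : ℕ) (x y : ℝ) : |fl1 k (x + y) - (fl1 k x + fl1 k y)| ≤ 1 := by
  unfold fl1
  rw [mul_add]
  have h1 := Int.le_floor_add (2 ^ k * x) (2 ^ k * y)
  have h2 := Int.le_floor_add_floor (2 ^ k * x) (2 ^ k * y)
  rw [abs_le]
  constructor <;> linarith

theorem fl1_co_zm (s k : ℕ) (φ : ℝ) (v : Fin 2 → ℝ) (i : Fin 2) :
    |fl1 (k + s) (co φ v i) - (fl1 k (co φ (fun j => Int.fract ((2 : ℝ) ^ s * v j)) i) +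
      fl1 k (co φ (fun j => ((fl s v j : ℤ) : ℝ)) i))| ≤ 1 := by
  have e : fl1 (k + s) (co φ v i) = fl1 k (co φ (fun j => Int.fract ((2 : ℝ) ^ s * v j)) i +
      co φ (fun j => ((fl s v j : ℤ) : ℝ)) i) := by
    have e1 : co φ (fun j => Int.fract ((2 : ℝ) ^ s * v j)) i +
      co φ (fun j => ((fl s v j : ℤ) : ℝ)) i = 2 ^ s * co φ v i := by
      have h0 : ∀ j, Int.fract ((2 : ℝ) ^ s * v j) = 2 ^ s * v j - ((fl s v j : ℤ) : ℝ) := fun j => rfl
      simp only [h0]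
      fin_cases i
      · simp [co]
        ring
      · simp [co]
        ring
    rw [e1]
    unfold fl1
    congr 1
    rw [pow_add]
    ring
  rw [e]
  exact fl1_add_le _ _ _

theorem shl_close (s : ℕ) (θ : ℝ) (k j : ℕ) (l : Ln) :
    LabCl 1 (lab θ (k + s) (j + s) l) (shl s (lab θ k j (zm s l)) (tb s l)) := by
  have e : j + s - (k + s) = j - k := by omega
  unfold lab
  rw [e]
  refine ⟨rfl, rfl, rfl, ?_, ?_, ?_, ?_⟩
  · exact fl1_co_zm s k _ l.1 0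
  · exact fl1_co_zm s j _ l.1 1
  · exact fl1_co_zm s k _ l.2 0
  · exact fl1_co_zm s j _ l.2 1

/-! ### excess -/

section finite

variable {Ω : Type} [Fintype Ω] {γ : Type}

omit [Fintype Ω] in
theorem tbx_ok {n : ℕ} {l : Ω → Ln} {ω : Ω} (h : LnOk (l ω)) : BxOk (tbx n l) ω :=
  ⟨h, by
    show |(0 : ℝ)| ≤ 4
    rw [abs_zero]
    norm_num, le_rfl⟩

theorem excF_zm (P : Law Ω) (l : Ω → Ln) (C : Ω → γ) {n s : ℕ} (h : s ≤ n) :
    excF P (tbx (n - s) fun ω => zm s (l ω)) (fun ω => (tb s (l ω), C ω)) ≤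
      excF P (tbx n l) (fun ω => (tb s (l ω), C ω)) + Real.log (((2 * 1 + 1) ^ 4 : ℕ) : ℝ) := by
  refine csSup_le ⟨0, zero_mem_exSet fun ω _ => tbx_ok (zm_ok _ _)⟩ ?_
  rintro v ⟨Ω', _, P', π, W, h1, h2, rfl⟩
  set W' : Bx Ω' := ⟨fun ω => l (π ω), W.θ, fun ω => W.k ω + s, fun ω => W.j ω + s⟩ with hW'
  have hsub : ∀ ω, 0 < P'.w ω → Sub 1 ((tbx n l).comp π) W' ω := by
    intro ω hω
    obtain ⟨a1, a2, a3, a4, a5, a6⟩ := h2 ω hω
    have a4' : W.k ω ≤ n - s := a4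
    have a5' : W.j ω ≤ n - s := a5
    refine ⟨rfl, a2, ?_, ?_, ?_, ?_⟩
    · show W.k ω + s ≤ W.j ω + s
      omega
    · show W.k ω + s ≤ n
      omega
    · show W.j ω + s ≤ n
      omega
    · have a6' : |Real.sin (0 - W.θ ω)| * (1 / 2 : ℝ) ^ (n - s) ≤ 1 * (1 / 2 : ℝ) ^ W.j ω := a6
      show |Real.sin (0 - W.θ ω)| * (1 / 2 : ℝ) ^ n ≤ 1 * (1 / 2 : ℝ) ^ (W.j ω + s)
      have e : (1 / 2 : ℝ) ^ n = (1 / 2 : ℝ) ^ (n - s) * (1 / 2) ^ s := by
        rw [← pow_add, Nat.sub_add_cancel h]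
      rw [e, pow_add, ← mul_assoc, ← mul_assoc]
      exact mul_le_mul_of_nonneg_right a6' (by positivity)
  refine le_trans ?_ (add_le_add_left (exV_le_excF (C := fun ω => (tb s (l ω), C ω)) h1 hsub) _)
  unfold exV
  have hsz : P'.ex (fun ω => ((tbx (n - s) fun ω => zm s (l ω)).comp π).sz ω - W.sz ω) =
      P'.ex (fun ω => ((tbx n l).comp π).sz ω - W'.sz ω) := by
    congr 1
    funext ω
    show (((n - s : ℕ) : ℝ) + ((n - s : ℕ) : ℝ)) - ((W.k ω : ℝ) + W.j ω) =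
      ((n : ℝ) + n) - (((W.k ω + s : ℕ) : ℝ) + ((W.j ω + s : ℕ) : ℝ))
    rw [Nat.cast_sub h]
    push_cast
    ring
  rw [hsz]
  have hB : ∀ ω ω', ((tbx n l).comp π).lab ω = ((tbx n l).comp π).lab ω' ↔
      tb n (l (π ω)) = tb n (l (π ω')) := fun ω ω' => lab_tube_eq
  have hB' : ∀ ω ω', ((tbx (n - s) fun ω => zm s (l ω)).comp π).lab ω =
      ((tbx (n - s) fun ω => zm s (l ω)).comp π).lab ω' ↔
      tb (n - s) (zm s (l (π ω))) = tb (n - s) (zm s (l (π ω'))) := fun ω ω' => lab_tube_eq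
  have e1 : Stk.hc P' ((tbx (n - s) fun ω => zm s (l ω)).comp π).lab
      (fun ω => (W.lab ω, (tb s (l (π ω)), C (π ω)))) =
      Stk.hc P' ((tbx n l).comp π).lab (fun ω => (W.lab ω, (tb s (l (π ω)), C (π ω)))) := by
    refine Stk.hc_congr P' ?_ ?_ (fun _ _ _ _ e => e) (fun _ _ _ _ e => e)
    · intro ω ω' _ _ e
      rw [Prod.mk.injEq] at e
      rw [hB'] 
      exact zm_of_tb h ((hB _ _).1 e.1)
    · intro ω ω' _ _ e
      simp only [Prod.mk.injEq] at e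
      rw [hB]
      exact tb_of_zm h ((hB' _ _).1 e.1) e.2.2.1
  rw [e1]
  have e2 := Stk.hc_le_add' P' ((tbx n l).comp π).lab W'.lab
    (fun ω => (W.lab ω, (tb s (l (π ω)), C (π ω))))
  have e3 : Stk.hc P' ((tbx n l).comp π).lab
      (fun ω => (W'.lab ω, (W.lab ω, (tb s (l (π ω)), C (π ω))))) ≤
      Stk.hc P' ((tbx n l).comp π).lab (fun ω => (W'.lab ω, (tb s (l (π ω)), C (π ω)))) :=
    Stk.hc_mono_right P' _ fun _ _ _ _ e => by
      simp only [Prod.mk.injEq] at e ⊢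
      exact ⟨e.1, e.2.2.1, e.2.2.2⟩
  have e4 : Stk.hc P' W'.lab (fun ω => (W.lab ω, (tb s (l (π ω)), C (π ω)))) ≤
      Real.log (((2 * 1 + 1) ^ 4 : ℕ) : ℝ) := by
    refine le_trans (Stk.hc_mono_right P' (Y := fun ω => (shl s (W.lab ω) (tb s (l (π ω))), ())) _ ?_)
      (hc_labCl P' W'.lab (fun ω => shl s (W.lab ω) (tb s (l (π ω)))) (fun _ => ()) 1 ?_)
    · intro ω ω' _ _ e
      simp only [Prod.mk.injEq] at e ⊢
      rw [e.1, e.2.1]
      exact ⟨rfl, trivial⟩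
    · intro ω hω
      have h3 := (h2 ω hω).1
      have h3' : W.l ω = zm s (l (π ω)) := h3
      have h4 := shl_close s (W.θ ω) (W.k ω) (W.j ω) (l (π ω))
      rw [← h3'] at h4
      exact h4
  linarith

/-- the position in the blown up tube -/
theorem pos_zm (s : ℕ) (l : Ln) (t : ℝ) (j : Fin 2) :
    pos (zm s l) t j = (2 : ℝ) ^ s * pos l t j - ((tb s l).1 j + t * (tb s l).2 j) := by
  show Int.fract ((2 : ℝ) ^ s * l.1 j) + t * Int.fract ((2 : ℝ) ^ s * l.2 j) =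
    (2 : ℝ) ^ s * (l.1 j + t * l.2 j) - ((⌊(2 : ℝ) ^ s * l.1 j⌋ : ℝ) + t * (⌊(2 : ℝ) ^ s * l.2 j⌋ : ℝ))
  unfold Int.fract
  ring

/-- the point in the blown up tube, given the point and the tube -/
theorem point_le (P : Law Ω) (s n : ℕ) (hsn : s ≤ n) (l : Ω → Ln) (t : Ω → ℝ)
    (hl : ∀ ω, 0 < P.w ω → LnOk (l ω)) (C : Ω → γ) :
    Stk.hc P (fun ω => pq (n - s) (t ω, pos (zm s (l ω)) (t ω)))
      (fun ω => (pq n (t ω, pos (l ω) (t ω)), (tb s (l ω), C ω))) ≤ 2 * Real.log 9 := by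
  have h1 := Apx.hc_pair_le P (fun ω => fl1 (n - s) (t ω)) (fun ω => fl (n - s) (pos (zm s (l ω)) (t ω)))
    (fun ω => (pq n (t ω, pos (l ω) (t ω)), (tb s (l ω), C ω)))
  have h2 : Stk.hc P (fun ω => fl1 (n - s) (t ω))
      (fun ω => (pq n (t ω, pos (l ω) (t ω)), (tb s (l ω), C ω))) = 0 := by
    apply Stk.hc_zero
    intro ω ω' _ _ e
    have e1 : fl1 n (t ω) = fl1 n (t ω') := congrArg (fun q => q.1.1) e
    exact Apx.fl1_of_fl1 (Nat.sub_le _ _) e1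
  have h3 := Apx.hc_fl_apx P (ι := Fin 2) (n - s) 3 (fun ω => pos (zm s (l ω)) (t ω))
    (fun ω => (pq n (t ω, pos (l ω) (t ω)), (tb s (l ω), C ω))) (by
      intro ω ω' p p' e j
      have e1 : fl1 n (t ω) = fl1 n (t ω') := congrArg (fun q => q.1.1) e
      have e2 : fl n (pos (l ω) (t ω)) = fl n (pos (l ω') (t ω')) := congrArg (fun q => q.1.2) e
      have e3 : tb s (l ω) = tb s (l ω') := congrArg (fun q => q.2.1) e
      rw [pos_zm, pos_zm, e3]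
      have c1 := Apx.fl1_close e1
      have c2 := Apx.fl_close e2 j
      have e6 : (2 : ℝ) ^ s * pos (l ω) (t ω) j - (((tb s (l ω')).1 j : ℝ) + t ω * (tb s (l ω')).2 j) -
          ((2 : ℝ) ^ s * pos (l ω') (t ω') j - (((tb s (l ω')).1 j : ℝ) + t ω' * (tb s (l ω')).2 j)) =
          2 ^ s * (pos (l ω) (t ω) j - pos (l ω') (t ω') j) - (t ω - t ω') * (tb s (l ω')).2 j := by ring
      rw [e6]
      have hs : (1 : ℝ) ≤ 2 ^ s := one_le_pow₀ (by norm_num)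
      have c3 : |((tb s (l ω')).2 j : ℝ)| ≤ 2 * 2 ^ s := by
        have h4 := (hl ω' p').2 j
        have h5 : |(2 : ℝ) ^ s * (l ω').2 j| ≤ 2 ^ s := by
          rw [abs_mul, abs_of_pos (by positivity : (0 : ℝ) < 2 ^ s)]
          calc (2 : ℝ) ^ s * |(l ω').2 j| ≤ 2 ^ s * 1 := by gcongr
            _ = _ := mul_one _
        have h6 := Int.floor_le ((2 : ℝ) ^ s * (l ω').2 j)
        have h7 := Int.lt_floor_add_one ((2 : ℝ) ^ s * (l ω').2 j)
        rw [abs_le] at h5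
        show |((⌊(2 : ℝ) ^ s * (l ω').2 j⌋ : ℤ) : ℝ)| ≤ _
        rw [abs_le]
        constructor <;> linarith [h5.1, h5.2]
      have e7 : (1 / 2 : ℝ) ^ n = (1 / 2) ^ s * (1 / 2) ^ (n - s) := by
        rw [← pow_add, Nat.add_sub_cancel' hsn]
      have e8 : (2 : ℝ) ^ s * (1 / 2) ^ s = 1 := by rw [← mul_pow]; norm_num
      have c4 : |(2 : ℝ) ^ s * (pos (l ω) (t ω) j - pos (l ω') (t ω') j)| ≤ (1 / 2) ^ (n - s) := by
        rw [abs_mul, abs_of_pos (by positivity : (0 : ℝ) < 2 ^ s)]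
        calc (2 : ℝ) ^ s * |pos (l ω) (t ω) j - pos (l ω') (t ω') j| ≤ 2 ^ s * (1 / 2) ^ n := by gcongr
          _ = (2 ^ s * (1 / 2) ^ s) * (1 / 2) ^ (n - s) := by rw [e7]; ring
          _ = _ := by rw [e8, one_mul]
      have c5 : |(t ω - t ω') * ((tb s (l ω')).2 j : ℝ)| ≤ 2 * (1 / 2) ^ (n - s) := by
        rw [abs_mul]
        calc |t ω - t ω'| * |((tb s (l ω')).2 j : ℝ)| ≤ (1 / 2) ^ n * (2 * 2 ^ s) :=
              mul_le_mul c1 c3 (abs_nonneg _) (by positivity)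
          _ = 2 * ((2 ^ s * (1 / 2) ^ s) * (1 / 2) ^ (n - s)) := by rw [e7]; ring
          _ = _ := by rw [e8, one_mul]
      have c6 := abs_sub (2 ^ s * (pos (l ω) (t ω) j - pos (l ω') (t ω') j))
        ((t ω - t ω') * ((tb s (l ω')).2 j : ℝ))
      push_cast
      linarith)
  rw [Fintype.card_fin] at h3
  norm_num at h3
  have h4 : Stk.hc P (fun ω => pq (n - s) (t ω, pos (zm s (l ω)) (t ω)))
      (fun ω => (pq n (t ω, pos (l ω) (t ω)), (tb s (l ω), C ω))) ≤ _ := h1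
  rw [h2, zero_add] at h4
  exact h4.trans h3

end finite

end Vale.Agent.P127.U.LocT

namespace Vale.Agent.P127.U

open Filter Topology Vale.Agent.P127 Vale.Agent.P127.Stk Sys Apx

theorem pLocTube : PLocTube := by
  intro N β hN hJ S γ C l t n s hn hl ht hsn
  set n' : ℕ → ℕ := fun i => n i - s i with hn'
  have hbs : S.Bd s := bd_mono hn hsn
  have hbn' : S.Bd n' := bd_mono hn (fun i => Nat.sub_le _ _)
  set l' : S.RV Ln := fun i ω => LocT.zm (s i) (l i ω) with hl'def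
  have hl' : LnA l' := Eventually.of_forall fun i ω _ => LocT.zm_ok _ _
  have hin : InA (tubes n' l') (pt l' t) := by
    refine ⟨1, ?_⟩
    filter_upwards [ht] with i hi ω hω
    have h0 : (fun j => (pt l' t i ω).2 j - pos ((tubes n' l' i).l ω) (pt l' t i ω).1 j) =
        fun _ => 0 := by
      funext j
      exact sub_self _
    refine ⟨(hi ω hω).1, (hi ω hω).2, ?_, ?_⟩
    · rw [h0]
      simp [co]
    · rw [h0]
      simp [co]
  have hJ1 := hJ S _ (Sys.pr (tbs s l) C) l' (pt l' t) n' hbn' hl' hin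
  have hnu : S.nu n' = S.nu n - S.nu s := nu_sub hn hsn
  have T1 : Tame (tbs n l) := tame_tbs hn hl
  have T2 : Tame (tbs n' l') := tame_tbs hbn' hl'
  have T3 : Tame (pqs n' (pt l' t)) := tame_pt hbn' hl' ht
  have T4 : Tame (dg n' t) := tame_dg hbn' ht
  have A : S.hc (tbs n l) (Sys.pr (pqs n (pt l t)) (Sys.pr (tbs s l) C)) ≤
      S.hc (tbs n' l') (Sys.pr (pqs n' (pt l' t)) (Sys.pr (tbs s l) C)) := by
    refine hc_cmp_sys T1 T2 (2 * Real.log 9) ?_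
    filter_upwards [hl] with i hi
    have z1 : Stk.hc (S.P i) (tbs n l i)
        (fun ω => (tbs n' l' i ω, (Sys.pr (pqs n (pt l t)) (Sys.pr (tbs s l) C)) i ω)) = 0 := by
      apply Stk.hc_zero
      intro ω ω' _ _ e
      exact LocT.tb_of_zm (hsn i) (congrArg Prod.fst e) (congrArg (fun q => q.2.2.1) e)
    have z2 : Stk.hc (S.P i) ((Sys.pr (pqs n' (pt l' t)) (Sys.pr (tbs s l) C)) i)
        ((Sys.pr (pqs n (pt l t)) (Sys.pr (tbs s l) C)) i) ≤ 2 * Real.log 9 := by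
      have b1 := Apx.hc_pair_le (S.P i) (pqs n' (pt l' t) i) ((Sys.pr (tbs s l) C) i)
        ((Sys.pr (pqs n (pt l t)) (Sys.pr (tbs s l) C)) i)
      have b2 : Stk.hc (S.P i) ((Sys.pr (tbs s l) C) i)
          ((Sys.pr (pqs n (pt l t)) (Sys.pr (tbs s l) C)) i) = 0 := by
        apply Stk.hc_zero
        intro ω ω' _ _ e
        exact congrArg Prod.snd e
      have b3 := LocT.point_le (S.P i) (s i) (n i) (hsn i) (l i) (t i) hi (C i)
      have b4 : Stk.hc (S.P i) (pqs n' (pt l' t) i)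
        ((Sys.pr (pqs n (pt l t)) (Sys.pr (tbs s l) C)) i) ≤ 2 * Real.log 9 := b3
      have b5 : Stk.hc (S.P i) ((Sys.pr (pqs n' (pt l' t)) (Sys.pr (tbs s l) C)) i)
        ((Sys.pr (pqs n (pt l t)) (Sys.pr (tbs s l) C)) i) ≤ _ := b1
      linarith
    linarith
  have B : S.hc (dg n' t) (Sys.pr (tbs n l) C) ≤
      S.hc (pqs n' (pt l' t)) (Sys.pr (tbs n' l') (Sys.pr (tbs s l) C)) := by
    refine hc_cmp_sys T4 T3 0 ?_
    filter_upwards [hl] with i hi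
    have z1 : Stk.hc (S.P i) (dg n' t i) (fun ω => (pqs n' (pt l' t) i ω, (Sys.pr (tbs n l) C) i ω)) = 0 := by
      apply Stk.hc_zero
      intro ω ω' _ _ e
      exact congrArg (fun q => q.1.1) e
    have z2 : Stk.hc (S.P i) ((Sys.pr (tbs n' l') (Sys.pr (tbs s l) C)) i) ((Sys.pr (tbs n l) C) i) = 0 := by
      apply Stk.hc_zero
      intro ω ω' _ _ e
      have e1 : tb (n i) (l i ω) = tb (n i) (l i ω') := congrArg Prod.fst e
      have e2 : C i ω = C i ω' := congrArg Prod.snd e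
      exact Prod.ext (LocT.zm_of_tb (hsn i) e1) (Prod.ext (LocT.tb_of_tb (hsn i) e1) e2)
    linarith
  have hBx : BxA (tubes n l) := by
    obtain ⟨c, hc⟩ := hn
    refine ⟨?_, c, ?_⟩
    · filter_upwards [hl] with i hi ω hω
      exact LocT.tbx_ok (hi ω hω)
    · filter_upwards [hc] with i hi ω _
      exact hi
  have hBx' : BxA (tubes n' l') := by
    obtain ⟨c, hc⟩ := hbn'
    refine ⟨?_, c, ?_⟩
    · filter_upwards [hl'] with i hi ω hω
      exact LocT.tbx_ok (hi ω hω)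
    · filter_upwards [hc] with i hi ω _
      exact hi
  have E : S.exc (tubes n' l') (Sys.pr (tbs s l) C) ≤ S.exc (tubes n l) (Sys.pr (tbs s l) C) := by
    refine ulim_le_of_sub (ub_exc hBx' _) (ub_exc hBx _)
      (S.const_div_nm (Real.log (((2 * 1 + 1) ^ 4 : ℕ) : ℝ))) ?_
    filter_upwards [S.nm_pos] with i hi
    rw [← add_div]
    exact div_le_div_of_nonneg_right (LocT.excF_zm (S.P i) (l i) (C i) (hsn i)) hi.le
  rw [hnu] at hJ1
  have hB : N * (S.nu n - S.nu s - S.hc (pqs n' (pt l' t)) (Sys.pr (tbs n' l') (Sys.pr (tbs s l) C))) ≤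
      N * (S.nu n - S.nu s - S.hc (dg n' t) (Sys.pr (tbs n l) C)) :=
    mul_le_mul_of_nonneg_left (by linarith) hN
  linarith

end Vale.Agent.P127.U
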