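import Vale.Agent.P127.Stk.LibCopies

/-!
# P127 / U : conditional Pinsker inequality, replacement by copies, two independences

Finite tools for the microscopic part of the shaded proof; all constants explicit.
-/

namespace Vale.Agent.P127.U.Pin

open Finset Vale.Agent.P127 Vale.Agent.P127.Stk

variable {Ω : Type} [Fintype Ω] {S T T' U V : Type*}

/-- the density of the product of the conditional laws against the joint law -/
noncomputable def cr (P : Law Ω) (X : Ω → S) (Y : Ω → T) (Z : Ω → U) (ω : Ω) : ℝ :=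
  P.pr (fun ω => (X ω, Z ω)) (X ω, Z ω) * P.pr (fun ω => (Y ω, Z ω)) (Y ω, Z ω) /
    (P.pr (fun ω => (X ω, Y ω, Z ω)) (X ω, Y ω, Z ω) * P.pr Z (Z ω))

lemma cr_nonneg (P : Law Ω) (X : Ω → S) (Y : Ω → T) (Z : Ω → U) (ω : Ω) : 0 ≤ cr P X Y Z ω :=
  div_nonneg (mul_nonneg (P.pr_nonneg _ _) (P.pr_nonneg _ _))
    (mul_nonneg (P.pr_nonneg _ _) (P.pr_nonneg _ _))

/-- `∑_{(x,y,z) ∈ F} P(x,z) P(y,z) / P(z) ≤ 1` -/
lemma sum_prod_le (P : Law Ω) (X : Ω → S) (Y : Ω → T) (Z : Ω → U) (F : Finset (S × T × U)) :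
    ∑ q ∈ F, P.pr (fun ω => (X ω, Z ω)) (q.1, q.2.2) * P.pr (fun ω => (Y ω, Z ω)) (q.2.1, q.2.2) /
      P.pr Z q.2.2 ≤ 1 := by
  classical
  set A := F.image (fun q => q.1)
  set B := F.image (fun q => q.2.1)
  set C := F.image (fun q => q.2.2)
  have h0 : ∀ x y z, 0 ≤ P.pr (fun ω => (X ω, Z ω)) (x, z) * P.pr (fun ω => (Y ω, Z ω)) (y, z) /
      P.pr Z z := fun x y z =>
    div_nonneg (mul_nonneg (P.pr_nonneg _ _) (P.pr_nonneg _ _)) (P.pr_nonneg _ _)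
  have h1 : F ⊆ A ×ˢ (B ×ˢ C) := by
    intro q hq
    simp only [Finset.mem_product]
    exact ⟨Finset.mem_image_of_mem _ hq, Finset.mem_image_of_mem _ hq,
      Finset.mem_image_of_mem _ hq⟩
  refine (Finset.sum_le_sum_of_subset_of_nonneg h1 fun q _ _ => h0 _ _ _).trans ?_
  rw [Finset.sum_product, Finset.sum_congr rfl fun x _ => Finset.sum_product_right _ _ _]
  rw [Finset.sum_comm]
  have h2 : ∀ z ∈ C, ∑ x ∈ A, ∑ y ∈ B, P.pr (fun ω => (X ω, Z ω)) (x, z) *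
      P.pr (fun ω => (Y ω, Z ω)) (y, z) / P.pr Z z ≤ P.pr Z z := by
    intro z _
    have e1 : ∑ x ∈ A, ∑ y ∈ B, P.pr (fun ω => (X ω, Z ω)) (x, z) *
        P.pr (fun ω => (Y ω, Z ω)) (y, z) / P.pr Z z =
        (∑ x ∈ A, P.pr (fun ω => (X ω, Z ω)) (x, z)) *
        (∑ y ∈ B, P.pr (fun ω => (Y ω, Z ω)) (y, z)) / P.pr Z z := by
      rw [Finset.sum_mul_sum, Finset.sum_div]
      exact Finset.sum_congr rfl fun x _ => by rw [Finset.sum_div]
    rw [e1]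
    have hA := P.sum_pr_pair_le X Z z A
    have hB := P.sum_pr_pair_le Y Z z B
    rcases (P.pr_nonneg Z z).eq_or_lt with hz | hz
    · rw [← hz, div_zero]
    · rw [div_le_iff₀ hz]
      exact mul_le_mul hA hB (Finset.sum_nonneg fun y _ => P.pr_nonneg _ _) hz.le
  refine (Finset.sum_le_sum h2).trans ?_
  have h3 : ∑ z ∈ C, P.pr Z z ≤ ∑ z ∈ C ∪ img Z, P.pr Z z :=
    Finset.sum_le_sum_of_subset_of_nonneg Finset.subset_union_left fun z _ _ => P.pr_nonneg _ _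
  have h4 : ∑ z ∈ C ∪ img Z, P.pr Z z = ∑ z ∈ img Z, P.pr Z z := by
    symm
    refine Finset.sum_subset Finset.subset_union_right fun z _ hz => ?_
    unfold Law.pr
    refine Finset.sum_eq_zero fun ω hω => ?_
    exact absurd (mem_img.2 ⟨ω, (Finset.mem_filter.1 hω).2⟩) hz
  rw [h4, P.sum_pr_image] at h3
  exact h3

/-- the support of the joint law -/
noncomputable def sp (P : Law Ω) (X : Ω → S) : Finset S := by
  classical
  exact (img X).filter fun x => 0 < P.pr X x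

lemma pr_zero_of_not_sp (P : Law Ω) (X : Ω → S) {x : S} (hx : x ∉ sp P X) : P.pr X x = 0 := by
  classical
  unfold sp at hx
  rw [Finset.mem_filter] at hx
  by_cases h : x ∈ img X
  · rcases (P.pr_nonneg X x).eq_or_lt with h0 | h0
    · exact h0.symm
    · exact absurd ⟨h, h0⟩ hx
  · unfold Law.pr
    refine Finset.sum_eq_zero fun ω hω => ?_
    exact absurd (mem_img.2 ⟨ω, (Finset.mem_filter.1 hω).2⟩) h

lemma ex_sp (P : Law Ω) (X : Ω → S) (g : S → ℝ) :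
    P.ex (fun ω => g (X ω)) = ∑ x ∈ sp P X, P.pr X x * g x := by
  classical
  rw [P.ex_comp X g]
  symm
  refine Finset.sum_subset (Finset.filter_subset _ _) fun x _ hx => ?_
  rw [pr_zero_of_not_sp P X hx, zero_mul]

lemma sp_pos (P : Law Ω) (X : Ω → S) {x : S} (hx : x ∈ sp P X) : 0 < P.pr X x := by
  classical
  exact (Finset.mem_filter.1 hx).2

/-- `P.pr` of a coarser function dominates -/
lemma pr_le_pr (P : Law Ω) {X : Ω → S} {Y : Ω → T} {x : S} {y : T}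
    (h : ∀ ω, X ω = x → Y ω = y) : P.pr X x ≤ P.pr Y y := by
  classical
  unfold Law.pr
  refine Finset.sum_le_sum_of_subset_of_nonneg ?_ fun ω _ _ => P.nn ω
  intro ω hω
  rw [Finset.mem_filter] at hω ⊢
  exact ⟨hω.1, h ω hω.2⟩

/-- value of the product-density on the support -/
lemma ex_cr_eq (P : Law Ω) (X : Ω → S) (Y : Ω → T) (Z : Ω → U) (g : ℝ → ℝ) :
    P.ex (fun ω => g (cr P X Y Z ω)) = ∑ q ∈ sp P (fun ω => (X ω, Y ω, Z ω)),
      P.pr (fun ω => (X ω, Y ω, Z ω)) q *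
        g (P.pr (fun ω => (X ω, Z ω)) (q.1, q.2.2) * P.pr (fun ω => (Y ω, Z ω)) (q.2.1, q.2.2) /
      (P.pr (fun ω => (X ω, Y ω, Z ω)) q * P.pr Z q.2.2)) :=
  ex_sp P (fun ω => (X ω, Y ω, Z ω)) (fun q =>
    g (P.pr (fun ω => (X ω, Z ω)) (q.1, q.2.2) * P.pr (fun ω => (Y ω, Z ω)) (q.2.1, q.2.2) /
      (P.pr (fun ω => (X ω, Y ω, Z ω)) q * P.pr Z q.2.2)))

lemma ex_cr_sum (P : Law Ω) (X : Ω → S) (Y : Ω → T) (Z : Ω → U) :
    P.ex (fun ω => cr P X Y Z ω) = ∑ q ∈ sp P (fun ω => (X ω, Y ω, Z ω)),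
      P.pr (fun ω => (X ω, Z ω)) (q.1, q.2.2) * P.pr (fun ω => (Y ω, Z ω)) (q.2.1, q.2.2) /
        P.pr Z q.2.2 := by
  rw [ex_cr_eq P X Y Z (fun r => r)]
  refine Finset.sum_congr rfl fun q hq => ?_
  have hq0 := sp_pos P _ hq
  rw [mul_div_assoc', mul_comm (P.pr (fun ω => (X ω, Y ω, Z ω)) q) (P.pr Z q.2.2),
    mul_comm (P.pr (fun ω => (X ω, Y ω, Z ω)) q), mul_div_mul_right _ _ hq0.ne']

lemma ex_cr_le (P : Law Ω) (X : Ω → S) (Y : Ω → T) (Z : Ω → U) :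
    P.ex (fun ω => cr P X Y Z ω) ≤ 1 := by
  rw [ex_cr_sum]
  exact sum_prod_le P X Y Z _

/-- lower bound of the information by the affinity -/
lemma mi_ge_aff (P : Law Ω) (X : Ω → S) (Y : Ω → T) (Z : Ω → U) :
    2 - 2 * P.ex (fun ω => Real.sqrt (cr P X Y Z ω)) ≤ mi P X Y Z := by
  have h1 : P.ex (fun ω => 2 - 2 * Real.sqrt (cr P X Y Z ω)) ≤
      P.ex (fun ω => (-Real.log (P.pr (fun ω => (X ω, Z ω)) (X ω, Z ω)) -
        (-Real.log (P.pr Z (Z ω)))) - (-Real.log (P.pr (fun ω => (X ω, Y ω, Z ω)) (X ω, Y ω, Z ω))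
        - (-Real.log (P.pr (fun ω => (Y ω, Z ω)) (Y ω, Z ω))))) := by
    refine P.ex_mono fun ω hω => ?_
    have ha := P.pr_pos (fun ω => (X ω, Z ω)) hω
    have hb := P.pr_pos (fun ω => (Y ω, Z ω)) hω
    have hc := P.pr_pos (fun ω => (X ω, Y ω, Z ω)) hω
    have hd := P.pr_pos Z hω
    have hr : 0 < cr P X Y Z ω := div_pos (mul_pos ha hb) (mul_pos hc hd)
    have h2 := Real.log_le_sub_one_of_pos (Real.sqrt_pos.2 hr)
    rw [Real.log_sqrt hr.le] at h2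
    have h3 : Real.log (cr P X Y Z ω) = Real.log (P.pr (fun ω => (X ω, Z ω)) (X ω, Z ω)) +
        Real.log (P.pr (fun ω => (Y ω, Z ω)) (Y ω, Z ω)) -
        (Real.log (P.pr (fun ω => (X ω, Y ω, Z ω)) (X ω, Y ω, Z ω)) +
          Real.log (P.pr Z (Z ω))) := by
      unfold cr
      rw [Real.log_div (mul_pos ha hb).ne' (mul_pos hc hd).ne', Real.log_mul ha.ne' hb.ne',
        Real.log_mul hc.ne' hd.ne']
    linarith
  rw [P.ex_sub, P.ex_const, P.ex_const_mul] at h1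
  refine h1.trans (le_of_eq ?_)
  rw [P.ex_sub, P.ex_sub, P.ex_sub]
  rfl

/-- Cauchy-Schwarz -/
lemma ex_mul_le (P : Law Ω) (f g : Ω → ℝ) :
    P.ex (fun ω => f ω * g ω) ≤ Real.sqrt (P.ex (fun ω => f ω ^ 2)) *
      Real.sqrt (P.ex (fun ω => g ω ^ 2)) := by
  have h := Finset.sum_mul_sq_le_sq_mul_sq univ (fun ω => Real.sqrt (P.w ω) * f ω)
    (fun ω => Real.sqrt (P.w ω) * g ω)
  have e1 : ∑ ω, (Real.sqrt (P.w ω) * f ω) * (Real.sqrt (P.w ω) * g ω) =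
      P.ex (fun ω => f ω * g ω) := by
    unfold Law.ex
    refine Finset.sum_congr rfl fun ω _ => ?_
    have := Real.mul_self_sqrt (P.nn ω)
    calc Real.sqrt (P.w ω) * f ω * (Real.sqrt (P.w ω) * g ω)
        = (Real.sqrt (P.w ω) * Real.sqrt (P.w ω)) * (f ω * g ω) := by ring
      _ = P.w ω * (f ω * g ω) := by rw [this]
  have e2 : ∀ k : Ω → ℝ, ∑ ω, (Real.sqrt (P.w ω) * k ω) ^ 2 = P.ex (fun ω => k ω ^ 2) := by
    intro k
    unfold Law.ex
    refine Finset.sum_congr rfl fun ω _ => ?_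
    rw [mul_pow, Real.sq_sqrt (P.nn ω)]
  rw [e1, e2, e2] at h
  rw [← Real.sqrt_mul (P.ex_nonneg fun ω _ => sq_nonneg _)]
  exact Real.le_sqrt_of_sq_le h

/-- **conditional Pinsker inequality**, density form -/
theorem pin_cr (P : Law Ω) (X : Ω → S) (Y : Ω → T) (Z : Ω → U) :
    P.ex (fun ω => |1 - cr P X Y Z ω|) ≤ 2 * Real.sqrt (mi P X Y Z) := by
  have hs : ∀ ω, Real.sqrt (cr P X Y Z ω) ^ 2 = cr P X Y Z ω := fun ω =>
    Real.sq_sqrt (cr_nonneg P X Y Z ω)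
  have h1 : P.ex (fun ω => |1 - cr P X Y Z ω|) = P.ex (fun ω =>
      |1 - Real.sqrt (cr P X Y Z ω)| * (1 + Real.sqrt (cr P X Y Z ω))) := by
    refine P.ex_congr fun ω _ => ?_
    have h2 : (1 : ℝ) - cr P X Y Z ω = (1 - Real.sqrt (cr P X Y Z ω)) *
        (1 + Real.sqrt (cr P X Y Z ω)) := by
      nlinarith [hs ω]
    rw [h2, abs_mul, abs_of_nonneg (a := 1 + Real.sqrt (cr P X Y Z ω)) (by positivity)]
  rw [h1]
  refine (ex_mul_le P _ _).trans ?_
  have hA := mi_ge_aff P X Y Z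
  have hR := ex_cr_le P X Y Z
  have h3 : P.ex (fun ω => |1 - Real.sqrt (cr P X Y Z ω)| ^ 2) ≤ mi P X Y Z := by
    have e : P.ex (fun ω => |1 - Real.sqrt (cr P X Y Z ω)| ^ 2) =
        P.ex (fun ω => (1 - 2 * Real.sqrt (cr P X Y Z ω)) + cr P X Y Z ω) := by
      refine P.ex_congr fun ω _ => ?_
      rw [sq_abs]
      nlinarith [hs ω]
    rw [e, P.ex_add, P.ex_sub, P.ex_const, P.ex_const_mul]
    linarith
  have h4 : P.ex (fun ω => (1 + Real.sqrt (cr P X Y Z ω)) ^ 2) ≤ 2 ^ 2 := by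
    have e : P.ex (fun ω => (1 + Real.sqrt (cr P X Y Z ω)) ^ 2) ≤
        P.ex (fun ω => 2 + 2 * cr P X Y Z ω) := by
      refine P.ex_mono fun ω _ => ?_
      nlinarith [hs ω, sq_nonneg (1 - Real.sqrt (cr P X Y Z ω))]
    rw [P.ex_add, P.ex_const, P.ex_const_mul] at e
    linarith
  have h5 : Real.sqrt (P.ex (fun ω => (1 + Real.sqrt (cr P X Y Z ω)) ^ 2)) ≤ 2 := by
    rw [show (2 : ℝ) = Real.sqrt (2 ^ 2) by rw [Real.sqrt_sq (by norm_num)]]
    exact Real.sqrt_le_sqrt h4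
  calc _ ≤ Real.sqrt (mi P X Y Z) * 2 :=
        mul_le_mul (Real.sqrt_le_sqrt h3) h5 (Real.sqrt_nonneg _) (Real.sqrt_nonneg _)
    _ = _ := mul_comm _ _

/-- **conditional Pinsker inequality**, sum form (all finite sums) -/
theorem pin_sum (P : Law Ω) (X : Ω → S) (Y : Ω → T) (Z : Ω → U) (F : Finset (S × T × U)) :
    ∑ q ∈ F, |P.pr (fun ω => (X ω, Y ω, Z ω)) q -
      P.pr (fun ω => (X ω, Z ω)) (q.1, q.2.2) * P.pr (fun ω => (Y ω, Z ω)) (q.2.1, q.2.2) /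
        P.pr Z q.2.2| ≤ 4 * Real.sqrt (mi P X Y Z) := by
  classical
  set c : S × T × U → ℝ := fun q => P.pr (fun ω => (X ω, Y ω, Z ω)) q with hc
  set k : S × T × U → ℝ := fun q => P.pr (fun ω => (X ω, Z ω)) (q.1, q.2.2) *
    P.pr (fun ω => (Y ω, Z ω)) (q.2.1, q.2.2) / P.pr Z q.2.2 with hk
  have hk0 : ∀ q, 0 ≤ k q := fun q =>
    div_nonneg (mul_nonneg (P.pr_nonneg _ _) (P.pr_nonneg _ _)) (P.pr_nonneg _ _)
  set G := sp P (fun ω => (X ω, Y ω, Z ω)) with hG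
  have h1 : ∑ q ∈ F, |c q - k q| ≤ ∑ q ∈ F ∪ G, |c q - k q| :=
    Finset.sum_le_sum_of_subset_of_nonneg Finset.subset_union_left fun q _ _ => abs_nonneg _
  have h2 : ∑ q ∈ F ∪ G, |c q - k q| = ∑ q ∈ (F ∪ G) \ G, k q + ∑ q ∈ G, |c q - k q| := by
    rw [← Finset.sum_sdiff (Finset.subset_union_right (s₁ := F) (s₂ := G))]
    congr 1
    refine Finset.sum_congr rfl fun q hq => ?_
    have h3 : c q = 0 := pr_zero_of_not_sp P _ (Finset.mem_sdiff.1 hq).2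
    rw [h3, zero_sub, abs_neg, abs_of_nonneg (hk0 q)]
  have h3 : ∑ q ∈ G, |c q - k q| = P.ex (fun ω => |1 - cr P X Y Z ω|) := by
    rw [ex_cr_eq P X Y Z (fun r => |1 - r|)]
    refine Finset.sum_congr rfl fun q hq => ?_
    have hq0 : 0 < c q := sp_pos P _ hq
    have h4 : c q - k q = c q * (1 - P.pr (fun ω => (X ω, Z ω)) (q.1, q.2.2) *
        P.pr (fun ω => (Y ω, Z ω)) (q.2.1, q.2.2) / (c q * P.pr Z q.2.2)) := by
      rw [mul_sub, mul_one, mul_div_assoc', mul_comm (c q) (P.pr Z q.2.2),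
        mul_comm (c q), mul_div_mul_right _ _ hq0.ne']
    rw [h4, abs_mul, abs_of_pos hq0]
  have h4 : ∑ q ∈ (F ∪ G) \ G, k q = ∑ q ∈ F ∪ G, k q - ∑ q ∈ G, k q := by
    rw [← Finset.sum_sdiff (Finset.subset_union_right (s₁ := F) (s₂ := G))]
    ring
  have h5 : ∑ q ∈ F ∪ G, k q ≤ 1 := sum_prod_le P X Y Z _
  have h6 : P.ex (fun ω => cr P X Y Z ω) = ∑ q ∈ G, k q := ex_cr_sum P X Y Z
  have h7 : 1 - P.ex (fun ω => cr P X Y Z ω) ≤ P.ex (fun ω => |1 - cr P X Y Z ω|) := by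
    have : P.ex (fun ω => 1 - cr P X Y Z ω) ≤ P.ex (fun ω => |1 - cr P X Y Z ω|) :=
      P.ex_mono fun ω _ => le_abs_self _
    rw [P.ex_sub, P.ex_const] at this
    exact this
  have h8 := pin_cr P X Y Z
  have h9 : ∑ q ∈ F, |c q - k q| ≤ 4 * Real.sqrt (mi P X Y Z) := by linarith
  exact h9

/-! ### the L1 distance of laws -/

/-- the `L¹` distance of the law of `X` under `P` and the law of `X'` under `Q` -/
noncomputable def dl {Ω' : Type} [Fintype Ω'] (P : Law Ω) (X : Ω → S) (Q : Law Ω') (X' : Ω' → S) :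
    ℝ := by
  classical
  exact ∑ x ∈ img X ∪ img X', |P.pr X x - Q.pr X' x|

/-- the `L¹` distance of the joint law from the product law -/
noncomputable def il (P : Law Ω) (X : Ω → S) (Y : Ω → T) : ℝ :=
  ∑ q ∈ img X ×ˢ img Y, |P.pr (fun ω => (X ω, Y ω)) q - P.pr X q.1 * P.pr Y q.2|

lemma pr_zero_of_not_img (P : Law Ω) (X : Ω → S) {x : S} (hx : x ∉ img X) : P.pr X x = 0 := by
  classical
  unfold Law.pr
  refine Finset.sum_eq_zero fun ω hω => ?_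
  exact absurd (mem_img.2 ⟨ω, (Finset.mem_filter.1 hω).2⟩) hx

section dl

variable {Ω' Ω'' : Type} [Fintype Ω'] [Fintype Ω'']

lemma dl_nonneg (P : Law Ω) (X : Ω → S) (Q : Law Ω') (X' : Ω' → S) : 0 ≤ dl P X Q X' := by
  classical
  unfold dl
  exact Finset.sum_nonneg fun x _ => abs_nonneg _

/-- any finite sum is at most the distance -/
lemma sum_le_dl (P : Law Ω) (X : Ω → S) (Q : Law Ω') (X' : Ω' → S) (F : Finset S) :
    ∑ x ∈ F, |P.pr X x - Q.pr X' x| ≤ dl P X Q X' := by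
  classical
  unfold dl
  have h1 : ∑ x ∈ F, |P.pr X x - Q.pr X' x| ≤
      ∑ x ∈ F ∪ (img X ∪ img X'), |P.pr X x - Q.pr X' x| :=
    Finset.sum_le_sum_of_subset_of_nonneg Finset.subset_union_left fun q _ _ => abs_nonneg _
  refine h1.trans (le_of_eq ?_)
  symm
  refine Finset.sum_subset Finset.subset_union_right fun x _ hx => ?_
  rw [Finset.mem_union, not_or] at hx
  rw [pr_zero_of_not_img P X hx.1, pr_zero_of_not_img Q X' hx.2, sub_zero, abs_zero]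

/-- the distance is the sum over any set carrying both laws -/
lemma dl_eq_sum (P : Law Ω) (X : Ω → S) (Q : Law Ω') (X' : Ω' → S) (F : Finset S)
    (h : ∀ x ∉ F, P.pr X x = 0 ∧ Q.pr X' x = 0) :
    dl P X Q X' = ∑ x ∈ F, |P.pr X x - Q.pr X' x| := by
  classical
  refine le_antisymm ?_ (sum_le_dl P X Q X' F)
  unfold dl
  have h1 : ∑ x ∈ img X ∪ img X', |P.pr X x - Q.pr X' x| ≤
      ∑ x ∈ (img X ∪ img X') ∪ F, |P.pr X x - Q.pr X' x| :=
    Finset.sum_le_sum_of_subset_of_nonneg Finset.subset_union_left fun q _ _ => abs_nonneg _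
  refine h1.trans (le_of_eq ?_)
  symm
  refine Finset.sum_subset Finset.subset_union_right fun x _ hx => ?_
  rw [(h x hx).1, (h x hx).2, sub_zero, abs_zero]

lemma dl_symm (P : Law Ω) (X : Ω → S) (Q : Law Ω') (X' : Ω' → S) : dl P X Q X' = dl Q X' P X := by
  classical
  unfold dl
  rw [Finset.union_comm]
  exact Finset.sum_congr rfl fun x _ => abs_sub_comm _ _

lemma dl_self (P : Law Ω) (X : Ω → S) : dl P X P X = 0 := by
  classical
  unfold dl
  exact Finset.sum_eq_zero fun x _ => by rw [sub_self, abs_zero]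

lemma dl_tri (P : Law Ω) (X : Ω → S) (Q : Law Ω') (X' : Ω' → S) (R : Law Ω'') (X'' : Ω'' → S) :
    dl P X R X'' ≤ dl P X Q X' + dl Q X' R X'' := by
  classical
  have h1 : dl P X R X'' ≤ ∑ x ∈ img X ∪ img X'', (|P.pr X x - Q.pr X' x| +
      |Q.pr X' x - R.pr X'' x|) := by
    unfold dl
    exact Finset.sum_le_sum fun x _ => abs_sub_le _ _ _
  rw [Finset.sum_add_distrib] at h1
  exact h1.trans (add_le_add (sum_le_dl _ _ _ _ _) (sum_le_dl _ _ _ _ _))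

/-- `P.pr` of a function of `X` -/
lemma pr_comp (P : Law Ω) (X : Ω → S) (φ : S → T) (y : T) (F : Finset S) (hF : img X ⊆ F) :
    P.pr (fun ω => φ (X ω)) y = ∑ x ∈ F, P.pr X x * Law.ind (φ x = y) := by
  classical
  rw [Law.pr_eq_ex]
  rw [P.ex_comp X (fun x => Law.ind (φ x = y))]
  refine Finset.sum_subset hF fun x _ hx => ?_
  rw [pr_zero_of_not_img P X hx, zero_mul]

/-- push-forward is a contraction -/
lemma dl_map (P : Law Ω) (X : Ω → S) (Q : Law Ω') (X' : Ω' → S) (φ : S → T) :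
    dl P (fun ω => φ (X ω)) Q (fun ω => φ (X' ω)) ≤ dl P X Q X' := by
  classical
  set G := img X ∪ img X' with hG
  have h1 : dl P (fun ω => φ (X ω)) Q (fun ω => φ (X' ω)) ≤
      ∑ y ∈ img (fun ω => φ (X ω)) ∪ img (fun ω => φ (X' ω)),
        ∑ x ∈ G, |P.pr X x - Q.pr X' x| * Law.ind (φ x = y) := by
    unfold dl
    refine Finset.sum_le_sum fun y _ => ?_
    rw [pr_comp P X φ y G Finset.subset_union_left, pr_comp Q X' φ y G Finset.subset_union_right,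
      ← Finset.sum_sub_distrib]
    refine (Finset.abs_sum_le_sum_abs _ _).trans (Finset.sum_le_sum fun x _ => ?_)
    rw [← sub_mul, abs_mul]
    unfold Law.ind
    split_ifs <;> simp
  refine h1.trans ?_
  rw [Finset.sum_comm]
  unfold dl
  refine Finset.sum_le_sum fun x _ => ?_
  rw [← Finset.mul_sum]
  have h2 : ∑ y ∈ img (fun ω => φ (X ω)) ∪ img (fun ω => φ (X' ω)), Law.ind (φ x = y) ≤ 1 := by
    unfold Law.ind
    rw [Finset.sum_ite_eq]
    split_ifs <;> norm_num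
  calc _ ≤ |P.pr X x - Q.pr X' x| * 1 := mul_le_mul_of_nonneg_left h2 (abs_nonneg _)
    _ = _ := mul_one _

/-- test functions -/
lemma ex_sub_le_dl (P : Law Ω) (X : Ω → S) (Q : Law Ω') (X' : Ω' → S) (f : S → ℝ) (M : ℝ)
    (hf : ∀ x, |f x| ≤ M) :
    |P.ex (fun ω => f (X ω)) - Q.ex (fun ω => f (X' ω))| ≤ M * dl P X Q X' := by
  classical
  have e1 : P.ex (fun ω => f (X ω)) = ∑ x ∈ img X ∪ img X', P.pr X x * f x := by
    rw [P.ex_comp X f]
    refine Finset.sum_subset Finset.subset_union_left fun x _ hx => ?_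
    rw [pr_zero_of_not_img P X hx, zero_mul]
  have e2 : Q.ex (fun ω => f (X' ω)) = ∑ x ∈ img X ∪ img X', Q.pr X' x * f x := by
    rw [Q.ex_comp X' f]
    refine Finset.sum_subset Finset.subset_union_right fun x _ hx => ?_
    rw [pr_zero_of_not_img Q X' hx, zero_mul]
  rw [e1, e2, ← Finset.sum_sub_distrib]
  unfold dl
  rw [Finset.mul_sum]
  refine (Finset.abs_sum_le_sum_abs _ _).trans (Finset.sum_le_sum fun x _ => ?_)
  rw [← sub_mul, abs_mul, mul_comm]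
  exact mul_le_mul_of_nonneg_right (hf x) (abs_nonneg _)

lemma dl_le_two (P : Law Ω) (X : Ω → S) (Q : Law Ω') (X' : Ω' → S) : dl P X Q X' ≤ 2 := by
  classical
  unfold dl
  have h1 : ∑ x ∈ img X ∪ img X', |P.pr X x - Q.pr X' x| ≤
      ∑ x ∈ img X ∪ img X', (P.pr X x + Q.pr X' x) := by
    refine Finset.sum_le_sum fun x _ => ?_
    refine (abs_sub _ _).trans ?_
    rw [abs_of_nonneg (P.pr_nonneg _ _), abs_of_nonneg (Q.pr_nonneg _ _)]
  refine h1.trans ?_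
  rw [Finset.sum_add_distrib]
  have e1 : ∑ x ∈ img X ∪ img X', P.pr X x = 1 := by
    rw [← P.sum_pr_image X]
    symm
    exact Finset.sum_subset Finset.subset_union_left fun x _ hx => pr_zero_of_not_img P X hx
  have e2 : ∑ x ∈ img X ∪ img X', Q.pr X' x = 1 := by
    rw [← Q.sum_pr_image X']
    symm
    exact Finset.sum_subset Finset.subset_union_right fun x _ hx => pr_zero_of_not_img Q X' hx
  rw [e1, e2]
  norm_num

/-- injective maps preserve the distance -/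
lemma dl_inj (P : Law Ω) (X : Ω → S) (Q : Law Ω') (X' : Ω' → S) (φ : S → T)
    (hφ : Function.Injective φ) :
    dl P (fun ω => φ (X ω)) Q (fun ω => φ (X' ω)) = dl P X Q X' := by
  classical
  refine le_antisymm (dl_map P X Q X' φ) ?_
  by_cases hS : Nonempty S
  · have h := dl_map P (fun ω => φ (X ω)) Q (fun ω => φ (X' ω)) (Function.invFun φ)
    simpa [Function.leftInverse_invFun hφ _] using h
  · have h1 : img X ∪ img X' = ∅ := by
      ext x
      exact absurd ⟨x⟩ hS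
    have h2 : dl P X Q X' = 0 := by
      unfold dl
      rw [h1, Finset.sum_empty]
    rw [h2]
    exact dl_nonneg _ _ _ _

end dl

/-! ### independence defect -/

lemma il_nonneg (P : Law Ω) (X : Ω → S) (Y : Ω → T) : 0 ≤ il P X Y :=
  Finset.sum_nonneg fun _ _ => abs_nonneg _

lemma pr_pair_zero_left (P : Law Ω) (X : Ω → S) (Y : Ω → T) {x : S} (y : T)
    (h : P.pr X x = 0) : P.pr (fun ω => (X ω, Y ω)) (x, y) = 0 :=
  le_antisymm (h ▸ pr_le_pr P fun _ hω => (Prod.mk.inj hω).1) (P.pr_nonneg _ _)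

lemma pr_pair_zero_right (P : Law Ω) (X : Ω → S) (Y : Ω → T) (x : S) {y : T}
    (h : P.pr Y y = 0) : P.pr (fun ω => (X ω, Y ω)) (x, y) = 0 :=
  le_antisymm (h ▸ pr_le_pr P fun _ hω => (Prod.mk.inj hω).2) (P.pr_nonneg _ _)

lemma pr_swap (P : Law Ω) (X : Ω → S) (Y : Ω → T) (x : S) (y : T) :
    P.pr (fun ω => (X ω, Y ω)) (x, y) = P.pr (fun ω => (Y ω, X ω)) (y, x) := by
  classical
  unfold Law.pr
  refine Finset.sum_congr ?_ fun _ _ => rfl
  ext ω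
  simp [and_comm]

/-- any finite sum is at most the defect -/
lemma sum_le_il (P : Law Ω) (X : Ω → S) (Y : Ω → T) (F : Finset (S × T)) :
    ∑ q ∈ F, |P.pr (fun ω => (X ω, Y ω)) q - P.pr X q.1 * P.pr Y q.2| ≤ il P X Y := by
  classical
  unfold il
  have h1 : ∑ q ∈ F, |P.pr (fun ω => (X ω, Y ω)) q - P.pr X q.1 * P.pr Y q.2| ≤
      ∑ q ∈ F ∪ (img X ×ˢ img Y), |P.pr (fun ω => (X ω, Y ω)) q - P.pr X q.1 * P.pr Y q.2| :=
    Finset.sum_le_sum_of_subset_of_nonneg Finset.subset_union_left fun q _ _ => abs_nonneg _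
  refine h1.trans (le_of_eq ?_)
  symm
  refine Finset.sum_subset Finset.subset_union_right fun q _ hq => ?_
  obtain ⟨x, y⟩ := q
  rw [Finset.mem_product, not_and_or] at hq
  rcases hq with hx | hy
  · have hx0 := pr_zero_of_not_img P X hx
    simp only at hx0 ⊢
    rw [pr_pair_zero_left P X Y y hx0, hx0, zero_mul, sub_zero, abs_zero]
  · have hy0 := pr_zero_of_not_img P Y hy
    simp only at hy0 ⊢
    rw [pr_pair_zero_right P X Y x hy0, hy0, mul_zero, sub_zero, abs_zero]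

/-- the defect is the average distance of the conditional law from the law -/
lemma il_eq_ex (P : Law Ω) (X : Ω → S) (Y : Ω → T) :
    il P X Y = P.ex (fun ω => dl (P.cond X (X ω)) Y P Y) := by
  classical
  rw [P.ex_comp X (fun x => dl (P.cond X x) Y P Y)]
  unfold il
  rw [Finset.sum_product]
  refine Finset.sum_congr rfl fun x _ => ?_
  unfold dl
  rw [Finset.union_self, Finset.mul_sum]
  refine Finset.sum_congr rfl fun y _ => ?_
  rcases (P.pr_nonneg X x).eq_or_lt with h0 | h0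
  · simp only
    rw [pr_pair_zero_left P X Y y h0.symm, ← h0, zero_mul, sub_zero, abs_zero, zero_mul]
  · rw [P.cond_pr X x h0, ← pr_swap P X Y x y]
    have e : ∀ a b c : ℝ, 0 < c → |a - c * b| = c * |a / c - b| := fun a b c hc => by
      rw [← abs_of_pos hc, ← abs_mul, abs_of_pos hc, mul_sub, mul_div_cancel₀ _ hc.ne']
    exact e _ _ _ h0

lemma il_symm (P : Law Ω) (X : Ω → S) (Y : Ω → T) : il P X Y = il P Y X := by
  classical
  unfold il
  rw [Finset.sum_product, Finset.sum_product_right]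
  refine Finset.sum_congr rfl fun x _ => Finset.sum_congr rfl fun y _ => ?_
  simp only
  rw [pr_swap P X Y x y, mul_comm (P.pr X x)]

/-- the law under conditioning, almost sure modifications -/
lemma pr_congr (P : Law Ω) {X X' : Ω → S} (h : ∀ ω, 0 < P.w ω → X ω = X' ω) (x : S) :
    P.pr X x = P.pr X' x := by
  rw [Law.pr_eq_ex, Law.pr_eq_ex]
  exact P.ex_congr fun ω hω => by rw [h ω hω]

lemma dl_congr {Ω' : Type} [Fintype Ω'] (P : Law Ω) {X X₁ : Ω → S} (Q : Law Ω') {X' X₁' : Ω' → S}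
    (h : ∀ ω, 0 < P.w ω → X ω = X₁ ω) (h' : ∀ ω, 0 < Q.w ω → X' ω = X₁' ω) :
    dl P X Q X' = dl P X₁ Q X₁' := by
  classical
  have e1 : dl P X Q X' = ∑ x ∈ (img X ∪ img X') ∪ (img X₁ ∪ img X₁'),
      |P.pr X x - Q.pr X' x| := dl_eq_sum P X Q X' _ fun x hx => by
    simp only [Finset.mem_union, not_or] at hx
    exact ⟨pr_zero_of_not_img P X hx.1.1, pr_zero_of_not_img Q X' hx.1.2⟩
  have e2 : dl P X₁ Q X₁' = ∑ x ∈ (img X ∪ img X') ∪ (img X₁ ∪ img X₁'),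
      |P.pr X₁ x - Q.pr X₁' x| := dl_eq_sum P X₁ Q X₁' _ fun x hx => by
    simp only [Finset.mem_union, not_or] at hx
    exact ⟨pr_zero_of_not_img P X₁ hx.2.1, pr_zero_of_not_img Q X₁' hx.2.2⟩
  rw [e1, e2]
  refine Finset.sum_congr rfl fun x _ => ?_
  rw [pr_congr P h x, pr_congr Q h' x]

lemma cond_supp (P : Law Ω) (Z : Ω → U) {z : U} (hz : 0 < P.pr Z z) {ω : Ω}
    (h : 0 < (P.cond Z z).w ω) : Z ω = z ∧ 0 < P.w ω := by
  classical
  rw [P.cond_w Z z hz] at h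
  split_ifs at h with h1
  · refine ⟨h1, ?_⟩
    rcases (P.nn ω).eq_or_lt with h0 | h0
    · rw [← h0, zero_div] at h
      exact absurd h (lt_irrefl _)
    · exact h0
  · exact absurd h (lt_irrefl _)

/-- tower property -/
lemma ex_cond (P : Law Ω) (Z : Ω → U) (f : Ω → ℝ) :
    P.ex (fun ω => (P.cond Z (Z ω)).ex f) = P.ex f := by
  classical
  rw [P.ex_comp Z (fun z => (P.cond Z z).ex f)]
  have h2 : P.ex f = ∑ z ∈ img Z, ∑ ω with Z ω = z, P.w ω * f ω := by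
    unfold Law.ex
    rw [← Finset.sum_fiberwise_of_maps_to (g := Z) (t := img Z) (by simp)]
  rw [h2]
  refine Finset.sum_congr rfl fun z _ => ?_
  rcases (P.pr_nonneg Z z).eq_or_lt with h0 | h0
  · rw [← h0, zero_mul]
    symm
    refine Finset.sum_eq_zero fun ω hω => ?_
    have hω' : Z ω = z := by simpa using hω
    have : P.w ω ≤ 0 := by
      have := P.w_le_pr Z ω
      rwa [hω', ← h0] at this
    rw [le_antisymm this (P.nn ω), zero_mul]
  · unfold Law.ex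
    simp only [P.cond_w Z z h0, ite_mul, zero_mul]
    rw [← Finset.sum_filter, Finset.mul_sum]
    refine Finset.sum_congr rfl fun ω _ => ?_
    field_simp

/-- push-forward reduces the defect -/
lemma il_map (P : Law Ω) (X : Ω → S) (Y : Ω → T) (φ : T → V) :
    il P X (fun ω => φ (Y ω)) ≤ il P X Y := by
  rw [il_eq_ex, il_eq_ex]
  exact P.ex_mono fun ω _ => dl_map _ _ _ _ φ

lemma sum_pr_le_one (P : Law Ω) (X : Ω → S) (F : Finset S) : ∑ x ∈ F, P.pr X x ≤ 1 := by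
  classical
  have h3 : ∑ z ∈ F, P.pr X z ≤ ∑ z ∈ F ∪ img X, P.pr X z :=
    Finset.sum_le_sum_of_subset_of_nonneg Finset.subset_union_left fun z _ _ => P.pr_nonneg _ _
  have h4 : ∑ z ∈ F ∪ img X, P.pr X z = ∑ z ∈ img X, P.pr X z := by
    symm
    refine Finset.sum_subset Finset.subset_union_right fun z _ hz => ?_
    exact pr_zero_of_not_img P X hz
  rw [h4, P.sum_pr_image] at h3
  exact h3

/-- product laws -/
lemma sum_prod_sub_le {Ω' : Type} [Fintype Ω'] (P : Law Ω) (X : Ω → S) (Y : Ω → T) (Q : Law Ω')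
    (X' : Ω' → S) (Y' : Ω' → T) (F : Finset S) (G : Finset T) :
    ∑ q ∈ F ×ˢ G, |P.pr X q.1 * P.pr Y q.2 - Q.pr X' q.1 * Q.pr Y' q.2| ≤
      dl P X Q X' + dl P Y Q Y' := by
  classical
  have h1 : ∀ q ∈ F ×ˢ G, |P.pr X q.1 * P.pr Y q.2 - Q.pr X' q.1 * Q.pr Y' q.2| ≤
      |P.pr X q.1 - Q.pr X' q.1| * P.pr Y q.2 + Q.pr X' q.1 * |P.pr Y q.2 - Q.pr Y' q.2| := by
    intro q _
    have e : P.pr X q.1 * P.pr Y q.2 - Q.pr X' q.1 * Q.pr Y' q.2 =
        (P.pr X q.1 - Q.pr X' q.1) * P.pr Y q.2 + Q.pr X' q.1 * (P.pr Y q.2 - Q.pr Y' q.2) := by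
      ring
    rw [e]
    refine (abs_add_le _ _).trans ?_
    rw [abs_mul, abs_mul, abs_of_nonneg (P.pr_nonneg Y q.2), abs_of_nonneg (Q.pr_nonneg X' q.1)]
  refine (Finset.sum_le_sum h1).trans ?_
  rw [Finset.sum_add_distrib, Finset.sum_product, Finset.sum_product]
  simp only
  have e1 : ∑ x ∈ F, ∑ y ∈ G, |P.pr X x - Q.pr X' x| * P.pr Y y ≤ dl P X Q X' := by
    refine le_trans ?_ (sum_le_dl P X Q X' F)
    refine Finset.sum_le_sum fun x _ => ?_
    rw [← Finset.mul_sum]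
    calc _ ≤ |P.pr X x - Q.pr X' x| * 1 := mul_le_mul_of_nonneg_left (sum_pr_le_one P Y G) (abs_nonneg _)
      _ = _ := mul_one _
  have e2 : ∑ x ∈ F, ∑ y ∈ G, Q.pr X' x * |P.pr Y y - Q.pr Y' y| ≤ dl P Y Q Y' := by
    rw [Finset.sum_comm]
    refine le_trans ?_ (sum_le_dl P Y Q Y' G)
    refine Finset.sum_le_sum fun y _ => ?_
    rw [← Finset.sum_mul]
    calc _ ≤ 1 * |P.pr Y y - Q.pr Y' y| := mul_le_mul_of_nonneg_right (sum_pr_le_one Q X' F) (abs_nonneg _)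
      _ = _ := one_mul _
  exact add_le_add e1 e2

/-- changing the law -/
lemma il_change {Ω' : Type} [Fintype Ω'] (P : Law Ω) (X : Ω → S) (Y : Ω → T) (Q : Law Ω')
    (X' : Ω' → S) (Y' : Ω' → T) :
    il P X Y ≤ il Q X' Y' + 3 * dl P (fun ω => (X ω, Y ω)) Q (fun ω => (X' ω, Y' ω)) := by
  classical
  set F := img X ×ˢ img Y with hF
  have h1 : il P X Y ≤ ∑ q ∈ F, (|P.pr (fun ω => (X ω, Y ω)) q - Q.pr (fun ω => (X' ω, Y' ω)) q| +
      |Q.pr (fun ω => (X' ω, Y' ω)) q - Q.pr X' q.1 * Q.pr Y' q.2| +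
      |P.pr X q.1 * P.pr Y q.2 - Q.pr X' q.1 * Q.pr Y' q.2|) := by
    unfold il
    refine Finset.sum_le_sum fun q _ => ?_
    have e : P.pr (fun ω => (X ω, Y ω)) q - P.pr X q.1 * P.pr Y q.2 =
        (P.pr (fun ω => (X ω, Y ω)) q - Q.pr (fun ω => (X' ω, Y' ω)) q) +
        (Q.pr (fun ω => (X' ω, Y' ω)) q - Q.pr X' q.1 * Q.pr Y' q.2) +
        (Q.pr X' q.1 * Q.pr Y' q.2 - P.pr X q.1 * P.pr Y q.2) := by ring
    rw [e]
    refine (abs_add_three _ _ _).trans ?_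
    rw [abs_sub_comm (Q.pr X' q.1 * Q.pr Y' q.2)]
  rw [Finset.sum_add_distrib, Finset.sum_add_distrib] at h1
  have h2 := sum_le_dl P (fun ω => (X ω, Y ω)) Q (fun ω => (X' ω, Y' ω)) F
  have h3 := sum_le_il Q X' Y' F
  have h4 := sum_prod_sub_le P X Y Q X' Y' (img X) (img Y)
  have h5 := dl_map P (fun ω => (X ω, Y ω)) Q (fun ω => (X' ω, Y' ω)) Prod.fst
  have h6 := dl_map P (fun ω => (X ω, Y ω)) Q (fun ω => (X' ω, Y' ω)) Prod.snd
  simp only at h5 h6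
  linarith

/-- **conditional Pinsker inequality**: the average defect under conditioning -/
theorem pin_il (P : Law Ω) (X : Ω → S) (Y : Ω → T) (Z : Ω → U) :
    P.ex (fun ω => il (P.cond Z (Z ω)) X Y) ≤ 4 * Real.sqrt (mi P X Y Z) := by
  classical
  set F : Finset (S × T × U) := (img X) ×ˢ (img Y) ×ˢ (sp P Z) with hF
  refine le_trans (le_of_eq ?_) (pin_sum P X Y Z F)
  rw [ex_sp P Z (fun z => il (P.cond Z z) X Y)]
  rw [hF, Finset.sum_product, Finset.sum_congr rfl fun x _ => Finset.sum_product_right _ _ _,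
    Finset.sum_comm]
  refine Finset.sum_congr rfl fun z hz => ?_
  have h0 := sp_pos P Z hz
  unfold il
  rw [Finset.sum_product, Finset.mul_sum]
  refine Finset.sum_congr rfl fun x _ => ?_
  rw [Finset.mul_sum]
  refine Finset.sum_congr rfl fun y _ => ?_
  simp only
  rw [P.cond_pr Z z h0, P.cond_pr Z z h0, P.cond_pr Z z h0]
  nth_rewrite 1 [← abs_of_pos h0]
  rw [← abs_mul]
  congr 1
  have e1 : P.pr (fun ω => ((X ω, Y ω), Z ω)) ((x, y), z) =
      P.pr (fun ω => (X ω, Y ω, Z ω)) (x, y, z) := by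
    unfold Law.pr
    refine Finset.sum_congr ?_ fun _ _ => rfl
    ext ω
    simp [and_assoc]
  rw [e1]
  field_simp

/-! ### two independences -/

/-- **TWO INDEPENDENCES ⇒ INVARIANCE** (unconditioned, any map `Φ`): if `E` is nearly independent
of `Y` and of `Φ E Y`, the law of `Φ η Y` hardly depends on `η` -/
theorem two_ind (P : Law Ω) (E : Ω → S) (Y : Ω → T) (Φ : S → T → T') :
    P.ex (fun ω => dl P (fun ω' => Φ (E ω) (Y ω')) P (fun ω' => Φ (E ω') (Y ω'))) ≤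
      il P E Y + il P E (fun ω => Φ (E ω) (Y ω)) := by
  rw [il_eq_ex, il_eq_ex, ← P.ex_add]
  refine P.ex_mono fun ω hω => ?_
  have h0 : 0 < P.pr E (E ω) := P.pr_pos E hω
  have h1 := dl_tri P (fun ω' => Φ (E ω) (Y ω')) (P.cond E (E ω)) (fun ω' => Φ (E ω) (Y ω'))
    P (fun ω' => Φ (E ω') (Y ω'))
  have h2 := dl_map P Y (P.cond E (E ω)) Y (Φ (E ω))
  have h3 : dl (P.cond E (E ω)) (fun ω' => Φ (E ω) (Y ω')) P (fun ω' => Φ (E ω') (Y ω')) =
      dl (P.cond E (E ω)) (fun ω' => Φ (E ω') (Y ω')) P (fun ω' => Φ (E ω') (Y ω')) := by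
    refine dl_congr _ _ (fun ω' h' => ?_) fun _ _ => rfl
    rw [(cond_supp P E h0 h').1]
  rw [h3] at h1
  rw [dl_symm P Y] at h2
  linarith

/-- two independent values of `E` -/
theorem two_ind' (P : Law Ω) (E : Ω → S) (Y : Ω → T) (Φ : S → T → T') :
    P.ex (fun ω => P.ex (fun ω₁ =>
      dl P (fun ω' => Φ (E ω) (Y ω')) P (fun ω' => Φ (E ω₁) (Y ω')))) ≤
      2 * (il P E Y + il P E (fun ω => Φ (E ω) (Y ω))) := by
  have h := two_ind P E Y Φ
  have h1 : P.ex (fun ω => P.ex (fun ω₁ =>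
      dl P (fun ω' => Φ (E ω) (Y ω')) P (fun ω' => Φ (E ω₁) (Y ω')))) ≤
      P.ex (fun ω => P.ex (fun ω₁ =>
        dl P (fun ω' => Φ (E ω) (Y ω')) P (fun ω' => Φ (E ω') (Y ω')) +
        dl P (fun ω' => Φ (E ω₁) (Y ω')) P (fun ω' => Φ (E ω') (Y ω')))) := by
    refine P.ex_mono fun ω _ => P.ex_mono fun ω₁ _ => ?_
    rw [dl_symm P (fun ω' => Φ (E ω₁) (Y ω'))]
    exact dl_tri P _ P _ P _
  refine h1.trans ?_
  simp only [P.ex_add, P.ex_const]
  linarith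

/-- **TWO INDEPENDENCES ⇒ INVARIANCE** (conditional form) -/
theorem two_ind_cond (P : Law Ω) (D : Ω → U) (E : Ω → S) (Y : Ω → T) (Φ : U → S → T → T') :
    P.ex (fun ω => (P.cond D (D ω)).ex (fun ω₁ =>
      dl (P.cond D (D ω)) (fun ω' => Φ (D ω) (E ω₁) (Y ω')) (P.cond D (D ω))
        (fun ω' => Φ (D ω) (E ω') (Y ω')))) ≤
      4 * Real.sqrt (mi P E Y D) + 4 * Real.sqrt (mi P E (fun ω => Φ (D ω) (E ω) (Y ω)) D) := by
  have h1 := pin_il P E Y D
  have h2 := pin_il P E (fun ω => Φ (D ω) (E ω) (Y ω)) D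
  refine le_trans ?_ (add_le_add h1 h2)
  rw [← P.ex_add]
  refine P.ex_mono fun ω hω => ?_
  have h3 := two_ind (P.cond D (D ω)) E Y (Φ (D ω))
  refine h3.trans (le_of_eq ?_)
  congr 1
  rw [il_eq_ex, il_eq_ex]
  refine Law.ex_congr _ fun ω₁ hω₁ => ?_
  refine dl_congr _ _ (fun ω' h' => ?_) fun ω' h' => ?_
  · have h0 : 0 < (P.cond D (D ω)).pr E (E ω₁) := Law.pr_pos _ E hω₁
    have h4 := (cond_supp _ E h0 h').2
    rw [(cond_supp P D (P.pr_pos D hω) h4).1]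
  · rw [(cond_supp P D (P.pr_pos D hω) h').1]

/-- two independent values of `E` given `D` -/
theorem two_ind_cond' (P : Law Ω) (D : Ω → U) (E : Ω → S) (Y : Ω → T) (Φ : U → S → T → T') :
    P.ex (fun ω => (P.cond D (D ω)).ex (fun ω₁ => (P.cond D (D ω)).ex (fun ω₂ =>
      dl (P.cond D (D ω)) (fun ω' => Φ (D ω) (E ω₁) (Y ω')) (P.cond D (D ω))
        (fun ω' => Φ (D ω) (E ω₂) (Y ω'))))) ≤
      8 * Real.sqrt (mi P E Y D) + 8 * Real.sqrt (mi P E (fun ω => Φ (D ω) (E ω) (Y ω)) D) := by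
  have h := two_ind_cond P D E Y Φ
  have h1 : P.ex (fun ω => (P.cond D (D ω)).ex (fun ω₁ => (P.cond D (D ω)).ex (fun ω₂ =>
      dl (P.cond D (D ω)) (fun ω' => Φ (D ω) (E ω₁) (Y ω')) (P.cond D (D ω))
        (fun ω' => Φ (D ω) (E ω₂) (Y ω'))))) ≤
      P.ex (fun ω => 2 * (P.cond D (D ω)).ex (fun ω₁ =>
        dl (P.cond D (D ω)) (fun ω' => Φ (D ω) (E ω₁) (Y ω')) (P.cond D (D ω))
        (fun ω' => Φ (D ω) (E ω') (Y ω')))) := by
    refine P.ex_mono fun ω _ => ?_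
    set R := P.cond D (D ω)
    have h2 : R.ex (fun ω₁ => R.ex (fun ω₂ =>
        dl R (fun ω' => Φ (D ω) (E ω₁) (Y ω')) R (fun ω' => Φ (D ω) (E ω₂) (Y ω')))) ≤
        R.ex (fun ω₁ => R.ex (fun ω₂ =>
          dl R (fun ω' => Φ (D ω) (E ω₁) (Y ω')) R (fun ω' => Φ (D ω) (E ω') (Y ω')) +
          dl R (fun ω' => Φ (D ω) (E ω₂) (Y ω')) R (fun ω' => Φ (D ω) (E ω') (Y ω')))) := by
      refine R.ex_mono fun ω₁ _ => R.ex_mono fun ω₂ _ => ?_
      rw [dl_symm R (fun ω' => Φ (D ω) (E ω₂) (Y ω'))]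
      exact dl_tri R _ R _ R _
    refine h2.trans (le_of_eq ?_)
    simp only [R.ex_add, R.ex_const]
    ring
  rw [P.ex_const_mul] at h1
  linarith

/-! ### two values of the time given the past -/

lemma cond_cond_pr (P : Law Ω) (C : Ω → U) (Θ : Ω → V) {c : U} {θ : V}
    (h : 0 < P.pr (fun ω => (C ω, Θ ω)) (c, θ)) (X : Ω → S) (x : S) :
    ((P.cond C c).cond Θ θ).pr X x = (P.cond (fun ω => (C ω, Θ ω)) (c, θ)).pr X x := by
  have hc : 0 < P.pr C c := h.trans_le (pr_le_pr P fun ω hω => (Prod.mk.inj hω).1)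
  have h1 : (P.cond C c).pr Θ θ = P.pr (fun ω => (Θ ω, C ω)) (θ, c) / P.pr C c :=
    P.cond_pr C c hc Θ θ
  have h2 : 0 < (P.cond C c).pr Θ θ := by
    rw [h1, ← pr_swap P C Θ c θ]
    exact div_pos h hc
  rw [Law.cond_pr _ Θ θ h2, P.cond_pr C c hc, h1, P.cond_pr _ _ h, ← pr_swap P C Θ c θ,
    div_div_div_cancel_right₀ hc.ne']
  congr 1
  classical
  unfold Law.pr
  refine Finset.sum_congr ?_ fun _ _ => rfl
  ext ω
  simp only [Finset.mem_filter, Finset.mem_univ, true_and, Prod.mk.injEq]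
  tauto

lemma dl_pr_congr {Ω₁ Ω₂ Ω₃ Ω₄ : Type} [Fintype Ω₁] [Fintype Ω₂] [Fintype Ω₃] [Fintype Ω₄]
    (P₁ : Law Ω₁) (X₁ : Ω₁ → S) (P₂ : Law Ω₂) (X₂ : Ω₂ → S)
    (P₃ : Law Ω₃) (X₃ : Ω₃ → S) (P₄ : Law Ω₄) (X₄ : Ω₄ → S)
    (h : ∀ x, P₁.pr X₁ x = P₃.pr X₃ x) (h' : ∀ x, P₂.pr X₂ x = P₄.pr X₄ x) :
    dl P₁ X₁ P₂ X₂ = dl P₃ X₃ P₄ X₄ := by
  classical
  have e1 := dl_eq_sum P₁ X₁ P₂ X₂ ((img X₁ ∪ img X₂) ∪ (img X₃ ∪ img X₄)) fun x hx => by
    simp only [Finset.mem_union, not_or] at hx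
    exact ⟨pr_zero_of_not_img _ _ hx.1.1, pr_zero_of_not_img _ _ hx.1.2⟩
  have e2 := dl_eq_sum P₃ X₃ P₄ X₄ ((img X₁ ∪ img X₂) ∪ (img X₃ ∪ img X₄)) fun x hx => by
    simp only [Finset.mem_union, not_or] at hx
    exact ⟨pr_zero_of_not_img _ _ hx.2.1, pr_zero_of_not_img _ _ hx.2.2⟩
  rw [e1, e2]
  exact Finset.sum_congr rfl fun x _ => by rw [h, h']

/-- the average distance between the law of `W` given `(C, Θ)` and given `C` -/
theorem pin_dl (P : Law Ω) (Θ : Ω → V) (W : Ω → S) (C : Ω → U) :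
    P.ex (fun ω => dl (P.cond (fun ω => (C ω, Θ ω)) (C ω, Θ ω)) W (P.cond C (C ω)) W) ≤
      4 * Real.sqrt (mi P Θ W C) := by
  refine le_trans (le_of_eq ?_) (pin_il P Θ W C)
  have e : P.ex (fun ω => il (P.cond C (C ω)) Θ W) = P.ex (fun ω => (P.cond C (C ω)).ex
      (fun ω' => dl ((P.cond C (C ω')).cond Θ (Θ ω')) W (P.cond C (C ω')) W)) := by
    refine P.ex_congr fun ω hω => ?_
    rw [il_eq_ex]
    refine Law.ex_congr _ fun ω' h' => ?_
    rw [(cond_supp P C (P.pr_pos C hω) h').1]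
  rw [e, ex_cond]
  refine P.ex_congr fun ω hω => ?_
  refine dl_pr_congr _ _ _ _ _ _ _ _ (fun x => ?_) fun _ => rfl
  exact (cond_cond_pr P C Θ (P.pr_pos (fun ω => (C ω, Θ ω)) hω) W x).symm

/-- one value of the time: under the law of `W` given the past, `E` is nearly independent of
`A_θ` for typical values `θ` -/
theorem one_theta (P : Law Ω) (C : Ω → U) (Θ : Ω → V) (W : Ω → S) {ε α : Type*}
    (e : U → S → ε) (A : U → V → S → α) :
    P.ex (fun ω => il (P.cond C (C ω)) (fun ω' => e (C ω) (W ω'))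
      (fun ω' => A (C ω) (Θ ω) (W ω'))) ≤
      4 * Real.sqrt (mi P (fun ω => e (C ω) (W ω)) (fun ω => A (C ω) (Θ ω) (W ω))
        (fun ω => (C ω, Θ ω))) + 12 * Real.sqrt (mi P Θ W C) := by
  have h1 := pin_il P (fun ω => e (C ω) (W ω)) (fun ω => A (C ω) (Θ ω) (W ω))
    (fun ω => (C ω, Θ ω))
  have h2 := pin_dl P Θ W C
  have h3 : P.ex (fun ω => il (P.cond C (C ω)) (fun ω' => e (C ω) (W ω'))
      (fun ω' => A (C ω) (Θ ω) (W ω'))) ≤
      P.ex (fun ω => il (P.cond (fun ω => (C ω, Θ ω)) (C ω, Θ ω)) (fun ω => e (C ω) (W ω))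
        (fun ω => A (C ω) (Θ ω) (W ω)) +
        3 * dl (P.cond (fun ω => (C ω, Θ ω)) (C ω, Θ ω)) W (P.cond C (C ω)) W) := by
    refine P.ex_mono fun ω hω => ?_
    have hp := P.pr_pos (fun ω => (C ω, Θ ω)) hω
    have h4 := il_change (P.cond C (C ω)) (fun ω' => e (C ω) (W ω'))
      (fun ω' => A (C ω) (Θ ω) (W ω')) (P.cond (fun ω => (C ω, Θ ω)) (C ω, Θ ω))
      (fun ω' => e (C ω) (W ω')) (fun ω' => A (C ω) (Θ ω) (W ω'))
    have h5 := dl_map (P.cond C (C ω)) W (P.cond (fun ω => (C ω, Θ ω)) (C ω, Θ ω)) W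
      (fun w => (e (C ω) w, A (C ω) (Θ ω) w))
    have h6 : il (P.cond (fun ω => (C ω, Θ ω)) (C ω, Θ ω)) (fun ω' => e (C ω) (W ω'))
        (fun ω' => A (C ω) (Θ ω) (W ω')) =
        il (P.cond (fun ω => (C ω, Θ ω)) (C ω, Θ ω)) (fun ω => e (C ω) (W ω))
        (fun ω => A (C ω) (Θ ω) (W ω)) := by
      set R := P.cond (fun ω => (C ω, Θ ω)) (C ω, Θ ω) with hR
      have hs : ∀ ω', 0 < R.w ω' → C ω' = C ω ∧ Θ ω' = Θ ω := fun ω' h' =>
        Prod.mk.inj (cond_supp P (fun ω => (C ω, Θ ω)) hp h').1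
      rw [il_eq_ex, il_eq_ex]
      refine Law.ex_congr _ fun ω₁ hω₁ => ?_
      rw [(hs ω₁ hω₁).1]
      refine dl_pr_congr _ _ _ _ _ _ _ _ (fun x => ?_) fun x => ?_
      · have hq1 : 0 < R.pr (fun ω' => e (C ω) (W ω')) (e (C ω) (W ω₁)) :=
          R.pr_pos (fun ω' => e (C ω) (W ω')) hω₁
        have hq2 : 0 < R.pr (fun ω => e (C ω) (W ω)) (e (C ω) (W ω₁)) := by
          have := R.pr_pos (fun ω => e (C ω) (W ω)) hω₁
          rwa [(hs ω₁ hω₁).1] at this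
        rw [Law.cond_pr _ _ _ hq1, Law.cond_pr _ _ _ hq2]
        congr 1
        · refine pr_congr R (fun ω' h' => ?_) _
          rw [(hs ω' h').1, (hs ω' h').2]
        · refine pr_congr R (fun ω' h' => ?_) _
          rw [(hs ω' h').1]
      · refine pr_congr R (fun ω' h' => ?_) _
        rw [(hs ω' h').1, (hs ω' h').2]
    rw [h6] at h4
    rw [dl_symm (P.cond C (C ω)) W] at h5
    linarith
  refine h3.trans ?_
  rw [P.ex_add, P.ex_const_mul]
  linarith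

/-- **two values of the time**: with `A_θ₂ = Φ(θ₁, θ₂, E)(A_θ₁)`, the law of `A_θ₂` given the past
is the image by `Φ(θ₁, θ₂, η)` of the law of `A_θ₁` given the past, for typical `θ₁, θ₂, η` -/
theorem two_theta (P : Law Ω) (C : Ω → U) (Θ : Ω → V) (W : Ω → S) {ε α : Type*}
    (e : U → S → ε) (A : U → V → S → α) (Φ : U → V → V → ε → α → α)
    (hΦ : ∀ c θ₁ θ₂ w, Φ c θ₁ θ₂ (e c w) (A c θ₁ w) = A c θ₂ w) :
    P.ex (fun ω => (P.cond C (C ω)).ex (fun ω₁ => (P.cond C (C ω)).ex (fun ω₂ =>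
      (P.cond C (C ω)).ex (fun ω₃ =>
        dl (P.cond C (C ω)) (fun ω' => Φ (C ω) (Θ ω₁) (Θ ω₂) (e (C ω) (W ω₃))
            (A (C ω) (Θ ω₁) (W ω')))
          (P.cond C (C ω)) (fun ω' => A (C ω) (Θ ω₂) (W ω')))))) ≤
      8 * Real.sqrt (mi P (fun ω => e (C ω) (W ω)) (fun ω => A (C ω) (Θ ω) (W ω))
        (fun ω => (C ω, Θ ω))) + 24 * Real.sqrt (mi P Θ W C) := by
  have h := one_theta P C Θ W e A
  have h1 : P.ex (fun ω => (P.cond C (C ω)).ex (fun ω₁ => (P.cond C (C ω)).ex (fun ω₂ =>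
      (P.cond C (C ω)).ex (fun ω₃ =>
        dl (P.cond C (C ω)) (fun ω' => Φ (C ω) (Θ ω₁) (Θ ω₂) (e (C ω) (W ω₃))
            (A (C ω) (Θ ω₁) (W ω')))
          (P.cond C (C ω)) (fun ω' => A (C ω) (Θ ω₂) (W ω')))))) ≤
      P.ex (fun ω => 2 * (P.cond C (C ω)).ex (fun ω₁ =>
        il (P.cond C (C ω₁)) (fun ω' => e (C ω₁) (W ω')) (fun ω' => A (C ω₁) (Θ ω₁) (W ω')))) := by
    refine P.ex_mono fun ω hω => ?_
    set R := P.cond C (C ω) with hR
    have h2 : R.ex (fun ω₁ => R.ex (fun ω₂ => R.ex (fun ω₃ =>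
        dl R (fun ω' => Φ (C ω) (Θ ω₁) (Θ ω₂) (e (C ω) (W ω₃)) (A (C ω) (Θ ω₁) (W ω')))
          R (fun ω' => A (C ω) (Θ ω₂) (W ω'))))) ≤
        R.ex (fun ω₁ => R.ex (fun ω₂ =>
          il R (fun ω' => e (C ω) (W ω')) (fun ω' => A (C ω) (Θ ω₁) (W ω')) +
          il R (fun ω' => e (C ω) (W ω')) (fun ω' => A (C ω) (Θ ω₂) (W ω')))) := by
      refine R.ex_mono fun ω₁ _ => R.ex_mono fun ω₂ _ => ?_
      have h3 := two_ind R (fun ω' => e (C ω) (W ω')) (fun ω' => A (C ω) (Θ ω₁) (W ω'))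
        (Φ (C ω) (Θ ω₁) (Θ ω₂))
      simp only [hΦ] at h3
      exact h3
    refine h2.trans (le_of_eq ?_)
    simp only [R.ex_add, R.ex_const]
    have h4 : R.ex (fun ω₁ => il (P.cond C (C ω₁)) (fun ω' => e (C ω₁) (W ω'))
        (fun ω' => A (C ω₁) (Θ ω₁) (W ω'))) =
        R.ex (fun ω₁ => il R (fun ω' => e (C ω) (W ω')) (fun ω' => A (C ω) (Θ ω₁) (W ω'))) := by
      refine R.ex_congr fun ω₁ h₁ => ?_
      rw [(cond_supp P C (P.pr_pos C hω) h₁).1]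
    rw [h4]
    ring
  rw [P.ex_const_mul, ex_cond] at h1
  linarith

/-- the same with two values of `E` : near-invariance of the law of `A_θ₁` given the past under
`Φ(θ₁, θ₂, η')⁻¹ Φ(θ₁, θ₂, η)` -/
theorem two_theta' (P : Law Ω) (C : Ω → U) (Θ : Ω → V) (W : Ω → S) {ε α : Type*}
    (e : U → S → ε) (A : U → V → S → α) (Φ : U → V → V → ε → α → α)
    (hΦ : ∀ c θ₁ θ₂ w, Φ c θ₁ θ₂ (e c w) (A c θ₁ w) = A c θ₂ w) :
    P.ex (fun ω => (P.cond C (C ω)).ex (fun ω₁ => (P.cond C (C ω)).ex (fun ω₂ =>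
      (P.cond C (C ω)).ex (fun ω₃ => (P.cond C (C ω)).ex (fun ω₄ =>
        dl (P.cond C (C ω)) (fun ω' => Φ (C ω) (Θ ω₁) (Θ ω₂) (e (C ω) (W ω₃))
            (A (C ω) (Θ ω₁) (W ω')))
          (P.cond C (C ω)) (fun ω' => Φ (C ω) (Θ ω₁) (Θ ω₂) (e (C ω) (W ω₄))
            (A (C ω) (Θ ω₁) (W ω')))))))) ≤
      16 * Real.sqrt (mi P (fun ω => e (C ω) (W ω)) (fun ω => A (C ω) (Θ ω) (W ω))
        (fun ω => (C ω, Θ ω))) + 48 * Real.sqrt (mi P Θ W C) := by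
  have h := two_theta P C Θ W e A Φ hΦ
  have h1 : P.ex (fun ω => (P.cond C (C ω)).ex (fun ω₁ => (P.cond C (C ω)).ex (fun ω₂ =>
      (P.cond C (C ω)).ex (fun ω₃ => (P.cond C (C ω)).ex (fun ω₄ =>
        dl (P.cond C (C ω)) (fun ω' => Φ (C ω) (Θ ω₁) (Θ ω₂) (e (C ω) (W ω₃))
            (A (C ω) (Θ ω₁) (W ω')))
          (P.cond C (C ω)) (fun ω' => Φ (C ω) (Θ ω₁) (Θ ω₂) (e (C ω) (W ω₄))
            (A (C ω) (Θ ω₁) (W ω')))))))) ≤
      P.ex (fun ω => 2 * (P.cond C (C ω)).ex (fun ω₁ => (P.cond C (C ω)).ex (fun ω₂ =>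
      (P.cond C (C ω)).ex (fun ω₃ =>
        dl (P.cond C (C ω)) (fun ω' => Φ (C ω) (Θ ω₁) (Θ ω₂) (e (C ω) (W ω₃))
            (A (C ω) (Θ ω₁) (W ω')))
          (P.cond C (C ω)) (fun ω' => A (C ω) (Θ ω₂) (W ω')))))) := by
    refine P.ex_mono fun ω _ => ?_
    set R := P.cond C (C ω) with hR
    rw [← R.ex_const_mul]
    refine R.ex_mono fun ω₁ _ => ?_
    rw [← R.ex_const_mul]
    refine R.ex_mono fun ω₂ _ => ?_
    set B : Ω → Ω → α := fun ω₃ ω' =>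
      Φ (C ω) (Θ ω₁) (Θ ω₂) (e (C ω) (W ω₃)) (A (C ω) (Θ ω₁) (W ω')) with hB
    have h2 : R.ex (fun ω₃ => R.ex (fun ω₄ => dl R (B ω₃) R (B ω₄))) ≤
        R.ex (fun ω₃ => R.ex (fun ω₄ =>
          dl R (B ω₃) R (fun ω' => A (C ω) (Θ ω₂) (W ω')) +
          dl R (B ω₄) R (fun ω' => A (C ω) (Θ ω₂) (W ω')))) := by
      refine R.ex_mono fun ω₃ _ => R.ex_mono fun ω₄ _ => ?_
      rw [dl_symm R (B ω₄)]
      exact dl_tri R _ R _ R _
    refine h2.trans (le_of_eq ?_)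
    simp only [R.ex_add, R.ex_const]
    ring
  rw [P.ex_const_mul] at h1
  linarith

end Vale.Agent.P127.U.Pin
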