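import Vale.Agent.P127.U.ExcBase
import Vale.Agent.P127.Stk.BaseA

/-!
# P127 / U : tools for the fill-in inequality (helper465)

* `hc_le_ex_log'`, `near_fl1` : counting bounds with a variable number of values.
* `tame_fl1`, `tame_tbs`, `tame_pqs`, ... : the digits of bounded variables are tame.
-/

set_option autoImplicit false

namespace Vale.Agent.P127.U.Fi

open Finset Filter Topology Vale.Agent.P127 Vale.Agent.P127.U Sys
open Vale.Agent.P127.Stk (fl fl1 fl_of_fl fl_fract floor_close_aux pr_id)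

section finite

variable {Ω : Type} [Fintype Ω] {A T : Type*}

/-- counting bound: given `Y` there are at most `N` values of `X`, `N` random -/
theorem hc_le_ex_log' (P : Law Ω) (X : Ω → A) (Y : Ω → T) (N : Ω → ℕ)
    (h : ∀ ω, 0 < P.w ω → ∃ F : Finset A, F.card ≤ N ω ∧
      ∀ ω', 0 < P.w ω' → Y ω' = Y ω → X ω' ∈ F) :
    Stk.hc P X Y ≤ P.ex fun ω => Real.log (N ω) := by
  classical
  let F : T → Finset A := fun y => (univ.filter fun ω => 0 < P.w ω ∧ Y ω = y).image X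
  have hF1 : ∀ ω, 0 < P.w ω → X ω ∈ F (Y ω) := by
    intro ω hω
    exact Finset.mem_image_of_mem X (by simp [hω])
  have hF2 : ∀ ω, 0 < P.w ω → (F (Y ω)).card ≤ N ω := by
    intro ω hω
    obtain ⟨G, hG, hG'⟩ := h ω hω
    refine le_trans (Finset.card_le_card ?_) hG
    intro x hx
    obtain ⟨ω', h1, rfl⟩ := Finset.mem_image.1 hx
    simp only [Finset.mem_filter, Finset.mem_univ, true_and] at h1
    exact hG' ω' h1.1 h1.2
  have hF3 : ∀ ω, 0 < P.w ω → (0:ℝ) < (F (Y ω)).card := by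
    intro ω hω
    exact_mod_cast Finset.card_pos.2 ⟨_, hF1 ω hω⟩
  have hg := P.gibbs_cond X Y (fun x y => if x ∈ F y then 1 / ((F y).card : ℝ) else 0)
    (fun x y => by split_ifs <;> positivity) ?_ (fun ω hω => by
      rw [if_pos (hF1 ω hω)]
      have := hF3 ω hω
      positivity)
  · refine le_trans hg (P.ex_mono fun ω hω => ?_)
    rw [if_pos (hF1 ω hω), one_div, Real.log_inv, neg_neg]
    exact Real.log_le_log (hF3 ω hω) (by exact_mod_cast hF2 ω hω)
  · intro y G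
    rw [← Finset.sum_filter, Finset.sum_const, nsmul_eq_mul, mul_one_div]
    refine div_le_one_of_le₀ ?_ (Nat.cast_nonneg _)
    have : (G.filter (fun x => x ∈ F y)).card ≤ (F y).card :=
      Finset.card_le_card fun x hx => (Finset.mem_filter.1 hx).2
    exact_mod_cast this

/-- an integer variable which is known up to `N` -/
theorem near_int (P : Law Ω) (X : Ω → ℤ) (Y : Ω → T) (N : Ω → ℕ)
    (h : ∀ ω ω', 0 < P.w ω → 0 < P.w ω' → Y ω' = Y ω → |X ω' - X ω| ≤ N ω) :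
    Stk.hc P X Y ≤ P.ex fun ω => Real.log ((2 * N ω + 1 : ℕ)) := by
  refine hc_le_ex_log' P X Y (fun ω => 2 * N ω + 1) fun ω hω => ?_
  refine ⟨Finset.Icc (X ω - N ω) (X ω + N ω), ?_, ?_⟩
  · rw [Int.card_Icc]
    omega
  · intro ω' hω' e
    have := abs_le.1 (h ω ω' hω hω' e)
    rw [Finset.mem_Icc]
    constructor <;> linarith [this.1, this.2]

theorem fl1_near {n k : ℕ} (hk : k ≤ n) (C : ℕ) {x y : ℝ} (h : |x - y| ≤ C * (1 / 2 : ℝ) ^ k) :
    |fl1 n x - fl1 n y| ≤ ((C * 2 ^ (n - k) : ℕ) : ℤ) + 1 := by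
  unfold fl1
  apply floor_close_aux
  have h2 : (0 : ℝ) < 2 ^ n := by positivity
  rw [← mul_sub, abs_mul, abs_of_pos h2]
  calc (2 : ℝ) ^ n * |x - y| ≤ 2 ^ n * (C * (1 / 2 : ℝ) ^ k) := mul_le_mul_of_nonneg_left h h2.le
    _ = (2 ^ (n - k) * 2 ^ k) * (C * (1 / 2 : ℝ) ^ k) := by
        rw [← pow_add, Nat.sub_add_cancel hk]
    _ = ((C * 2 ^ (n - k) : ℕ) : ℝ) := by
        rw [one_div, inv_pow]
        push_cast
        field_simp

/-- the digits of precision `n` of a real variable which is known up to `C 2^-k` -/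
theorem near_fl1 (P : Law Ω) (n : ℕ) (k : Ω → ℕ) (C : ℕ) (x : Ω → ℝ) (Y : Ω → T)
    (hk : ∀ ω, 0 < P.w ω → k ω ≤ n)
    (h : ∀ ω ω', 0 < P.w ω → 0 < P.w ω' → Y ω' = Y ω → |x ω' - x ω| ≤ C * (1 / 2 : ℝ) ^ k ω) :
    Stk.hc P (fun ω => fl1 n (x ω)) Y ≤
      Real.log (2 * C + 3) + Real.log 2 * P.ex fun ω => (n : ℝ) - k ω := by
  have h1 := near_int P (fun ω => fl1 n (x ω)) Y (fun ω => C * 2 ^ (n - k ω) + 1) (by
    intro ω ω' hω hω' e
    have := fl1_near (hk ω hω) C (h ω ω' hω hω' e)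
    push_cast at this ⊢
    exact this)
  refine h1.trans ?_
  rw [← P.ex_const_mul, ← P.ex_const (Real.log (2 * C + 3)), ← P.ex_add]
  refine P.ex_mono fun ω hω => ?_
  have h2 : (1:ℝ) ≤ 2 ^ (n - k ω) := one_le_pow₀ (by norm_num)
  have hC : (0:ℝ) ≤ C := Nat.cast_nonneg _
  have h3 : ((2 * (C * 2 ^ (n - k ω) + 1) + 1 : ℕ) : ℝ) ≤ (2 * C + 3) * 2 ^ (n - k ω) := by
    push_cast
    nlinarith
  have h4 : (0:ℝ) < ((2 * (C * 2 ^ (n - k ω) + 1) + 1 : ℕ) : ℝ) := by positivity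
  refine (Real.log_le_log h4 h3).trans (le_of_eq ?_)
  rw [Real.log_mul (by positivity) (by positivity), Real.log_pow, Nat.cast_sub (hk ω hω)]
  ring

end finite

section sys

variable {S : Sys} {α β γ δ : Type*}

/-- digits known up to a constant have no information -/
theorem hc_zero_fl1 (n : ℕ → ℕ) (C : ℕ) (x : S.RV ℝ) (Y : S.RV β)
    (h : ∀ᶠ i in (uf : Filter ℕ), ∀ ω ω', 0 < (S.P i).w ω → 0 < (S.P i).w ω' →
      Y i ω' = Y i ω → |x i ω' - x i ω| ≤ C * (1 / 2 : ℝ) ^ n i) :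
    S.hc (dg n x) Y = 0 := by
  refine hc_zero_of_le (Real.log (2 * C + 3)) ?_
  filter_upwards [h] with i hi
  have h1 := near_fl1 (S.P i) (n i) (fun _ => n i) C (x i) (Y i) (fun _ _ => le_rfl) hi
  refine h1.trans (le_of_eq ?_)
  simp only [sub_self]
  rw [(S.P i).ex_const]
  ring

/-- an integer known up to a constant -/
theorem hc_zero_int (C : ℕ) (X : S.RV ℤ) (Y : S.RV β)
    (h : ∀ᶠ i in (uf : Filter ℕ), ∀ ω ω', 0 < (S.P i).w ω → 0 < (S.P i).w ω' →
      Y i ω' = Y i ω → |X i ω' - X i ω| ≤ C) :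
    S.hc X Y = 0 := by
  refine hc_zero_of_le (Real.log ((2 * C + 1 : ℕ))) ?_
  filter_upwards [h] with i hi
  have h1 := near_int (S.P i) (X i) (Y i) (fun _ => C) hi
  refine h1.trans (le_of_eq ?_)
  rw [(S.P i).ex_const]

theorem tame_of_zero {X : S.RV α} {Y : S.RV β} (hY : Tame Y)
    (h : ∃ C : ℝ, ∀ᶠ i in (uf : Filter ℕ), Stk.hc (S.P i) (X i) (Y i) ≤ C * S.nm i) : Tame X := by
  obtain ⟨C, hC⟩ := h
  obtain ⟨C', hC'⟩ := hY
  refine ⟨C + C', ?_⟩
  filter_upwards [hC, hC'] with i h1 h2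
  have h3 : (S.P i).H (X i) ≤ (S.P i).H (fun ω => (X i ω, Y i ω)) :=
    Stk.H_mono' _ fun _ _ _ _ e => congrArg Prod.fst e
  unfold Stk.hc at h1
  linarith

/-- digits of bounded variables are tame -/
theorem tame_dg {n : ℕ → ℕ} {c : ℝ} (hn : ∀ᶠ i in (uf : Filter ℕ), (n i : ℝ) ≤ c * S.L i)
    {x : S.RV ℝ} {C : ℕ} (hx : S.Ae fun i ω => |x i ω| ≤ C) : Tame (dg n x) := by
  refine ⟨c + Real.log (2 * (2 * C) + 3) / Real.log 2, ?_⟩
  filter_upwards [hn, hx, S.L_pos] with i h1 h2 h3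
  have h4 := near_fl1 (S.P i) (n i) (fun _ => 0) (2 * C) (x i) (fun _ => ()) (fun _ _ => Nat.zero_le _)
    (by
      intro ω ω' hω hω' _
      have a := h2 ω hω
      have b := h2 ω' hω'
      have := abs_sub (x i ω') (x i ω)
      push_cast
      rw [pow_zero]
      linarith)
  rw [hc_unit] at h4
  have hL : (1:ℝ) ≤ S.L i := by exact_mod_cast h3
  have hl : 0 < Real.log 2 := Real.log_pos (by norm_num)
  refine h4.trans ?_
  rw [(S.P i).ex_const]
  have hC : (0:ℝ) ≤ C := Nat.cast_nonneg _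
  have h5 : 0 ≤ Real.log (2 * (2 * C) + 3) := Real.log_nonneg (by linarith)
  unfold Sys.nm
  push_cast
  rw [sub_zero]
  have e : (c + Real.log (2 * (2 * C) + 3) / Real.log 2) * (S.L i * Real.log 2) =
      Real.log (2 * (2 * C) + 3) * S.L i + Real.log 2 * (c * S.L i) := by
    field_simp
    ring
  rw [e]
  nlinarith

theorem tame_dgv {n : ℕ → ℕ} {c : ℝ} (hn : ∀ᶠ i in (uf : Filter ℕ), (n i : ℝ) ≤ c * S.L i)
    {v : S.RV (Fin 2 → ℝ)} {C : ℕ} (hx : S.Ae fun i ω => ∀ j, |v i ω j| ≤ C) :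
    Tame (dgv n v) := by
  have h0 : Tame (S := S) (dg n fun i ω => v i ω 0) :=
    tame_dg (C := C) hn (by filter_upwards [hx] with i hi ω hω using hi ω hω 0)
  have h1 : Tame (S := S) (dg n fun i ω => v i ω 1) :=
    tame_dg (C := C) hn (by filter_upwards [hx] with i hi ω hω using hi ω hω 1)
  refine (h0.pr h1).mono (Eventually.of_forall fun i ω ω' _ _ e => ?_)
  simp only [pr_apply, Prod.mk.injEq] at e
  show fl (n i) (v i ω) = fl (n i) (v i ω')
  funext j
  fin_cases j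
  · exact e.1
  · exact e.2

/-- digits of vectors known up to a constant have no information -/
theorem hc_zero_fl (n : ℕ → ℕ) (C : ℕ) (v : S.RV (Fin 2 → ℝ)) (Y : S.RV β)
    (h : ∀ᶠ i in (uf : Filter ℕ), ∀ ω ω', 0 < (S.P i).w ω → 0 < (S.P i).w ω' →
      Y i ω' = Y i ω → ∀ j, |v i ω' j - v i ω j| ≤ C * (1 / 2 : ℝ) ^ n i) :
    S.hc (dgv n v) Y = 0 := by
  refine hc_zero_of_le (2 * Real.log (2 * C + 3)) ?_
  filter_upwards [h] with i hi
  have h0 := near_fl1 (S.P i) (n i) (fun _ => n i) C (fun ω => v i ω 0) (Y i) (fun _ _ => le_rfl)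
    (fun ω ω' a b e => hi ω ω' a b e 0)
  have h1 := near_fl1 (S.P i) (n i) (fun _ => n i) C (fun ω => v i ω 1)
    (fun ω => (fl1 (n i) (v i ω 0), Y i ω)) (fun _ _ => le_rfl)
    (fun ω ω' a b e => hi ω ω' a b (by
      rw [Prod.mk.injEq] at e
      exact e.2) 1)
  simp only [sub_self, (S.P i).ex_const, mul_zero, add_zero] at h0 h1
  have h2 := Stk.hc_pair (S.P i) (fun ω => fl1 (n i) (v i ω 0)) (fun ω => fl1 (n i) (v i ω 1)) (Y i)
  have h3 : Stk.hc (S.P i) (dgv n v i) (Y i) ≤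
      Stk.hc (S.P i) (fun ω => (fl1 (n i) (v i ω 0), fl1 (n i) (v i ω 1))) (Y i) := by
    refine Stk.hc_mono_left _ fun ω ω' _ _ e => ?_
    simp only [Prod.mk.injEq] at e
    show fl (n i) (v i ω) = fl (n i) (v i ω')
    funext j
    fin_cases j
    · exact e.1.1
    · exact e.1.2
  linarith

/-- the excess does not change on extensions -/
theorem exc_ext {S' S : Sys} {γ : Type} (e : Ext S' S) (C : S.RV γ) (B : S.BX) :
    S'.exc (e.pullB B) (e.pull C) = S.exc B C := by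
  refine ulim_congr (Eventually.of_forall fun i => ?_)
  show excF (S'.P i) ((B i).comp (e.π i)) (fun ω => C i (e.π i ω)) / S'.nm i = _
  rw [excF_ext (S'.P i) (S.P i) (e.π i) (e.law i), e.nm]

end sys

end Vale.Agent.P127.U.Fi
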