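import Vale.Agent.P127.Stk.LibDom

/-!
# P127 / U : conditional probability of the own value, collisions, tilting (helper823)

* `cp P X Y ω` : conditional probability of the value `X ω` given `Y ω`; `hc P X Y = E (-log cp)`.
* `coll P X Y` : probability that two copies of `X`, conditionally independent given `Y`, agree.
* `tilt` : if the reference density `g` is at most `θ` then `cp` can be `≥ ε` only at the price
  `log (ε / θ)` of divergence.
* `kl Q P Z` : divergence of the law of `Z` under `Q` from the law of `Z` under `P`.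
-/

set_option autoImplicit false

namespace Vale.Agent.P127.U.Path

open Finset Vale.Agent.P127 Vale.Agent.P127.Stk

variable {Ω : Type} [Fintype Ω] {S T T' U V : Type*}

/-- conditional probability of the own value -/
noncomputable def cp (P : Law Ω) (X : Ω → S) (Y : Ω → T) (ω : Ω) : ℝ :=
  P.pr (fun ω => (X ω, Y ω)) (X ω, Y ω) / P.pr Y (Y ω)

lemma pr_le_of_fn (P : Law Ω) {X : Ω → S} {Y : Ω → T} (h : Fn P X Y) {ω : Ω} (hω : 0 < P.w ω) :
    P.pr Y (Y ω) ≤ P.pr X (X ω) := by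
  classical
  unfold Law.pr
  rw [Finset.sum_filter, Finset.sum_filter]
  refine Finset.sum_le_sum fun ω' _ => ?_
  rcases (P.nn ω').eq_or_lt with h0 | h0
  · rw [← h0]; simp
  · by_cases hx : Y ω' = Y ω
    · rw [if_pos hx, if_pos (h ω' ω h0 hω hx)]
    · rw [if_neg hx]
      split_ifs
      · exact h0.le
      · exact le_rfl

lemma pr_eq_of_fn (P : Law Ω) {X : Ω → S} {Y : Ω → T} (h : Fn P X Y) (h' : Fn P Y X)
    {ω : Ω} (hω : 0 < P.w ω) : P.pr Y (Y ω) = P.pr X (X ω) :=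
  le_antisymm (pr_le_of_fn P h hω) (pr_le_of_fn P h' hω)

lemma pr_zero (P : Law Ω) (X : Ω → S) {x : S} (hx : x ∉ img X) : P.pr X x = 0 := by
  unfold Law.pr
  refine Finset.sum_eq_zero fun ω hω => ?_
  simp only [Finset.mem_filter] at hω
  exact absurd (mem_img.2 ⟨ω, hω.2⟩) hx

lemma cp_nonneg (P : Law Ω) (X : Ω → S) (Y : Ω → T) (ω : Ω) : 0 ≤ cp P X Y ω :=
  div_nonneg (P.pr_nonneg _ _) (P.pr_nonneg _ _)

lemma cp_pos (P : Law Ω) (X : Ω → S) (Y : Ω → T) {ω : Ω} (hω : 0 < P.w ω) : 0 < cp P X Y ω :=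
  div_pos (P.pr_pos (fun ω => (X ω, Y ω)) hω) (P.pr_pos Y hω)

lemma cp_le_one (P : Law Ω) (X : Ω → S) (Y : Ω → T) (ω : Ω) : cp P X Y ω ≤ 1 := by
  unfold cp
  refine div_le_one_of_le₀ ?_ (P.pr_nonneg _ _)
  have := P.sum_pr_pair_le X Y (Y ω) {X ω}
  simpa using this

theorem hc_eq (P : Law Ω) (X : Ω → S) (Y : Ω → T) :
    hc P X Y = P.ex (fun ω => - Real.log (cp P X Y ω)) := by
  unfold hc Law.H
  rw [← P.ex_sub]
  refine P.ex_congr fun ω hω => ?_
  unfold cp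
  rw [Real.log_div (P.pr_pos (fun ω => (X ω, Y ω)) hω).ne' (P.pr_pos Y hω).ne']
  ring

lemma cp_congr (P : Law Ω) {X : Ω → S} {X' : Ω → S} {Y : Ω → T} {Y' : Ω → T'}
    (hX : Fn P (fun ω => (X ω, Y ω)) (fun ω => (X' ω, Y' ω)))
    (hX' : Fn P (fun ω => (X' ω, Y' ω)) (fun ω => (X ω, Y ω)))
    (hY : Fn P Y Y') (hY' : Fn P Y' Y) {ω : Ω} (hω : 0 < P.w ω) :
    cp P X Y ω = cp P X' Y' ω := by
  unfold cp
  rw [pr_eq_of_fn P hX hX' hω, pr_eq_of_fn P hY hY' hω]

/-- probability that two conditionally independent copies agree -/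
noncomputable def coll (P : Law Ω) (X : Ω → S) (Y : Ω → T) : ℝ := P.ex (cp P X Y)

lemma coll_nonneg (P : Law Ω) (X : Ω → S) (Y : Ω → T) : 0 ≤ coll P X Y :=
  P.ex_nonneg fun ω _ => cp_nonneg P X Y ω

lemma coll_le_one (P : Law Ω) (X : Ω → S) (Y : Ω → T) : coll P X Y ≤ 1 := by
  have := P.ex_mono (f := cp P X Y) (g := fun _ => 1) (fun ω _ => cp_le_one P X Y ω)
  rwa [P.ex_const] at this

/-- `E (φ(X, Y) / P(X | Y)) ≤ ∑_x E φ(x, Y)` -/
theorem ex_div_cp (P : Law Ω) (X : Ω → S) (Y : Ω → T) (φ : S → T → ℝ) (h0 : ∀ x y, 0 ≤ φ x y) :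
    P.ex (fun ω => φ (X ω) (Y ω) / cp P X Y ω) ≤ ∑ x ∈ img X, P.ex (fun ω => φ x (Y ω)) := by
  classical
  have e1 : P.ex (fun ω => φ (X ω) (Y ω) / cp P X Y ω) =
      ∑ z ∈ img (fun ω => (X ω, Y ω)), P.pr (fun ω => (X ω, Y ω)) z *
        (φ z.1 z.2 / (P.pr (fun ω => (X ω, Y ω)) z / P.pr Y z.2)) := by
    rw [← P.ex_comp (fun ω => (X ω, Y ω))
      (fun z => φ z.1 z.2 / (P.pr (fun ω => (X ω, Y ω)) z / P.pr Y z.2))]
    rfl
  have e2 : ∑ x ∈ img X, P.ex (fun ω => φ x (Y ω)) =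
      ∑ z ∈ (img X) ×ˢ (img Y), φ z.1 z.2 * P.pr Y z.2 := by
    rw [Finset.sum_product]
    refine Finset.sum_congr rfl fun x _ => ?_
    rw [P.ex_comp Y (fun y => φ x y)]
    exact Finset.sum_congr rfl fun y _ => mul_comm _ _
  rw [e1, e2]
  calc ∑ z ∈ img (fun ω => (X ω, Y ω)), P.pr (fun ω => (X ω, Y ω)) z *
        (φ z.1 z.2 / (P.pr (fun ω => (X ω, Y ω)) z / P.pr Y z.2))
      ≤ ∑ z ∈ img (fun ω => (X ω, Y ω)), φ z.1 z.2 * P.pr Y z.2 := by
        refine Finset.sum_le_sum fun z _ => ?_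
        rcases (P.pr_nonneg (fun ω => (X ω, Y ω)) z).eq_or_lt with h | h
        · rw [← h, zero_mul]
          exact mul_nonneg (h0 _ _) (P.pr_nonneg _ _)
        · rw [div_div_eq_mul_div]
          rw [mul_div_cancel₀ _ h.ne']
    _ ≤ ∑ z ∈ (img X) ×ˢ (img Y), φ z.1 z.2 * P.pr Y z.2 := by
        refine Finset.sum_le_sum_of_subset_of_nonneg ?_ fun z _ _ =>
          mul_nonneg (h0 _ _) (P.pr_nonneg _ _)
        intro z hz
        simp only [mem_img, mem_product] at hz ⊢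
        obtain ⟨ω, rfl⟩ := hz
        exact ⟨⟨ω, rfl⟩, ⟨ω, rfl⟩⟩

lemma exists_pos (P : Law Ω) : ∃ ω, 0 < P.w ω := by
  by_contra hcon
  push Not at hcon
  have : ∑ ω, P.w ω ≤ 0 := Finset.sum_nonpos fun ω _ => hcon ω
  rw [P.sum_one] at this
  linarith

lemma fn_fun (P : Law Ω) {Y : Ω → T} {Y' : Ω → T'} (h : Fn P Y' Y) :
    ∃ F : T → T', ∀ ω, 0 < P.w ω → Y' ω = F (Y ω) := by
  classical
  obtain ⟨ω0, _⟩ := exists_pos P
  refine ⟨fun y => if hy : ∃ ω, 0 < P.w ω ∧ Y ω = y then Y' hy.choose else Y' ω0, fun ω hω => ?_⟩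
  have hy : ∃ ω', 0 < P.w ω' ∧ Y ω' = Y ω := ⟨ω, hω, rfl⟩
  simp only [dif_pos hy]
  exact h ω _ hω hy.choose_spec.1 hy.choose_spec.2.symm

/-- reference density : a coarser condition -/
theorem ex_cp_div (P : Law Ω) (X : Ω → S) {Y : Ω → T} {Y' : Ω → T'} (h : Fn P Y' Y) :
    P.ex (fun ω => cp P X Y' ω / cp P X Y ω) ≤ 1 := by
  classical
  obtain ⟨F, hF⟩ := fn_fun P h
  set φ : S → T → ℝ := fun x y => P.pr (fun ω => (X ω, Y' ω)) (x, F y) / P.pr Y' (F y) with hφ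
  have h0 : ∀ x y, 0 ≤ φ x y := fun x y => div_nonneg (P.pr_nonneg _ _) (P.pr_nonneg _ _)
  have h1 := ex_div_cp P X Y φ h0
  have h2 : P.ex (fun ω => cp P X Y' ω / cp P X Y ω) =
      P.ex (fun ω => φ (X ω) (Y ω) / cp P X Y ω) := by
    refine P.ex_congr fun ω hω => ?_
    rw [hφ]
    simp only
    rw [← hF ω hω]
    rfl
  rw [h2]
  refine h1.trans ?_
  have h3 : ∑ x ∈ img X, P.ex (fun ω => φ x (Y ω)) = P.ex (fun ω => ∑ x ∈ img X, φ x (Y ω)) := by
    unfold Law.ex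
    rw [Finset.sum_comm]
    exact Finset.sum_congr rfl fun ω _ => by rw [Finset.mul_sum]
  rw [h3]
  have h4 := P.ex_mono (f := fun ω => ∑ x ∈ img X, φ x (Y ω)) (g := fun _ => 1) (fun ω _ => by
    simp only [hφ]
    rw [← Finset.sum_div]
    exact div_le_one_of_le₀ (P.sum_pr_pair_le X Y' _ _) (P.pr_nonneg _ _))
  rwa [P.ex_const] at h4

/-- reference density : another law -/
theorem ex_cp_div' (P Q : Law Ω) (X : Ω → S) (Y : Ω → T) :
    Q.ex (fun ω => cp P X Y ω / cp Q X Y ω) ≤ 1 := by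
  classical
  set φ : S → T → ℝ := fun x y => P.pr (fun ω => (X ω, Y ω)) (x, y) / P.pr Y y with hφ
  have h0 : ∀ x y, 0 ≤ φ x y := fun x y => div_nonneg (P.pr_nonneg _ _) (P.pr_nonneg _ _)
  have h1 := ex_div_cp Q X Y φ h0
  have h2 : Q.ex (fun ω => cp P X Y ω / cp Q X Y ω) =
      Q.ex (fun ω => φ (X ω) (Y ω) / cp Q X Y ω) := rfl
  rw [h2]
  refine h1.trans ?_
  have h3 : ∑ x ∈ img X, Q.ex (fun ω => φ x (Y ω)) = Q.ex (fun ω => ∑ x ∈ img X, φ x (Y ω)) := by
    unfold Law.ex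
    rw [Finset.sum_comm]
    exact Finset.sum_congr rfl fun ω _ => by rw [Finset.mul_sum]
  rw [h3]
  have h4 := Q.ex_mono (f := fun ω => ∑ x ∈ img X, φ x (Y ω)) (g := fun _ => 1) (fun ω _ => by
    simp only [hφ]
    rw [← Finset.sum_div]
    exact div_le_one_of_le₀ (P.sum_pr_pair_le X Y _ _) (P.pr_nonneg _ _))
  rwa [Q.ex_const] at h4

/-- a coarser condition gives fewer collisions -/
theorem coll_mono (P : Law Ω) (X : Ω → S) {Y : Ω → T} {Y' : Ω → T'} (h : Fn P Y' Y) :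
    coll P X Y' ≤ coll P X Y := by
  classical
  obtain ⟨F, hF⟩ := fn_fun P h
  set g : S → T' → ℝ := fun x y => P.pr (fun ω => (X ω, Y' ω)) (x, y) / P.pr Y' y with hg
  set φ : S → T → ℝ := fun x y => g x (F y) ^ 2 with hφ
  have h1 := ex_div_cp P X Y φ (fun x y => sq_nonneg _)
  -- `E (g^2 / f) ≤ E g`
  have h2 : P.ex (fun ω => cp P X Y' ω ^ 2 / cp P X Y ω) ≤ coll P X Y' := by
    have e1 : P.ex (fun ω => cp P X Y' ω ^ 2 / cp P X Y ω) =
        P.ex (fun ω => φ (X ω) (Y ω) / cp P X Y ω) := by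
      refine P.ex_congr fun ω hω => ?_
      simp only [hφ, hg]
      rw [← hF ω hω]
      rfl
    rw [e1]
    refine h1.trans (le_of_eq ?_)
    have e2 : ∀ x, P.ex (fun ω => φ x (Y ω)) = P.ex (fun ω => g x (Y' ω) ^ 2) := by
      intro x
      refine P.ex_congr fun ω hω => ?_
      simp only [hφ]
      rw [← hF ω hω]
    simp only [e2]
    have e3 : ∀ x, P.ex (fun ω => g x (Y' ω) ^ 2) =
        ∑ y ∈ img Y', P.pr (fun ω => (X ω, Y' ω)) (x, y) * g x y := by
      intro x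
      rw [P.ex_comp Y' (fun y => g x y ^ 2)]
      refine Finset.sum_congr rfl fun y _ => ?_
      simp only [hg]
      rcases (P.pr_nonneg Y' y).eq_or_lt with h0 | h0
      · rw [← h0]; simp
      · field_simp
    simp only [e3]
    unfold coll
    have e4 : P.ex (cp P X Y') = ∑ z ∈ img (fun ω => (X ω, Y' ω)),
        P.pr (fun ω => (X ω, Y' ω)) z * g z.1 z.2 := by
      rw [← P.ex_comp (fun ω => (X ω, Y' ω)) (fun z => g z.1 z.2)]
      rfl
    rw [e4, ← Finset.sum_product']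
    symm
    refine Finset.sum_subset ?_ ?_
    · intro z hz
      simp only [mem_img, mem_product] at hz ⊢
      obtain ⟨ω, rfl⟩ := hz
      exact ⟨⟨ω, rfl⟩, ⟨ω, rfl⟩⟩
    · intro z _ hz
      rw [pr_zero P _ hz, zero_mul]
  have h3 : 2 * coll P X Y' - P.ex (fun ω => cp P X Y' ω ^ 2 / cp P X Y ω) ≤ coll P X Y := by
    unfold coll
    rw [← P.ex_const_mul, ← P.ex_sub]
    refine P.ex_mono fun ω hω => ?_
    have hf := cp_pos P X Y hω
    have : 0 ≤ (cp P X Y ω - cp P X Y' ω) ^ 2 / cp P X Y ω := by positivity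
    have e : (cp P X Y ω - cp P X Y' ω) ^ 2 / cp P X Y ω =
        cp P X Y ω - 2 * cp P X Y' ω + cp P X Y' ω ^ 2 / cp P X Y ω := by
      field_simp
      ring
    linarith
  linarith

/-- **tilting** : where the reference density is `≤ θ`, the conditional probability is `≥ ε` only at
a price -/
theorem tilt (Q : Law Ω) (X : Ω → S) (C : Ω → T) (g : Ω → ℝ) (hg : ∀ ω, 0 < Q.w ω → 0 < g ω)
    (h1 : Q.ex (fun ω => g ω / cp Q X C ω) ≤ 1) {ε θ : ℝ} (hθ : 0 < θ) (hε : θ < ε) :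
    prE Q (fun ω => ε ≤ cp Q X C ω ∧ g ω ≤ θ) * Real.log (ε / θ) ≤
      Q.ex (fun ω => Real.log (cp Q X C ω) - Real.log (g ω)) + 1 := by
  classical
  have hε0 : 0 < ε := hθ.trans hε
  have h2 : prE Q (fun ω => ε ≤ cp Q X C ω ∧ g ω ≤ θ) * Real.log (ε / θ) =
      Q.ex (fun ω => if ε ≤ cp Q X C ω ∧ g ω ≤ θ then Real.log (ε / θ) else 0) := by
    unfold prE Law.ex
    rw [Finset.sum_mul, Finset.sum_filter]
    refine Finset.sum_congr rfl fun ω _ => ?_
    by_cases hc : ε ≤ cp Q X C ω ∧ g ω ≤ θ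
    · simp only [if_pos hc]
    · simp only [if_neg hc, mul_zero]
  have h3 : Q.ex (fun ω => if ε ≤ cp Q X C ω ∧ g ω ≤ θ then Real.log (ε / θ) else 0) ≤
      Q.ex (fun ω => (Real.log (cp Q X C ω) - Real.log (g ω)) + g ω / cp Q X C ω) := by
    refine Q.ex_mono fun ω hω => ?_
    have hf := cp_pos Q X C hω
    have hgω := hg ω hω
    have hq : 0 < g ω / cp Q X C ω := div_pos hgω hf
    split_ifs with hc
    · have : Real.log (ε / θ) ≤ Real.log (cp Q X C ω) - Real.log (g ω) := by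
        rw [← Real.log_div hf.ne' hgω.ne']
        refine Real.log_le_log (div_pos hε0 hθ) ?_
        exact div_le_div₀ hf.le hc.1 hgω hc.2
      linarith
    · have : Real.log (g ω / cp Q X C ω) ≤ g ω / cp Q X C ω - 1 :=
        Real.log_le_sub_one_of_pos hq
      rw [Real.log_div hgω.ne' hf.ne'] at this
      linarith
  rw [Q.ex_add] at h3
  rw [h2]
  linarith

lemma prE_eq_ex (Q : Law Ω) (E : Ω → Prop) [DecidablePred E] :
    prE Q E = Q.ex (fun ω => if E ω then 1 else 0) := by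
  classical
  unfold prE Law.ex
  rw [Finset.sum_filter]
  refine Finset.sum_congr rfl fun ω _ => ?_
  by_cases hc : E ω
  · simp only [if_pos hc, mul_one]
  · simp only [if_neg hc, mul_zero]

lemma prE_mono (Q : Law Ω) {E F : Ω → Prop} (h : ∀ ω, 0 < Q.w ω → E ω → F ω) :
    prE Q E ≤ prE Q F := by
  classical
  rw [prE_eq_ex, prE_eq_ex]
  refine Q.ex_mono fun ω hω => ?_
  by_cases hE : E ω
  · rw [if_pos hE, if_pos (h ω hω hE)]
  · rw [if_neg hE]
    split_ifs <;> norm_num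

/-- collisions from the tilting inequality -/
theorem coll_le (Q : Law Ω) (X : Ω → S) (C : Ω → T) (g : Ω → ℝ) (hg : ∀ ω, 0 < Q.w ω → 0 < g ω)
    (h1 : Q.ex (fun ω => g ω / cp Q X C ω) ≤ 1) {ε θ : ℝ} (hθ : 0 < θ) (hε : θ < ε) :
    coll Q X C ≤ ε + prE Q (fun ω => θ < g ω) +
      (Q.ex (fun ω => Real.log (cp Q X C ω) - Real.log (g ω)) + 1) / Real.log (ε / θ) := by
  classical
  have hlog : 0 < Real.log (ε / θ) := Real.log_pos (by rwa [lt_div_iff₀ hθ, one_mul])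
  have h2 := tilt Q X C g hg h1 hθ hε
  rw [← le_div_iff₀ hlog] at h2
  have h3 : coll Q X C ≤ ε + prE Q (fun ω => θ < g ω) +
      prE Q (fun ω => ε ≤ cp Q X C ω ∧ g ω ≤ θ) := by
    unfold coll
    rw [prE_eq_ex, prE_eq_ex]
    have e1 : Q.ex (fun _ => ε) = ε := Q.ex_const ε
    have e2 : ε + Q.ex (fun ω => if θ < g ω then (1 : ℝ) else 0) +
        Q.ex (fun ω => if ε ≤ cp Q X C ω ∧ g ω ≤ θ then (1 : ℝ) else 0) =
        Q.ex (fun ω => ε + (if θ < g ω then (1 : ℝ) else 0) +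
          (if ε ≤ cp Q X C ω ∧ g ω ≤ θ then (1 : ℝ) else 0)) := by
      rw [Q.ex_add, Q.ex_add, e1]
    rw [e2]
    refine Q.ex_mono fun ω hω => ?_
    have h5 := cp_le_one Q X C ω
    have hε0 : 0 < ε := hθ.trans hε
    by_cases ha : θ < g ω
    · rw [if_pos ha]
      split_ifs <;> linarith
    · rw [if_neg ha]
      by_cases hb : ε ≤ cp Q X C ω
      · rw [if_pos ⟨hb, not_lt.1 ha⟩]
        linarith
      · rw [if_neg (fun h => hb h.1)]
        push Not at hb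
        linarith
  linarith

/-! ### Divergence -/

/-- divergence of the law of `Z` under `Q` from its law under `P` -/
noncomputable def kl (Q P : Law Ω) (Z : Ω → S) : ℝ :=
  Q.ex (fun ω => Real.log (Q.pr Z (Z ω)) - Real.log (P.pr Z (Z ω)))

/-- `Q` is absolutely continuous with respect to `P` -/
def Ac (Q P : Law Ω) : Prop := ∀ ω, 0 < Q.w ω → 0 < P.w ω

theorem kl_pair (Q P : Law Ω) (hac : Ac Q P) (X : Ω → S) (Y : Ω → T) :
    kl Q P (fun ω => (X ω, Y ω)) = kl Q P Y +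
      Q.ex (fun ω => Real.log (cp Q X Y ω) - Real.log (cp P X Y ω)) := by
  unfold kl
  rw [← Q.ex_add]
  refine Q.ex_congr fun ω hω => ?_
  have hP := hac ω hω
  unfold cp
  rw [Real.log_div (Q.pr_pos (fun ω => (X ω, Y ω)) hω).ne' (Q.pr_pos Y hω).ne',
    Real.log_div (P.pr_pos (fun ω => (X ω, Y ω)) hP).ne' (P.pr_pos Y hP).ne']
  ring

theorem ex_log_cp_nonneg (Q P : Law Ω) (hac : Ac Q P) (X : Ω → S) (Y : Ω → T) :
    0 ≤ Q.ex (fun ω => Real.log (cp Q X Y ω) - Real.log (cp P X Y ω)) := by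
  have h1 := ex_cp_div' P Q X Y
  have h2 : Q.ex (fun ω => 1 - cp P X Y ω / cp Q X Y ω) ≤
      Q.ex (fun ω => Real.log (cp Q X Y ω) - Real.log (cp P X Y ω)) := by
    refine Q.ex_mono fun ω hω => ?_
    have hf := cp_pos Q X Y hω
    have hg := cp_pos P X Y (hac ω hω)
    have := Real.log_le_sub_one_of_pos (div_pos hg hf)
    rw [Real.log_div hg.ne' hf.ne'] at this
    linarith
  rw [Q.ex_sub, Q.ex_const] at h2
  linarith

theorem kl_nonneg (Q P : Law Ω) (hac : Ac Q P) (Z : Ω → S) : 0 ≤ kl Q P Z := by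
  have h := ex_log_cp_nonneg Q P hac Z (fun _ => ())
  have e : kl Q P Z = Q.ex (fun ω => Real.log (cp Q Z (fun _ => ()) ω) -
      Real.log (cp P Z (fun _ => ()) ω)) := by
    unfold kl
    refine Q.ex_congr fun ω hω => ?_
    have h1 : ∀ R : Law Ω, R.pr (fun _ : Ω => ()) () = 1 := by
      intro R
      unfold Law.pr
      simp only [Finset.filter_true]
      exact R.sum_one
    have h2 : ∀ R : Law Ω, R.pr (fun ω => (Z ω, ())) (Z ω, ()) = R.pr Z (Z ω) := by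
      intro R
      unfold Law.pr
      refine Finset.sum_congr ?_ fun _ _ => rfl
      ext ω'
      simp
    unfold cp
    rw [h1, h1, h2, h2, div_one, div_one]
  rw [e]
  exact h

theorem kl_mono (Q P : Law Ω) (hac : Ac Q P) {Z : Ω → S} {Z' : Ω → T} (h : Fn P Z Z') :
    kl Q P Z ≤ kl Q P Z' := by
  have hQ : Fn Q Z Z' := fun ω ω' p p' e => h ω ω' (hac ω p) (hac ω' p') e
  have h1 := kl_pair Q P hac Z' Z
  have h2 := ex_log_cp_nonneg Q P hac Z' Z
  have h3 : kl Q P (fun ω => (Z' ω, Z ω)) = kl Q P Z' := by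
    unfold kl
    refine Q.ex_congr fun ω hω => ?_
    have f1 : Fn P Z' (fun ω => (Z' ω, Z ω)) := fun ω ω' _ _ e => congrArg Prod.fst e
    have f2 : Fn P (fun ω => (Z' ω, Z ω)) Z' := fun ω ω' p p' e => Prod.ext e (h ω ω' p p' e)
    have g1 : Fn Q Z' (fun ω => (Z' ω, Z ω)) := fun ω ω' _ _ e => congrArg Prod.fst e
    have g2 : Fn Q (fun ω => (Z' ω, Z ω)) Z' := fun ω ω' p p' e => Prod.ext e (hQ ω ω' p p' e)
    rw [pr_eq_of_fn Q g1 g2 hω, pr_eq_of_fn P f1 f2 (hac ω hω)]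
  linarith

theorem kl_le_log (Q P : Law Ω) {p : ℝ} (hp : 0 < p) (h : ∀ ω, Q.w ω ≤ P.w ω / p) (Z : Ω → S) :
    kl Q P Z ≤ Real.log (1 / p) := by
  have h1 := Q.ex_mono (f := fun ω => Real.log (Q.pr Z (Z ω)) - Real.log (P.pr Z (Z ω)))
    (g := fun _ => Real.log (1 / p)) (fun ω hω => by
      have hQ := Q.pr_pos Z hω
      have hPw : 0 < P.w ω := by
        have := h ω
        by_contra hcon
        push Not at hcon
        have h2 : P.w ω / p ≤ 0 := div_nonpos_of_nonpos_of_nonneg hcon hp.le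
        linarith
      have hP := P.pr_pos Z hPw
      have h2 : Q.pr Z (Z ω) ≤ P.pr Z (Z ω) / p := by
        unfold Law.pr
        rw [Finset.sum_div]
        exact Finset.sum_le_sum fun ω' _ => h ω'
      rw [← Real.log_div hQ.ne' hP.ne']
      refine Real.log_le_log (div_pos hQ hP) ?_
      rw [div_le_div_iff₀ hP hp]
      rw [le_div_iff₀ hp] at h2
      linarith)
  rwa [Q.ex_const] at h1

/-- Gibbs : the entropy is at most the cross entropy -/
theorem hc_le_cross (Q P : Law Ω) (hac : Ac Q P) (X : Ω → S) (Y : Ω → T) :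
    hc Q X Y ≤ Q.ex (fun ω => - Real.log (cp P X Y ω)) := by
  have h := ex_log_cp_nonneg Q P hac X Y
  rw [Q.ex_sub] at h
  rw [hc_eq, Q.ex_neg, Q.ex_neg]
  linarith

/-- adjacency probability of two conditionally independent copies of an integer variable -/
noncomputable def adj (P : Law Ω) (X : Ω → ℤ) (Y : Ω → T) (k : ℤ) : ℝ :=
  P.ex (fun ω => P.pr (fun ω => (X ω, Y ω)) (X ω + k, Y ω) / P.pr Y (Y ω))

/-- copies at the difference `k` are not more likely than equal copies -/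
theorem adj_le (P : Law Ω) (X : Ω → ℤ) (Y : Ω → T) (k : ℤ) : adj P X Y k ≤ coll P X Y := by
  classical
  have key : ∀ j : ℤ, (∑ z ∈ (img X ∪ (img X).image (fun x => x - k)) ×ˢ img Y,
      (P.pr (fun ω => (X ω, Y ω)) (z.1 + j, z.2)) ^ 2 / P.pr Y z.2) ≤ coll P X Y := by
    intro j
    have e4 : coll P X Y = ∑ z ∈ img (fun ω => (X ω, Y ω)),
        P.pr (fun ω => (X ω, Y ω)) z * (P.pr (fun ω => (X ω, Y ω)) z / P.pr Y z.2) := by
      unfold coll
      rw [← P.ex_comp (fun ω => (X ω, Y ω)) (fun z => P.pr (fun ω => (X ω, Y ω)) z / P.pr Y z.2)]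
      rfl
    rw [e4]
    set A := (img X ∪ (img X).image (fun x => x - k)) ×ˢ img Y with hA
    have e5 : ∑ z ∈ A, (P.pr (fun ω => (X ω, Y ω)) (z.1 + j, z.2)) ^ 2 / P.pr Y z.2 =
        ∑ z ∈ A.image (fun z => (z.1 + j, z.2)),
          P.pr (fun ω => (X ω, Y ω)) z * (P.pr (fun ω => (X ω, Y ω)) z / P.pr Y z.2) := by
      rw [Finset.sum_image]
      · refine Finset.sum_congr rfl fun z _ => ?_
        ring
      · intro a _ b _ hab
        simp only [Prod.mk.injEq] at hab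
        exact Prod.ext (by linarith [hab.1]) hab.2
    rw [e5]
    have e6 : ∑ z ∈ A.image (fun z => (z.1 + j, z.2)) ∩ img (fun ω => (X ω, Y ω)),
          P.pr (fun ω => (X ω, Y ω)) z * (P.pr (fun ω => (X ω, Y ω)) z / P.pr Y z.2) =
        ∑ z ∈ A.image (fun z => (z.1 + j, z.2)),
          P.pr (fun ω => (X ω, Y ω)) z * (P.pr (fun ω => (X ω, Y ω)) z / P.pr Y z.2) := by
      refine Finset.sum_subset Finset.inter_subset_left ?_
      intro z hz hz'
      rw [pr_zero P _ (fun h => hz' (Finset.mem_inter.2 ⟨hz, h⟩)), zero_mul]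
    rw [← e6]
    refine Finset.sum_le_sum_of_subset_of_nonneg Finset.inter_subset_right fun z _ _ => ?_
    exact mul_nonneg (P.pr_nonneg _ _) (div_nonneg (P.pr_nonneg _ _) (P.pr_nonneg _ _))
  have h0 := key 0
  have hk := key k
  simp only [add_zero] at h0
  have e1 : adj P X Y k = ∑ z ∈ img (fun ω => (X ω, Y ω)),
      P.pr (fun ω => (X ω, Y ω)) z *
        (P.pr (fun ω => (X ω, Y ω)) (z.1 + k, z.2) / P.pr Y z.2) := by
    unfold adj
    rw [← P.ex_comp (fun ω => (X ω, Y ω))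
      (fun z => P.pr (fun ω => (X ω, Y ω)) (z.1 + k, z.2) / P.pr Y z.2)]
  have e2 : adj P X Y k ≤ ∑ z ∈ (img X ∪ (img X).image (fun x => x - k)) ×ˢ img Y,
      P.pr (fun ω => (X ω, Y ω)) z *
        (P.pr (fun ω => (X ω, Y ω)) (z.1 + k, z.2) / P.pr Y z.2) := by
    rw [e1]
    refine Finset.sum_le_sum_of_subset_of_nonneg ?_ fun z _ _ =>
      mul_nonneg (P.pr_nonneg _ _) (div_nonneg (P.pr_nonneg _ _) (P.pr_nonneg _ _))
    intro z hz
    simp only [mem_img, mem_product, Finset.mem_union, Finset.mem_image] at hz ⊢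
    obtain ⟨ω, rfl⟩ := hz
    exact ⟨Or.inl ⟨ω, rfl⟩, ⟨ω, rfl⟩⟩
  have e3 : ∑ z ∈ (img X ∪ (img X).image (fun x => x - k)) ×ˢ img Y,
      P.pr (fun ω => (X ω, Y ω)) z *
        (P.pr (fun ω => (X ω, Y ω)) (z.1 + k, z.2) / P.pr Y z.2) ≤
      ∑ z ∈ (img X ∪ (img X).image (fun x => x - k)) ×ˢ img Y,
      ((P.pr (fun ω => (X ω, Y ω)) z ^ 2 / P.pr Y z.2 +
        P.pr (fun ω => (X ω, Y ω)) (z.1 + k, z.2) ^ 2 / P.pr Y z.2) / 2) := by
    refine Finset.sum_le_sum fun z _ => ?_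
    rcases (P.pr_nonneg Y z.2).eq_or_lt with h | h
    · rw [← h]; simp
    · have : 0 ≤ (P.pr (fun ω => (X ω, Y ω)) z -
          P.pr (fun ω => (X ω, Y ω)) (z.1 + k, z.2)) ^ 2 / P.pr Y z.2 / 2 := by positivity
      have e : (P.pr (fun ω => (X ω, Y ω)) z -
          P.pr (fun ω => (X ω, Y ω)) (z.1 + k, z.2)) ^ 2 / P.pr Y z.2 / 2 =
          (P.pr (fun ω => (X ω, Y ω)) z ^ 2 / P.pr Y z.2 +
          P.pr (fun ω => (X ω, Y ω)) (z.1 + k, z.2) ^ 2 / P.pr Y z.2) / 2 -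
          P.pr (fun ω => (X ω, Y ω)) z *
            (P.pr (fun ω => (X ω, Y ω)) (z.1 + k, z.2) / P.pr Y z.2) := by
        field_simp
        ring
      linarith
  rw [← Finset.sum_div, Finset.sum_add_distrib] at e3
  simp only [Prod.mk.eta] at h0
  linarith

end Vale.Agent.P127.U.Path
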