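import Vale.Agent.P127.U.ExcA
import Vale.Agent.P127.U.ExcB

/-!
# P127 / U : block EXC, end: PExcCoarse (helper377, helper379)
-/

set_option autoImplicit false

namespace Vale.Agent.P127.U

theorem pExcCoarse : PExcCoarse := ExcB.pExcCoarse_of pExcAtt

end Vale.Agent.P127.U
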