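import Vale.Agent.P127.U.Coarse
import Vale.Agent.P127.U.ExcC

/-!
# P127 / U : the coarse inequality, without hypothesis (helper736)
-/

set_option autoImplicit false

namespace Vale.Agent.P127.U

theorem pCoarse : PCoarse := pCoarse_of pExcCoarse

end Vale.Agent.P127.U
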