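import Vale.Agent.P127.U.BasicA

/-!
# P127 / U : the coarse inequality (helper736)

Tools: `nu_sc`, `bd_sc`, `sc_le` (scales `⌊c L⌋`), `fn_tbs`, `fn_pqs`, `fn_dg` (coarser digits),
`fn_lab`, `fn_lab'` (the label of a tube is equivalent to its digits), `subA_tubes`, `av_sz_tubes`,
`exc_tubes_le` (excess of coarser tubes).
-/

set_option autoImplicit false

namespace Vale.Agent.P127.U

open Filter Topology Vale.Agent.P127 Vale.Agent.P127.Stk Sys

namespace Coa

variable {S : Sys} {γ δ : Type}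

/-! ### scales -/

theorem sc_le {c : ℝ} (h : c ≤ 1) (i : ℕ) : S.sc c i ≤ S.L i := by
  unfold Sys.sc
  refine Nat.floor_le_of_le ?_
  calc c * (S.L i : ℝ) ≤ 1 * S.L i := mul_le_mul_of_nonneg_right h (Nat.cast_nonneg _)
    _ = _ := one_mul _

theorem bd_of_le {m n : ℕ → ℕ} (hn : S.Bd n) (h : ∀ i, m i ≤ n i) : S.Bd m := by
  obtain ⟨C, hC⟩ := hn
  refine ⟨C, ?_⟩
  filter_upwards [hC] with i hi
  have : (m i : ℝ) ≤ n i := by exact_mod_cast h i
  exact this.trans hi

theorem bd_sc {c : ℝ} (h : 0 ≤ c) : S.Bd (S.sc c) :=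
  ⟨c, Eventually.of_forall fun _ => Nat.floor_le (mul_nonneg h (Nat.cast_nonneg _))⟩

theorem nu_sc {c : ℝ} (h : 0 ≤ c) : S.nu (S.sc c) = c := by
  unfold Sys.nu
  refine ulim_eq ?_
  have h1 : Tendsto (fun i => (S.L i : ℝ)) (uf : Filter ℕ) atTop :=
    tendsto_natCast_atTop_atTop.comp S.Ltop
  have h2 : Tendsto (fun i => c - 1 / (S.L i : ℝ)) (uf : Filter ℕ) (𝓝 c) := by
    have := (tendsto_const_nhds (x := c)).sub (h1.const_div_atTop 1)
    simpa using this
  refine tendsto_of_tendsto_of_tendsto_of_le_of_le' h2 tendsto_const_nhds ?_ ?_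
  · filter_upwards [S.L_pos] with i hi
    have hL : (0:ℝ) < S.L i := by exact_mod_cast hi
    rw [le_div_iff₀ hL, sub_mul, one_div, inv_mul_cancel₀ hL.ne']
    have := (Nat.lt_floor_add_one (c * (S.L i : ℝ))).le
    unfold Sys.sc
    linarith
  · filter_upwards [S.L_pos] with i hi
    have hL : (0:ℝ) < S.L i := by exact_mod_cast hi
    rw [div_le_iff₀ hL]
    exact Nat.floor_le (mul_nonneg h (Nat.cast_nonneg _))

/-! ### digits -/

theorem fl_of_le {m n : ℕ} (h : m ≤ n) {v w : Fin 2 → ℝ} (hv : fl n v = fl n w) :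
    fl m v = fl m w := fl_of_fl h v w hv

theorem fl1_of_le {m n : ℕ} (h : m ≤ n) {x y : ℝ} (hv : fl1 n x = fl1 n y) :
    fl1 m x = fl1 m y :=
  congrFun (fl_of_fl (ι := Unit) h (fun _ => x) (fun _ => y) (funext fun _ => hv)) ()

theorem fn_dg {m n : ℕ → ℕ} (h : ∀ i, m i ≤ n i) (t : S.RV ℝ) : Fn (dg m t) (dg n t) :=
  Eventually.of_forall fun i _ _ _ _ e => fl1_of_le (h i) e

theorem fn_tbs {m n : ℕ → ℕ} (h : ∀ i, m i ≤ n i) (l : S.RV Ln) : Fn (tbs m l) (tbs n l) :=
  Eventually.of_forall fun i _ _ _ _ e => by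
    simp only [tbs, tb, Prod.mk.injEq] at e ⊢
    exact ⟨fl_of_le (h i) e.1, fl_of_le (h i) e.2⟩

theorem fn_pqs {m n : ℕ → ℕ} (h : ∀ i, m i ≤ n i) (q : S.RV Pt) : Fn (pqs m q) (pqs n q) :=
  Eventually.of_forall fun i _ _ _ _ e => by
    simp only [pqs, pq, Prod.mk.injEq] at e ⊢
    exact ⟨fl1_of_le (h i) e.1, fl_of_le (h i) e.2⟩

/-! ### labels of tubes -/

theorem qa_zero (m : ℕ) : qa m 0 = 0 := by
  unfold qa fl1
  simp

theorem co_zero (v : Fin 2 → ℝ) : co 0 v = v := by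
  funext i
  fin_cases i <;> simp [co]

theorem lab_tubes (n : ℕ → ℕ) (l : S.RV Ln) (i : ℕ) (ω : S.Ω i) :
    (tubes n l).lab i ω = (n i, n i, fl1 (n i - n i) 0, fkj (n i) (n i) (l i ω).1,
      fkj (n i) (n i) (l i ω).2) := by
  show U.lab 0 (n i) (n i) (l i ω) = _
  unfold U.lab
  rw [qa_zero, co_zero, co_zero]

theorem fn_lab (n : ℕ → ℕ) (l : S.RV Ln) : Fn (tubes n l).lab (tbs n l) :=
  Eventually.of_forall fun i ω ω' _ _ e => by
    rw [lab_tubes, lab_tubes]
    simp only [tbs, tb, Prod.mk.injEq] at e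
    have h1 := fun j => congrFun e.1 j
    have h2 := fun j => congrFun e.2 j
    simp only [fl] at h1 h2
    simp only [fkj, fl1, h1, h2]

theorem fn_lab' (n : ℕ → ℕ) (l : S.RV Ln) : Fn (tbs n l) (tubes n l).lab :=
  Eventually.of_forall fun i ω ω' _ _ e => by
    rw [lab_tubes, lab_tubes] at e
    simp only [Prod.mk.injEq, fkj, true_and] at e
    obtain ⟨⟨a1, a2⟩, b1, b2⟩ := e
    simp only [tbs, tb, Prod.mk.injEq]
    constructor
    · funext j
      fin_cases j
      · exact a1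
      · exact a2
    · funext j
      fin_cases j
      · exact b1
      · exact b2

theorem subA_tubes {m n : ℕ → ℕ} (h : ∀ i, m i ≤ n i) (l : S.RV Ln) :
    SubA (tubes n l) (tubes m l) := by
  refine ⟨0, Eventually.of_forall fun i ω _ => ⟨rfl, ?_, le_rfl, h i, h i, ?_⟩⟩
  · show |(0:ℝ)| ≤ 4
    rw [abs_zero]
    norm_num
  · show |Real.sin ((0:ℝ) - 0)| * _ ≤ 0 * _
    simp

theorem av_sz_tubes {m n : ℕ → ℕ} (hn : S.Bd n) (hm : S.Bd m) (l : S.RV Ln) :
    S.av (fun i ω => (tubes n l).sz i ω - (tubes m l).sz i ω) = 2 * (S.nu n - S.nu m) := by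
  unfold Sys.av Sys.nu
  rw [← ulim_sub hn.ub hm.ub, ← ulim_const_mul 2 (hn.ub.sub hm.ub)]
  refine ulim_congr (Eventually.of_forall fun i => ?_)
  have h0 : (fun ω => (tubes n l).sz i ω - (tubes m l).sz i ω) =
      fun _ => ((n i : ℝ) + n i - (m i + m i)) := rfl
  show (S.P i).ex (fun ω => (tubes n l).sz i ω - (tubes m l).sz i ω) / (S.L i : ℝ) = _
  rw [h0, (S.P i).ex_const]
  ring

/-- excess of coarser tubes -/
theorem exc_tubes_le (hE : PExcCoarse) {m n : ℕ → ℕ} (hn : S.Bd n) (h : ∀ i, m i ≤ n i)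
    {l : S.RV Ln} (hl : LnA l) (C : S.RV γ) :
    S.exc (tubes m l) C ≤ S.exc (tubes n l) C + 2 * (S.nu n - S.nu m) -
      S.hc (tbs n l) (Sys.pr (tbs m l) C) := by
  have hm := bd_of_le hn h
  have h1 := hE S γ C (tubes n l) (tubes m l) (tubes_ok hn hl) (tubes_ok hm hl) (subA_tubes h l)
  have h2 : S.hc (tubes m l).lab (Sys.pr (tubes n l).lab C) = 0 := by
    refine hc_fn ?_
    filter_upwards [fn_lab m l, fn_tbs h l, fn_lab' n l] with i g1 g2 g3 ω ω' p p' e
    exact g1 ω ω' p p' (g2 ω ω' p p' (g3 ω ω' p p' (congrArg Prod.fst e)))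
  have h3 : S.hc (tubes n l).lab (Sys.pr (tubes m l).lab C) =
      S.hc (tbs n l) (Sys.pr (tbs m l) C) := by
    refine hc_congr ?_ ?_ ?_ ?_
    · filter_upwards [fn_lab n l] with i g1 ω ω' p p' e
      exact g1 ω ω' p p' (congrArg Prod.fst e)
    · filter_upwards [fn_lab' n l] with i g1 ω ω' p p' e
      exact g1 ω ω' p p' (congrArg Prod.fst e)
    · filter_upwards [fn_lab m l] with i g1 ω ω' p p' e
      simp only [pr_apply, Prod.mk.injEq] at e ⊢
      exact ⟨g1 ω ω' p p' e.1, e.2⟩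
    · filter_upwards [fn_lab' m l] with i g1 ω ω' p p' e
      simp only [pr_apply, Prod.mk.injEq] at e ⊢
      exact ⟨g1 ω ω' p p' e.1, e.2⟩
  rw [h2, h3, av_sz_tubes hn hm l] at h1
  linarith

/-- two ways to count the pairs (tube, point) -/
theorem h_point {n : ℕ → ℕ} (hn : S.Bd n) {l : S.RV Ln} {t : S.RV ℝ} (hl : LnA l) (ht : T01 t) :
    S.h (pqs n (pt l t)) = S.h (tbs n l) + S.hc (dg n t) (tbs n l) -
      S.hc (tbs n l) (pqs n (pt l t)) := by
  have T1 := tame_tbs hn hl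
  have T2 := tame_pt hn hl ht
  have h1 := mi_comm T1 T2 (one (S := S))
  unfold Sys.mi at h1
  have h2 := hc_pqs_pt hn hl ht (C := one (S := S))
  rw [h2] at h1
  rw [hc_one_right, hc_one_right] at h1
  unfold Sys.h
  linarith

end Coa

open Coa

theorem pCoarse_of (hE : PExcCoarse) : PCoarse := by
  intro N β hN hJ S l t hX c hc0 hc1
  have hl := hX.ln
  have ht := hX.t01
  have hq := hX.eq
  have hm : S.Bd (S.sc c) := bd_sc hc0
  have hle : ∀ i, S.sc c i ≤ S.L i := sc_le hc1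
  have hnu : S.nu (S.sc c) = c := nu_sc hc0
  have T1 := tame_tbs Bd_L hl
  have T1' := tame_tbs hm hl
  have T2 := tame_pt Bd_L hl ht
  have T2' := tame_pt hm hl ht
  -- the inequality at the scale `c`
  have j1 := hJ S Unit (one (S := S)) l (pt l t) (S.sc c) hm hl (in_tubes ht)
  rw [hc_pqs_pt hm hl ht, hc_one_right, hc_one_right, hnu] at j1
  -- the excess at the scale `c`
  have e1 := exc_tubes_le hE Bd_L hle hl (one (S := S))
  rw [hc_one_right, hnu, nu_L] at e1
  -- time digits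
  have d1 : S.hc (dg (S.sc c) t) (tbs S.L l) ≤ S.hc (dg (S.sc c) t) (tbs (S.sc c) l) :=
    hc_mono_right (tame_dg_t hm ht) (fn_tbs hle l)
  -- counting
  have c1 := h_point Bd_L hl ht
  have c2 := h_point hm hl ht
  -- tubes
  have b1 : S.h (tbs S.L l) = S.h (tbs (S.sc c) l) + S.hc (tbs S.L l) (tbs (S.sc c) l) := by
    have g1 := hc_pair T1' T1 (one (S := S))
    have g2 : S.hc (Sys.pr (tbs (S.sc c) l) (tbs S.L l)) (one (S := S)) = S.h (tbs S.L l) := by
      refine hc_congr ?_ ?_ ?_ ?_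
      · filter_upwards [fn_tbs hle l] with i g1 ω ω' p p' e
        have e1 := congrArg Prod.fst e
        exact Prod.ext (g1 ω ω' p p' e1) e1
      · exact Eventually.of_forall fun _ _ _ _ _ e => congrArg (fun q => q.1.2) e
      · exact Eventually.of_forall fun _ _ _ _ _ e => e
      · exact Eventually.of_forall fun _ _ _ _ _ e => e
    have g3 : S.hc (tbs S.L l) (Sys.pr (tbs (S.sc c) l) (one (S := S))) =
      S.hc (tbs S.L l) (tbs (S.sc c) l) := hc_one_right
    rw [g2, g3] at g1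
    exact g1
  -- points
  have p1 : S.h (pqs S.L (pt l t)) = S.h (pqs (S.sc c) (pt l t)) +
      S.hc (pqs S.L (pt l t)) (pqs (S.sc c) (pt l t)) := by
    have g1 := hc_pair T2' T2 (one (S := S))
    have g2 : S.hc (Sys.pr (pqs (S.sc c) (pt l t)) (pqs S.L (pt l t))) (one (S := S)) =
        S.h (pqs S.L (pt l t)) := by
      refine hc_congr ?_ ?_ ?_ ?_
      · filter_upwards [fn_pqs hle (pt l t)] with i g1 ω ω' p p' e
        have e1 := congrArg Prod.fst e
        exact Prod.ext (g1 ω ω' p p' e1) e1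
      · exact Eventually.of_forall fun _ _ _ _ _ e => congrArg (fun q => q.1.2) e
      · exact Eventually.of_forall fun _ _ _ _ _ e => e
      · exact Eventually.of_forall fun _ _ _ _ _ e => e
    have g3 : S.hc (pqs S.L (pt l t)) (Sys.pr (pqs (S.sc c) (pt l t)) (one (S := S))) =
      S.hc (pqs S.L (pt l t)) (pqs (S.sc c) (pt l t)) := hc_one_right
    rw [g2, g3] at g1
    exact g1
  unfold Df at hq ⊢
  rw [nu_L] at hq ⊢
  rw [hnu]
  have k1 : N * S.hc (dg (S.sc c) t) (tbs S.L l) ≤ N * S.hc (dg (S.sc c) t) (tbs (S.sc c) l) :=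
    mul_le_mul_of_nonneg_left d1 hN
  nlinarith

end Vale.Agent.P127.U
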