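import Vale.Agent.P127.U.PathU
import Vale.Agent.P127.U.H824.IncUse
import Vale.Agent.P127.U.H736.Nonat
import Vale.Agent.P127.U.ApxS

/-!
# P127 / U : the path of rule R*, digit form (helper823)

* `pw` : the word, `pw_card` : number of words.
* `Pd` : everything the rest of the proof needs of the path of the conditioned law.
* `path_of` : `Pd` for every value of a joint word `(pw, X)` of positive probability.
-/

set_option autoImplicit false

namespace Vale.Agent.P127.U.PathS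

open Finset Vale.Agent.P127 Vale.Agent.P127.Stk Vale.Agent.P127.U.Path

namespace Cnd

open Expl

variable {Ω : Type} [Fintype Ω] {α β γ : Type*}
variable {e : Expl Ω α β γ} {P Q : Law Ω} {E : List Lt} {p : ℝ} (h : Cnd e P Q E p)

include h

/-- **(P2), before the exit** : cost of the steps of the slope among the first `k` steps -/
theorem cost_upto (hJ : 0 < e.J) (h0 : 0 < e.thr) (h1 : e.thr ≤ 1) (M : ℝ)
    (hM0 : 0 ≤ M) (hM : ∀ a r, hc Q (e.vv (r + 1)) (e.K a r) ≤ M) {k : ℕ} (hk : k ≤ e.A + e.R)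
    (hA : ∀ j < k, e.ai E j < e.A) :
    ∑ j ∈ Finset.range k, (if e.ri E (j + 1) = e.ri E j + 1 then
        hc Q (e.vv (e.ri E j + 1)) (e.K (e.ai E j) (e.ri E j)) else 0) ≤
      e.R * Real.log (1 / e.thr) + (e.A / e.J : ℝ) * M := by
  classical
  set n := e.A + e.R with hn
  have a1 := h.cost_aux h0 h1 n 0 (Nat.zero_le _) (Nat.sub_zero n) (fun ω _ => pnd_zero ω)
  rw [h.ri_zero] at a1
  simp only [Nat.cast_zero, sub_zero] at a1
  rw [← hn, Nat.Ico_zero_eq_range] at a1
  set f : ℕ → ℝ := fun j => (if e.ri E (j + 1) = e.ri E j + 1 then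
        hc Q (e.vv (e.ri E j + 1)) (e.K (e.ai E j) (e.ri E j)) else 0) with hf
  set g : ℕ → ℝ := fun j => (if e.ri E (j + 1) = e.ri E j + 1 ∧ e.forced (E.drop (n - j)) then
        hc Q (e.vv (e.ri E j + 1)) (e.K (e.ai E j) (e.ri E j)) else 0) with hg
  have hfg : ∀ j, 0 ≤ f j - g j := by
    intro j
    have hc0 := hc_nonneg Q (e.vv (e.ri E j + 1)) (e.K (e.ai E j) (e.ri E j))
    simp only [hf, hg]
    by_cases h2 : e.ri E (j + 1) = e.ri E j + 1 ∧ e.forced (E.drop (n - j))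
    · rw [if_pos h2, if_pos h2.1, sub_self]
    · rw [if_neg h2, sub_zero]
      split_ifs
      · exact hc0
      · exact le_rfl
  have a2 : ∑ j ∈ Finset.range k, (f j - g j) ≤ ∑ j ∈ Finset.range n, (f j - g j) :=
    Finset.sum_le_sum_of_subset_of_nonneg (Finset.range_mono hk) fun j _ _ => hfg j
  rw [Finset.sum_sub_distrib, Finset.sum_sub_distrib] at a2
  set F : ℕ → Prop := fun j => e.ri E (j + 1) = e.ri E j + 1 ∧
      e.J ≤ (E.drop (n - j)).length ∧ ∀ b ∈ (E.drop (n - j)).take e.J, b = Lt.a with hF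
  have key : ∀ j ∈ Finset.range k, g j ≤ (if F j then M else 0) := by
    intro j hj
    have hj' : j < k := Finset.mem_range.1 hj
    simp only [hg]
    by_cases hr : e.ri E (j + 1) = e.ri E j + 1 ∧ e.forced (E.drop (n - j))
    · rw [if_pos hr]
      rcases hr.2 with h3 | h3
      · exfalso
        have h4 := hA j hj'
        unfold Expl.ai at h4
        rw [← hn] at h4
        omega
      · have h4 : F j := ⟨hr.1, h3⟩
        rw [if_pos h4]
        exact hM (e.ai E j) (e.ri E j)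
    · rw [if_neg hr]
      by_cases hf : F j
      · rw [if_pos hf]; exact hM0
      · rw [if_neg hf]
  have a3 := Finset.sum_le_sum key
  have s2 : ∑ j ∈ Finset.range k, (if F j then M else 0) ≤ (e.A / e.J : ℝ) * M := by
    rw [← Finset.sum_filter, Finset.sum_const, nsmul_eq_mul]
    refine mul_le_mul_of_nonneg_right ?_ hM0
    have hJ' : (0 : ℝ) < e.J := by exact_mod_cast hJ
    rw [le_div_iff₀ hJ']
    have h5 := h.forced_card k hk
    have h8 := h.ai_le hk
    have h6 : e.J * ((Finset.range k).filter F).card ≤ e.A := by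
      have : (Finset.range k).filter F = (Finset.range k).filter
        (fun j => e.ri E (j + 1) = e.ri E j + 1 ∧
          e.J ≤ (E.drop (e.A + e.R - j)).length ∧
          ∀ b ∈ (E.drop (e.A + e.R - j)).take e.J, b = Lt.a) := rfl
      rw [this]
      omega
    have h7 : ((e.J * ((Finset.range k).filter F).card : ℕ) : ℝ) ≤ e.A := by exact_mod_cast h6
    push_cast at h7
    linarith
  linarith

end Cnd

end Vale.Agent.P127.U.PathS

namespace Vale.Agent.P127.U.PathD

open Finset Vale.Agent.P127 Vale.Agent.P127.Stk Vale.Agent.P127.U Vale.Agent.P127.U.Inc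
  Vale.Agent.P127.U.Mic Vale.Agent.P127.U.PathS

variable {Ω : Type} [Fintype Ω]

/-- the threshold for one block -/
noncomputable def th (c : ℝ) (m : ℕ) : ℝ := Real.exp (-(c * (m * Real.log 2)))

/-- exploration by blocks of `m` digits -/
noncomputable def dgx (l : Ω → Ln) (t v : Ω → ℝ) (n m A R J : ℕ) (c : ℝ) :
    Expl Ω ((Fin 2 → ℤ) × (Fin 2 → ℤ)) ℤ ℤ where
  Lv := fun ω => tb n (l ω)
  tt := fun k ω => fl1 (m * k) (t ω)
  vv := fun k ω => fl1 (m * k) (v ω)
  A := A
  R := R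
  J := J
  thr := th c m
  hT := fun a _ _ h => Apx.fl1_of_fl1 (Nat.mul_le_mul_left m (Nat.le_succ a)) h
  hV := fun a _ _ h => Apx.fl1_of_fl1 (Nat.mul_le_mul_left m (Nat.le_succ a)) h

/-- **the word of the path** -/
noncomputable def pw (P : Law Ω) (l : Ω → Ln) (t v : Ω → ℝ) (n m A R J : ℕ) (c : ℝ) : Ω → List Lt :=
  (dgx l t v n m A R J c).pat P (A + R)

/-- number of words -/
theorem pw_card (P : Law Ω) (l : Ω → Ln) (t v : Ω → ℝ) (n m A R J : ℕ) (c : ℝ) :
    (img (pw P l t v n m A R J c)).card ≤ 2 ^ (2 * (A + R)) := by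
  classical
  set f : List Lt → List (Fin 4) := fun w => w.map cd with hf
  have hinj : Function.Injective f := List.map_injective_iff.2 cd_inj
  have h1 : (img (pw P l t v n m A R J c)).card = ((img (pw P l t v n m A R J c)).image f).card :=
    (Finset.card_image_of_injective _ hinj).symm
  rw [h1]
  have h2 : (img (pw P l t v n m A R J c)).image f ⊆
      (Finset.univ : Finset (List.Vector (Fin 4) (A + R))).image List.Vector.toList := by
    intro w hw
    rw [Finset.mem_image] at hw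
    obtain ⟨w', hw', rfl⟩ := hw
    rw [mem_img] at hw'
    obtain ⟨ω, rfl⟩ := hw'
    refine Finset.mem_image.2 ⟨⟨f (pw P l t v n m A R J c ω), ?_⟩, Finset.mem_univ _, rfl⟩
    rw [hf, List.length_map]
    exact Expl.pat_length _ _
  refine (Finset.card_le_card h2).trans (Finset.card_image_le.trans ?_)
  have h3 : (Finset.univ : Finset (List.Vector (Fin 4) (A + R))).card = 4 ^ (A + R) := by
    rw [Finset.card_univ, card_vector, Fintype.card_fin]
  rw [h3, pow_mul]
  exact le_rfl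

/-- **the path of the conditioned law `Q`** : levels `α i` of the time and `ρ i` of the slope after `i`
steps, `H i` = what the rule knows -/
structure Pd (P Q : Law Ω) (l : Ω → Ln) (t v : Ω → ℝ) (n m A R J : ℕ) (c p : ℝ) (α ρ : ℕ → ℕ)
    {T : Type} (H : ℕ → Ω → T) : Prop where
  hp : 0 < p
  dom : ∀ ω, p * Q.w ω ≤ P.w ω
  ma : Monotone α
  mr : Monotone ρ
  a0 : α 0 = 0
  r0 : ρ 0 = 0
  a1 : α (A + R) = m * A
  r1 : ρ (A + R) = m * R
  add : ∀ i ≤ A + R, α i + ρ i = m * i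
  step : ∀ i < A + R, (α (i + 1) = α i + m ∧ ρ (i + 1) = ρ i) ∨
    (α (i + 1) = α i ∧ ρ (i + 1) = ρ i + m)
  forced : ∀ i, i + (J + 1) ≤ A + R → ρ i < m * R → ρ i < ρ (i + (J + 1))
  hH : ∀ i i', i ≤ i' → ∀ ω ω', H i' ω = H i' ω' → H i ω = H i ω'
  hk : ∀ i ≤ A + R, ∀ ω ω', 0 < Q.w ω → H i ω = H i ω' → tb n (l ω) = tb n (l ω') ∧
    st t v (α i) (ρ i) ω = st t v (α i) (ρ i) ω'
  HQ : ∀ i ≤ A + R, ∀ ω ω', 0 < Q.w ω → 0 < Q.w ω' → tb n (l ω) = tb n (l ω') →
    st t v (α i) (ρ i) ω = st t v (α i) (ρ i) ω' → H i ω = H i ω'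
  thin : ∀ i < A + R, α i < α (i + 1) → ∀ j, 1 ≤ j → ρ i + j * m ≤ m * R → ∀ ω, 0 < Q.w ω →
    Nonat.cp P (fun ω => fl1 (ρ i + j * m) (v ω)) (H i) ω ≤ Real.exp (-(c * (j * m * Real.log 2)))
  cv : ∀ k ≤ A + R, (∀ i < k, ρ i < m * R) → ∀ ε, th c m < ε →
    ∑ i ∈ (range k).filter (fun i => α i < α (i + 1)),
      colp Q (fun ω => fl1 (ρ i + m) (v ω)) (fun ω => (tb n (l ω), st t v (α i) (ρ i) ω)) ≤
    (A + R : ℕ) * ε + ((J + 1) * Real.log (1 / p) + (A + R : ℕ)) / Real.log (ε / th c m)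
  cost : ∀ k ≤ A + R, (∀ j < k, α j < m * A) → Bud.cost Q l t v n α ρ k ≤
    Real.log 6 + R * (c * (m * Real.log 2)) + (A / J : ℝ) * (m * Real.log 2)

/-- the probability depends only on the event -/
theorem pr_event {S S' : Type*} (P : Law Ω) (X : Ω → S) (X' : Ω → S') (x : S) (x' : S')
    (h : ∀ ω, X ω = x ↔ X' ω = x') : P.pr X x = P.pr X' x' := by
  classical
  unfold Law.pr
  refine Finset.sum_congr ?_ fun _ _ => rfl
  ext ω
  simp only [Finset.mem_filter, Finset.mem_univ, true_and]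
  exact h ω

theorem na_drop_anti (E : List Lt) {k k' : ℕ} (h : k ≤ k') : na (E.drop k') ≤ na (E.drop k) := by
  obtain ⟨d, rfl⟩ := Nat.exists_eq_add_of_le h
  rw [← List.drop_drop]
  exact (List.drop_sublist _ _).countP_le

theorem nr_drop_anti (E : List Lt) {k k' : ℕ} (h : k ≤ k') : nr (E.drop k') ≤ nr (E.drop k) := by
  obtain ⟨d, rfl⟩ := Nat.exists_eq_add_of_le h
  rw [← List.drop_drop]
  exact (List.drop_sublist _ _).countP_le

theorem log_th (c : ℝ) (m : ℕ) : Real.log (1 / th c m) = c * (m * Real.log 2) := by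
  unfold th
  rw [one_div, Real.log_inv, Real.log_exp, neg_neg]

/-- one block of digits of the slope -/
theorem hc_blk_le (Q : Law Ω) (l : Ω → Ln) (t v : Ω → ℝ) (n m A R J : ℕ) (c : ℝ) (a r : ℕ) :
    hc Q ((dgx l t v n m A R J c).vv (r + 1)) ((dgx l t v n m A R J c).K a r) ≤
      m * Real.log 2 := by
  have h1 := hc_fl1_digits_le Q (Nat.mul_le_mul_left m (Nat.le_succ r)) v (fun _ => ())
  have e1 : m * (r + 1) - m * r = m := by
    rw [Nat.mul_add, Nat.mul_one]
    omega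
  rw [e1] at h1
  refine le_trans (hc_mono_right Q _ ?_) h1
  intro ω ω' _ _ e
  simp only [dgx, Expl.K, Prod.mk.injEq] at e
  exact Prod.ext e.2.2 rfl

/-- the first digits -/
theorem hc_start_le (Q : Law Ω) (l : Ω → Ln) (t v : Ω → ℝ) (n : ℕ)
    (ht : ∀ ω, 0 < Q.w ω → 0 ≤ t ω ∧ t ω ≤ 1) (hv : ∀ ω, 0 < Q.w ω → |v ω| ≤ 1) :
    hc Q (st t v 0 0) (fun ω => tb n (l ω)) ≤ Real.log 6 := by
  have h1 := hc_le_log Q (st t v 0 0) (fun ω => tb n (l ω)) 6 (fun ω _ => by
    refine ⟨({0, 1} : Finset ℤ) ×ˢ ({-1, 0, 1} : Finset ℤ), by decide, fun ω' hω' _ => ?_⟩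
    have h2 := ht ω' hω'
    have h3 := abs_le.1 (hv ω' hω')
    unfold st fl1
    simp only [pow_zero, one_mul, Finset.mem_product, Finset.mem_insert, Finset.mem_singleton]
    refine ⟨?_, ?_⟩
    · rcases h2.2.eq_or_lt with h4 | h4
      · right
        rw [h4]
        exact Int.floor_one
      · left
        exact Int.floor_eq_zero_iff.2 ⟨h2.1, h4⟩
    · rcases h3.2.eq_or_lt with h4 | h4
      · right
        right
        rw [h4]
        exact Int.floor_one
      · rcases lt_or_ge (v ω') 0 with h5 | h5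
        · left
          rw [Int.floor_eq_iff]
          push_cast
          exact ⟨h3.1, by linarith⟩
        · right
          left
          exact Int.floor_eq_zero_iff.2 ⟨h5, h4⟩)
  exact_mod_cast h1

/-- **PATH** -/
theorem path_cnd_q {P Q : Law Ω} {l : Ω → Ln} {t v : Ω → ℝ} {n m A R J : ℕ} {c p : ℝ} {E : List Lt}
    (hC : Cnd (dgx l t v n m A R J c) P Q E p) (hm : 1 ≤ m) (hJ : 1 ≤ J) (hc0 : 0 < c)
    (ht : ∀ ω, 0 < Q.w ω → 0 ≤ t ω ∧ t ω ≤ 1) (hv : ∀ ω, 0 < Q.w ω → |v ω| ≤ 1) :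
    Pd P Q l t v n m A R J c p (fun i => m * (dgx l t v n m A R J c).ai E i)
      (fun i => m * (dgx l t v n m A R J c).ri E i)
      (fun i => (dgx l t v n m A R J c).kk ((dgx l t v n m A R J c).pat P i)) := by
  classical
  set e := dgx l t v n m A R J c with he
  have hl2 : 0 < Real.log 2 := Real.log_pos (by norm_num)
  have hm0 : 0 < m := hm
  have hmr : (0 : ℝ) < m := by exact_mod_cast hm0
  have hth0 : 0 < e.thr := Real.exp_pos _
  have hth1 : e.thr ≤ 1 := by
    show Real.exp _ ≤ 1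
    rw [Real.exp_le_one_iff]
    have : 0 < c * (m * Real.log 2) := by positivity
    linarith
  have hAR : e.A + e.R = A + R := rfl
  have hac := hC.ac
  refine ⟨hC.hp, ?_, ?_, ?_, ?_, ?_, ?_, ?_, ?_, ?_, ?_, ?_, ?_, ?_, ?_, ?_, ?_⟩
  · intro ω
    have h1 := hC.hw ω
    rw [le_div_iff₀ hC.hp] at h1
    linarith
  · intro i i' hi
    exact Nat.mul_le_mul_left m (na_drop_anti E (by omega))
  · intro i i' hi
    exact Nat.mul_le_mul_left m (nr_drop_anti E (by omega))
  · show m * e.ai E 0 = 0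
    rw [hC.ai_zero, Nat.mul_zero]
  · show m * e.ri E 0 = 0
    rw [hC.ri_zero, Nat.mul_zero]
  · show m * e.ai E (e.A + e.R) = m * A
    rw [hC.ai_top]
    rfl
  · show m * e.ri E (e.A + e.R) = m * R
    rw [hC.ri_top]
    rfl
  · intro i hi
    show m * e.ai E i + m * e.ri E i = m * i
    rw [← Nat.mul_add, hC.ai_add_ri hi]
  · intro i hi
    show (m * e.ai E (i + 1) = m * e.ai E i + m ∧ m * e.ri E (i + 1) = m * e.ri E i) ∨
      (m * e.ai E (i + 1) = m * e.ai E i ∧ m * e.ri E (i + 1) = m * e.ri E i + m)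
    rcases hC.step_cases hi with ⟨h1, h2⟩ | ⟨h1, h2⟩
    · left
      rw [h1, h2]
      exact ⟨by ring, rfl⟩
    · right
      rw [h1, h2]
      exact ⟨rfl, by ring⟩
  · intro i hi hr
    have h1 : e.ri E i < e.R := lt_of_mul_lt_mul_left hr (Nat.zero_le m)
    exact Nat.mul_lt_mul_of_pos_left (hC.ri_step hi h1) hm0
  · intro i i' hi ω ω' h
    obtain ⟨k, rfl⟩ := Nat.exists_eq_add_of_le hi
    exact Expl.kk_mono i k h
  · -- hk
    intro i hi ω ω' hω h
    obtain ⟨h1, h5⟩ := Prod.mk.inj h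
    have h2 : na (e.pat P i ω) = e.ai E i := hC.ai_eq hω hi
    have h3 : nr (e.pat P i ω) = e.ri E i := hC.ri_eq hω hi
    rw [← h1, h2, h3] at h5
    exact Prod.mk.inj h5
  · -- HQ
    intro i hi ω ω' hω hω' h1 h2
    exact hC.fn_kk hi ω ω' hω hω' (Prod.ext h1 h2)
  · -- thin
    intro i hi ha j hj hR ω hω
    have hi' : i < e.A + e.R := hi
    have h1 : e.ai E i < e.ai E (i + 1) := lt_of_mul_lt_mul_left ha (Nat.zero_le m)
    have h2 : e.ai E (i + 1) = e.ai E i + 1 := by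
      rcases hC.step_cases hi' with ⟨h3, _⟩ | ⟨h3, _⟩ <;> omega
    have h3 : e.ri E i + j ≤ e.R := by
      have h4 : m * (e.ri E i + j) ≤ m * R := by
        rw [Nat.mul_add, Nat.mul_comm m j]
        exact hR
      exact le_of_mul_le_mul_left h4 hm0
    have h4 := hC.thin_lt hi' (hC.thin_of_a hi' h2) hj h3 hω
    have h5 : e.thr ^ j = Real.exp (-(c * (j * m * Real.log 2))) := by
      show Real.exp (-(c * (m * Real.log 2))) ^ j = _
      rw [← Real.exp_nat_mul]
      congr 1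
      ring
    rw [h5] at h4
    refine le_trans (le_of_eq ?_) h4.le
    -- the variable is the same where the past is the same
    unfold Nonat.cp Path.cp
    congr 1
    refine pr_event P _ _ _ _ fun ω' => ?_
    simp only [Prod.mk.injEq]
    have key : ∀ ω', e.kk (e.pat P i) ω' = e.kk (e.pat P i) ω →
        e.vx (e.pat P i) j ω' = fl1 (m * e.ri E i + j * m) (v ω') := by
      intro ω' h6
      have h7 : e.pat P i ω' = e.pat P i ω := (Prod.mk.inj h6).1
      unfold Expl.vx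
      rw [h7, hC.ri_eq hω hi'.le]
      show fl1 (m * (e.ri E i + j)) (v ω') = _
      rw [Nat.mul_add, Nat.mul_comm m j]
    constructor
    · rintro ⟨h6, h7⟩
      rw [key ω' h7, key ω rfl]
      exact ⟨h6, h7⟩
    · rintro ⟨h6, h7⟩
      rw [key ω' h7, key ω rfl] at h6
      exact ⟨h6, h7⟩
  · -- cv
    intro k hk hR ε hε
    have h1 := hC.coll_total hth0 hε
    refine le_trans ?_ h1
    rw [Finset.sum_filter]
    have h2 : ∀ i ∈ range (e.A + e.R), 0 ≤ (if e.ai E (i + 1) = e.ai E i + 1 ∧ e.ri E i < e.R then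
        Path.coll Q (e.vv (e.ri E i + 1)) (e.K (e.ai E i) (e.ri E i)) else 0) := by
      intro i _
      split_ifs
      · exact Path.coll_nonneg _ _ _
      · exact le_rfl
    refine le_trans (Finset.sum_le_sum fun i hi => ?_)
      (Finset.sum_le_sum_of_subset_of_nonneg (Finset.range_mono hk) fun i hi _ => h2 i hi)
    have hik : i < k := Finset.mem_range.1 hi
    have hi' : i < e.A + e.R := lt_of_lt_of_le hik hk
    by_cases hs : m * e.ai E i < m * e.ai E (i + 1)
    · rw [if_pos hs]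
      have h3 : e.ai E i < e.ai E (i + 1) := lt_of_mul_lt_mul_left hs (Nat.zero_le m)
      have h4 : e.ai E (i + 1) = e.ai E i + 1 := by
        rcases hC.step_cases hi' with ⟨h5, _⟩ | ⟨h5, _⟩ <;> omega
      have h5 : e.ri E i < e.R := lt_of_mul_lt_mul_left (hR i hik) (Nat.zero_le m)
      rw [if_pos ⟨h4, h5⟩]
      have h6 : m * e.ri E i + m = m * (e.ri E i + 1) := by ring
      rw [h6]
      exact le_rfl
    · rw [if_neg hs]
      exact h2 i (Finset.mem_range.2 hi')
  · -- cost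
    intro k hk hA
    have h1 := hC.cost_upto hJ hth0 hth1 (m * Real.log 2) (by positivity)
      (fun a r => hc_blk_le Q l t v n m A R J c a r) hk
      (fun j hj => lt_of_mul_lt_mul_left (hA j hj) (Nat.zero_le m))
    have h2 : hc Q (st t v (m * e.ai E 0) (m * e.ri E 0)) (fun ω => tb n (l ω)) ≤ Real.log 6 := by
      rw [hC.ai_zero, hC.ri_zero]
      exact hc_start_le Q l t v n ht hv
    have h3 : ∑ j ∈ range k, hc Q (fun ω => fl1 (m * e.ri E (j + 1)) (v ω))
        (fun ω => (tb n (l ω), st t v (m * e.ai E j) (m * e.ri E j) ω)) ≤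
        ∑ j ∈ Finset.range k, (if e.ri E (j + 1) = e.ri E j + 1 then
        hc Q (e.vv (e.ri E j + 1)) (e.K (e.ai E j) (e.ri E j)) else 0) := by
      refine Finset.sum_le_sum fun j hj => ?_
      have hj' : j < e.A + e.R := lt_of_lt_of_le (Finset.mem_range.1 hj) hk
      rcases hC.step_cases hj' with ⟨h4, h5⟩ | ⟨h4, h5⟩
      · rw [if_neg (by omega), h5]
        refine le_of_eq (hc_zero Q fun ω ω' _ _ h6 => ?_)
        exact congrArg (fun x => x.2.2) h6
      · rw [if_pos h5, h5]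
        exact le_rfl
    unfold Bud.cost
    have h4 : Real.log (1 / e.thr) = c * (m * Real.log 2) := log_th c m
    rw [h4] at h1
    have h5 : (e.R : ℝ) = R := rfl
    have h6 : (e.A : ℝ) = A := rfl
    have h7 : (e.J : ℝ) = J := rfl
    rw [h5, h6, h7] at h1
    linarith

/-- **PATH**, with the normalisation on the support of `P` -/
theorem path_cnd {P Q : Law Ω} {l : Ω → Ln} {t v : Ω → ℝ} {n m A R J : ℕ} {c p : ℝ} {E : List Lt}
    (hC : Cnd (dgx l t v n m A R J c) P Q E p) (hm : 1 ≤ m) (hJ : 1 ≤ J) (hc0 : 0 < c)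
    (ht : ∀ ω, 0 < P.w ω → 0 ≤ t ω ∧ t ω ≤ 1) (hv : ∀ ω, 0 < P.w ω → |v ω| ≤ 1) :
    Pd P Q l t v n m A R J c p (fun i => m * (dgx l t v n m A R J c).ai E i)
      (fun i => m * (dgx l t v n m A R J c).ri E i)
      (fun i => (dgx l t v n m A R J c).kk ((dgx l t v n m A R J c).pat P i)) :=
  path_cnd_q hC hm hJ hc0 (fun ω hω => ht ω (hC.ac ω hω)) (fun ω hω => hv ω (hC.ac ω hω))

/-- **PATH, joint word** -/
theorem path_of {P : Law Ω} {l : Ω → Ln} {t v : Ω → ℝ} {n m A R J : ℕ} {c : ℝ}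
    (hm : 1 ≤ m) (hJ : 1 ≤ J) (hc0 : 0 < c)
    (ht : ∀ ω, 0 < P.w ω → 0 ≤ t ω ∧ t ω ≤ 1) (hv : ∀ ω, 0 < P.w ω → |v ω| ≤ 1)
    {δ : Type} (X : Ω → δ) (E : List Lt) (x : δ)
    (h : 0 < P.pr (fun ω => (pw P l t v n m A R J c ω, X ω)) (E, x)) :
    ∃ (α ρ : ℕ → ℕ) (T : Type) (H : ℕ → Ω → T),
      Pd P (P.cond (fun ω => (pw P l t v n m A R J c ω, X ω)) (E, x)) l t v n m A R J c
        (P.pr (fun ω => (pw P l t v n m A R J c ω, X ω)) (E, x)) α ρ H :=
  ⟨_, _, _, _, path_cnd (cnd_of (dgx l t v n m A R J c) P X E x h) hm hJ hc0 ht hv⟩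

end Vale.Agent.P127.U.PathD
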