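import Vale.Agent.P127.U.ExistA

/-!
# P127 / U : best constant and extremal system (helper404)
-/

set_option autoImplicit false

namespace Vale.Agent.P127.U.Ex

open Finset Filter Topology Vale.Agent.P127 Vale.Agent.P127.Stk Vale.Agent.P127.U

theorem jf_mono {N b b' : ℝ} (h : JF N b) (hb : b ≤ b') : JF N b' := by
  intro ε hε
  obtain ⟨K, hK⟩ := h ε hε
  refine ⟨K, fun Ω _ P l t n hg => (hK Ω P l t n hg).trans ?_⟩
  have h0 : 0 ≤ (n:ℝ) * Real.log 2 := mul_nonneg (Nat.cast_nonneg _) (Real.log_nonneg (by norm_num))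
  have h1 : (b + ε) * n * Real.log 2 ≤ (b' + ε) * n * Real.log 2 := by
    rw [mul_assoc, mul_assoc]
    exact mul_le_mul_of_nonneg_right (by linarith) h0
  linarith

/-- the set of admissible rates is closed -/
theorem jf_closed {N β : ℝ} (h : ∀ ε : ℝ, 0 < ε → ∃ b : ℝ, b < β + ε ∧ JF N b) : JF N β := by
  intro ε hε
  obtain ⟨b, hb, hJ⟩ := h (ε / 2) (by linarith)
  obtain ⟨K, hK⟩ := hJ (ε / 2) (by linarith)
  refine ⟨K, fun Ω _ P l t n hg => (hK Ω P l t n hg).trans ?_⟩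
  have h0 : 0 ≤ (n:ℝ) * Real.log 2 := mul_nonneg (Nat.cast_nonneg _) (Real.log_nonneg (by norm_num))
  have h1 : (b + ε / 2) * n * Real.log 2 ≤ (β + ε) * n * Real.log 2 := by
    rw [mul_assoc, mul_assoc]
    exact mul_le_mul_of_nonneg_right (by linarith) h0
  linarith

/-- a violating configuration for `b < β` -/
theorem jf_not {N b : ℝ} (h : ¬ JF N b) (K : ℝ) : ∃ (Ω : Type) (_ : Fintype Ω) (P : Law Ω) (l : Ω → Ln)
    (t : Ω → ℝ) (n : ℕ), (∀ ω, 0 < P.w ω → LnOk (l ω) ∧ 0 ≤ t ω ∧ t ω ≤ 1) ∧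
      b * (n * Real.log 2) + K + excF P (tbx n l) (fun _ => ()) +
        N * (n * Real.log 2 - Stk.hc P (fun ω => fl1 n (t ω)) (fun ω => tb n (l ω))) <
      Stk.hc P (fun ω => tb n (l ω)) (fun ω => pq n (t ω, pos (l ω) (t ω))) := by
  unfold JF at h
  push Not at h
  obtain ⟨ε, hε, h⟩ := h
  obtain ⟨Ω, hf, P, l, t, n, hg, hlt⟩ := h K
  refine ⟨Ω, hf, P, l, t, n, hg, lt_of_le_of_lt ?_ hlt⟩
  have h0 : 0 ≤ (n:ℝ) * Real.log 2 := mul_nonneg (Nat.cast_nonneg _) (Real.log_nonneg (by norm_num))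
  have h1 : b * (n * Real.log 2) ≤ (b + ε) * n * Real.log 2 := by
    rw [mul_assoc]
    exact mul_le_mul_of_nonneg_right (by linarith) h0
  linarith

/-- upper bound for systems from `JF` -/
theorem sys_le {N β : ℝ} (hJ : JF N β) {S : Sys} {l : S.RV Ln} {t : S.RV ℝ} (hl : Sys.LnA l) (ht : Sys.T01 t) :
    S.hc (Sys.tbs S.L l) (Sys.pqs S.L (Sys.pt l t)) ≤
      β + S.exc (Sys.tubes S.L l) (Sys.one (S := S)) + N * Sys.Df l t S.L := by
  have hB : S.Bd S.L := ⟨1, Eventually.of_forall fun i => by rw [one_mul]⟩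
  have uA : UB fun i => Stk.hc (S.P i) (Sys.tbs S.L l i) (Sys.pqs S.L (Sys.pt l t) i) / S.nm i :=
    Sys.UB.hc (Apx.tame_tbs hB hl) _
  have ok : Sys.BxA (Sys.tubes S.L l) := by
    refine ⟨?_, 1, ?_⟩
    · filter_upwards [hl] with i hi ω hω
      exact tbx_ok (hi ω hω)
    · refine Eventually.of_forall fun i ω _ => ?_
      show (((S.L i : ℕ) : ℝ)) ≤ 1 * (S.L i : ℝ)
      rw [one_mul]
  have uE : UB fun i => excF (S.P i) (Sys.tubes S.L l i) (Sys.one (S := S) i) / S.nm i := Sys.ub_exc ok _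
  have uD : UB fun i => Stk.hc (S.P i) (Sys.dg S.L t i) (Sys.tbs S.L l i) / S.nm i :=
    Sys.UB.hc (Apx.tame_dg hB ht) _
  have eNu : S.nu S.L = 1 := by
    unfold Sys.nu
    refine (ulim_congr ?_).trans (ulim_const 1)
    filter_upwards [S.L_pos] with i hi
    have : (0 : ℝ) < S.L i := by exact_mod_cast hi
    exact div_self this.ne'
  have eD : Sys.Df l t S.L = ulim fun i => 1 - Stk.hc (S.P i) (Sys.dg S.L t i) (Sys.tbs S.L l i) / S.nm i := by
    rw [ulim_sub (UB.const 1) uD, ulim_const]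
    unfold Sys.Df
    rw [eNu]
    rfl
  have uD' := (UB.const 1).sub uD
  refine le_of_forall_pos_le_add fun ε hε => ?_
  obtain ⟨K, hK⟩ := hJ ε hε
  have e1 : β + S.exc (Sys.tubes S.L l) (Sys.one (S := S)) + N * Sys.Df l t S.L + ε =
      ulim fun i => ((β + ε) + excF (S.P i) (Sys.tubes S.L l i) (Sys.one (S := S) i) / S.nm i) +
        N * (1 - Stk.hc (S.P i) (Sys.dg S.L t i) (Sys.tbs S.L l i) / S.nm i) := by
    rw [ulim_add ((UB.const (β + ε)).add uE) (UB.const_mul N uD'), ulim_add (UB.const (β + ε)) uE, ulim_const,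
      ulim_const_mul N uD', eD]
    unfold Sys.exc
    ring
  rw [e1]
  unfold Sys.hc
  refine ulim_le_of_sub uA (((UB.const (β + ε)).add uE).add (UB.const_mul N uD')) (S.const_div_nm K) ?_
  filter_upwards [S.nm_pos, hl, ht] with i hi h1 h2
  have h3 := hK (S.Ω i) (S.P i) (l i) (t i) (S.L i) (fun ω hω => ⟨h1 ω hω, h2 ω hω⟩)
  have enm : S.nm i = (S.L i : ℝ) * Real.log 2 := rfl
  have h4 : (β + ε) * (S.L i) * Real.log 2 + K + excF (S.P i) (tbx (S.L i) (l i)) (fun _ => ()) +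
      N * ((S.L i) * Real.log 2 - Stk.hc (S.P i) (fun ω => fl1 (S.L i) (t i ω)) (fun ω => tb (S.L i) (l i ω))) =
      (((β + ε) + excF (S.P i) (Sys.tubes S.L l i) (Sys.one (S := S) i) / S.nm i) +
        N * (1 - Stk.hc (S.P i) (Sys.dg S.L t i) (Sys.tbs S.L l i) / S.nm i) + K / S.nm i) * S.nm i := by
    have e2 : excF (S.P i) (Sys.tubes S.L l i) (Sys.one (S := S) i) = excF (S.P i) (tbx (S.L i) (l i)) (fun _ => ()) := rfl
    have e3 : Stk.hc (S.P i) (Sys.dg S.L t i) (Sys.tbs S.L l i) =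
      Stk.hc (S.P i) (fun ω => fl1 (S.L i) (t i ω)) (fun ω => tb (S.L i) (l i ω)) := rfl
    rw [e2, e3, ← enm, mul_assoc (β + ε), ← enm]
    field_simp
    ring
  rw [h4] at h3
  rw [div_le_iff₀ hi]
  exact h3

/-- lower bound for a violating sequence -/
theorem sys_ge {N β : ℝ} {S : Sys} {l : S.RV Ln} {t : S.RV ℝ} (hl : Sys.LnA l) (ht : Sys.T01 t) {b : ℕ → ℝ}
    (hb : Tendsto b (uf : Filter ℕ) (𝓝 β))
    (h : ∀ᶠ i in (uf : Filter ℕ), b i * S.nm i + excF (S.P i) (Sys.tubes S.L l i) (Sys.one (S := S) i) +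
      N * (S.nm i - Stk.hc (S.P i) (Sys.dg S.L t i) (Sys.tbs S.L l i)) ≤
        Stk.hc (S.P i) (Sys.tbs S.L l i) (Sys.pqs S.L (Sys.pt l t) i)) :
    β + S.exc (Sys.tubes S.L l) (Sys.one (S := S)) + N * Sys.Df l t S.L ≤
      S.hc (Sys.tbs S.L l) (Sys.pqs S.L (Sys.pt l t)) := by
  have hB : S.Bd S.L := ⟨1, Eventually.of_forall fun i => by rw [one_mul]⟩
  have uA : UB fun i => Stk.hc (S.P i) (Sys.tbs S.L l i) (Sys.pqs S.L (Sys.pt l t) i) / S.nm i :=
    Sys.UB.hc (Apx.tame_tbs hB hl) _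
  have ok : Sys.BxA (Sys.tubes S.L l) := by
    refine ⟨?_, 1, ?_⟩
    · filter_upwards [hl] with i hi ω hω
      exact tbx_ok (hi ω hω)
    · refine Eventually.of_forall fun i ω _ => ?_
      show (((S.L i : ℕ) : ℝ)) ≤ 1 * (S.L i : ℝ)
      rw [one_mul]
  have uE : UB fun i => excF (S.P i) (Sys.tubes S.L l i) (Sys.one (S := S) i) / S.nm i := Sys.ub_exc ok _
  have uD : UB fun i => Stk.hc (S.P i) (Sys.dg S.L t i) (Sys.tbs S.L l i) / S.nm i :=
    Sys.UB.hc (Apx.tame_dg hB ht) _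
  have eNu : S.nu S.L = 1 := by
    unfold Sys.nu
    refine (ulim_congr ?_).trans (ulim_const 1)
    filter_upwards [S.L_pos] with i hi
    have : (0 : ℝ) < S.L i := by exact_mod_cast hi
    exact div_self this.ne'
  have eD : Sys.Df l t S.L = ulim fun i => 1 - Stk.hc (S.P i) (Sys.dg S.L t i) (Sys.tbs S.L l i) / S.nm i := by
    rw [ulim_sub (UB.const 1) uD, ulim_const]
    unfold Sys.Df
    rw [eNu]
    rfl
  have uD' := (UB.const 1).sub uD
  have ub : UB b := UB.of_tendsto hb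
  have e1 : β + S.exc (Sys.tubes S.L l) (Sys.one (S := S)) + N * Sys.Df l t S.L =
      ulim fun i => (b i + excF (S.P i) (Sys.tubes S.L l i) (Sys.one (S := S) i) / S.nm i) +
        N * (1 - Stk.hc (S.P i) (Sys.dg S.L t i) (Sys.tbs S.L l i) / S.nm i) := by
    rw [ulim_add (ub.add uE) (UB.const_mul N uD'), ulim_add ub uE, ulim_eq hb, ulim_const_mul N uD', eD]
    unfold Sys.exc
    ring
  rw [e1]
  unfold Sys.hc
  refine ulim_le ((ub.add uE).add (UB.const_mul N uD')) uA ?_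
  filter_upwards [S.nm_pos, h] with i hi h1
  rw [le_div_iff₀ hi]
  refine le_trans (le_of_eq ?_) h1
  field_simp

theorem pExist : PExist := by
  intro N hN
  set A : Set ℝ := {b | 0 ≤ b ∧ JF N b} with hA
  have hne : A.Nonempty := ⟨2, by norm_num, jf_two hN⟩
  have hbd : BddBelow A := ⟨0, fun b hb => hb.1⟩
  set β := sInf A with hβ
  have hβ0 : 0 ≤ β := le_csInf hne fun b hb => hb.1
  have hβ2 : β ≤ 2 := csInf_le hbd ⟨by norm_num, jf_two hN⟩
  have hJ : JF N β := jf_closed fun ε hε => by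
    obtain ⟨b, hb, hb2⟩ := exists_lt_of_csInf_lt hne (show sInf A < β + ε by linarith)
    exact ⟨b, hb2, hb.2⟩
  refine ⟨β, hβ0, hβ2, hJ, fun hpos => ?_⟩
  -- the violating sequence
  set b : ℕ → ℝ := fun m => β * (1 - 1 / ((m:ℝ) + 1)) with hb
  have hbn : ∀ m, ¬ JF N (b m) := by
    intro m hm
    have h1 : 0 < 1 / ((m:ℝ) + 1) := by positivity
    have h2 : 1 / ((m:ℝ) + 1) ≤ 1 := by
      rw [div_le_one (by positivity)]
      linarith [(Nat.cast_nonneg m : (0:ℝ) ≤ m)]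
    have h3 : 0 ≤ b m := mul_nonneg hβ0 (by linarith)
    have h4 : β ≤ b m := csInf_le hbd ⟨h3, hm⟩
    have h5 : b m < β := by
      show β * (1 - 1 / ((m:ℝ) + 1)) < β
      nlinarith
    linarith
  choose Ω hf P l t n hg hlt using fun m => jf_not (hbn m) (m : ℝ)
  -- the scales tend to infinity
  set c : ℝ := 2 * Real.log 3 + 2 * Real.log 9 + N * Real.log 3 with hc
  have hn : ∀ m : ℕ, (m:ℝ) - c ≤ 2 * (n m * Real.log 2) := by
    intro m
    have h1 := line_le (P m) (n m) (l m) (t m) (hg m)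
    have h2 : 0 ≤ excF (P m) (tbx (n m) (l m)) (fun _ => ()) := excF_nonneg (fun ω hω => tbx_ok (hg m ω hω).1)
    have h3 := def_ge (P m) (n m) (l m) (t m) (hg m) (fun ω => tb (n m) (l m ω))
    have h5 := mul_le_mul_of_nonneg_left h3 hN
    have h6 := hlt m
    have h7 : 0 ≤ b m * ((n m : ℝ) * Real.log 2) := by
      have h1 : 0 < 1 / ((m:ℝ) + 1) := by positivity
      have h2 : 1 / ((m:ℝ) + 1) ≤ 1 := by
        rw [div_le_one (by positivity)]
        linarith [(Nat.cast_nonneg m : (0:ℝ) ≤ m)]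
      exact mul_nonneg (mul_nonneg hβ0 (by linarith)) (mul_nonneg (Nat.cast_nonneg _) (Real.log_nonneg (by norm_num)))
    rw [hc]
    nlinarith
  have hlog : 0 < Real.log 2 := Real.log_pos (by norm_num)
  have htop : Tendsto n (uf : Filter ℕ) atTop := by
    refine Tendsto.mono_left ?_ uf_le
    rw [tendsto_atTop]
    intro k
    filter_upwards [eventually_ge_atTop ⌈c + 2 * (k * Real.log 2)⌉₊] with m hm
    have h1 : c + 2 * (k * Real.log 2) ≤ m := (Nat.le_ceil _).trans (by exact_mod_cast hm)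
    have h2 := hn m
    have h3 : (k:ℝ) ≤ n m := by
      have : (k:ℝ) * Real.log 2 ≤ n m * Real.log 2 := by linarith
      exact le_of_mul_le_mul_right this hlog
    exact_mod_cast h3
  let S : Sys := ⟨Ω, hf, P, n, htop⟩
  have hl : Sys.LnA (S := S) l := Eventually.of_forall fun m ω hω => (hg m ω hω).1
  have ht : Sys.T01 (S := S) t := Eventually.of_forall fun m ω hω => (hg m ω hω).2
  refine ⟨S, l, t, hl, ht, le_antisymm (sys_le hJ hl ht) (sys_ge hl ht (b := b) ?_ ?_)⟩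
  · refine Tendsto.mono_left ?_ uf_le
    have h1 : Tendsto (fun m : ℕ => 1 / ((m:ℝ) + 1)) atTop (𝓝 0) := tendsto_one_div_add_atTop_nhds_zero_nat
    have h2 := (tendsto_const_nhds (x := (1:ℝ))).sub h1
    have h3 := h2.const_mul β
    rw [sub_zero, mul_one] at h3
    exact h3
  · refine Eventually.of_forall fun m => ?_
    have h1 := (hlt m).le
    have h0 : (0:ℝ) ≤ m := Nat.cast_nonneg _
    refine le_trans ?_ h1
    show b m * ((n m : ℝ) * Real.log 2) + excF (P m) (tbx (n m) (l m)) (fun _ => ()) +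
      N * ((n m : ℝ) * Real.log 2 - Stk.hc (P m) (fun ω => fl1 (n m) (t m ω)) (fun ω => tb (n m) (l m ω))) ≤ _
    linarith

end Vale.Agent.P127.U.Ex

namespace Vale.Agent.P127.U

theorem pExist : PExist := Ex.pExist

end Vale.Agent.P127.U
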