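import Vale.Agent.P127.U.BilA

/-!
# P127 / U : transversality and the bilinear inequality (helper611)

`Tr c S l t C` : in every dominated system `h(y_b | Z_L, C) ≥ c b` for all `0 < b ≤ 1`.
`bil` : then `h(Z_L | C) ≥ 2 h(Z_L | l, C)`.
-/

set_option autoImplicit false

namespace Vale.Agent.P127.U.Bil

open Filter Topology Vale.Agent.P127 Vale.Agent.P127.Stk Sys Vale.Agent.P127.U.Tri
  Vale.Agent.P127.U.Plane Vale.Agent.P127.U.PlaneOf

variable {S : Sys} {α γ δ : Type*}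

/-- branching of the directions at a point, stable under domination -/
def Tr (c : ℝ) (S : Sys) (l : S.RV Ln) (t : S.RV ℝ) (C : S.RV γ) : Prop :=
  ∀ (S' : Sys) (d : Dmn S' S) (b : ℝ), 0 < b → b ≤ 1 →
    c * b ≤ S'.hc (dgv (S'.sc b) (dir (d.pull l)))
      (Sys.pr (pqs S'.L (pt (d.pull l) (d.pull t))) (d.pull C))

/-- a side information of zero entropy given `(Z, C)` may be added -/
theorem Tr.add {c : ℝ} {l : S.RV Ln} {t : S.RV ℝ} {C : S.RV γ} (h : Tr c S l t C)
    (hl : LnA l) {A : S.RV α} (hA : Tame A)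
    (h0 : S.hc A (Sys.pr (pqs S.L (pt l t)) C) = 0) : Tr c S l t (Sys.pr A C) := by
  intro S' d b hb hb1
  refine (h S' d b hb hb1).trans (le_of_eq ?_)
  have hdir : Tame (S := S') (dgv (S'.sc b) (dir (d.pull l))) :=
    Plane.tame_fl (fun i ω => (d.pull l i ω).2) 1 (sc_le S' hb1) (by
      filter_upwards [dmn_ln d hl] with i hi ω hω k
      push_cast
      exact (hi ω hω).2 k)
  have hK : ∀ᶠ i in (uf : Filter ℕ), Dom (S'.P i) (d.π i) (S.P i) d.K := d.dom
  have hnm : S'.nm = S.nm := by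
    funext i
    unfold Sys.nm
    rw [d.L_eq]
  have hAd : Tame (d.pull A) := by
    obtain ⟨Ca, hCa⟩ := hA
    refine ⟨d.K * Ca, ?_⟩
    filter_upwards [hCa, hK] with i h1 h2
    have h3 := h2.hc_le (A i) (fun _ => ())
    have e1 : ∀ {Ω : Type} [Fintype Ω] (P : Law Ω) {T : Type _} (X : Ω → T),
        Stk.hc P X (fun _ => ()) = P.H X := by
      intro Ω _ P T X
      refine le_antisymm (Stk.hc_le_H P _ _) ?_
      unfold Stk.hc
      have g1 : P.H (fun _ : Ω => ()) ≤ Real.log (Fintype.card Unit) := P.H_le_log_card _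
      simp only [Fintype.card_unit, Nat.cast_one, Real.log_one] at g1
      have g2 : P.H X ≤ P.H (fun ω => (X ω, ())) :=
        Stk.H_mono' _ fun ω ω' _ _ e => congrArg Prod.fst e
      linarith
    have h4 : Stk.hc (S'.P i) (A i ∘ d.π i) ((fun _ => ()) ∘ d.π i) =
        (S'.P i).H (d.pull A i) := e1 (S'.P i) (A i ∘ d.π i)
    rw [h4, e1] at h3
    rw [hnm]
    have hK0 : 0 ≤ d.K := by linarith [h2.one_le]
    calc (S'.P i).H (d.pull A i) ≤ d.K * (S.P i).H (A i) := h3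
      _ ≤ d.K * (Ca * S.nm i) := mul_le_mul_of_nonneg_left h1 hK0
      _ = d.K * Ca * S.nm i := by ring
  have hz : S'.hc (d.pull A) (Sys.pr (pqs S'.L (pt (d.pull l) (d.pull t))) (d.pull C)) = 0 := by
    have e1 : S'.hc (d.pull A) (Sys.pr (pqs S'.L (pt (d.pull l) (d.pull t))) (d.pull C)) =
        S'.hc (d.pull A) (d.pull (Sys.pr (pqs S.L (pt l t)) C)) := by
      have : S'.L = S.L := d.L_eq
      unfold pqs
      rw [this]
      rfl
    rw [e1]
    have hub := UB.hc hA (Sys.pr (pqs S.L (pt l t)) C)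
    have ht := hub.tendsto
    have h1 : ulim (fun i => Stk.hc (S.P i) (A i) ((Sys.pr (pqs S.L (pt l t)) C) i) / S.nm i) =
        0 := h0
    rw [h1] at ht
    have ht2 := ht.const_mul d.K
    rw [mul_zero] at ht2
    refine ulim_eq (squeeze_zero' ?_ ?_ ht2)
    · filter_upwards [S'.nm_pos] with i hi
      exact div_nonneg (Stk.hc_nonneg _ _ _) hi.le
    · filter_upwards [S'.nm_pos, hK] with i hi hk
      have h2 := hk.hc_le (A i) ((Sys.pr (pqs S.L (pt l t)) C) i)
      rw [hnm] at hi ⊢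
      rw [mul_div_assoc']
      exact div_le_div_of_nonneg_right h2 hi.le
  -- `h(y_b | Z, C) = h(y_b | Z, A, C)`
  have h5 := hc_cond_zero hdir hAd hz
  rw [← h5]
  exact hc_congr (Eventually.of_forall fun _ _ _ _ _ e => congrArg Prod.fst e)
    (Eventually.of_forall fun _ _ _ _ _ e => congrArg Prod.fst e)
    (Eventually.of_forall fun _ _ _ _ _ e => by
      simp only [Dmn.pull, pr_apply, Prod.mk.injEq] at e ⊢
      exact ⟨e.2.1, e.1, e.2.2⟩)
    (Eventually.of_forall fun _ _ _ _ _ e => by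
      simp only [Dmn.pull, pr_apply, Prod.mk.injEq] at e ⊢
      exact ⟨e.2.1, e.1, e.2.2⟩)

/-- two conditionally independent copies of the direction are transversal -/
theorem trans_small {c : ℝ} (hc : 0 < c) {l : S.RV Ln} {t : S.RV ℝ} {C : S.RV γ}
    (hl : LnA l) (h : Tr c S l t C) {b : ℝ} (hb : 0 < b) (hb1 : b ≤ 1)
    (Q : ∀ i, Law (Fin (1 + 1) → S.Ω i))
    (hQ : ∀ i w, (Q i).w w = cw (S.P i) (Sys.pr (S.pqs S.L (pt l t)) C i) 1 w) :
    Tendsto (fun i => prE (Q i) fun w => ∀ k, |(l i (w 0)).2 k - (l i (w 1)).2 k| ≤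
      (1 / 2 : ℝ) ^ (S.sc b i)) (uf : Filter ℕ) (𝓝 0) := by
  set E : ∀ i, (Fin (1 + 1) → S.Ω i) → Prop := fun i w =>
    ∀ k, |(l i (w 0)).2 k - (l i (w 1)).2 k| ≤ (1 / 2 : ℝ) ^ (S.sc b i) with hE
  have hub : UB fun i => prE (Q i) (E i) :=
    UB.of_le (C := 1) (Eventually.of_forall fun i => prE_nonneg _ _)
      (Eventually.of_forall fun i => prE_le_one _ _)
  have hten := hub.tendsto
  have he0 : 0 ≤ ulim fun i => prE (Q i) (E i) :=
    const_le_ulim hub (Eventually.of_forall fun i => prE_nonneg _ _)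
  rcases he0.eq_or_lt with h0 | h0
  · rw [← h0] at hten
    exact hten
  exfalso
  set e := ulim fun i => prE (Q i) (E i) with hedef
  have hbig : ∀ᶠ i in (uf : Filter ℕ), e / 2 ≤ prE (Q i) (E i) := by
    filter_upwards [lt_ulim_eventually hub (half_lt_self h0)] with i hi
    exact hi.le
  have he2 : 0 < e / 2 := by linarith
  let S' : Sys := ⟨fun i => Fin (1 + 1) → S.Ω i, fun _ => inferInstance,
    fun i => on (Q i) (E i), S.L, S.Ltop⟩
  let d : Dmn S' S := ⟨fun i w => w 0, rfl, 1 / (e / 2) * 1, by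
    filter_upwards [hbig] with i hi
    have h1 : Dom (on (Q i) (E i)) id (Q i) (1 / (e / 2)) := Dom.on he2 hi
    have h2 : Dom (Q i) (fun w : Fin (1 + 1) → S.Ω i => w 0) (S.P i) 1 := by
      intro ω
      rw [cw_marg (hQ i) 0 ω, one_mul]
    exact h1.comp h2⟩
  have h1 := h S' d b hb hb1
  have h2 : S'.hc (dgv (S'.sc b) (dir (d.pull l)))
      (Sys.pr (pqs S'.L (pt (d.pull l) (d.pull t))) (d.pull C)) = 0 := by
    refine hc_zero_of_le (2 * Real.log 5 + (1 / (e / 2)) * Real.log 2) ?_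
    filter_upwards [hbig] with i hi
    set W : S.Ω i → (ℤ × (Fin 2 → ℤ)) × γ := Sys.pr (S.pqs S.L (pt l t)) C i with hW
    set n := S.sc b i with hn
    set X0 : (Fin (1 + 1) → S.Ω i) → Fin 2 → ℤ := fun w => fl n (l i (w 0)).2 with hX0
    set X1 : (Fin (1 + 1) → S.Ω i) → Fin 2 → ℤ := fun w => fl n (l i (w 1)).2 with hX1
    have g1 : Stk.mi (Q i) X0 X1 (fun w => W (w 0)) = 0 := by
      have a1 := cw_indep (hQ i) 0 (fun ω => fl n (l i ω).2) X1 (fun w w' hww => by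
        show fl n (l i (w 1)).2 = fl n (l i (w' 1)).2
        rw [hww 1 (by decide)])
      have a2 : Stk.hc (Q i) X0 (fun w => W (w 0)) =
          Stk.hc (S.P i) (fun ω => fl n (l i ω).2) W := by
        have := cw_indep (hQ i) 0 (fun ω => fl n (l i ω).2) (fun _ => ()) (fun _ _ _ => rfl)
        rw [← this]
        exact Stk.hc_congr _ (fun _ _ _ _ e => congrArg Prod.fst e)
          (fun _ _ _ _ e => congrArg Prod.fst e)
          (fun _ _ _ _ e => congrArg Prod.snd e)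
          (fun _ _ _ _ e => Prod.ext rfl e)
      unfold Stk.mi
      rw [a2]
      have a3 : Stk.hc (Q i) X0 (fun w => (X1 w, W (w 0))) =
          Stk.hc (S.P i) (fun ω => fl n (l i ω).2) W := a1
      rw [a3, sub_self]
    have g2 : Stk.mi (on (Q i) (E i)) X0 X1 (fun w => W (w 0)) ≤ 1 / (e / 2) * Real.log 2 := by
      have := (Dom.on he2 hi : Dom (on (Q i) (E i)) id (Q i) (1 / (e / 2))).mi_le X0 X1
        (fun w => W (w 0))
      rw [g1, zero_add] at this
      exact this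
    have g3 : Stk.hc (on (Q i) (E i)) X0 (fun w => (X1 w, W (w 0))) ≤
        2 * Real.log 5 := by
      have := Stk.hc_fl_close (on (Q i) (E i)) (s := n) 1 (fun w => (l i (w 0)).2)
        (fun w => (l i (w 1)).2) (fun w => W (w 0)) (fun w hw k => by
          have := (on_pos (he2.trans_le hi) hw).1 k
          push_cast
          linarith)
      rw [Fintype.card_fin] at this
      norm_num at this ⊢
      exact this
    have g4 : Stk.hc (on (Q i) (E i)) X0 (fun w => W (w 0)) =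
        Stk.mi (on (Q i) (E i)) X0 X1 (fun w => W (w 0)) +
          Stk.hc (on (Q i) (E i)) X0 (fun w => (X1 w, W (w 0))) := by
      unfold Stk.mi
      ring
    have g5 : Stk.hc (S'.P i) (dgv (S'.sc b) (dir (d.pull l)) i)
        ((Sys.pr (pqs S'.L (pt (d.pull l) (d.pull t))) (d.pull C)) i) =
        Stk.hc (on (Q i) (E i)) X0 (fun w => W (w 0)) := rfl
    rw [g5, g4]
    linarith
  rw [h2] at h1
  have : 0 < c * b := by positivity
  linarith

/-- **bilinear inequality** -/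
theorem bil {c : ℝ} (hc : 0 < c) {l : S.RV Ln} {t : S.RV ℝ} {C : S.RV γ}
    (hl : LnA l) (ht : T01 t) (h : Tr c S l t C) :
    2 * S.hc (S.pqs S.L (pt l t)) (Sys.pr (S.tbs S.L l) C) ≤ S.hc (S.pqs S.L (pt l t)) C := by
  have hLL : ∀ i, S.L i ≤ S.L i := fun _ => le_rfl
  choose Q hQ using fun i => Stk.cw_exists (S.P i) (Sys.pr (S.pqs S.L (pt l t)) C i) 1
  let S₂ : Sys := ⟨fun i => Fin (1 + 1) → S.Ω i, fun _ => inferInstance, Q, S.L, S.Ltop⟩
  let e : Fin (1 + 1) → Ext S₂ S := fun j => ⟨fun i w => w j, rfl, fun i ω => cw_marg (hQ i) j ω⟩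
  -- the variables
  set Z₀ : S₂.RV (ℤ × (Fin 2 → ℤ)) := (e 0).pull (S.pqs S.L (pt l t)) with hZ0
  set Z₁ : S₂.RV (ℤ × (Fin 2 → ℤ)) := (e 1).pull (S.pqs S.L (pt l t)) with hZ1
  set C₀ : S₂.RV γ := (e 0).pull C with hC0
  set C₁ : S₂.RV γ := (e 1).pull C with hC1
  set X₀ := (e 0).pull (S.tbs S.L l) with hX0
  set X₁ := (e 1).pull (S.tbs S.L l) with hX1
  have tZ : Tame (S.pqs S.L (pt l t)) := tame_pqs hl ht hLL
  have tX : Tame (S.tbs S.L l) := tame_tbs hl hLL
  have tZ0 : Tame Z₀ := (e 0).tame tZ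
  have tX0 : Tame X₀ := (e 0).tame tX
  have tX1 : Tame X₁ := (e 1).tame tX
  have hsupp : S₂.Ae fun i w => Z₁ i w = Z₀ i w ∧ C₁ i w = C₀ i w := by
    refine Eventually.of_forall fun i w hw => ?_
    have h2 := (cw_supp (hQ i) hw).1 1
    exact ⟨congrArg Prod.fst h2, congrArg Prod.snd h2⟩
  have hl0 : LnA ((e 0).pull l) := by
    filter_upwards [hl] with i hi w hw
    exact hi _ ((e 0).w_pos i hw)
  have hl1 : LnA ((e 1).pull l) := by
    filter_upwards [hl] with i hi w hw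
    exact hi _ ((e 1).w_pos i hw)
  have ht0 : T01 ((e 0).pull t) := by
    filter_upwards [ht] with i hi w hw
    exact hi _ ((e 0).w_pos i hw)
  -- (1) `h(Z | X₀, X₁, C) = 0`
  have h1 : S₂.hc Z₀ (Sys.pr X₀ (Sys.pr X₁ C₀)) = 0 := by
    have hnn : 0 ≤ S₂.hc Z₀ (Sys.pr X₀ (Sys.pr X₁ C₀)) := hc_nonneg tZ0 _
    have hmono : S₂.hc Z₀ (Sys.pr X₀ (Sys.pr X₁ C₀)) ≤ S₂.hc Z₀ (Sys.pr X₀ X₁) :=
      hc_mono_right tZ0 (Eventually.of_forall fun _ _ _ _ _ e => by
        simp only [pr_apply, Prod.mk.injEq] at e ⊢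
        exact ⟨e.1, e.2.1⟩)
    refine le_antisymm (hmono.trans ?_) hnn
    refine le_of_forall_pos_le_add fun ε hε => ?_
    rw [zero_add]
    set b : ℝ := min 1 (ε / 3) with hb
    have hb0 : 0 < b := by rw [hb]; positivity
    have hb1 : b ≤ 1 := min_le_left _ _
    have hbε : 3 * b ≤ ε := by
      have := min_le_right (1 : ℝ) (ε / 3)
      linarith
    have hsm := trans_small hc hl h hb0 hb1 Q hQ
    set u : ℕ → ℝ := fun i => prE (Q i) fun w => ∀ k, |(l i (w 0)).2 k - (l i (w 1)).2 k| ≤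
      (1 / 2 : ℝ) ^ (S.sc b i) with hu
    have hscb := tendsto_sc S hb0.le
    -- the bound tends to `3 b`
    have lim1 : Tendsto (fun i => (16 * Real.log 2) / S.nm i +
        (3 * ((S.sc b i : ℝ) / S.L i) + u i * 12)) (uf : Filter ℕ) (𝓝 (3 * b)) := by
      have a1 := S.const_div_nm (16 * Real.log 2)
      have a2 := (hscb.const_mul 3).add (hsm.mul_const 12)
      have a3 := a1.add a2
      simpa using a3
    refine le_trans ?_ hbε
    rw [← ulim_eq lim1]
    refine ulim_le (UB.hc tZ0 _) (UB.of_tendsto lim1) ?_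
    filter_upwards [hl0, hl1, ht0, hsupp, S.L_pos, S.nm_pos] with i k1 k2 k3 k4 k5 k6
    have hLr : (1 : ℝ) ≤ S.L i := by exact_mod_cast k5
    have hlog : 0 < Real.log 2 := Real.log_pos (by norm_num)
    have hfin := two_lines (Q i) (S.L i) (S.sc b i) (fun w => l i (w 0)) (fun w => l i (w 1))
      (fun w => t i (w 0)) k1 k2 k3 (by
        intro w hw k
        have hz := (k4 w hw).1
        have z1 : fl1 (S.L i) (t i (w 1)) = fl1 (S.L i) (t i (w 0)) := congrArg Prod.fst hz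
        have z2 : fl (S.L i) (pos (l i (w 1)) (t i (w 1))) =
          fl (S.L i) (pos (l i (w 0)) (t i (w 0))) := congrArg Prod.snd hz
        have c1 := Stk.Bs.fl1_close z1
        have c2 := Stk.Bs.fl_close z2 k
        have c3 := (k2 w hw).2 k
        have c3' : |(l i (w 1)).2 k| ≤ 1 := c3
        have e1 : pos (l i (w 0)) (t i (w 0)) k - pos (l i (w 1)) (t i (w 0)) k =
          -(pos (l i (w 1)) (t i (w 1)) k - pos (l i (w 0)) (t i (w 0)) k) +
            (t i (w 1) - t i (w 0)) * (l i (w 1)).2 k := by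
          unfold pos
          ring
        rw [e1]
        have c4 : |(t i (w 1) - t i (w 0)) * (l i (w 1)).2 k| ≤ (1 / 2) ^ (S.L i) * 1 := by
          rw [abs_mul]
          exact mul_le_mul c1 c3' (abs_nonneg _) (by positivity)
        have c5 := abs_add_le (-(pos (l i (w 1)) (t i (w 1)) k - pos (l i (w 0)) (t i (w 0)) k))
          ((t i (w 1) - t i (w 0)) * (l i (w 1)).2 k)
        rw [abs_neg] at c5
        linarith)
    show Stk.hc (Q i) (Z₀ i) (Sys.pr X₀ X₁ i) / S.nm i ≤ _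
    rw [div_le_iff₀ k6]
    have hnm : S.nm i = (S.L i : ℝ) * Real.log 2 := rfl
    have hX : Stk.hc (Q i) (Z₀ i) (Sys.pr X₀ X₁ i) ≤ Real.log 2 +
        3 * ((S.sc b i : ℝ) + 5) * Real.log 2 + u i * (3 * ((S.L i : ℝ) + 3) * Real.log 2) := hfin
    refine hX.trans ?_
    have hu0 : 0 ≤ u i := prE_nonneg _ _
    have e2 : ((16 * Real.log 2) / S.nm i + (3 * ((S.sc b i : ℝ) / S.L i) + u i * 12)) *
        S.nm i = 16 * Real.log 2 + 3 * (S.sc b i : ℝ) * Real.log 2 +
          u i * 12 * ((S.L i : ℝ) * Real.log 2) := by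
      rw [hnm]
      have h9 : (S.L i : ℝ) ≠ 0 := by positivity
      have h10 : Real.log 2 ≠ 0 := hlog.ne'
      field_simp
      ring
    rw [e2]
    have e3 : u i * (3 * ((S.L i : ℝ) + 3) * Real.log 2) ≤
        u i * 12 * ((S.L i : ℝ) * Real.log 2) := by
      rw [mul_assoc (u i)]
      refine mul_le_mul_of_nonneg_left ?_ hu0
      nlinarith
    linarith
  -- (2)
  have h2 : S₂.hc (Sys.pr X₀ X₁) C₀ ≤ S₂.hc X₀ C₀ + S₂.hc X₁ C₀ := by
    have a1 := hc_pair tX0 tX1 C₀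
    have a2 := hc_le_cond tX1 X₀ C₀
    linarith
  have h2a : S₂.hc X₀ C₀ = S.hc (S.tbs S.L l) C := (e 0).hc _ _
  have h2b : S₂.hc X₁ C₀ = S.hc (S.tbs S.L l) C := by
    rw [← (e 1).hc (S.tbs S.L l) C]
    refine hc_congr (Eventually.of_forall fun _ _ _ _ _ e => congrArg Prod.fst e)
      (Eventually.of_forall fun _ _ _ _ _ e => congrArg Prod.fst e) ?_ ?_
    · filter_upwards [hsupp] with i hi w w' hw hw' e
      have a1 := (hi w hw).2
      have a2 := (hi w' hw').2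
      show C₀ i w = C₀ i w'
      rw [← a1, ← a2]
      exact e
    · filter_upwards [hsupp] with i hi w w' hw hw' e
      have a1 := (hi w hw).2
      have a2 := (hi w' hw').2
      show C₁ i w = C₁ i w'
      rw [a1, a2]
      exact e
  -- (3)
  have h3 : S₂.hc (Sys.pr Z₀ (Sys.pr X₀ X₁)) C₀ = S₂.hc Z₀ C₀ + S₂.hc X₀ (Sys.pr Z₀ C₀) +
      S₂.hc X₁ (Sys.pr X₀ (Sys.pr Z₀ C₀)) := by
    rw [hc_pair tZ0 (tX0.pr tX1) C₀, hc_pair tX0 tX1 (Sys.pr Z₀ C₀)]
    ring
  have h4 : S₂.hc (Sys.pr Z₀ (Sys.pr X₀ X₁)) C₀ ≤ S₂.hc (Sys.pr X₀ X₁) C₀ := by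
    refine hc_le_of_zero (tZ0.pr (tX0.pr tX1)) (tX0.pr tX1) ?_
    have a1 : S₂.hc (Sys.pr Z₀ (Sys.pr X₀ X₁)) (Sys.pr (Sys.pr X₀ X₁) C₀) ≤
        S₂.hc Z₀ (Sys.pr (Sys.pr X₀ X₁) C₀) :=
      hc_mono_left tZ0 (tZ0.pr (tX0.pr tX1)) (Eventually.of_forall fun _ _ _ _ _ e => by
        simp only [pr_apply, Prod.mk.injEq] at e ⊢
        exact ⟨e.1, e.2.1⟩)
    have a2 : S₂.hc Z₀ (Sys.pr (Sys.pr X₀ X₁) C₀) = S₂.hc Z₀ (Sys.pr X₀ (Sys.pr X₁ C₀)) :=
      hc_congr (Eventually.of_forall fun _ _ _ _ _ e => congrArg Prod.fst e)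
        (Eventually.of_forall fun _ _ _ _ _ e => congrArg Prod.fst e)
        (Eventually.of_forall fun _ _ _ _ _ e => by
          simp only [pr_apply, Prod.mk.injEq] at e ⊢
          exact ⟨⟨e.1, e.2.1⟩, e.2.2⟩)
        (Eventually.of_forall fun _ _ _ _ _ e => by
          simp only [pr_apply, Prod.mk.injEq] at e ⊢
          exact ⟨e.1.1, e.1.2, e.2⟩)
    rw [a2, h1] at a1
    exact le_antisymm a1 (hc_nonneg (tZ0.pr (tX0.pr tX1)) _)
  have h5 : S₂.hc Z₀ C₀ = S.hc (S.pqs S.L (pt l t)) C := (e 0).hc _ _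
  have h6 : S₂.hc X₀ (Sys.pr Z₀ C₀) = S.hc (S.tbs S.L l) (Sys.pr (S.pqs S.L (pt l t)) C) :=
    (e 0).hc (S.tbs S.L l) (Sys.pr (S.pqs S.L (pt l t)) C)
  have h7 : S₂.hc X₁ (Sys.pr X₀ (Sys.pr Z₀ C₀)) =
      S.hc (S.tbs S.L l) (Sys.pr (S.pqs S.L (pt l t)) C) := by
    have a1 : S₂.hc X₁ (Sys.pr X₀ (Sys.pr Z₀ C₀)) = S₂.hc X₁ (Sys.pr X₀ (Sys.pr Z₁ C₁)) := by
      refine hc_congr (Eventually.of_forall fun _ _ _ _ _ e => congrArg Prod.fst e)
        (Eventually.of_forall fun _ _ _ _ _ e => congrArg Prod.fst e) ?_ ?_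
      · filter_upwards [hsupp] with i hi w w' hw hw' e
        have a1 := hi w hw
        have a2 := hi w' hw'
        simp only [pr_apply, Prod.mk.injEq] at e ⊢
        rw [← a1.1, ← a1.2, ← a2.1, ← a2.2]
        exact e
      · filter_upwards [hsupp] with i hi w w' hw hw' e
        have a1 := hi w hw
        have a2 := hi w' hw'
        simp only [pr_apply, Prod.mk.injEq] at e ⊢
        rw [a1.1, a1.2, a2.1, a2.2]
        exact e
    rw [a1]
    refine ulim_congr (Eventually.of_forall fun i => ?_)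
    have a2 := cw_indep (hQ i) 1 (S.tbs S.L l i) (fun w => S.tbs S.L l i (w 0)) (fun w w' hww => by
      rw [hww 0 (by decide)])
    show Stk.hc (Q i) _ _ / S.nm i = _
    rw [← a2]
    rfl
  -- (4)
  have h8 := hc_pair tZ tX C
  have h9 := hc_pair tX tZ C
  have h10 : S.hc (Sys.pr (S.pqs S.L (pt l t)) (S.tbs S.L l)) C =
      S.hc (Sys.pr (S.tbs S.L l) (S.pqs S.L (pt l t))) C :=
    hc_congr (Eventually.of_forall fun _ _ _ _ _ e => by
        simp only [pr_apply, Prod.mk.injEq] at e ⊢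
        exact ⟨e.1.2, e.1.1⟩)
      (Eventually.of_forall fun _ _ _ _ _ e => by
        simp only [pr_apply, Prod.mk.injEq] at e ⊢
        exact ⟨e.1.2, e.1.1⟩)
      (Eventually.of_forall fun _ _ _ _ _ e => e) (Eventually.of_forall fun _ _ _ _ _ e => e)
  linarith

end Vale.Agent.P127.U.Bil
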