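import Vale.Agent.P127.U.Lim
import Vale.Agent.P127.Stk.LibDom
import Vale.Agent.P127.Stk.LibCopies
import Vale.Agent.P127.Stk.LibFloors

/-!
# P127 / U : systems of finite laws and normalised entropies (helper357)

A system is a sequence of finite probability laws `P i` together with scales `L i → ∞` (bits).
Random variables are sequences of functions.  `S.hc X Y` is the limit along the ultrafilter of
`H(X | Y) / (L log 2)`.
-/

set_option autoImplicit false

namespace Vale.Agent.P127.U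

open Filter Topology Vale.Agent.P127 Vale.Agent.P127.Stk

/-- a sequence of finite laws with scales -/
structure Sys where
  Ω : ℕ → Type
  fin : ∀ i, Fintype (Ω i)
  P : ∀ i, Law (Ω i)
  L : ℕ → ℕ
  Ltop : Tendsto L (uf : Filter ℕ) atTop

attribute [instance] Sys.fin

namespace Sys

variable (S : Sys) {α β γ δ : Type*}

/-- random variables -/
abbrev RV (α : Type*) := ∀ i, S.Ω i → α

variable {S}

/-- pairing -/
def pr (X : S.RV α) (Y : S.RV β) : S.RV (α × β) := fun i ω => (X i ω, Y i ω)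

@[simp] theorem pr_apply (X : S.RV α) (Y : S.RV β) (i : ℕ) (ω : S.Ω i) :
    (Sys.pr X Y) i ω = (X i ω, Y i ω) := rfl

/-- the trivial random variable -/
def one : S.RV Unit := fun _ _ => ()

variable (S) in
/-- normalisation: `L log 2` -/
noncomputable def nm (i : ℕ) : ℝ := (S.L i : ℝ) * Real.log 2

theorem nm_tendsto : Tendsto S.nm (uf : Filter ℕ) atTop := by
  have h1 : Tendsto (fun i => (S.L i : ℝ)) (uf : Filter ℕ) atTop :=
    tendsto_natCast_atTop_atTop.comp S.Ltop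
  exact h1.atTop_mul_const (Real.log_pos (by norm_num))

theorem nm_pos : ∀ᶠ i in (uf : Filter ℕ), 0 < S.nm i := S.nm_tendsto.eventually_gt_atTop 0

theorem L_pos : ∀ᶠ i in (uf : Filter ℕ), 0 < S.L i := S.Ltop.eventually_gt_atTop 0

theorem const_div_nm (c : ℝ) : Tendsto (fun i => c / S.nm i) (uf : Filter ℕ) (𝓝 0) :=
  S.nm_tendsto.const_div_atTop c

/-- at most `2^{C L}` values, in the sense of entropy -/
def Tame (X : S.RV α) : Prop := ∃ C : ℝ, ∀ᶠ i in (uf : Filter ℕ), (S.P i).H (X i) ≤ C * S.nm i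

/-- `Y` determines `X` on the supports -/
def Fn (X : S.RV α) (Y : S.RV β) : Prop :=
  ∀ᶠ i in (uf : Filter ℕ), Stk.Fn (S.P i) (X i) (Y i)

/-- normalised conditional entropy -/
noncomputable def hc (X : S.RV α) (Y : S.RV β) : ℝ :=
  ulim fun i => Stk.hc (S.P i) (X i) (Y i) / S.nm i

/-- normalised entropy -/
noncomputable def h (X : S.RV α) : ℝ := S.hc X one

theorem Tame.mono {X : S.RV α} {Y : S.RV β} (h : Tame Y) (hf : Fn X Y) : Tame X := by
  obtain ⟨C, hC⟩ := h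
  refine ⟨C, ?_⟩
  filter_upwards [hC, hf] with i h1 h2
  exact (Stk.H_mono' _ h2).trans h1

theorem Tame.pr {X : S.RV α} {Y : S.RV β} (hX : Tame X) (hY : Tame Y) : Tame (Sys.pr X Y) := by
  obtain ⟨C, hC⟩ := hX
  obtain ⟨C', hC'⟩ := hY
  refine ⟨C + C', ?_⟩
  filter_upwards [hC, hC'] with i h1 h2
  have h3 : (S.P i).H ((Sys.pr X Y) i) ≤ (S.P i).H (X i) + (S.P i).H (Y i) := by
    have := Stk.hc_le_H (S.P i) (X i) (Y i)
    unfold Stk.hc at this
    exact (sub_le_iff_le_add.1 this)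
  linarith

theorem UB.hc {X : S.RV α} (hX : Tame X) (Y : S.RV β) :
    UB fun i => Stk.hc (S.P i) (X i) (Y i) / S.nm i := by
  obtain ⟨C, hC⟩ := hX
  refine UB.of_le (C := C) ?_ ?_
  · filter_upwards [S.nm_pos] with i hi
    exact div_nonneg (Stk.hc_nonneg _ _ _) hi.le
  · filter_upwards [S.nm_pos, hC] with i hi h1
    rw [div_le_iff₀ hi]
    exact (Stk.hc_le_H _ _ _).trans h1

theorem hc_nonneg {X : S.RV α} (hX : Tame X) (Y : S.RV β) : 0 ≤ S.hc X Y :=
  const_le_ulim (UB.hc hX Y) (by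
    filter_upwards [S.nm_pos] with i hi
    exact div_nonneg (Stk.hc_nonneg _ _ _) hi.le)

/-- general comparison -/
theorem hc_le_hc {X : S.RV α} {Y : S.RV β} {X' : S.RV γ} {Y' : S.RV δ} (hX : Tame X)
    (hX' : Tame X')
    (h : ∀ᶠ i in (uf : Filter ℕ), Stk.hc (S.P i) (X i) (Y i) ≤ Stk.hc (S.P i) (X' i) (Y' i)) :
    S.hc X Y ≤ S.hc X' Y' :=
  ulim_le (UB.hc hX Y) (UB.hc hX' Y') (by
    filter_upwards [S.nm_pos, h] with i hi h1
    exact div_le_div_of_nonneg_right h1 hi.le)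

/-- comparison up to a constant -/
theorem hc_le_of_le {X : S.RV α} {Y : S.RV β} {X' : S.RV γ} {Y' : S.RV δ} (c : ℝ)
    (hX : Tame X) (hX' : Tame X')
    (h : ∀ᶠ i in (uf : Filter ℕ),
      Stk.hc (S.P i) (X i) (Y i) ≤ Stk.hc (S.P i) (X' i) (Y' i) + c) :
    S.hc X Y ≤ S.hc X' Y' :=
  ulim_le_of_sub (UB.hc hX Y) (UB.hc hX' Y') (S.const_div_nm c) (by
    filter_upwards [S.nm_pos, h] with i hi h1
    rw [← add_div]
    exact div_le_div_of_nonneg_right h1 hi.le)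

theorem hc_zero_of_le {X : S.RV α} {Y : S.RV β} (c : ℝ)
    (h : ∀ᶠ i in (uf : Filter ℕ), Stk.hc (S.P i) (X i) (Y i) ≤ c) : S.hc X Y = 0 := by
  refine ulim_eq (squeeze_zero' ?_ ?_ (S.const_div_nm c))
  · filter_upwards [S.nm_pos] with i hi
    exact div_nonneg (Stk.hc_nonneg _ _ _) hi.le
  · filter_upwards [S.nm_pos, h] with i hi h1
    exact div_le_div_of_nonneg_right h1 hi.le

theorem hc_fn {X : S.RV α} {Y : S.RV β} (h : Fn X Y) : S.hc X Y = 0 :=
  hc_zero_of_le 0 (by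
    filter_upwards [h] with i hi
    exact (Stk.hc_zero _ hi).le)

theorem hc_mono_right {X : S.RV α} {Y : S.RV β} {Y' : S.RV γ} (hX : Tame X) (h : Fn Y Y') :
    S.hc X Y' ≤ S.hc X Y :=
  hc_le_hc hX hX (by
    filter_upwards [h] with i hi
    exact Stk.hc_mono_right _ _ hi)

theorem hc_mono_left {X : S.RV α} {X' : S.RV β} {Y : S.RV γ} (hX' : Tame X')
    (hX : Tame X) (h : Fn X (Sys.pr X' Y)) : S.hc X Y ≤ S.hc X' Y :=
  hc_le_hc hX hX' (by
    filter_upwards [h] with i hi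
    exact Stk.hc_mono_left _ hi)

theorem hc_congr {X : S.RV α} {X' : S.RV β} {Y : S.RV γ} {Y' : S.RV δ}
    (h1 : Fn X (Sys.pr X' Y)) (h2 : Fn X' (Sys.pr X Y)) (h3 : Fn Y Y') (h4 : Fn Y' Y) :
    S.hc X Y = S.hc X' Y' := by
  refine ulim_congr ?_
  filter_upwards [h1, h2, h3, h4] with i g1 g2 g3 g4
  rw [Stk.hc_congr _ g1 g2 g3 g4]

/-- chain rule -/
theorem hc_pair {X : S.RV α} {Y : S.RV β} (hX : Tame X) (hY : Tame Y) (Z : S.RV γ) :
    S.hc (Sys.pr X Y) Z = S.hc X Z + S.hc Y (Sys.pr X Z) := by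
  unfold hc
  rw [← ulim_add (UB.hc hX Z) (UB.hc hY (Sys.pr X Z))]
  refine ulim_congr (Eventually.of_forall fun i => ?_)
  rw [← add_div]
  congr 1
  exact Stk.hc_pair (S.P i) (X i) (Y i) (Z i)

/-- submodularity -/
theorem hc_le_cond {X : S.RV α} (hX : Tame X) (Y : S.RV β) (Z : S.RV γ) :
    S.hc X (Sys.pr Y Z) ≤ S.hc X Z :=
  hc_mono_right hX (Eventually.of_forall fun _ _ _ _ _ e => congrArg Prod.snd e)

theorem hc_le_add {X : S.RV α} {Y : S.RV β} (hX : Tame X) (hY : Tame Y) (Z : S.RV γ) :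
    S.hc X Z ≤ S.hc X (Sys.pr Y Z) + S.hc Y Z := by
  have h1 := hc_pair hY hX Z
  have h2 : S.hc X Z ≤ S.hc (Sys.pr Y X) Z :=
    hc_mono_left (hY.pr hX) hX (Eventually.of_forall fun _ _ _ _ _ e =>
      congrArg (fun q => q.1.2) e)
  linarith

/-- `X` is a function of `(X', Z)` up to zero entropy -/
theorem hc_le_of_zero {X : S.RV α} {X' : S.RV β} {Z : S.RV γ} (hX : Tame X) (hX' : Tame X')
    (h : S.hc X (Sys.pr X' Z) = 0) : S.hc X Z ≤ S.hc X' Z := by
  have := hc_le_add hX hX' Z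
  linarith

/-- a condition of zero entropy does not matter -/
theorem hc_cond_zero {X : S.RV α} {Y : S.RV β} {Z : S.RV γ} (hX : Tame X) (hY : Tame Y)
    (h : S.hc Y Z = 0) : S.hc X (Sys.pr Y Z) = S.hc X Z := by
  refine le_antisymm (hc_le_cond hX Y Z) ?_
  have := hc_le_add hX hY Z
  linarith

theorem hc_cond_zero' {X : S.RV α} {Y : S.RV β} {Z : S.RV γ} {Z' : S.RV δ} (hX : Tame X)
    (hZ : Tame Z) (hZ' : Tame Z') (h : S.hc Z Z' = 0) (h' : S.hc Z' Z = 0) :
    S.hc X Z = S.hc X Z' := by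
  have h1 := hc_cond_zero hX hZ h
  have h2 := hc_cond_zero hX hZ' h'
  have h3 : S.hc X (Sys.pr Z Z') = S.hc X (Sys.pr Z' Z) :=
    hc_congr (Eventually.of_forall fun _ _ _ _ _ e => congrArg Prod.fst e)
      (Eventually.of_forall fun _ _ _ _ _ e => congrArg Prod.fst e)
      (Eventually.of_forall fun _ _ _ _ _ e => by
        simp only [pr_apply, Prod.mk.injEq] at e ⊢
        exact ⟨e.2, e.1⟩)
      (Eventually.of_forall fun _ _ _ _ _ e => by
        simp only [pr_apply, Prod.mk.injEq] at e ⊢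
        exact ⟨e.2, e.1⟩)
  linarith

theorem hc_le_h {X : S.RV α} (hX : Tame X) (Y : S.RV β) : S.hc X Y ≤ S.h X :=
  hc_mono_right hX (Eventually.of_forall fun _ _ _ _ _ _ => rfl)

/-! ### mutual information -/

/-- normalised conditional mutual information `I(X ; Y | Z)` -/
noncomputable def mi (X : S.RV α) (Y : S.RV β) (Z : S.RV γ) : ℝ := S.hc X Z - S.hc X (Sys.pr Y Z)

theorem mi_nonneg {X : S.RV α} (hX : Tame X) (Y : S.RV β) (Z : S.RV γ) : 0 ≤ S.mi X Y Z :=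
  sub_nonneg.2 (hc_le_cond hX Y Z)

theorem mi_comm {X : S.RV α} {Y : S.RV β} (hX : Tame X) (hY : Tame Y) (Z : S.RV γ) :
    S.mi X Y Z = S.mi Y X Z := by
  have h1 := hc_pair hX hY Z
  have h2 := hc_pair hY hX Z
  have h3 : S.hc (Sys.pr X Y) Z = S.hc (Sys.pr Y X) Z :=
    hc_congr (Eventually.of_forall fun _ _ _ _ _ e => by
        simp only [pr_apply, Prod.mk.injEq] at e ⊢
        exact ⟨e.1.2, e.1.1⟩)
      (Eventually.of_forall fun _ _ _ _ _ e => by
        simp only [pr_apply, Prod.mk.injEq] at e ⊢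
        exact ⟨e.1.2, e.1.1⟩)
      (Eventually.of_forall fun _ _ _ _ _ e => e) (Eventually.of_forall fun _ _ _ _ _ e => e)
  unfold mi
  linarith

/-! ### averages -/

/-- `O(L)` in absolute value on the support -/
def OL (f : S.RV ℝ) : Prop :=
  ∃ C : ℝ, ∀ᶠ i in (uf : Filter ℕ), ∀ ω, 0 < (S.P i).w ω → |f i ω| ≤ C * S.L i

/-- normalised average `E f / L` -/
noncomputable def av (f : S.RV ℝ) : ℝ := ulim fun i => (S.P i).ex (f i) / S.L i

theorem UB.av {f : S.RV ℝ} (hf : OL f) : UB fun i => (S.P i).ex (f i) / S.L i := by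
  obtain ⟨C, hC⟩ := hf
  have key : ∀ᶠ i in (uf : Filter ℕ), |(S.P i).ex (f i)| ≤ C * S.L i := by
    filter_upwards [hC] with i hi
    rw [abs_le]
    constructor
    · have := (S.P i).ex_mono (f := fun _ => -(C * S.L i)) (g := f i)
        (fun ω hω => (abs_le.1 (hi ω hω)).1)
      rwa [(S.P i).ex_const] at this
    · have := (S.P i).ex_mono (f := f i) (g := fun _ => C * S.L i)
        (fun ω hω => (abs_le.1 (hi ω hω)).2)
      rwa [(S.P i).ex_const] at this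
  refine ⟨C, ?_⟩
  filter_upwards [key, S.L_pos] with i h1 h2
  have h3 : (0:ℝ) < S.L i := by exact_mod_cast h2
  rw [abs_div, abs_of_pos h3, div_le_iff₀ h3]
  exact h1

theorem av_add {f g : S.RV ℝ} (hf : OL f) (hg : OL g) :
    S.av (fun i ω => f i ω + g i ω) = S.av f + S.av g := by
  unfold av
  rw [← ulim_add (UB.av hf) (UB.av hg)]
  refine ulim_congr (Eventually.of_forall fun i => ?_)
  rw [(S.P i).ex_add, add_div]

theorem av_sub {f g : S.RV ℝ} (hf : OL f) (hg : OL g) :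
    S.av (fun i ω => f i ω - g i ω) = S.av f - S.av g := by
  unfold av
  rw [← ulim_sub (UB.av hf) (UB.av hg)]
  refine ulim_congr (Eventually.of_forall fun i => ?_)
  rw [(S.P i).ex_sub, sub_div]

theorem av_mono {f g : S.RV ℝ} (hf : OL f) (hg : OL g)
    (h : ∀ᶠ i in (uf : Filter ℕ), ∀ ω, 0 < (S.P i).w ω → f i ω ≤ g i ω) : S.av f ≤ S.av g :=
  ulim_le (UB.av hf) (UB.av hg) (by
    filter_upwards [h] with i hi
    exact div_le_div_of_nonneg_right ((S.P i).ex_mono hi) (Nat.cast_nonneg _))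

theorem OL.add {f g : S.RV ℝ} (hf : OL f) (hg : OL g) : OL (S := S) fun i ω => f i ω + g i ω := by
  obtain ⟨C, hC⟩ := hf
  obtain ⟨C', hC'⟩ := hg
  refine ⟨C + C', ?_⟩
  filter_upwards [hC, hC'] with i h1 h2 ω hω
  have := abs_add_le (f i ω) (g i ω)
  have := h1 ω hω
  have := h2 ω hω
  linarith

theorem OL.neg {f : S.RV ℝ} (hf : OL f) : OL (S := S) fun i ω => - f i ω := by
  obtain ⟨C, hC⟩ := hf
  refine ⟨C, ?_⟩
  filter_upwards [hC] with i h1 ω hω
  rw [abs_neg]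
  exact h1 ω hω

theorem OL.sub {f g : S.RV ℝ} (hf : OL f) (hg : OL g) : OL (S := S) fun i ω => f i ω - g i ω := by
  have := hf.add hg.neg
  simpa [sub_eq_add_neg] using this

/-! ### extensions -/

/-- `S'` is an extension of `S` -/
structure Ext (S' S : Sys) where
  π : ∀ i, S'.Ω i → S.Ω i
  L_eq : S'.L = S.L
  law : ∀ i ω, (S'.P i).pr (π i) ω = (S.P i).w ω

/-- pull back of a random variable -/
def Ext.pull {S' S : Sys} (e : Ext S' S) (X : S.RV α) : S'.RV α := fun i ω => X i (e.π i ω)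

theorem Ext.hc {S' S : Sys} (e : Ext S' S) (X : S.RV α) (Y : S.RV β) :
    S'.hc (e.pull X) (e.pull Y) = S.hc X Y := by
  refine ulim_congr (Eventually.of_forall fun i => ?_)
  have h1 : S'.nm i = S.nm i := by
    unfold nm
    rw [e.L_eq]
  have h2 := Stk.hc_of_law (S'.P i) (S.P i) (e.π i) (e.law i) (X i) (Y i)
  rw [h1, ← h2]
  rfl

theorem Ext.h {S' S : Sys} (e : Ext S' S) (X : S.RV α) : S'.h (e.pull X) = S.h X :=
  e.hc X one

theorem Ext.ex {S' S : Sys} (e : Ext S' S) (f : S.RV ℝ) (i : ℕ) :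
    (S'.P i).ex (e.pull f i) = (S.P i).ex (f i) :=
  Stk.ex_law_aux (S'.P i) (S.P i) (e.π i) (e.law i) (f i)

theorem Ext.av {S' S : Sys} (e : Ext S' S) (f : S.RV ℝ) : S'.av (e.pull f) = S.av f := by
  refine ulim_congr (Eventually.of_forall fun i => ?_)
  show (S'.P i).ex (e.pull f i) / S'.L i = (S.P i).ex (f i) / S.L i
  rw [e.ex, e.L_eq]

theorem Ext.nm {S' S : Sys} (e : Ext S' S) : S'.nm = S.nm := by
  funext i
  unfold Sys.nm
  rw [e.L_eq]

theorem Ext.w_pos {S' S : Sys} (e : Ext S' S) (i : ℕ) {ω : S'.Ω i} (h : 0 < (S'.P i).w ω) :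
    0 < (S.P i).w (e.π i ω) := by
  rw [← e.law i]
  exact (S'.P i).pr_pos (e.π i) h

theorem Ext.tame {S' S : Sys} (e : Ext S' S) {X : S.RV α} (h : Tame X) : Tame (e.pull X) := by
  obtain ⟨C, hC⟩ := h
  refine ⟨C, ?_⟩
  filter_upwards [hC] with i hi
  rw [e.nm]
  have := Stk.H_law_aux (S'.P i) (S.P i) (e.π i) (e.law i) (X i)
  rw [← this] at hi
  exact hi

theorem Ext.ol {S' S : Sys} (e : Ext S' S) {f : S.RV ℝ} (h : OL f) : OL (e.pull f) := by
  obtain ⟨C, hC⟩ := h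
  refine ⟨C, ?_⟩
  filter_upwards [hC] with i hi ω hω
  rw [e.L_eq]
  exact hi _ (e.w_pos i hω)

theorem Ext.fn {S' S : Sys} (e : Ext S' S) {X : S.RV α} {Y : S.RV β} (h : Fn X Y) :
    Fn (e.pull X) (e.pull Y) := by
  filter_upwards [h] with i hi ω ω' p p' q
  exact hi _ _ (e.w_pos i p) (e.w_pos i p') q

/-- composition of extensions -/
def Ext.comp {S'' S' S : Sys} (e' : Ext S'' S') (e : Ext S' S) : Ext S'' S where
  π := fun i ω => e.π i (e'.π i ω)
  L_eq := e'.L_eq.trans e.L_eq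
  law := by
    intro i ω
    have := Stk.pr_law_aux (S''.P i) (S'.P i) (e'.π i) (e'.law i) (e.π i) ω
    rw [← e.law i ω, ← this]
    rfl

/-- the trivial extension -/
def Ext.refl (S : Sys) : Ext S S where
  π := fun _ ω => ω
  L_eq := rfl
  law := fun i ω => Stk.pr_id (S.P i) ω

/-! ### conditionally independent copies -/

/-- `N + 1` copies of `S`, conditionally independent given `W` -/
theorem exists_copies (S : Sys) (W : S.RV α) (N : ℕ) :
    ∃ (S' : Sys) (e : Fin (N + 1) → Ext S' S),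
      (∀ j i ω, 0 < (S'.P i).w ω → W i ((e j).π i ω) = W i ((e 0).π i ω)) ∧
      (∀ (j : Fin (N + 1)) {β γ : Type} (X : S.RV β) (Y : S'.RV γ),
        (∀ i ω ω', (∀ k, k ≠ j → (e k).π i ω = (e k).π i ω') → Y i ω = Y i ω') →
        S'.hc ((e j).pull X) (Sys.pr Y ((e j).pull W)) = S.hc X W) := by
  choose Q hQ using fun i => Stk.cw_exists (S.P i) (W i) N
  let S' : Sys := ⟨fun i => Fin (N + 1) → S.Ω i, fun _ => inferInstance, Q, S.L, S.Ltop⟩
  refine ⟨S', fun j => ⟨fun i w => w j, rfl, fun i ω => Stk.cw_marg (hQ i) j ω⟩, ?_, ?_⟩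
  · intro j i ω hω
    exact (Stk.cw_supp (hQ i) hω).1 j
  · intro j β γ X Y hY
    refine ulim_congr (Eventually.of_forall fun i => ?_)
    have h1 := Stk.cw_indep (hQ i) j (X i) (Y i) (fun w w' h => hY i w w' h)
    show Stk.hc (Q i) _ _ / S.nm i = _
    rw [← h1]
    rfl

/-- gluing of two extensions of `S` over a variable `W` -/
theorem exists_glue {S₁ S₂ S : Sys} (e₁ : Ext S₁ S) (e₂ : Ext S₂ S) (W : S.RV α) :
    ∃ (S' : Sys) (f₁ : Ext S' S₁) (f₂ : Ext S' S₂),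
      (∀ i ω, W i (e₁.π i (f₁.π i ω)) = W i (e₂.π i (f₂.π i ω))) ∧
      (∀ {β γ : Type} (X : S₁.RV β) (Y : S₂.RV γ),
        S'.hc (f₁.pull X) (Sys.pr (f₂.pull Y) (f₁.pull (e₁.pull W))) = S₁.hc X (e₁.pull W) ∧
        S'.hc (f₂.pull Y) (Sys.pr (f₁.pull X) (f₁.pull (e₁.pull W))) = S₂.hc Y (e₂.pull W)) := by
  have hlaw : ∀ i s, (S₁.P i).pr (e₁.pull W i) s = (S₂.P i).pr (e₂.pull W i) s := by
    intro i s
    have h1 := Stk.pr_law_aux (S₁.P i) (S.P i) (e₁.π i) (e₁.law i) (W i) s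
    have h2 := Stk.pr_law_aux (S₂.P i) (S.P i) (e₂.π i) (e₂.law i) (W i) s
    exact h1.trans h2.symm
  choose Ω' hf Q π₁ π₂ g1 g2 g3 g4 using fun i =>
    Stk.glue_exists (S₁.P i) (S₂.P i) (e₁.pull W i) (e₂.pull W i) (hlaw i)
  let S' : Sys := ⟨Ω', hf, Q, S.L, S.Ltop⟩
  refine ⟨S', ⟨π₁, e₁.L_eq.symm, g2⟩, ⟨π₂, e₂.L_eq.symm, g3⟩, g1, ?_⟩
  intro β γ X Y
  have n1 : S'.nm = S₁.nm := by
    funext i
    unfold Sys.nm
    rw [e₁.L_eq]
  have n2 : S'.nm = S₂.nm := by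
    funext i
    unfold Sys.nm
    rw [e₂.L_eq]
  constructor
  · refine ulim_congr (Eventually.of_forall fun i => ?_)
    rw [← (g4 i (X i) (Y i)).1, ← n1]
    rfl
  · refine ulim_congr (Eventually.of_forall fun i => ?_)
    rw [← (g4 i (X i) (Y i)).2, ← n2]
    rfl

end Sys

end Vale.Agent.P127.U
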