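import Vale.Agent.P127.U.MJ

/-!
# P127 / U / Str : change of coordinates by a linear map, in particular a shear (helper499)

* `shv ρ s v = (v 0, 2^ρ (v 1 - s v 0))`
* `vw_box` : a box in the sheared coordinates is a box in the original coordinates (`vw_box'` : converse)
* `hc_lin`, `hc_lin'` : the labels are equivalent given the data of the map and the integer parts
-/

set_option autoImplicit false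

namespace Vale.Agent.P127.U.Str

open Filter Topology Vale.Agent.P127 Vale.Agent.P127.Stk Vale.Agent.P127.U Sys

/-- the shear -/
noncomputable def shv (ρ : ℕ) (s : ℝ) (v : Fin 2 → ℝ) : Fin 2 → ℝ := ![v 0, (2:ℝ) ^ ρ * (v 1 - s * v 0)]

@[simp] theorem shv0 (ρ : ℕ) (s : ℝ) (v : Fin 2 → ℝ) : shv ρ s v 0 = v 0 := rfl
@[simp] theorem shv1 (ρ : ℕ) (s : ℝ) (v : Fin 2 → ℝ) : shv ρ s v 1 = (2:ℝ) ^ ρ * (v 1 - s * v 0) := rfl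

theorem shv_sub (ρ : ℕ) (s : ℝ) (v w : Fin 2 → ℝ) :
    shv ρ s (fun i => v i - w i) = fun i => shv ρ s v i - shv ρ s w i := by
  funext i
  fin_cases i
  · rfl
  · show (2:ℝ) ^ ρ * ((v 1 - w 1) - s * (v 0 - w 0)) = (2:ℝ) ^ ρ * (v 1 - s * v 0) - (2:ℝ) ^ ρ * (w 1 - s * w 0)
    ring

theorem shv_surj (ρ : ℕ) (s : ℝ) (w : Fin 2 → ℝ) : ∃ v, shv ρ s v = w := by
  refine ⟨![w 0, w 1 / 2 ^ ρ + s * w 0], ?_⟩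
  funext i
  fin_cases i
  · rfl
  · show (2:ℝ) ^ ρ * ((w 1 / 2 ^ ρ + s * w 0) - s * w 0) = w 1
    have : (2:ℝ) ^ ρ ≠ 0 := by positivity
    field_simp
    ring

theorem shv_ge {ρ : ℕ} {s : ℝ} (hs : |s| ≤ 1) (v : Fin 2 → ℝ) :
    v 0 ^ 2 + v 1 ^ 2 ≤ ((2:ℝ) ^ 1) ^ 2 * (shv ρ s v 0 ^ 2 + shv ρ s v 1 ^ 2) := by
  rw [shv0, shv1]
  set w := (2:ℝ) ^ ρ * (v 1 - s * v 0) with hw
  have h1 : |v 1 - s * v 0| ≤ |w| := by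
    rw [hw, abs_mul, abs_of_pos (show (0:ℝ) < 2 ^ ρ by positivity)]
    have : (1:ℝ) ≤ 2 ^ ρ := one_le_pow₀ (by norm_num)
    nlinarith [abs_nonneg (v 1 - s * v 0)]
  have h2 : (v 1 - s * v 0) ^ 2 ≤ w ^ 2 := sq_le_sq.2 h1
  have h3 : s ^ 2 ≤ 1 := by rw [← sq_abs]; exact pow_le_one₀ (abs_nonneg _) hs
  have h4 : (s * v 0) ^ 2 ≤ v 0 ^ 2 := by
    rw [mul_pow]
    exact mul_le_of_le_one_left (sq_nonneg _) h3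
  have h5 : v 1 ^ 2 ≤ 2 * (v 1 - s * v 0) ^ 2 + 2 * (s * v 0) ^ 2 := by
    nlinarith [sq_nonneg ((v 1 - s * v 0) - s * v 0)]
  norm_num
  linarith [sq_nonneg (v 0), sq_nonneg w]

theorem shv_le {ρ : ℕ} {s : ℝ} (hs : |s| ≤ 1) (v : Fin 2 → ℝ) :
    shv ρ s v 0 ^ 2 + shv ρ s v 1 ^ 2 ≤ ((2:ℝ) ^ (ρ + 1)) ^ 2 * (v 0 ^ 2 + v 1 ^ 2) := by
  rw [shv0, shv1]
  have h3 : s ^ 2 ≤ 1 := by rw [← sq_abs]; exact pow_le_one₀ (abs_nonneg _) hs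
  have h4 : (s * v 0) ^ 2 ≤ v 0 ^ 2 := by
    rw [mul_pow]
    exact mul_le_of_le_one_left (sq_nonneg _) h3
  have h5 : (v 1 - s * v 0) ^ 2 ≤ 2 * v 1 ^ 2 + 2 * v 0 ^ 2 := by
    nlinarith [sq_nonneg (v 1 + s * v 0)]
  have h6 : (1:ℝ) ≤ ((2:ℝ) ^ ρ) ^ 2 := one_le_pow₀ (one_le_pow₀ (by norm_num))
  rw [mul_pow, pow_succ (2:ℝ) ρ, mul_pow]
  have h7 : ((2:ℝ) ^ ρ) ^ 2 * (v 1 - s * v 0) ^ 2 ≤ ((2:ℝ) ^ ρ) ^ 2 * (2 * v 1 ^ 2 + 2 * v 0 ^ 2) := by gcongr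
  nlinarith [sq_nonneg (v 0), sq_nonneg (v 1), mul_nonneg (sub_nonneg.2 h6) (sq_nonneg (v 0)),
    mul_nonneg (sub_nonneg.2 h6) (sq_nonneg (v 1))]

/-- exponents of comparable boxes -/
theorem two_pow_le {a b c : ℕ} (h : (2:ℝ) ^ a ≤ 2 ^ c * 2 ^ b) : a ≤ b + c := by
  rw [← pow_add] at h
  have := (pow_le_pow_iff_right₀ (by norm_num : (1:ℝ) < 2)).1 h
  omega

/-- exponents -/
theorem vw_exp {ρ : ℕ} {s : ℝ} (hs : |s| ≤ 1) {ψ θ : ℝ} {k' j' k j m : ℕ} (h' : k' ≤ j') (h : k ≤ j)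
    (h1 : ∀ v, gq ψ k' j' v ≤ ((2:ℝ) ^ m) ^ 2 * gq θ k j (shv ρ s v))
    (h2 : ∀ v, gq θ k j (shv ρ s v) ≤ ((2:ℝ) ^ m) ^ 2 * gq ψ k' j' v) :
    k ≤ k' + (m + 1) ∧ k' ≤ k + ρ + (m + 1) ∧ j ≤ j' + (m + 1) ∧ j' ≤ j + ρ + (m + 1) := by
  have lowg : ∀ (θ : ℝ) (k j : ℕ), k ≤ j → ∀ w, ((2:ℝ) ^ k) ^ 2 * (w 0 ^ 2 + w 1 ^ 2) ≤ gq θ k j w := by
    intro θ k j hkj w
    exact bg_ge (Ω := Unit) ⟨fun _ => (w, w), fun _ => θ, fun _ => k, fun _ => j⟩ () hkj w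
  have upg : ∀ (θ : ℝ) (k j : ℕ), k ≤ j → ∀ w, gq θ k j w ≤ ((2:ℝ) ^ j) ^ 2 * (w 0 ^ 2 + w 1 ^ 2) := by
    intro θ k j hkj w
    exact bg_le (Ω := Unit) ⟨fun _ => (w, w), fun _ => θ, fun _ => k, fun _ => j⟩ () hkj w
  have nm : ∀ θ : ℝ, mv θ 0 ^ 2 + mv θ 1 ^ 2 = 1 := fun θ => by simp [mv]
  have nn : ∀ θ : ℝ, nv θ 0 ^ 2 + nv θ 1 ^ 2 = 1 := fun θ => by simp [nv]
  have p2 : ∀ a : ℕ, (0:ℝ) < ((2:ℝ) ^ a) ^ 2 := fun a => by positivity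
  refine ⟨pow_le_of_sq ?_, ?_, ?_, ?_⟩
  · -- `k ≤ k'`
    have a1 := (lowg θ k j h (shv ρ s (mv ψ))).trans (h2 (mv ψ))
    rw [gq_mv] at a1
    have a2 := shv_ge (ρ := ρ) hs (mv ψ)
    rw [nm] at a2
    calc ((2:ℝ) ^ k) ^ 2 = ((2:ℝ) ^ k) ^ 2 * 1 := by ring
      _ ≤ ((2:ℝ) ^ k) ^ 2 * (((2:ℝ) ^ 1) ^ 2 * (shv ρ s (mv ψ) 0 ^ 2 + shv ρ s (mv ψ) 1 ^ 2)) := by gcongr
      _ = ((2:ℝ) ^ 1) ^ 2 * (((2:ℝ) ^ k) ^ 2 * (shv ρ s (mv ψ) 0 ^ 2 + shv ρ s (mv ψ) 1 ^ 2)) := by ring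
      _ ≤ ((2:ℝ) ^ 1) ^ 2 * (((2:ℝ) ^ m) ^ 2 * ((2:ℝ) ^ k') ^ 2) := by gcongr
      _ = _ := by rw [pow_add (2:ℝ) m 1]; ring
  · -- `k' ≤ k + ρ`
    obtain ⟨v, hv⟩ := shv_surj ρ s (mv θ)
    have a1 := (lowg ψ k' j' h' v).trans (h1 v)
    rw [hv, gq_mv] at a1
    have a2 := shv_le (ρ := ρ) hs v
    rw [hv, nm] at a2
    refine pow_le_of_sq (k := k') (k' := k + ρ) (m := m + 1) ?_
    calc ((2:ℝ) ^ k') ^ 2 = ((2:ℝ) ^ k') ^ 2 * 1 := by ring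
      _ ≤ ((2:ℝ) ^ k') ^ 2 * (((2:ℝ) ^ (ρ + 1)) ^ 2 * (v 0 ^ 2 + v 1 ^ 2)) := by gcongr
      _ = ((2:ℝ) ^ (ρ + 1)) ^ 2 * (((2:ℝ) ^ k') ^ 2 * (v 0 ^ 2 + v 1 ^ 2)) := by ring
      _ ≤ ((2:ℝ) ^ (ρ + 1)) ^ 2 * (((2:ℝ) ^ m) ^ 2 * ((2:ℝ) ^ k) ^ 2) := by gcongr
      _ = _ := by rw [pow_add (2:ℝ) m 1, pow_add (2:ℝ) ρ 1, pow_add (2:ℝ) k ρ]; ring
  · -- `j ≤ j'`
    obtain ⟨v, hv⟩ := shv_surj ρ s (nv θ)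
    have a1 := h2 v
    rw [hv, gq_nv] at a1
    have a3 := upg ψ k' j' h' v
    have a2 := shv_ge (ρ := ρ) hs v
    rw [hv, nn, mul_one] at a2
    refine pow_le_of_sq ?_
    calc ((2:ℝ) ^ j) ^ 2 ≤ ((2:ℝ) ^ m) ^ 2 * (((2:ℝ) ^ j') ^ 2 * (v 0 ^ 2 + v 1 ^ 2)) := a1.trans (by gcongr)
      _ ≤ ((2:ℝ) ^ m) ^ 2 * (((2:ℝ) ^ j') ^ 2 * ((2:ℝ) ^ 1) ^ 2) := by gcongr
      _ = _ := by rw [pow_add (2:ℝ) m 1]; ring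
  · -- `j' ≤ j + ρ`
    have a1 := (h1 (nv ψ)).trans (mul_le_mul_of_nonneg_left (upg θ k j h (shv ρ s (nv ψ))) (p2 m).le)
    rw [gq_nv] at a1
    have a2 := shv_le (ρ := ρ) hs (nv ψ)
    rw [nn, mul_one] at a2
    refine pow_le_of_sq (k := j') (k' := j + ρ) (m := m + 1) ?_
    calc ((2:ℝ) ^ j') ^ 2 ≤ ((2:ℝ) ^ m) ^ 2 * (((2:ℝ) ^ j) ^ 2 * (shv ρ s (nv ψ) 0 ^ 2 + shv ρ s (nv ψ) 1 ^ 2)) := a1
      _ ≤ ((2:ℝ) ^ m) ^ 2 * (((2:ℝ) ^ j) ^ 2 * ((2:ℝ) ^ (ρ + 1)) ^ 2) := by gcongr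
      _ = _ := by rw [pow_add (2:ℝ) m 1, pow_add (2:ℝ) ρ 1, pow_add (2:ℝ) j ρ]; ring

/-- **a box in the sheared coordinates is a box** -/
theorem vw_box (ρ : ℕ) {s : ℝ} (hs : |s| ≤ 1) (θ : ℝ) (k j : ℕ) (hkj : k ≤ j) :
    ∃ (ψ : ℝ) (k' j' : ℕ), |ψ| ≤ 2 ∧ k' ≤ j' ∧
      k' + j' ≤ k + j + ρ + 2 ∧ k + j + ρ ≤ k' + j' + 2 ∧
      k ≤ k' + 2 ∧ k' ≤ k + ρ + 2 ∧ j ≤ j' + 2 ∧ j' ≤ j + ρ + 2 ∧
      (∀ v, gq ψ k' j' v ≤ 4 * gq θ k j (shv ρ s v)) ∧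
      (∀ v, gq θ k j (shv ρ s v) ≤ 4 * gq ψ k' j' v) := by
  have t := Real.sin_sq_add_cos_sq θ
  have hgv : ∀ v, gq θ k j (shv ρ s v) =
      (2 ^ k * (Real.cos θ - Real.sin θ * 2 ^ ρ * s) * v 0 + 2 ^ k * Real.sin θ * 2 ^ ρ * v 1) ^ 2 +
      (2 ^ j * (-Real.sin θ - Real.cos θ * 2 ^ ρ * s) * v 0 + 2 ^ j * Real.cos θ * 2 ^ ρ * v 1) ^ 2 := by
    intro v
    unfold gq
    rw [co0, co1, shv0, shv1]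
    ring
  have hdet : (2 ^ k * (Real.cos θ - Real.sin θ * 2 ^ ρ * s)) * (2 ^ j * Real.cos θ * 2 ^ ρ) -
      (2 ^ j * (-Real.sin θ - Real.cos θ * 2 ^ ρ * s)) * (2 ^ k * Real.sin θ * 2 ^ ρ) = (2:ℝ) ^ (k + j + ρ) := by
    have e : (2 ^ k * (Real.cos θ - Real.sin θ * 2 ^ ρ * s)) * (2 ^ j * Real.cos θ * 2 ^ ρ) -
        (2 ^ j * (-Real.sin θ - Real.cos θ * 2 ^ ρ * s)) * (2 ^ k * Real.sin θ * 2 ^ ρ) =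
        (Real.sin θ ^ 2 + Real.cos θ ^ 2) * ((2:ℝ) ^ k * 2 ^ j * 2 ^ ρ) := by ring
    rw [e, t, one_mul, pow_add, pow_add]
  obtain ⟨ψ, k', j', a1, a2, a3, a4, a5, a6⟩ := box_of_map
    (2 ^ k * (Real.cos θ - Real.sin θ * 2 ^ ρ * s)) (2 ^ k * Real.sin θ * 2 ^ ρ)
    (2 ^ j * (-Real.sin θ - Real.cos θ * 2 ^ ρ * s)) (2 ^ j * Real.cos θ * 2 ^ ρ) 1
    (by rw [hdet]; positivity) (by
      intro v
      rw [← hgv]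
      refine (shv_ge (ρ := ρ) hs v).trans ?_
      have := gq_ge θ k j (shv ρ s v)
      gcongr)
  rw [hdet] at a5 a6
  have g1 : ∀ v, gq ψ k' j' v ≤ ((2:ℝ) ^ 1) ^ 2 * gq θ k j (shv ρ s v) := fun v => by
    rw [hgv]; exact a3 v
  have g2 : ∀ v, gq θ k j (shv ρ s v) ≤ ((2:ℝ) ^ 1) ^ 2 * gq ψ k' j' v := fun v => by
    rw [hgv]
    refine (a4 v).trans (le_of_eq ?_)
    norm_num
  obtain ⟨b1, b2, b3, b4⟩ := vw_exp hs a2 hkj g1 g2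
  refine ⟨ψ, k', j', a1, a2, ?_, ?_, b1, b2, b3, b4, fun v => (g1 v).trans (le_of_eq (by norm_num)),
    fun v => (g2 v).trans (le_of_eq (by norm_num))⟩
  · refine two_pow_le (a5.trans (le_of_eq ?_))
    norm_num
  · refine two_pow_le (a6.trans (le_of_eq ?_))
    norm_num

/-- **a box contained in the slab is a box in the sheared coordinates** -/
theorem vw_box' (ρ : ℕ) {s : ℝ} (hs : |s| ≤ 1) (ψ : ℝ) (k' j' m : ℕ) (hkj : k' ≤ j')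
    (hin : ∀ v, shv ρ s v 0 ^ 2 + shv ρ s v 1 ^ 2 ≤ ((2:ℝ) ^ m) ^ 2 * gq ψ k' j' v) :
    ∃ (θ : ℝ) (k j : ℕ), |θ| ≤ 2 ∧ k ≤ j ∧
      k' + j' ≤ k + j + ρ + 2 ∧ k + j + ρ ≤ k' + j' + 2 * m ∧
      k ≤ k' + (m + 2) ∧ k' ≤ k + ρ + (m + 2) ∧ j ≤ j' + (m + 2) ∧ j' ≤ j + ρ + (m + 2) ∧
      (∀ v, gq θ k j (shv ρ s v) ≤ ((2:ℝ) ^ m) ^ 2 * gq ψ k' j' v) ∧
      (∀ v, gq ψ k' j' v ≤ 4 * gq θ k j (shv ρ s v)) := by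
  have t := Real.sin_sq_add_cos_sq ψ
  have pρ : (2:ℝ) ^ ρ ≠ 0 := by positivity
  set α0 : ℝ := 2 ^ k' * (Real.cos ψ + Real.sin ψ * s) with hα0
  set β0 : ℝ := 2 ^ k' * Real.sin ψ / 2 ^ ρ with hβ0
  set α1 : ℝ := 2 ^ j' * (-Real.sin ψ + Real.cos ψ * s) with hα1
  set β1 : ℝ := 2 ^ j' * Real.cos ψ / 2 ^ ρ with hβ1
  have hgv : ∀ v, gq ψ k' j' v = (α0 * shv ρ s v 0 + β0 * shv ρ s v 1) ^ 2 +
      (α1 * shv ρ s v 0 + β1 * shv ρ s v 1) ^ 2 := by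
    intro v
    unfold gq
    rw [co0, co1, shv0, shv1, hα0, hβ0, hα1, hβ1]
    congr 2
    · field_simp
      ring
    · field_simp
      ring
  have hdet : α0 * β1 - α1 * β0 = (2:ℝ) ^ (k' + j') / 2 ^ ρ := by
    have e : α0 * β1 - α1 * β0 = (Real.sin ψ ^ 2 + Real.cos ψ ^ 2) * (2 ^ k' * 2 ^ j' / 2 ^ ρ) := by
      rw [hα0, hβ0, hα1, hβ1]
      field_simp
      ring
    rw [e, t, one_mul, pow_add]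
  obtain ⟨θ, k, j, a1, a2, a3, a4, a5, a6⟩ := box_of_map α0 β0 α1 β1 m (by rw [hdet]; positivity) (by
    intro w
    obtain ⟨v, rfl⟩ := shv_surj ρ s w
    rw [← hgv]
    exact hin v)
  rw [hdet] at a5 a6
  have g1 : ∀ v, gq ψ k' j' v ≤ ((2:ℝ) ^ (m + 1)) ^ 2 * gq θ k j (shv ρ s v) := fun v => by
    rw [hgv]
    refine (a4 _).trans ?_
    refine mul_le_mul_of_nonneg_right ?_ (gq_nonneg _ _ _ _)
    have : (1:ℝ) ≤ 2 ^ m := one_le_pow₀ (by norm_num)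
    rw [pow_succ (2:ℝ) m, mul_pow]
    nlinarith
  have g2 : ∀ v, gq θ k j (shv ρ s v) ≤ ((2:ℝ) ^ (m + 1)) ^ 2 * gq ψ k' j' v := fun v => by
    rw [hgv v]
    refine (a3 _).trans ?_
    refine mul_le_mul_of_nonneg_right ?_ (by positivity)
    have : (1:ℝ) ≤ 2 ^ m := one_le_pow₀ (by norm_num)
    rw [pow_succ (2:ℝ) m, mul_pow]
    nlinarith [sq_nonneg ((2:ℝ) ^ m)]
  obtain ⟨b1, b2, b3, b4⟩ := vw_exp hs hkj a2 g1 g2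
  refine ⟨θ, k, j, a1, a2, ?_, ?_, by omega, by omega, by omega, by omega,
    fun v => by rw [hgv v]; exact a3 _, fun v => by rw [hgv]; exact a4 _⟩
  · have h7 : (2:ℝ) ^ (k' + j') ≤ 2 ^ 2 * 2 ^ (k + j + ρ) := by
      rw [pow_add (2:ℝ) (k + j)]
      calc (2:ℝ) ^ (k' + j') = (2 ^ (k' + j') / 2 ^ ρ) * 2 ^ ρ := by field_simp
        _ ≤ (4 * (2:ℝ) ^ (k + j)) * 2 ^ ρ := by gcongr
        _ = _ := by ring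
    exact two_pow_le h7
  · have h7 : (2:ℝ) ^ (k + j + ρ) ≤ 2 ^ (2 * m) * 2 ^ (k' + j') := by
      rw [pow_add (2:ℝ) (k + j), pow_mul']
      calc (2:ℝ) ^ (k + j) * 2 ^ ρ ≤ (((2:ℝ) ^ m) ^ 2 * (2 ^ (k' + j') / 2 ^ ρ)) * 2 ^ ρ := by gcongr
        _ = _ := by field_simp
    exact two_pow_le h7

section finite

variable {Ω : Type} [Fintype Ω] {δ : Type*}

/-- **the label of the box in the original coordinates is known** (`L` the linear map, `m1`, `m2` the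
integer parts, `D` a variable which determines them) -/
theorem hc_lin (P : Law Ω) (U T : Bx Ω) (L : Ω → (Fin 2 → ℝ) → Fin 2 → ℝ) (m1 m2 : Ω → Fin 2 → ℝ)
    (D : Ω → δ) (m : ℕ)
    (hb : ∀ ω, 0 < P.w ω → |U.θ ω| ≤ 4 ∧ U.k ω ≤ U.j ω ∧ T.k ω ≤ T.j ω ∧
      (∀ i, (T.l ω).1 i = L ω (U.l ω).1 i - m1 ω i) ∧ (∀ i, (T.l ω).2 i = L ω (U.l ω).2 i - m2 ω i) ∧
      (∀ v, bg U ω v ≤ ((2:ℝ) ^ m) ^ 2 * bg T ω (L ω v)) ∧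
      (∀ v, bg T ω (L ω v) ≤ ((2:ℝ) ^ m) ^ 2 * bg U ω v) ∧
      ∀ v w : Fin 2 → ℝ, L ω (fun i => v i - w i) = fun i => L ω v i - L ω w i)
    (hD : ∀ ω ω', 0 < P.w ω → 0 < P.w ω' → D ω' = D ω → L ω' = L ω ∧ m1 ω' = m1 ω ∧ m2 ω' = m2 ω) :
    Stk.hc P U.lab (fun ω => (T.lab ω, D ω)) ≤ MJ.Kc (2 * m + 2) := by
  refine MJ.hc_gauge P U _ _ (fun ω hω => ⟨(hb ω hω).1, (hb ω hω).2.1⟩) ?_
  intro ω ω' hω hω' e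
  simp only [Prod.mk.injEq] at e
  obtain ⟨e1, e2⟩ := e
  obtain ⟨-, b2, b3, b4, b5, b6, b7, b8⟩ := hb ω hω
  obtain ⟨-, b2', b3', b4', b5', b6', b7', -⟩ := hb ω' hω'
  obtain ⟨f1, f2, f3⟩ := hD ω ω' hω hω' e2
  obtain ⟨c1, c2, c3, c4, c5⟩ := MJ.gauge_of_lab b3 e1
  rw [f1] at b4' b5' b6' b7'
  rw [f2] at b4'
  rw [f3] at b5'
  have r1 : ∀ v, bg T ω' v ≤ 4 * bg T ω v := by
    intro v
    unfold bg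
    rw [c1, c2]
    exact gq_rot b3 c3 v
  have p1 : (1:ℝ) ≤ 2 ^ m := one_le_pow₀ (by norm_num)
  have e5 : ((2:ℝ) ^ (2 * m + 2)) ^ 2 = ((2:ℝ) ^ m) ^ 2 * (16 * ((2:ℝ) ^ m) ^ 2) := by ring
  have dl1 : L ω (fun i => (U.l ω').1 i - (U.l ω).1 i) = fun i => (T.l ω').1 i - (T.l ω).1 i := by
    rw [b8]
    funext i
    rw [b4 i, b4' i]
    ring
  have dl2 : L ω (fun i => (U.l ω').2 i - (U.l ω).2 i) = fun i => (T.l ω').2 i - (T.l ω).2 i := by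
    rw [b8]
    funext i
    rw [b5 i, b5' i]
    ring
  refine ⟨fun v => ?_, ?_, ?_⟩
  · calc bg U ω' v ≤ ((2:ℝ) ^ m) ^ 2 * bg T ω' (L ω v) := b6' v
      _ ≤ ((2:ℝ) ^ m) ^ 2 * (4 * bg T ω (L ω v)) := by
          have := r1 (L ω v)
          gcongr
      _ ≤ ((2:ℝ) ^ m) ^ 2 * (4 * (((2:ℝ) ^ m) ^ 2 * bg U ω v)) := by
          have := b7 v
          gcongr
      _ ≤ _ := by
          rw [e5]
          have := bg_nonneg U ω v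
          have : 0 ≤ ((2:ℝ) ^ m) ^ 2 * ((2:ℝ) ^ m) ^ 2 * bg U ω v := by positivity
          linarith
  · refine (b6 _).trans ?_
    rw [dl1, e5]
    calc ((2:ℝ) ^ m) ^ 2 * bg T ω (fun i => (T.l ω').1 i - (T.l ω).1 i) ≤ ((2:ℝ) ^ m) ^ 2 * 8 := by gcongr
      _ ≤ _ := by gcongr; nlinarith
  · refine (b6 _).trans ?_
    rw [dl2, e5]
    calc ((2:ℝ) ^ m) ^ 2 * bg T ω (fun i => (T.l ω').2 i - (T.l ω).2 i) ≤ ((2:ℝ) ^ m) ^ 2 * 8 := by gcongr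
      _ ≤ _ := by gcongr; nlinarith

/-- the label of the box in the new coordinates is known -/
theorem hc_lin' (P : Law Ω) (U T : Bx Ω) (L : Ω → (Fin 2 → ℝ) → Fin 2 → ℝ) (m1 m2 : Ω → Fin 2 → ℝ)
    (D : Ω → δ) (m : ℕ)
    (hb : ∀ ω, 0 < P.w ω → |T.θ ω| ≤ 4 ∧ U.k ω ≤ U.j ω ∧ T.k ω ≤ T.j ω ∧
      (∀ i, (T.l ω).1 i = L ω (U.l ω).1 i - m1 ω i) ∧ (∀ i, (T.l ω).2 i = L ω (U.l ω).2 i - m2 ω i) ∧
      (∀ v, bg U ω v ≤ ((2:ℝ) ^ m) ^ 2 * bg T ω (L ω v)) ∧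
      (∀ v, bg T ω (L ω v) ≤ ((2:ℝ) ^ m) ^ 2 * bg U ω v) ∧
      (∀ v w : Fin 2 → ℝ, L ω (fun i => v i - w i) = fun i => L ω v i - L ω w i) ∧
      ∀ w, ∃ v, L ω v = w)
    (hD : ∀ ω ω', 0 < P.w ω → 0 < P.w ω' → D ω' = D ω → L ω' = L ω ∧ m1 ω' = m1 ω ∧ m2 ω' = m2 ω) :
    Stk.hc P T.lab (fun ω => (U.lab ω, D ω)) ≤ MJ.Kc (2 * m + 2) := by
  refine MJ.hc_gauge P T _ _ (fun ω hω => ⟨(hb ω hω).1, (hb ω hω).2.2.1⟩) ?_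
  intro ω ω' hω hω' e
  simp only [Prod.mk.injEq] at e
  obtain ⟨e1, e2⟩ := e
  obtain ⟨-, b2, b3, b4, b5, b6, b7, b8, b9⟩ := hb ω hω
  obtain ⟨-, b2', b3', b4', b5', b6', b7', -, -⟩ := hb ω' hω'
  obtain ⟨f1, f2, f3⟩ := hD ω ω' hω hω' e2
  obtain ⟨c1, c2, c3, c4, c5⟩ := MJ.gauge_of_lab b2 e1
  rw [f1] at b4' b5' b6' b7'
  rw [f2] at b4'
  rw [f3] at b5'
  have r1 : ∀ v, bg U ω' v ≤ 4 * bg U ω v := by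
    intro v
    unfold bg
    rw [c1, c2]
    exact gq_rot b2 c3 v
  have p1 : (1:ℝ) ≤ 2 ^ m := one_le_pow₀ (by norm_num)
  have e5 : ((2:ℝ) ^ (2 * m + 2)) ^ 2 = ((2:ℝ) ^ m) ^ 2 * (16 * ((2:ℝ) ^ m) ^ 2) := by ring
  have dl1 : L ω (fun i => (U.l ω').1 i - (U.l ω).1 i) = fun i => (T.l ω').1 i - (T.l ω).1 i := by
    rw [b8]
    funext i
    rw [b4 i, b4' i]
    ring
  have dl2 : L ω (fun i => (U.l ω').2 i - (U.l ω).2 i) = fun i => (T.l ω').2 i - (T.l ω).2 i := by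
    rw [b8]
    funext i
    rw [b5 i, b5' i]
    ring
  refine ⟨fun w => ?_, ?_, ?_⟩
  · obtain ⟨v, rfl⟩ := b9 w
    calc bg T ω' (L ω v) ≤ ((2:ℝ) ^ m) ^ 2 * bg U ω' v := b7' v
      _ ≤ ((2:ℝ) ^ m) ^ 2 * (4 * bg U ω v) := by
          have := r1 v
          gcongr
      _ ≤ ((2:ℝ) ^ m) ^ 2 * (4 * (((2:ℝ) ^ m) ^ 2 * bg T ω (L ω v))) := by
          have := b6 v
          gcongr
      _ ≤ _ := by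
          rw [e5]
          have := bg_nonneg T ω (L ω v)
          have : 0 ≤ ((2:ℝ) ^ m) ^ 2 * ((2:ℝ) ^ m) ^ 2 * bg T ω (L ω v) := by positivity
          linarith
  · rw [← dl1]
    refine (b7 _).trans ?_
    rw [e5]
    calc ((2:ℝ) ^ m) ^ 2 * bg U ω (fun i => (U.l ω').1 i - (U.l ω).1 i) ≤ ((2:ℝ) ^ m) ^ 2 * 8 := by gcongr
      _ ≤ _ := by gcongr; nlinarith
  · rw [← dl2]
    refine (b7 _).trans ?_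
    rw [e5]
    calc ((2:ℝ) ^ m) ^ 2 * bg U ω (fun i => (U.l ω').2 i - (U.l ω).2 i) ≤ ((2:ℝ) ^ m) ^ 2 * 8 := by gcongr
      _ ≤ _ := by gcongr; nlinarith

end finite

end Vale.Agent.P127.U.Str
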