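import Vale.Agent.P127.U.PlaneOf

/-!
# P127 / U : the bilinear inequality (helper611), finite part
-/

set_option autoImplicit false

namespace Vale.Agent.P127.U.Bil

open Finset Vale.Agent.P127 Vale.Agent.P127.Stk Vale.Agent.P127.U.Tri Vale.Agent.P127.U.Plane

variable {Ω : Type} [Fintype Ω]

theorem fl1_diff {L N : ℕ} {x y : ℝ} (h : |x - y| ≤ N * (1 / 2 : ℝ) ^ L) :
    |fl1 L x - fl1 L y| ≤ (N : ℤ) + 1 :=
  Stk.floor_close_aux (x := (2 : ℝ) ^ L * x) (y := (2 : ℝ) ^ L * y) (by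
    rw [← mul_sub, abs_mul, abs_of_pos (by positivity : (0 : ℝ) < 2 ^ L)]
    calc (2 : ℝ) ^ L * |x - y| ≤ 2 ^ L * (N * (1 / 2 : ℝ) ^ L) :=
          mul_le_mul_of_nonneg_left h (by positivity)
      _ = (N : ℝ) := by
          rw [one_div, inv_pow]
          field_simp)

theorem Icc_card (c N : ℤ) (hN : 0 ≤ N) (M : ℕ) (h : 2 * N + 1 ≤ M) :
    (Finset.Icc (c - N) (c + N)).card ≤ M := by
  rw [Int.card_Icc]
  omega

/-- two transversal lines through the same point determine it -/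
theorem two_lines (P : Law Ω) (L m : ℕ) (l₀ l₁ : Ω → Ln) (t : Ω → ℝ)
    (h0 : ∀ ω, 0 < P.w ω → LnOk (l₀ ω)) (_h1 : ∀ ω, 0 < P.w ω → LnOk (l₁ ω))
    (ht : ∀ ω, 0 < P.w ω → 0 ≤ t ω ∧ t ω ≤ 1)
    (hp : ∀ ω, 0 < P.w ω → ∀ i, |pos (l₀ ω) (t ω) i - pos (l₁ ω) (t ω) i| ≤
      2 * (1 / 2 : ℝ) ^ L) :
    Stk.hc P (fun ω => pq L (t ω, pos (l₀ ω) (t ω))) (fun ω => (tb L (l₀ ω), tb L (l₁ ω))) ≤
      Real.log 2 + 3 * ((m : ℝ) + 5) * Real.log 2 +
        prE P (fun ω => ∀ i, |(l₀ ω).2 i - (l₁ ω).2 i| ≤ (1 / 2 : ℝ) ^ m) *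
          (3 * ((L : ℝ) + 3) * Real.log 2) := by
  classical
  have hL8 : (1 : ℤ) ≤ 2 ^ L := by exact_mod_cast Nat.one_le_two_pow
  have hm8 : (1 : ℤ) ≤ 2 ^ m := by exact_mod_cast Nat.one_le_two_pow
  have h := hc_le_exc P (fun ω => ∀ i, |(l₀ ω).2 i - (l₁ ω).2 i| ≤ (1 / 2 : ℝ) ^ m)
    (fun ω => pq L (t ω, pos (l₀ ω) (t ω))) (fun ω => (tb L (l₀ ω), tb L (l₁ ω)))
    ((2 ^ (L + 3)) ^ 3) ((2 ^ (m + 5)) ^ 3) (Nat.one_le_pow _ _ (by positivity)) (by
      refine ⟨Finset.Icc (-(((2 : ℕ) : ℤ) * 2 ^ L)) (((2 : ℕ) : ℤ) * 2 ^ L) ×ˢ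
        Fintype.piFinset fun _ : Fin 2 =>
          Finset.Icc (-(((2 : ℕ) : ℤ) * 2 ^ L)) (((2 : ℕ) : ℤ) * 2 ^ L), ?_, fun ω hω => ?_⟩
      · have hc : (Finset.Icc (-(((2 : ℕ) : ℤ) * 2 ^ L)) (((2 : ℕ) : ℤ) * 2 ^ L)).card ≤
            2 ^ (L + 3) := by
          refine card_Icc_aux _ (by positivity) _ ?_
          rw [pow_add]
          push_cast
          linarith
        rw [Finset.card_product, Fintype.card_piFinset, Finset.prod_const, Finset.card_univ,
          Fintype.card_fin]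
        calc _ ≤ 2 ^ (L + 3) * (2 ^ (L + 3)) ^ 2 := Nat.mul_le_mul hc (Nat.pow_le_pow_left hc 2)
          _ = _ := by ring
      · rw [Finset.mem_product, Fintype.mem_piFinset]
        have h2 := ht ω hω
        refine ⟨fl1_mem L L 2 _ ?_ le_rfl, fun i => fl1_mem L L 2 _ ?_ le_rfl⟩
        · rw [abs_of_nonneg h2.1]
          push_cast
          linarith [h2.2]
        · push_cast
          exact Plane.pos_le (h0 ω hω) h2.1 h2.2 i)
    (by
      intro ω hω hE
      have hc : ∀ c : ℤ, (Finset.Icc (c - (10 * 2 ^ m + 1)) (c + (10 * 2 ^ m + 1))).card ≤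
          2 ^ (m + 5) := fun c => Icc_card c _ (by positivity) _ (by
        rw [pow_add]
        push_cast
        linarith)
      refine ⟨Finset.Icc (fl1 L (t ω) - (10 * 2 ^ m + 1)) (fl1 L (t ω) + (10 * 2 ^ m + 1)) ×ˢ
        Fintype.piFinset fun i : Fin 2 =>
          Finset.Icc (fl L (pos (l₀ ω) (t ω)) i - (10 * 2 ^ m + 1))
            (fl L (pos (l₀ ω) (t ω)) i + (10 * 2 ^ m + 1)), ?_, ?_⟩
      · rw [Finset.card_product, Fintype.card_piFinset]
        calc _ ≤ 2 ^ (m + 5) * ∏ i : Fin 2, 2 ^ (m + 5) :=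
              Nat.mul_le_mul (hc _) (Finset.prod_le_prod' fun i _ => hc _)
          _ = _ := by
            rw [Finset.prod_const, Finset.card_univ, Fintype.card_fin]
            ring
      · intro ω' hω' hE' e
        have e0 : tb L (l₀ ω') = tb L (l₀ ω) := congrArg Prod.fst e
        have e1 : tb L (l₁ ω') = tb L (l₁ ω) := congrArg Prod.snd e
        have x0 := fun i => Stk.Bs.fl_close (congrArg Prod.fst e0 : fl L (l₀ ω').1 = _) i
        have y0 := fun i => Stk.Bs.fl_close (congrArg Prod.snd e0 : fl L (l₀ ω').2 = _) i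
        have x1 := fun i => Stk.Bs.fl_close (congrArg Prod.fst e1 : fl L (l₁ ω').1 = _) i
        have y1 := fun i => Stk.Bs.fl_close (congrArg Prod.snd e1 : fl L (l₁ ω').2 = _) i
        have hpL : (0 : ℝ) < (1 / 2) ^ L := by positivity
        -- the time
        have htt : |t ω' - t ω| ≤ 8 * 2 ^ m * (1 / 2 : ℝ) ^ L := by
          push Not at hE
          obtain ⟨i, hi⟩ := hE
          have a1 := hp ω hω i
          have a2 := hp ω' hω' i
          have b1 := x0 i
          have b2 := y0 i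
          have b3 := x1 i
          have b4 := y1 i
          have c1 := ht ω' hω'
          unfold pos at a1 a2
          have key : |(t ω' - t ω) * ((l₀ ω).2 i - (l₁ ω).2 i)| ≤ 8 * (1 / 2 : ℝ) ^ L := by
            have e : (t ω' - t ω) * ((l₀ ω).2 i - (l₁ ω).2 i) =
              (((l₀ ω').1 i + t ω' * (l₀ ω').2 i) - ((l₁ ω').1 i + t ω' * (l₁ ω').2 i)) -
              (((l₀ ω).1 i + t ω * (l₀ ω).2 i) - ((l₁ ω).1 i + t ω * (l₁ ω).2 i)) -
              ((l₀ ω').1 i - (l₀ ω).1 i) + ((l₁ ω').1 i - (l₁ ω).1 i) -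
              t ω' * ((l₀ ω').2 i - (l₀ ω).2 i) + t ω' * ((l₁ ω').2 i - (l₁ ω).2 i) := by ring
            have d1 : |t ω' * ((l₀ ω').2 i - (l₀ ω).2 i)| ≤ (1 / 2 : ℝ) ^ L := by
              rw [abs_mul, abs_of_nonneg c1.1]
              calc t ω' * |(l₀ ω').2 i - (l₀ ω).2 i| ≤ 1 * (1 / 2 : ℝ) ^ L :=
                    mul_le_mul c1.2 b2 (abs_nonneg _) (by norm_num)
                _ = _ := one_mul _
            have d2 : |t ω' * ((l₁ ω').2 i - (l₁ ω).2 i)| ≤ (1 / 2 : ℝ) ^ L := by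
              rw [abs_mul, abs_of_nonneg c1.1]
              calc t ω' * |(l₁ ω').2 i - (l₁ ω).2 i| ≤ 1 * (1 / 2 : ℝ) ^ L :=
                    mul_le_mul c1.2 b4 (abs_nonneg _) (by norm_num)
                _ = _ := one_mul _
            rw [e]
            rw [abs_le] at a1 a2 b1 b3 d1 d2 ⊢
            constructor <;> linarith [a1.1, a1.2, a2.1, a2.2, b1.1, b1.2, b3.1, b3.2, d1.1, d1.2,
              d2.1, d2.2]
          rw [abs_mul] at key
          have hm0 : (0 : ℝ) < (1 / 2) ^ m := by positivity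
          have k2 : |t ω' - t ω| * (1 / 2 : ℝ) ^ m ≤ 8 * (1 / 2 : ℝ) ^ L :=
            (mul_le_mul_of_nonneg_left hi.le (abs_nonneg _)).trans key
          have k3 : (1 / 2 : ℝ) ^ m * 2 ^ m = 1 := by
            rw [← mul_pow]
            norm_num
          calc |t ω' - t ω| = |t ω' - t ω| * (1 / 2 : ℝ) ^ m * 2 ^ m := by
                rw [mul_assoc, k3, mul_one]
            _ ≤ 8 * (1 / 2 : ℝ) ^ L * 2 ^ m := mul_le_mul_of_nonneg_right k2 (by positivity)
            _ = _ := by ring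
        have hm1 : (1 : ℝ) ≤ 2 ^ m := one_le_pow₀ (by norm_num)
        have hpos : ∀ i, |pos (l₀ ω') (t ω') i - pos (l₀ ω) (t ω) i| ≤
            10 * 2 ^ m * (1 / 2 : ℝ) ^ L := by
          intro i
          have c1 := ht ω' hω'
          have e : pos (l₀ ω') (t ω') i - pos (l₀ ω) (t ω) i =
            ((l₀ ω').1 i - (l₀ ω).1 i) + ((t ω' - t ω) * (l₀ ω).2 i +
              t ω' * ((l₀ ω').2 i - (l₀ ω).2 i)) := by
            unfold pos
            ring
          have d1 : |t ω' * ((l₀ ω').2 i - (l₀ ω).2 i)| ≤ (1 / 2 : ℝ) ^ L := by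
            rw [abs_mul, abs_of_nonneg c1.1]
            calc t ω' * |(l₀ ω').2 i - (l₀ ω).2 i| ≤ 1 * (1 / 2 : ℝ) ^ L :=
                  mul_le_mul c1.2 (y0 i) (abs_nonneg _) (by norm_num)
              _ = _ := one_mul _
          have d2 : |(t ω' - t ω) * (l₀ ω).2 i| ≤ 8 * 2 ^ m * (1 / 2 : ℝ) ^ L := by
            rw [abs_mul]
            calc |t ω' - t ω| * |(l₀ ω).2 i| ≤ (8 * 2 ^ m * (1 / 2 : ℝ) ^ L) * 1 :=
                  mul_le_mul htt ((h0 ω hω).2 i) (abs_nonneg _) (by positivity)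
              _ = _ := mul_one _
          have b1 := x0 i
          rw [e]
          have k1 : (1 / 2 : ℝ) ^ L ≤ 2 ^ m * (1 / 2 : ℝ) ^ L := by nlinarith
          rw [abs_le] at b1 d1 d2 ⊢
          constructor <;> linarith [b1.1, b1.2, d1.1, d1.2, d2.1, d2.2]
        rw [Finset.mem_product, Fintype.mem_piFinset]
        have f1 : |fl1 L (t ω') - fl1 L (t ω)| ≤ ((10 * 2 ^ m : ℕ) : ℤ) + 1 := by
          refine fl1_diff (htt.trans ?_)
          push_cast
          have : (0 : ℝ) ≤ 2 ^ m * (1 / 2) ^ L := by positivity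
          nlinarith
        have f2 : ∀ i, |fl1 L (pos (l₀ ω') (t ω') i) - fl1 L (pos (l₀ ω) (t ω) i)| ≤
            ((10 * 2 ^ m : ℕ) : ℤ) + 1 := by
          intro i
          refine fl1_diff ((hpos i).trans (le_of_eq ?_))
          push_cast
          ring
        refine ⟨?_, fun i => ?_⟩
        · have := abs_le.1 f1
          push_cast at this
          show fl1 L (t ω') ∈ _
          rw [Finset.mem_Icc]
          constructor <;> linarith [this.1, this.2]
        · have := abs_le.1 (f2 i)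
          push_cast at this
          show fl1 L (pos (l₀ ω') (t ω') i) ∈ Finset.Icc (fl1 L (pos (l₀ ω) (t ω) i) - _)
            (fl1 L (pos (l₀ ω) (t ω) i) + _)
          rw [Finset.mem_Icc]
          constructor <;> linarith [this.1, this.2])
  refine h.trans (le_of_eq ?_)
  push_cast
  rw [← pow_mul, ← pow_mul, Real.log_pow, Real.log_pow]
  push_cast
  ring

end Vale.Agent.P127.U.Bil
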