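import Vale.Agent.P127.U.C2Geo
import Vale.Agent.P127.U.TameLab

/-!
# P127 / U : block C2 (helper463)

`pC2 : PExcLe → PC2` : slabs which are full in themselves, `h(B | q_j, C) ≤ Exc(B | C)`
(Cordoba's argument: two copies given `(q_j, C)`; the slabs agree up to the precision `ρ`, their
intersection has entropy `j + ρ`, and the common slab of thickness `2^-ρ` is a competitor in the
definition of the excess).
-/

set_option autoImplicit false

namespace Vale.Agent.P127.U.C2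

open Filter Topology Vale.Agent.P127 Vale.Agent.P127.Stk Apx

/-- constants -/
noncomputable def c1 (K : ℕ) : ℝ := Real.log 2 + (Real.log (8 * ((5 * K + 4 : ℕ) : ℝ) + 3) +
  Real.log (616 * ((5 * K + 4 : ℕ) : ℝ) ^ 4 + 3) + 2 * Real.log (16 * ((5 * K + 4 : ℕ) : ℝ) ^ 2 + 3))

/-- constants -/
noncomputable def c2 (K : ℕ) : ℝ :=
  Real.log 9 + 5 * Real.log (2 * (2 * ((42 * K + 44 : ℕ) : ℝ) + 9) + 3)

/-- two slabs through a point, finite form -/
theorem two_slabs {Ω : Type} [Fintype Ω] {γ : Type*} (P : Law Ω) (K j : ℕ) {c : ℝ}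
    (hcK : c ≤ K) (B0 B1 : Bx Ω) (q0 q1 : Ω → Pt) (C : Ω → γ)
    (h0 : ∀ ω, 0 < P.w ω → BxOk B0 ω ∧ B0.k ω = 0 ∧ B0.j ω = j ∧ Inb c B0 q0 ω)
    (h1 : ∀ ω, 0 < P.w ω → BxOk B1 ω ∧ B1.k ω = 0 ∧ B1.j ω = j ∧ Inb c B1 q1 ω)
    (hq : ∀ ω, 0 < P.w ω → pq j (q0 ω) = pq j (q1 ω)) :
    ∃ ρ : Ω → ℕ, (∀ ω, ρ ω ≤ j) ∧
      Stk.hc P (fun ω => pq j (q0 ω)) (fun ω => (B1.lab ω, (B0.lab ω, C ω))) ≤
        P.ex (fun ω => (ρ ω : ℝ)) * Real.log 2 + j * Real.log 2 + (Real.log (j + 1) + c1 K) ∧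
      Stk.hc P (fun ω => lab (B1.θ ω) 0 (ρ ω) (B1.l ω)) (fun ω => (B0.lab ω, C ω)) ≤
        Real.log (j + 1) + c2 K := by
  set φ : Ω → ℝ := fun ω => qa j (B0.θ ω) with hφ
  set ψ : Ω → ℝ := fun ω => qa j (B1.θ ω) with hψ
  set a : Ω → ℝ := fun ω => co (φ ω) (B0.l ω).1 1 with ha
  set b : Ω → ℝ := fun ω => co (φ ω) (B0.l ω).2 1 with hb
  set a' : Ω → ℝ := fun ω => co (ψ ω) (B1.l ω).1 1 with ha'
  set b' : Ω → ℝ := fun ω => co (ψ ω) (B1.l ω).2 1 with hb'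
  set m : Ω → ℤ := fun ω => dm (φ ω) (ψ ω) with hm
  set g : Ω → ℝ := fun ω => |b' ω - sg (m ω) * b ω| with hg
  set E : Ω → ℝ := fun ω => |dl (φ ω) (ψ ω)| + g ω with hE
  set ρ : Ω → ℕ := fun ω => rh j (E ω) with hρ
  have hKr : (0 : ℝ) ≤ K := Nat.cast_nonneg _
  have half : ∀ {x y : ℕ}, x ≤ y → (1 / 2 : ℝ) ^ y ≤ (1 / 2) ^ x := fun {x y} h =>
    pow_le_pow_of_le_one (by norm_num) (by norm_num) h
  have hδ : (0 : ℝ) < (1 / 2 : ℝ) ^ j := by positivity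
  have f0 : ∀ ω, 0 < P.w ω → |φ ω| ≤ 5 ∧ |b ω| ≤ 2 ∧ 0 ≤ (q0 ω).1 ∧ (q0 ω).1 ≤ 1 ∧
      (∀ i, |(q0 ω).2 i| ≤ 2 * K + 2) ∧
      |co (φ ω) (q0 ω).2 1 - a ω - (q0 ω).1 * b ω| ≤ 5 * K * (1 / 2 : ℝ) ^ j := by
    intro ω p
    obtain ⟨g1, g2, g3, g4⟩ := h0 ω p
    exact box_facts K hcK g1 g2 g3 g4
  have f1 : ∀ ω, 0 < P.w ω → |ψ ω| ≤ 5 ∧ |b' ω| ≤ 2 ∧
      |co (ψ ω) (q0 ω).2 1 - a' ω - (q0 ω).1 * b' ω| ≤ (5 * K + 4) * (1 / 2 : ℝ) ^ j := by
    intro ω p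
    obtain ⟨g1, g2, g3, g4⟩ := h1 ω p
    obtain ⟨k1, k2, k3, k4, k5, k6⟩ := box_facts K hcK g1 g2 g3 g4
    refine ⟨k1, k2, ?_⟩
    have e1 : |(q0 ω).1 - (q1 ω).1| ≤ (1 / 2 : ℝ) ^ j := fl1_close (congrArg Prod.fst (hq ω p))
    have e2 : ∀ i, |(q0 ω).2 i - (q1 ω).2 i| ≤ (1 / 2 : ℝ) ^ j := fun i =>
      fl_close (congrArg Prod.snd (hq ω p)) i
    have e3 := co_bd (ψ ω) (fun i => (q0 ω).2 i - (q1 ω).2 i) e2 1
    have e4 : |((q0 ω).1 - (q1 ω).1) * b' ω| ≤ (1 / 2 : ℝ) ^ j * 2 := by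
      rw [abs_mul]
      exact mul_le_mul e1 k2 (abs_nonneg _) hδ.le
    have e5 : co (ψ ω) (q0 ω).2 1 - a' ω - (q0 ω).1 * b' ω =
        (co (ψ ω) (q1 ω).2 1 - a' ω - (q1 ω).1 * b' ω) +
        co (ψ ω) (fun i => (q0 ω).2 i - (q1 ω).2 i) 1 - ((q0 ω).1 - (q1 ω).1) * b' ω := by
      rw [co_one, co_one, co_one]
      ring
    rw [e5]
    have t1 := abs_sub ((co (ψ ω) (q1 ω).2 1 - a' ω - (q1 ω).1 * b' ω) +
        co (ψ ω) (fun i => (q0 ω).2 i - (q1 ω).2 i) 1) (((q0 ω).1 - (q1 ω).1) * b' ω)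
    have t2 := abs_add_le (co (ψ ω) (q1 ω).2 1 - a' ω - (q1 ω).1 * b' ω)
        (co (ψ ω) (fun i => (q0 ω).2 i - (q1 ω).2 i) 1)
    have k6' : |co (ψ ω) (q1 ω).2 1 - a' ω - (q1 ω).1 * b' ω| ≤ 5 * K * (1 / 2 : ℝ) ^ j := k6
    linarith
  have hE8 : ∀ ω, 0 < P.w ω → E ω ≤ 8 := by
    intro ω p
    have k1 := dl_le (φ ω) (ψ ω)
    have k2 := Real.pi_le_four
    have k3 := (f0 ω p).2.1
    have k4 := (f1 ω p).2.1
    have k5 := abs_sub (b' ω) (sg (m ω) * b ω)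
    rw [abs_mul, sg_abs, one_mul] at k5
    show |dl (φ ω) (ψ ω)| + |b' ω - sg (m ω) * b ω| ≤ 8
    linarith
  have hEρ : ∀ ω, 0 < P.w ω → E ω ≤ 8 * (1 / 2 : ℝ) ^ ρ ω := fun ω p => rh_spec (hE8 ω p)
  have hρj : ∀ ω, ρ ω ≤ j := fun ω => rh_le j _
  have hg0 : ∀ ω, 0 ≤ g ω := fun ω => abs_nonneg _
  have hlow : ∀ ω, 0 < P.w ω → ρ ω < j → 1 ≤ (2 : ℝ) ^ ρ ω * (dn (φ ω) (ψ ω) + g ω) := by
    intro ω p hlt
    have k1 : 4 * (1 / 2 : ℝ) ^ ρ ω < E ω := rh_lt hlt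
    have k2 := dn_ge (φ ω) (ψ ω)
    have k3 : 2 * (1 / 2 : ℝ) ^ ρ ω ≤ dn (φ ω) (ψ ω) + g ω := by
      have k4 : E ω = |dl (φ ω) (ψ ω)| + g ω := rfl
      have := hg0 ω
      linarith
    have k5 : (2 : ℝ) ^ ρ ω * (1 / 2 : ℝ) ^ ρ ω = 1 := by
      rw [← mul_pow]
      norm_num
    have k6 : (2 : ℝ) ^ ρ ω * (2 * (1 / 2 : ℝ) ^ ρ ω) ≤ 2 ^ ρ ω * (dn (φ ω) (ψ ω) + g ω) :=
      mul_le_mul_of_nonneg_left k3 (by positivity)
    nlinarith
  -- the labels determine the rounded data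
  have l0 : ∀ ω ω', 0 < P.w ω → 0 < P.w ω' → B0.lab ω = B0.lab ω' → φ ω = φ ω' ∧
      |a ω - a ω'| ≤ (1 / 2 : ℝ) ^ j ∧ |b ω - b ω'| ≤ (1 / 2 : ℝ) ^ j := by
    intro ω ω' p p' e
    obtain ⟨-, k1, k2, -⟩ := h0 ω p
    obtain ⟨-, k1', k2', -⟩ := h0 ω' p'
    unfold Bx.lab U.lab at e
    simp only [Prod.mk.injEq, k1, k2, k1', k2', Nat.sub_zero] at e
    obtain ⟨-, -, e3, e4, e5⟩ := e
    have e6 : qa j (B0.θ ω) = qa j (B0.θ ω') := qa_congr e3
    refine ⟨e6, ?_, ?_⟩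
    · exact fl1_close (congrArg Prod.snd e4)
    · exact fl1_close (congrArg Prod.snd e5)
  have l1 : ∀ ω ω', 0 < P.w ω → 0 < P.w ω' → B1.lab ω = B1.lab ω' → ψ ω = ψ ω' ∧
      |a' ω - a' ω'| ≤ (1 / 2 : ℝ) ^ j ∧ |b' ω - b' ω'| ≤ (1 / 2 : ℝ) ^ j := by
    intro ω ω' p p' e
    obtain ⟨-, k1, k2, -⟩ := h1 ω p
    obtain ⟨-, k1', k2', -⟩ := h1 ω' p'
    unfold Bx.lab U.lab at e
    simp only [Prod.mk.injEq, k1, k2, k1', k2', Nat.sub_zero] at e
    obtain ⟨-, -, e3, e4, e5⟩ := e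
    have e6 : qa j (B1.θ ω) = qa j (B1.θ ω') := qa_congr e3
    refine ⟨e6, ?_, ?_⟩
    · exact fl1_close (congrArg Prod.snd e4)
    · exact fl1_close (congrArg Prod.snd e5)
  refine ⟨ρ, hρj, ?_, ?_⟩
  · -- points
    set K' : ℕ := 5 * K + 4 with hK'
    have hK'r : (K' : ℝ) = 5 * K + 4 := by rw [hK']; push_cast; ring
    set κ : Ω → Prop := fun ω => g ω ≤ 4 * K' * dn (φ ω) (ψ ω) with hκ
    have hone : (1 / 2 : ℝ) ^ j ≤ K' * (1 / 2 : ℝ) ^ j := by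
      refine le_mul_of_one_le_left hδ.le ?_
      rw [hK'r]
      linarith
    have main := point_le P j K' (by omega) φ ψ a b a' b' (fun ω => (q0 ω).1) (fun ω => (q0 ω).2) ρ
      (fun ω => (κ ω, (ρ ω, (B1.lab ω, (B0.lab ω, C ω))))) (by
        intro ω p
        obtain ⟨k1, k2, k3, k4, k5, k6⟩ := f0 ω p
        obtain ⟨i1, i2, i3⟩ := f1 ω p
        refine ⟨?_, ?_, k3, k4, fun i => (k5 i).trans ?_, k6.trans ?_, ?_, hρj ω, fun hlt => ?_⟩
        · rw [hK'r]; linarith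
        · rw [hK'r]; linarith
        · rw [hK'r]; linarith
        · rw [hK'r]
          have : 5 * (K : ℝ) ≤ 5 * K + 4 := by linarith
          gcongr
        · rw [hK'r]; exact i3
        · have := hlow ω p hlt
          have h1K : (1 : ℝ) ≤ K' := by rw [hK'r]; linarith
          have h3 : (2 : ℝ) ^ ρ ω * (dn (φ ω) (ψ ω) + g ω) ≤
              K' * (2 ^ ρ ω * (dn (φ ω) (ψ ω) + g ω)) :=
            le_mul_of_one_le_left (by linarith) h1K
          rw [mul_assoc]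
          exact this.trans h3) (by
        intro ω ω' p p' e
        have e1 : κ ω = κ ω' := congrArg (fun y => y.1) e
        have e2 : ρ ω = ρ ω' := congrArg (fun y => y.2.1) e
        have e3 : B1.lab ω = B1.lab ω' := congrArg (fun y => y.2.2.1) e
        have e4 : B0.lab ω = B0.lab ω' := congrArg (fun y => y.2.2.2.1) e
        obtain ⟨k1, k2, k3⟩ := l0 ω ω' p p' e4
        obtain ⟨i1, i2, i3⟩ := l1 ω ω' p p' e3
        exact ⟨k1, i1, e2, Iff.of_eq e1, k2.trans hone, k3.trans hone, i2.trans hone,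
          i3.trans hone⟩)
    have r1 := hc_via P (fun ω => pq j (q0 ω)) κ (fun ω => (ρ ω, (B1.lab ω, (B0.lab ω, C ω))))
    have r2 := hc_via P (fun ω => pq j (q0 ω)) ρ (fun ω => (B1.lab ω, (B0.lab ω, C ω)))
    have r3 := H_prop_le P κ (fun ω => (ρ ω, (B1.lab ω, (B0.lab ω, C ω))))
    have r4 := H_rho_le P j ρ (fun ω => (B1.lab ω, (B0.lab ω, C ω))) (fun ω _ => hρj ω)
    have main' : Stk.hc P (fun ω => pq j (q0 ω))
        (fun ω => (κ ω, (ρ ω, (B1.lab ω, (B0.lab ω, C ω))))) ≤ _ := main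
    unfold c1
    linarith
  · -- labels
    set M : ℕ := 42 * K + 44 with hM
    have hMr : (M : ℝ) = 42 * K + 44 := by rw [hM]; push_cast; ring
    have main := lab_le P M j φ B1.θ a b B1.l m ρ
      (fun ω => (m ω, (ρ ω, (B0.lab ω, C ω)))) (by
        intro ω p
        obtain ⟨k1, k2, k3, k4, k5, k6⟩ := f0 ω p
        obtain ⟨i1, i2, i3⟩ := f1 ω p
        have hr0 : (0 : ℝ) < (1 / 2 : ℝ) ^ ρ ω := by positivity
        have hr := half (hρj ω)
        have hEr := hEρ ω p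
        have hEe : E ω = |dl (φ ω) (ψ ω)| + |b' ω - sg (m ω) * b ω| := rfl
        have d1 : |dl (φ ω) (ψ ω)| ≤ 8 * (1 / 2 : ℝ) ^ ρ ω := by
          have := abs_nonneg (b' ω - sg (m ω) * b ω)
          linarith
        have d2 : |b' ω - sg (m ω) * b ω| ≤ 8 * (1 / 2 : ℝ) ^ ρ ω := by
          have := abs_nonneg (dl (φ ω) (ψ ω))
          linarith
        refine ⟨(h1 ω p).1.1, hρj ω, ?_, ?_, ?_⟩
        · have e1 : B1.θ ω - (φ ω + m ω * Real.pi) = (B1.θ ω - qa j (B1.θ ω)) + dl (φ ω) (ψ ω) := by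
            unfold dl
            ring
          rw [e1, hMr]
          have t1 := abs_add_le (B1.θ ω - qa j (B1.θ ω)) (dl (φ ω) (ψ ω))
          have t2 := abs_sub_qa j (B1.θ ω)
          nlinarith
        · have e1 : a' ω - sg (m ω) * a ω = (co (ψ ω) (q0 ω).2 1 - sg (m ω) * co (φ ω) (q0 ω).2 1) -
              (q0 ω).1 * (b' ω - sg (m ω) * b ω) -
              (co (ψ ω) (q0 ω).2 1 - a' ω - (q0 ω).1 * b' ω) +
              sg (m ω) * (co (φ ω) (q0 ω).2 1 - a ω - (q0 ω).1 * b ω) := by ring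
          show |a' ω - sg (m ω) * a ω| ≤ _
          rw [e1, hMr]
          have t1 := co_shift_le (φ ω) (ψ ω) (q0 ω).2 k5
          have t2 : |(q0 ω).1 * (b' ω - sg (m ω) * b ω)| ≤ 1 * (8 * (1 / 2 : ℝ) ^ ρ ω) := by
            rw [abs_mul]
            exact mul_le_mul (abs_le.2 ⟨by linarith, k4⟩) d2 (abs_nonneg _) (by norm_num)
          have t3 : |sg (m ω) * (co (φ ω) (q0 ω).2 1 - a ω - (q0 ω).1 * b ω)| ≤
              5 * K * (1 / 2 : ℝ) ^ j := by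
            rw [abs_mul, sg_abs, one_mul]
            exact k6
          have s1 := abs_add_le ((co (ψ ω) (q0 ω).2 1 - sg (m ω) * co (φ ω) (q0 ω).2 1) -
              (q0 ω).1 * (b' ω - sg (m ω) * b ω) -
              (co (ψ ω) (q0 ω).2 1 - a' ω - (q0 ω).1 * b' ω))
              (sg (m ω) * (co (φ ω) (q0 ω).2 1 - a ω - (q0 ω).1 * b ω))
          have s2 := abs_sub ((co (ψ ω) (q0 ω).2 1 - sg (m ω) * co (φ ω) (q0 ω).2 1) -
              (q0 ω).1 * (b' ω - sg (m ω) * b ω))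
              (co (ψ ω) (q0 ω).2 1 - a' ω - (q0 ω).1 * b' ω)
          have s3 := abs_sub (co (ψ ω) (q0 ω).2 1 - sg (m ω) * co (φ ω) (q0 ω).2 1)
              ((q0 ω).1 * (b' ω - sg (m ω) * b ω))
          have s4 : 2 * (2 * (K : ℝ) + 2) * |dl (φ ω) (ψ ω)| ≤
              2 * (2 * K + 2) * (8 * (1 / 2 : ℝ) ^ ρ ω) :=
            mul_le_mul_of_nonneg_left d1 (by positivity)
          have s5 : (5 * (K : ℝ) + 4) * (1 / 2 : ℝ) ^ j ≤ (5 * K + 4) * (1 / 2 : ℝ) ^ ρ ω :=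
            mul_le_mul_of_nonneg_left hr (by positivity)
          have s6 : 5 * (K : ℝ) * (1 / 2 : ℝ) ^ j ≤ 5 * K * (1 / 2 : ℝ) ^ ρ ω :=
            mul_le_mul_of_nonneg_left hr (by positivity)
          linarith
        · show |b' ω - sg (m ω) * b ω| ≤ _
          rw [hMr]
          nlinarith) (by
        intro ω ω' p p' e
        have e1 : m ω = m ω' := congrArg (fun y => y.1) e
        have e2 : ρ ω = ρ ω' := congrArg (fun y => y.2.1) e
        have e3 : B0.lab ω = B0.lab ω' := congrArg (fun y => y.2.2.1) e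
        obtain ⟨k1, k2, k3⟩ := l0 ω ω' p p' e3
        exact ⟨k1, e1, e2, k2, k3⟩)
    have r1 := hc_via P (fun ω => lab (B1.θ ω) 0 (ρ ω) (B1.l ω)) m
      (fun ω => (ρ ω, (B0.lab ω, C ω)))
    have r2 := hc_via P (fun ω => lab (B1.θ ω) 0 (ρ ω) (B1.l ω)) ρ (fun ω => (B0.lab ω, C ω))
    have r3 := H_dm_le P m (fun ω => (ρ ω, (B0.lab ω, C ω)))
      (fun ω p => dm_le (f0 ω p).1 (f1 ω p).1)
    have r4 := H_rho_le P j ρ (fun ω => (B0.lab ω, C ω)) (fun ω _ => hρj ω)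
    unfold c2
    linarith

/-! ### systems -/

theorem ext_ae {S' S : Sys} (e : Sys.Ext S' S) {p : ∀ i, S.Ω i → Prop} (h : S.Ae p) :
    S'.Ae fun i ω => p i (e.π i ω) := by
  filter_upwards [h] with i hi ω hω
  exact hi _ (e.w_pos i hω)

theorem log_o {S : Sys} {n : ℕ → ℕ} (hn : S.Bd n) :
    Tendsto (fun i => Real.log (n i + 1) / S.nm i) (uf : Filter ℕ) (𝓝 0) := by
  obtain ⟨c, hc⟩ := hn
  set c' : ℝ := max c 0 with hc'
  have hc0 : 0 ≤ c' := le_max_right _ _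
  have hl : 0 < Real.log 2 := Real.log_pos (by norm_num)
  have hL : Tendsto (fun i => (S.L i : ℝ)) (uf : Filter ℕ) atTop :=
    tendsto_natCast_atTop_atTop.comp S.Ltop
  have h1 : Tendsto (fun i => Real.log (S.L i) / (S.L i : ℝ)) (uf : Filter ℕ) (𝓝 0) :=
    Real.isLittleO_log_id_atTop.tendsto_div_nhds_zero.comp hL
  have h2 : Tendsto (fun i => Real.log (c' + 1) / S.nm i +
      (Real.log (S.L i) / (S.L i : ℝ)) / Real.log 2) (uf : Filter ℕ) (𝓝 0) := by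
    have := (S.const_div_nm (Real.log (c' + 1))).add (h1.div_const (Real.log 2))
    simpa using this
  refine squeeze_zero' ?_ ?_ h2
  · filter_upwards [S.nm_pos] with i hi
    exact div_nonneg (Real.log_nonneg (by
      have : (0:ℝ) ≤ n i := Nat.cast_nonneg _
      linarith)) hi.le
  · filter_upwards [S.nm_pos, hc, S.L_pos] with i hi g1 g2
    have g3 : (1 : ℝ) ≤ S.L i := by exact_mod_cast g2
    have e : (Real.log (S.L i) / (S.L i : ℝ)) / Real.log 2 = Real.log (S.L i) / S.nm i := by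
      unfold Sys.nm
      rw [div_div]
    rw [e, ← add_div, ← Real.log_mul (by positivity) (by positivity)]
    apply div_le_div_of_nonneg_right _ hi.le
    have hn0 : (0:ℝ) ≤ n i := Nat.cast_nonneg _
    apply Real.log_le_log (by positivity)
    have : c * (S.L i : ℝ) ≤ c' * S.L i :=
      mul_le_mul_of_nonneg_right (le_max_left _ _) (by positivity)
    nlinarith

end Vale.Agent.P127.U.C2

namespace Vale.Agent.P127.U

open Filter Topology Vale.Agent.P127 Vale.Agent.P127.Stk Apx Sys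

theorem pC2 (hLe : PExcLe) : PC2 := by
  intro S γ C B q k j hB hS hk hj hq hF
  obtain ⟨c, hc⟩ := hq
  obtain ⟨K, hcK⟩ : ∃ K : ℕ, c ≤ K := exists_nat_ge c
  have hT : Tame (pqs j q) := by
    refine tame_pqs (M := 2 * K + 2) hj ?_
    filter_upwards [hB.1, hc, hS] with i g1 g2 g3 ω p
    have hki : (B i).k ω = 0 := by rw [(g3 ω p).1]; exact hk i
    obtain ⟨-, -, k3, k4, k5, -⟩ := C2.box_facts K hcK (g1 ω p) hki (g3 ω p).2 (g2 ω p)
    have hK0 : (0 : ℝ) ≤ K := Nat.cast_nonneg _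
    refine ⟨?_, fun i => ?_⟩
    · push_cast
      exact abs_le.2 ⟨by linarith, by linarith⟩
    · push_cast
      exact k5 i
  obtain ⟨S', e, hW, hind⟩ := exists_copies S (Sys.pr (pqs j q) C) 1
  -- the data on the extension
  have hTB := tame_lab hB
  set B0 : S'.BX := (e 0).pullB B with hB0
  set B1 : S'.BX := (e 1).pullB B with hB1
  set q0 : S'.RV Pt := (e 0).pull q with hq0
  set q1 : S'.RV Pt := (e 1).pull q with hq1
  have hL' : S'.L = S.L := (e 0).L_eq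
  -- facts on the boxes
  have A0 : ∀ r : Fin 2, S'.Ae fun i ω => BxOk ((e r).pullB B i) ω ∧ ((e r).pullB B i).k ω = 0 ∧
      ((e r).pullB B i).j ω = j i ∧ Inb c ((e r).pullB B i) ((e r).pull q i) ω := by
    intro r
    have a1 := C2.ext_ae (e r) hB.1
    have a2 := C2.ext_ae (e r) hS
    have a3 := C2.ext_ae (e r) hc
    filter_upwards [a1, a2, a3] with i g1 g2 g3 ω p
    refine ⟨g1 ω p, ?_, (g2 ω p).2, g3 ω p⟩
    have : (B i).k ((e r).π i ω) = k i := (g2 ω p).1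
    rw [hk i] at this
    exact this
  have AW : S'.Ae fun i ω => pq (j i) (q1 i ω) = pq (j i) (q0 i ω) ∧
      C i ((e 1).π i ω) = C i ((e 0).π i ω) := by
    refine Eventually.of_forall fun i ω p => ?_
    have := hW 1 i ω p
    exact ⟨congrArg Prod.fst this, congrArg Prod.snd this⟩
  -- choice of `ρ`
  have hex : ∀ i : ℕ, ∃ ρ : S'.Ω i → ℕ, (∀ ω, ρ ω ≤ j i) ∧
      ((∀ ω, 0 < (S'.P i).w ω → BxOk (B0 i) ω ∧ (B0 i).k ω = 0 ∧ (B0 i).j ω = j i ∧
          Inb c (B0 i) (q0 i) ω) →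
        (∀ ω, 0 < (S'.P i).w ω → BxOk (B1 i) ω ∧ (B1 i).k ω = 0 ∧ (B1 i).j ω = j i ∧
          Inb c (B1 i) (q1 i) ω) →
        (∀ ω, 0 < (S'.P i).w ω → pq (j i) (q0 i ω) = pq (j i) (q1 i ω)) →
      Stk.hc (S'.P i) (fun ω => pq (j i) (q0 i ω))
          (fun ω => ((B1 i).lab ω, ((B0 i).lab ω, C i ((e 0).π i ω)))) ≤
        (S'.P i).ex (fun ω => (ρ ω : ℝ)) * Real.log 2 + j i * Real.log 2 +
          (Real.log (j i + 1) + C2.c1 K) ∧
      Stk.hc (S'.P i) (fun ω => lab ((B1 i).θ ω) 0 (ρ ω) ((B1 i).l ω))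
          (fun ω => ((B0 i).lab ω, C i ((e 0).π i ω))) ≤ Real.log (j i + 1) + C2.c2 K) := by
    intro i
    by_cases h : (∀ ω, 0 < (S'.P i).w ω → BxOk (B0 i) ω ∧ (B0 i).k ω = 0 ∧ (B0 i).j ω = j i ∧
          Inb c (B0 i) (q0 i) ω) ∧
        (∀ ω, 0 < (S'.P i).w ω → BxOk (B1 i) ω ∧ (B1 i).k ω = 0 ∧ (B1 i).j ω = j i ∧
          Inb c (B1 i) (q1 i) ω) ∧
        (∀ ω, 0 < (S'.P i).w ω → pq (j i) (q0 i ω) = pq (j i) (q1 i ω))
    · obtain ⟨ρ, r1, r2, r3⟩ := C2.two_slabs (S'.P i) K (j i) hcK (B0 i) (B1 i) (q0 i) (q1 i)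
        (fun ω => C i ((e 0).π i ω)) h.1 h.2.1 h.2.2
      exact ⟨ρ, r1, fun _ _ _ => ⟨r2, r3⟩⟩
    · exact ⟨fun _ => 0, fun _ => Nat.zero_le _, fun a b d => absurd ⟨a, b, d⟩ h⟩
  choose ρ hρj hρ using hex
  have hρ' : ∀ᶠ i in (uf : Filter ℕ),
      Stk.hc (S'.P i) (fun ω => pq (j i) (q0 i ω))
          (fun ω => ((B1 i).lab ω, ((B0 i).lab ω, C i ((e 0).π i ω)))) ≤
        (S'.P i).ex (fun ω => (ρ i ω : ℝ)) * Real.log 2 + j i * Real.log 2 +
          (Real.log (j i + 1) + C2.c1 K) ∧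
      Stk.hc (S'.P i) (fun ω => lab ((B1 i).θ ω) 0 (ρ i ω) ((B1 i).l ω))
          (fun ω => ((B0 i).lab ω, C i ((e 0).π i ω))) ≤ Real.log (j i + 1) + C2.c2 K := by
    filter_upwards [A0 0, A0 1, AW] with i g0 g1 g2
    exact hρ i g0 g1 fun ω p => (g2 ω p).1.symm
  -- the common slab
  set W : S'.BX := fun i => ⟨(B1 i).l, (B1 i).θ, fun _ => 0, ρ i⟩ with hWd
  have hj' : S'.Bd j := by
    obtain ⟨C', hC'⟩ := hj
    refine ⟨C', ?_⟩
    rw [hL']
    exact hC'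
  have hWA : BxA W := by
    obtain ⟨C', hC'⟩ := hj'
    constructor
    · filter_upwards [A0 1] with i g1 ω p
      obtain ⟨⟨k1, k2, -⟩, -⟩ := g1 ω p
      exact ⟨k1, k2, Nat.zero_le _⟩
    · refine ⟨C', ?_⟩
      filter_upwards [hC'] with i g1 ω p
      have : (ρ i ω : ℝ) ≤ j i := by exact_mod_cast hρj i ω
      exact this.trans g1
  have hSub : SubA B1 W := by
    refine ⟨0, ?_⟩
    filter_upwards [A0 1] with i g1 ω p
    obtain ⟨⟨k1, k2, -⟩, k3, k4, -⟩ := g1 ω p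
    refine ⟨rfl, k2, Nat.zero_le _, Nat.zero_le _, ?_, ?_⟩
    · show ρ i ω ≤ ((e 1).pullB B i).j ω
      rw [k4]
      exact hρj i ω
    · show |Real.sin ((B1 i).θ ω - (B1 i).θ ω)| * _ ≤ _
      simp
  have main := hLe S S' (e 1) γ C B W hB hWA hSub
  unfold Sys.val at main
  -- tameness
  have T0 : Tame ((e 0).pull B.lab) := (e 0).tame hTB
  have T1 : Tame ((e 1).pull B.lab) := (e 1).tame hTB
  have TW : Tame W.lab := tame_lab hWA
  have Tq : Tame ((e 0).pull (pqs j q)) := (e 0).tame hT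
  -- sizes
  have hOρ : OL (S := S') fun i ω => (ρ i ω : ℝ) := by
    obtain ⟨C', hC'⟩ := hj'
    refine ⟨C', ?_⟩
    filter_upwards [hC'] with i g1 ω p
    rw [abs_of_nonneg (Nat.cast_nonneg _)]
    have : (ρ i ω : ℝ) ≤ j i := by exact_mod_cast hρj i ω
    exact this.trans g1
  have hsz : S'.av (fun i ω => BX.sz ((e 1).pullB B) i ω - BX.sz W i ω) =
      S'.nu j - S'.av (fun i ω => (ρ i ω : ℝ)) := by
    unfold Sys.av Sys.nu
    rw [← ulim_sub (UB.nu hj') (UB.av hOρ)]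
    refine ulim_congr ?_
    filter_upwards [A0 1] with i g1
    rw [← sub_div]
    congr 1
    have e1 : (S'.P i).ex (fun ω => BX.sz ((e 1).pullB B) i ω - BX.sz W i ω) =
        (S'.P i).ex (fun ω => (j i : ℝ) - (ρ i ω : ℝ)) := by
      refine (S'.P i).ex_congr fun ω p => ?_
      obtain ⟨-, k3, k4, -⟩ := g1 ω p
      show (((((e 1).pullB B i).k ω : ℕ) : ℝ) + ((e 1).pullB B i).j ω) - (((0 : ℕ) : ℝ) + ρ i ω) = _
      rw [k3, k4]
      push_cast
      ring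
    rw [e1, (S'.P i).ex_sub, (S'.P i).ex_const]
  have hnu : S'.nu j = S.nu j := by
    unfold Sys.nu
    rw [hL']
  -- chain rule
  have ch := mi_comm Tq T1 (Sys.pr ((e 0).pull B.lab) ((e 0).pull C))
  unfold Sys.mi at ch
  -- the four terms
  have F2 : S'.hc ((e 0).pull (pqs j q)) (Sys.pr ((e 0).pull B.lab) ((e 0).pull C)) =
      2 * S.nu j - S.nu k := by
    have h1 := (e 0).hc (pqs j q) (Sys.pr B.lab C)
    exact h1.trans hF
  have hk0 : S.nu k = 0 := by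
    unfold Sys.nu
    have : (fun i => (k i : ℝ) / S.L i) = fun _ => 0 := by
      funext i
      rw [hk i]
      simp
    rw [this]
    exact ulim_const 0
  have F3 : S'.hc ((e 1).pull B.lab)
      (Sys.pr ((e 0).pull (pqs j q)) (Sys.pr ((e 0).pull B.lab) ((e 0).pull C))) =
      S.hc B.lab (Sys.pr (pqs j q) C) := by
    have h1 := hind 1 B.lab ((e 0).pull B.lab) (by
      intro i ω ω' h
      have := h 0 (by decide)
      show B.lab i ((e 0).π i ω) = B.lab i ((e 0).π i ω')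
      rw [this])
    rw [← h1]
    refine hc_congr (Eventually.of_forall fun _ _ _ _ _ e => congrArg Prod.fst e)
      (Eventually.of_forall fun _ _ _ _ _ e => congrArg Prod.fst e) ?_ ?_
    · refine Eventually.of_forall fun i ω ω' p p' e' => ?_
      have g1 := hW 1 i ω p
      have g2 := hW 1 i ω' p'
      have e1 : B.lab i ((e 0).π i ω) = B.lab i ((e 0).π i ω') := congrArg Prod.fst e'
      have e2 : (Sys.pr (pqs j q) C) i ((e 1).π i ω) = (Sys.pr (pqs j q) C) i ((e 1).π i ω') :=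
        congrArg Prod.snd e'
      rw [g1, g2] at e2
      have e3 : pqs j q i ((e 0).π i ω) = pqs j q i ((e 0).π i ω') := congrArg Prod.fst e2
      have e4 : C i ((e 0).π i ω) = C i ((e 0).π i ω') := congrArg Prod.snd e2
      exact Prod.ext e3 (Prod.ext e1 e4)
    · refine Eventually.of_forall fun i ω ω' p p' e' => ?_
      have g1 := hW 1 i ω p
      have g2 := hW 1 i ω' p'
      have e3 : pqs j q i ((e 0).π i ω) = pqs j q i ((e 0).π i ω') := congrArg Prod.fst e'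
      have e1 : B.lab i ((e 0).π i ω) = B.lab i ((e 0).π i ω') :=
        congrArg (fun y => y.2.1) e'
      have e4 : C i ((e 0).π i ω) = C i ((e 0).π i ω') := congrArg (fun y => y.2.2) e'
      have e2 : (Sys.pr (pqs j q) C) i ((e 1).π i ω) = (Sys.pr (pqs j q) C) i ((e 1).π i ω') := by
        rw [g1, g2]
        exact Prod.ext e3 e4
      exact Prod.ext e1 e2
  have F4 : S'.hc ((e 0).pull (pqs j q))
      (Sys.pr ((e 1).pull B.lab) (Sys.pr ((e 0).pull B.lab) ((e 0).pull C))) ≤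
      S'.av (fun i ω => (ρ i ω : ℝ)) + S'.nu j := by
    have h1 : S'.av (fun i ω => (ρ i ω : ℝ)) + S'.nu j =
        ulim fun i => (S'.P i).ex (fun ω => (ρ i ω : ℝ)) / S'.L i + (j i : ℝ) / S'.L i :=
      (ulim_add (UB.av hOρ) (UB.nu hj')).symm
    rw [h1]
    have hto : Tendsto (fun i => C2.c1 K / S'.nm i + Real.log (j i + 1) / S'.nm i)
        (uf : Filter ℕ) (𝓝 0) := by
      have := (S'.const_div_nm (C2.c1 K)).add (C2.log_o hj')
      simpa using this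
    refine ulim_le_of_sub (UB.hc Tq _) ((UB.av hOρ).add (UB.nu hj')) hto ?_
    filter_upwards [hρ', S'.nm_pos, S'.L_pos] with i g1 g2 g3
    have g4 : (0:ℝ) < S'.L i := by exact_mod_cast g3
    have hl : 0 < Real.log 2 := Real.log_pos (by norm_num)
    have g5 := div_le_div_of_nonneg_right g1.1 g2.le
    refine g5.trans (le_of_eq ?_)
    have e1 : S'.nm i = S'.L i * Real.log 2 := rfl
    rw [e1]
    field_simp
    ring
  have F5 : S'.hc ((e 1).pull B.lab) (Sys.pr ((e 0).pull B.lab) ((e 0).pull C)) ≤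
      S'.hc ((e 1).pull B.lab) (Sys.pr W.lab ((e 1).pull C)) := by
    have hto : Tendsto (fun i => C2.c2 K / S'.nm i + Real.log (j i + 1) / S'.nm i)
        (uf : Filter ℕ) (𝓝 0) := by
      have := (S'.const_div_nm (C2.c2 K)).add (C2.log_o hj')
      simpa using this
    refine ulim_le_of_sub (UB.hc T1 _) (UB.hc T1 _) hto ?_
    filter_upwards [hρ', S'.nm_pos, AW] with i g1 g2 g3
    have h1 := hc_cmp (S'.P i) (((e 1).pull B.lab) i) (((e 1).pull B.lab) i)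
      ((Sys.pr ((e 0).pull B.lab) ((e 0).pull C)) i) ((Sys.pr W.lab ((e 1).pull C)) i)
    have h2 : Stk.hc (S'.P i) (((e 1).pull B.lab) i) (fun ω => (((e 1).pull B.lab) i ω,
        (Sys.pr ((e 0).pull B.lab) ((e 0).pull C)) i ω)) = 0 :=
      Stk.hc_zero _ fun _ _ _ _ e => congrArg Prod.fst e
    have h3 : Stk.hc (S'.P i) ((Sys.pr W.lab ((e 1).pull C)) i)
        ((Sys.pr ((e 0).pull B.lab) ((e 0).pull C)) i) ≤
        Stk.hc (S'.P i) (W.lab i) ((Sys.pr ((e 0).pull B.lab) ((e 0).pull C)) i) := by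
      refine Stk.hc_mono_left _ ?_
      intro ω ω' p p' e'
      have e1 : W.lab i ω = W.lab i ω' := congrArg Prod.fst e'
      have e2 : C i ((e 0).π i ω) = C i ((e 0).π i ω') := congrArg (fun y => y.2.2) e'
      have e3 : C i ((e 1).π i ω) = C i ((e 1).π i ω') := by
        rw [(g3 ω p).2, (g3 ω' p').2, e2]
      exact Prod.ext e1 e3
    have h4 : Stk.hc (S'.P i) (W.lab i) ((Sys.pr ((e 0).pull B.lab) ((e 0).pull C)) i) ≤
        Real.log (j i + 1) + C2.c2 K := g1.2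
    have h5 : Stk.hc (S'.P i) (((e 1).pull B.lab) i) ((Sys.pr ((e 0).pull B.lab) ((e 0).pull C)) i) ≤
        Stk.hc (S'.P i) (((e 1).pull B.lab) i) ((Sys.pr W.lab ((e 1).pull C)) i) +
          (C2.c2 K + Real.log (j i + 1)) := by linarith
    rw [← add_div, ← add_div]
    exact div_le_div_of_nonneg_right h5 g2.le
  have main' : S'.hc ((e 1).pull B.lab) (Sys.pr W.lab ((e 1).pull C)) -
      (S'.nu j - S'.av (fun i ω => (ρ i ω : ℝ))) ≤ S.exc B C := by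
    rw [← hsz]
    exact main
  rw [F2, F3, hk0] at ch
  rw [hnu] at F4 main'
  linarith

end Vale.Agent.P127.U
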