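import Vale.Agent.P127.U.ApxS
import Vale.Agent.P127.H205.CntB

/-!
# P127 / U : block C2, geometry and counting (helper463)

Two slabs of thickness `δ = 2^-j` through a point, which agree up to `2^-ρ`: the points of precision
`j` in the intersection have entropy `j + ρ`; the common slab of thickness `2^-ρ` is a function of
each of the two slabs.
-/

set_option autoImplicit false

namespace Vale.Agent.P127.U.C2

open Vale.Agent.P127 Vale.Agent.P127.Stk Vale.Agent.P127.H205 Apx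

/-! ### frames -/

theorem co_zero (θ : ℝ) (v : Fin 2 → ℝ) : co θ v 0 = Real.cos θ * v 0 + Real.sin θ * v 1 := rfl

theorem co_one (θ : ℝ) (v : Fin 2 → ℝ) : co θ v 1 = -Real.sin θ * v 0 + Real.cos θ * v 1 := rfl

theorem sin_lip (a b : ℝ) : |Real.sin a - Real.sin b| ≤ |a - b| := by
  rw [Real.sin_sub_sin, abs_mul, abs_mul, abs_two]
  have h1 : |Real.sin ((a - b) / 2)| ≤ |(a - b) / 2| := Real.abs_sin_le_abs
  have h2 := Real.abs_cos_le_one ((a + b) / 2)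
  have h3 : |(a - b) / 2| = |a - b| / 2 := by rw [abs_div, abs_two]
  calc 2 * |Real.sin ((a - b) / 2)| * |Real.cos ((a + b) / 2)|
      ≤ 2 * (|a - b| / 2) * 1 := by
        apply mul_le_mul _ h2 (abs_nonneg _) (by positivity)
        linarith
    _ = |a - b| := by ring

theorem cos_lip (a b : ℝ) : |Real.cos a - Real.cos b| ≤ |a - b| := by
  rw [Real.cos_sub_cos, abs_mul, abs_mul, abs_neg, abs_two]
  have h1 : |Real.sin ((a - b) / 2)| ≤ |(a - b) / 2| := Real.abs_sin_le_abs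
  have h2 := Real.abs_sin_le_one ((a + b) / 2)
  have h3 : |(a - b) / 2| = |a - b| / 2 := by rw [abs_div, abs_two]
  calc 2 * |Real.sin ((a + b) / 2)| * |Real.sin ((a - b) / 2)|
      ≤ 2 * 1 * (|a - b| / 2) := by
        apply mul_le_mul _ (h1.trans h3.le) (abs_nonneg _) (by positivity)
        linarith
    _ = |a - b| := by ring

theorem co_lip {M : ℝ} (a b : ℝ) (v : Fin 2 → ℝ) (hv : ∀ i, |v i| ≤ M) (i : Fin 2) :
    |co a v i - co b v i| ≤ 2 * M * |a - b| := by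
  have hs := sin_lip a b
  have hc := cos_lip a b
  have key : ∀ p q x y : ℝ, |p| ≤ |a - b| → |q| ≤ |a - b| → |x| ≤ M → |y| ≤ M →
      |p * x + q * y| ≤ 2 * M * |a - b| := by
    intro p q x y hp hq hx hy
    have := abs_add_le (p * x) (q * y)
    rw [abs_mul, abs_mul] at this
    have h1 : |p| * |x| ≤ |a - b| * M := mul_le_mul hp hx (abs_nonneg _) (abs_nonneg _)
    have h2 : |q| * |y| ≤ |a - b| * M := mul_le_mul hq hy (abs_nonneg _) (abs_nonneg _)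
    linarith
  fin_cases i
  · show |co a v 0 - co b v 0| ≤ _
    rw [co_zero, co_zero]
    have e : Real.cos a * v 0 + Real.sin a * v 1 - (Real.cos b * v 0 + Real.sin b * v 1) =
      (Real.cos a - Real.cos b) * v 0 + (Real.sin a - Real.sin b) * v 1 := by ring
    rw [e]
    exact key _ _ _ _ hc hs (hv 0) (hv 1)
  · show |co a v 1 - co b v 1| ≤ _
    rw [co_one, co_one]
    have e : -Real.sin a * v 0 + Real.cos a * v 1 - (-Real.sin b * v 0 + Real.cos b * v 1) =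
      (-(Real.sin a - Real.sin b)) * v 0 + (Real.cos a - Real.cos b) * v 1 := by ring
    rw [e]
    exact key _ _ _ _ (by rw [abs_neg]; exact hs) hc (hv 0) (hv 1)

theorem co_bd {M : ℝ} (θ : ℝ) (v : Fin 2 → ℝ) (hv : ∀ i, |v i| ≤ M) (i : Fin 2) :
    |co θ v i| ≤ 2 * M := by
  have hM : 0 ≤ M := (abs_nonneg _).trans (hv 0)
  have hc := Real.abs_cos_le_one θ
  have hs := Real.abs_sin_le_one θ
  have key : ∀ a b x y : ℝ, |a| ≤ 1 → |b| ≤ 1 → |x| ≤ M → |y| ≤ M → |a * x + b * y| ≤ 2 * M := by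
    intro a b x y ha hb hx hy
    have := abs_add_le (a * x) (b * y)
    rw [abs_mul, abs_mul] at this
    have h1 : |a| * |x| ≤ 1 * M := mul_le_mul ha hx (abs_nonneg _) (by norm_num)
    have h2 : |b| * |y| ≤ 1 * M := mul_le_mul hb hy (abs_nonneg _) (by norm_num)
    linarith
  fin_cases i
  · exact key _ _ _ _ hc hs (hv 0) (hv 1)
  · exact key _ _ _ _ (by rwa [abs_neg]) hc (hv 0) (hv 1)

/-- the inverse rotation -/
theorem co_inv (θ : ℝ) (v : Fin 2 → ℝ) :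
    v 0 = Real.cos θ * co θ v 0 - Real.sin θ * co θ v 1 ∧
      v 1 = Real.sin θ * co θ v 0 + Real.cos θ * co θ v 1 := by
  rw [co_zero, co_one]
  have h := Real.sin_sq_add_cos_sq θ
  constructor
  · linear_combination (-(v 0)) * h
  · linear_combination (-(v 1)) * h

theorem bd_of_co {M : ℝ} (θ : ℝ) (v : Fin 2 → ℝ) (h0 : |co θ v 0| ≤ M) (h1 : |co θ v 1| ≤ M)
    (i : Fin 2) : |v i| ≤ 2 * M := by
  have hM : 0 ≤ M := (abs_nonneg _).trans h0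
  have hc := Real.abs_cos_le_one θ
  have hs := Real.abs_sin_le_one θ
  have key : ∀ a b x y : ℝ, |a| ≤ 1 → |b| ≤ 1 → |x| ≤ M → |y| ≤ M → |a * x + b * y| ≤ 2 * M := by
    intro a b x y ha hb hx hy
    have := abs_add_le (a * x) (b * y)
    rw [abs_mul, abs_mul] at this
    have h1 : |a| * |x| ≤ 1 * M := mul_le_mul ha hx (abs_nonneg _) (by norm_num)
    have h2 : |b| * |y| ≤ 1 * M := mul_le_mul hb hy (abs_nonneg _) (by norm_num)
    linarith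
  obtain ⟨e0, e1⟩ := co_inv θ v
  fin_cases i
  · show |v 0| ≤ _
    rw [e0, sub_eq_add_neg, ← neg_mul]
    exact key _ _ _ _ hc (by rwa [abs_neg]) h0 h1
  · show |v 1| ≤ _
    rw [e1]
    exact key _ _ _ _ hs hc h0 h1

/-! ### two directions -/

/-- the number of half turns between `φ` and `ψ` -/
noncomputable def dm (φ ψ : ℝ) : ℤ := round ((ψ - φ) / Real.pi)

/-- the sign -/
noncomputable def sg (m : ℤ) : ℝ := Real.cos (m * Real.pi)

/-- the angle between `φ` and `ψ`, modulo half turns -/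
noncomputable def dl (φ ψ : ℝ) : ℝ := ψ - φ - dm φ ψ * Real.pi

theorem sg_sq (m : ℤ) : sg m ^ 2 = 1 := by
  have h1 := Real.sin_sq_add_cos_sq (m * Real.pi)
  rw [Real.sin_int_mul_pi] at h1
  unfold sg
  linarith

theorem sg_abs (m : ℤ) : |sg m| = 1 := by
  have h1 := sg_sq m
  have : |sg m| ^ 2 = 1 := by rw [sq_abs, h1]
  nlinarith [abs_nonneg (sg m)]

theorem dl_le (φ ψ : ℝ) : |dl φ ψ| ≤ Real.pi / 2 := by
  have hp := Real.pi_pos
  have h1 := abs_sub_round ((ψ - φ) / Real.pi)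
  have h2 : dl φ ψ = ((ψ - φ) / Real.pi - round ((ψ - φ) / Real.pi)) * Real.pi := by
    unfold dl dm
    field_simp
  rw [h2, abs_mul, abs_of_pos hp]
  nlinarith

theorem dm_le {φ ψ : ℝ} (h1 : |φ| ≤ 5) (h2 : |ψ| ≤ 5) : |dm φ ψ| ≤ 4 := by
  have hp := Real.pi_gt_three
  have hp' := Real.pi_pos
  have h3 := dl_le φ ψ
  have h4 : (dm φ ψ : ℝ) * Real.pi = ψ - φ - dl φ ψ := by
    unfold dl
    ring
  have h5 : |(dm φ ψ : ℝ)| * Real.pi ≤ 10 + Real.pi / 2 := by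
    rw [← abs_of_pos hp', ← abs_mul, h4, abs_of_pos hp']
    have a1 := abs_sub (ψ - φ) (dl φ ψ)
    have a2 := abs_sub ψ φ
    linarith
  have h6 : |(dm φ ψ : ℝ)| < 5 := by
    by_contra hcon
    push Not at hcon
    nlinarith
  have h7 : |dm φ ψ| < 5 := by exact_mod_cast h6
  omega

theorem sin_shift (φ ψ : ℝ) : Real.sin ψ = sg (dm φ ψ) * Real.sin (φ + dl φ ψ) := by
  have h : ψ = φ + dl φ ψ + dm φ ψ * Real.pi := by
    unfold dl
    ring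
  conv_lhs => rw [h, Real.sin_add, Real.sin_int_mul_pi]
  unfold sg
  ring

theorem cos_shift (φ ψ : ℝ) : Real.cos ψ = sg (dm φ ψ) * Real.cos (φ + dl φ ψ) := by
  have h : ψ = φ + dl φ ψ + dm φ ψ * Real.pi := by
    unfold dl
    ring
  conv_lhs => rw [h, Real.cos_add, Real.sin_int_mul_pi]
  unfold sg
  ring

/-- size of the difference of the normals -/
noncomputable def dn (φ ψ : ℝ) : ℝ :=
  |-Real.sin ψ - sg (dm φ ψ) * -Real.sin φ| + |Real.cos ψ - sg (dm φ ψ) * Real.cos φ|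

theorem dn_ge (φ ψ : ℝ) : |dl φ ψ| / 2 ≤ dn φ ψ := by
  set s := sg (dm φ ψ) with hs
  set Δ := dl φ ψ with hΔ
  have hs2 : s ^ 2 = 1 := sg_sq _
  set x := -Real.sin ψ - s * -Real.sin φ with hx
  set y := Real.cos ψ - s * Real.cos φ with hy
  have e1 : x ^ 2 + y ^ 2 = 2 - 2 * Real.cos Δ := by
    have k1 : Real.cos Δ = Real.cos (φ + Δ) * Real.cos φ + Real.sin (φ + Δ) * Real.sin φ := by
      rw [← Real.cos_sub]
      congr 1
      ring
    have k2 := Real.sin_sq_add_cos_sq (φ + Δ)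
    have k3 := Real.sin_sq_add_cos_sq φ
    rw [hx, hy, sin_shift φ ψ, cos_shift φ ψ, ← hs, ← hΔ, k1]
    have : (-(s * Real.sin (φ + Δ)) - s * -Real.sin φ) ^ 2 +
        (s * Real.cos (φ + Δ) - s * Real.cos φ) ^ 2 =
      s ^ 2 * ((Real.sin (φ + Δ) - Real.sin φ) ^ 2 + (Real.cos (φ + Δ) - Real.cos φ) ^ 2) := by ring
    rw [this, hs2, one_mul]
    linear_combination k2 + k3
  have e2 : 2 - 2 * Real.cos Δ = 4 * Real.sin (Δ / 2) ^ 2 := by
    have k1 := Real.cos_sq_add_sin_sq (Δ / 2)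
    have k2 : Real.cos Δ = 2 * Real.cos (Δ / 2) ^ 2 - 1 := by
      rw [← Real.cos_two_mul]
      congr 1
      ring
    rw [k2]
    linear_combination (-4) * k1
  have e3 : 2 / Real.pi * |Δ / 2| ≤ |Real.sin (Δ / 2)| := by
    apply Real.mul_abs_le_abs_sin
    rw [abs_div, abs_two]
    have := dl_le φ ψ
    rw [← hΔ] at this
    have hp := Real.pi_pos
    linarith
  have hp := Real.pi_pos
  have hp4 := Real.pi_le_four
  have e4 : |Δ| / 4 ≤ |Real.sin (Δ / 2)| := by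
    refine le_trans ?_ e3
    rw [abs_div, abs_two]
    have : 1 / 2 ≤ 2 / Real.pi := by
      rw [div_le_div_iff₀ (by norm_num) hp]
      linarith
    nlinarith [abs_nonneg Δ]
  have e5 : (|Δ| / 2) ^ 2 ≤ (|x| + |y|) ^ 2 := by
    have k1 : (|x| + |y|) ^ 2 = x ^ 2 + y ^ 2 + 2 * (|x| * |y|) := by
      rw [← sq_abs x, ← sq_abs y]
      ring
    have k2 : 0 ≤ |x| * |y| := by positivity
    rw [k1, e1, e2]
    have k3 : (|Δ| / 4) ^ 2 ≤ Real.sin (Δ / 2) ^ 2 := by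
      rw [← sq_abs (Real.sin (Δ / 2))]
      exact pow_le_pow_left₀ (by positivity) e4 2
    nlinarith
  show |Δ| / 2 ≤ |x| + |y|
  exact (sq_le_sq₀ (by positivity) (by positivity)).1 e5

theorem co_shift_le {M : ℝ} (φ ψ : ℝ) (p : Fin 2 → ℝ) (hp : ∀ i, |p i| ≤ M) :
    |co ψ p 1 - sg (dm φ ψ) * co φ p 1| ≤ 2 * M * |dl φ ψ| := by
  have e : co ψ p 1 - sg (dm φ ψ) * co φ p 1 =
      sg (dm φ ψ) * (co (φ + dl φ ψ) p 1 - co φ p 1) := by
    rw [co_one, co_one, co_one, sin_shift φ ψ, cos_shift φ ψ]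
    ring
  rw [e, abs_mul, sg_abs, one_mul]
  have := co_lip (φ + dl φ ψ) φ p hp 1
  rwa [add_sub_cancel_left] at this

theorem dn_nonneg (φ ψ : ℝ) : 0 ≤ dn φ ψ := by
  unfold dn
  positivity

/-- case A : the time determines the position up to `R δ` -/
theorem two_A {K δ φ ψ b b' τ R : ℝ} {v : Fin 2 → ℝ} (hK : 1 ≤ K) (hδ : 0 ≤ δ) (hb : |b| ≤ K)
    (hb' : |b'| ≤ K) (h1 : |co φ v 1 - b * τ| ≤ 6 * K ^ 2 * δ)
    (h2 : |co ψ v 1 - b' * τ| ≤ 6 * K ^ 2 * δ) (hτ : |τ| ≤ δ)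
    (hA : |b' - sg (dm φ ψ) * b| ≤ 4 * K * dn φ ψ) (hR : 1 ≤ R)
    (hlow : 1 ≤ K * R * (dn φ ψ + |b' - sg (dm φ ψ) * b|)) :
    |v 0| ≤ 154 * K ^ 4 * R * δ ∧ |v 1| ≤ 154 * K ^ 4 * R * δ := by
  have he : (-Real.sin φ) ^ 2 + Real.cos φ ^ 2 = 1 := by
    rw [neg_sq]
    exact Real.sin_sq_add_cos_sq φ
  have hf : (-Real.sin ψ) ^ 2 + Real.cos ψ ^ 2 = 1 := by
    rw [neg_sq]
    exact Real.sin_sq_add_cos_sq ψ
  have hpos : 0 ≤ sg (dm φ ψ) * (-Real.sin φ * -Real.sin ψ + Real.cos φ * Real.cos ψ) := by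
    have e : sg (dm φ ψ) * (-Real.sin φ * -Real.sin ψ + Real.cos φ * Real.cos ψ) =
        Real.cos (dl φ ψ) := by
      have k1 : Real.cos (dl φ ψ) = Real.cos (φ + dl φ ψ) * Real.cos φ +
          Real.sin (φ + dl φ ψ) * Real.sin φ := by
        rw [← Real.cos_sub]
        congr 1
        ring
      rw [k1, sin_shift φ ψ, cos_shift φ ψ]
      have := sg_sq (dm φ ψ)
      linear_combination (Real.sin φ * Real.sin (φ + dl φ ψ) +
        Real.cos φ * Real.cos (φ + dl φ ψ)) * this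
    rw [e]
    have := abs_le.1 (dl_le φ ψ)
    exact Real.cos_nonneg_of_mem_Icc ⟨by linarith [this.1], this.2⟩
  exact caseA hK hδ he hf (sg_sq _) hpos hb hb' h1 h2 hτ hA hR hlow

/-- case B : the position determines the time up to `R δ` -/
theorem two_B {K δ φ ψ b b' τ R : ℝ} {v : Fin 2 → ℝ} (hK : 1 ≤ K) (hδ : 0 ≤ δ) (hb : |b| ≤ K)
    (hb' : |b'| ≤ K) (h1 : |co φ v 1 - b * τ| ≤ 6 * K ^ 2 * δ)
    (h2 : |co ψ v 1 - b' * τ| ≤ 6 * K ^ 2 * δ) (h3 : |co φ v 0| ≤ δ)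
    (hB : ¬ |b' - sg (dm φ ψ) * b| ≤ 4 * K * dn φ ψ) (hR : 1 ≤ R)
    (hlow : 1 ≤ K * R * (dn φ ψ + |b' - sg (dm φ ψ) * b|)) :
    |τ| ≤ 96 * K ^ 3 * R * δ := by
  have he : (-Real.sin φ) ^ 2 + Real.cos φ ^ 2 = 1 := by
    rw [neg_sq]
    exact Real.sin_sq_add_cos_sq φ
  have hf : (-Real.sin ψ) ^ 2 + Real.cos ψ ^ 2 = 1 := by
    rw [neg_sq]
    exact Real.sin_sq_add_cos_sq ψ
  have hpos : 0 ≤ sg (dm φ ψ) * (-Real.sin φ * -Real.sin ψ + Real.cos φ * Real.cos ψ) := by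
    have e : sg (dm φ ψ) * (-Real.sin φ * -Real.sin ψ + Real.cos φ * Real.cos ψ) =
        Real.cos (dl φ ψ) := by
      have k1 : Real.cos (dl φ ψ) = Real.cos (φ + dl φ ψ) * Real.cos φ +
          Real.sin (φ + dl φ ψ) * Real.sin φ := by
        rw [← Real.cos_sub]
        congr 1
        ring
      rw [k1, sin_shift φ ψ, cos_shift φ ψ]
      have := sg_sq (dm φ ψ)
      linear_combination (Real.sin φ * Real.sin (φ + dl φ ψ) +
        Real.cos φ * Real.cos (φ + dl φ ψ)) * this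
    rw [e]
    have := abs_le.1 (dl_le φ ψ)
    exact Real.cos_nonneg_of_mem_Icc ⟨by linarith [this.1], this.2⟩
  have h3' : |-Real.sin φ * v 1 - Real.cos φ * v 0| ≤ 5 * K ^ 2 * δ := by
    have e : -Real.sin φ * v 1 - Real.cos φ * v 0 = -(co φ v 0) := by
      rw [co_zero]
      ring
    rw [e, abs_neg]
    refine h3.trans ?_
    have : 1 ≤ 5 * K ^ 2 := by nlinarith
    exact le_mul_of_one_le_left hδ this
  exact caseB hK hδ he hf (sg_sq _) hpos hb hb' h1 h2 h3' (not_le.1 hB).le hR hlow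

/-! ### counting -/

section count

variable {Ω : Type} [Fintype Ω] {γ : Type*} (P : Law Ω)

/-- digits, at a variable precision, of a number which is known up to `M 2^-s` -/
theorem hc_fl1_apx_var (s : Ω → ℕ) (M : ℕ) (v : Ω → ℝ) (Z : Ω → γ)
    (hs : ∀ ω ω', 0 < P.w ω → 0 < P.w ω' → Z ω = Z ω' → s ω = s ω')
    (h : ∀ ω ω', 0 < P.w ω → 0 < P.w ω' → Z ω = Z ω' → |v ω - v ω'| ≤ M * (1 / 2 : ℝ) ^ s ω) :
    hc P (fun ω => fl1 (s ω) (v ω)) Z ≤ Real.log (2 * M + 3) := by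
  classical
  have h1 : hc P (fun ω => fl1 (s ω) (v ω)) Z ≤ Real.log ((2 * (M + 1) + 1 : ℕ) : ℝ) := by
    refine hc_le_log P _ _ _ fun ω hω => ?_
    refine ⟨Finset.Icc (fl1 (s ω) (v ω) - (M + 1)) (fl1 (s ω) (v ω) + (M + 1)), ?_, ?_⟩
    · rw [Int.card_Icc]
      omega
    · intro ω' hω' e
      have e1 := hs ω' ω hω' hω e
      have e2 := h ω' ω hω' hω e
      show fl1 (s ω') (v ω') ∈ _
      rw [e1] at e2 ⊢
      have h2 := fl_sub_le (ι := Unit) (s := s ω) (v := fun _ => v ω') (w := fun _ => v ω)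
        (N := M) (fun _ => e2) ()
      have h3 : |fl1 (s ω) (v ω') - fl1 (s ω) (v ω)| ≤ (M : ℤ) + 1 := h2
      have h4 := abs_le.1 h3
      rw [Finset.mem_Icc]
      constructor <;> linarith [h4.1, h4.2]
  refine h1.trans (le_of_eq ?_)
  push_cast
  congr 1
  ring

/-- points in the intersection of two slabs -/
theorem point_le (j K : ℕ) (hK : 1 ≤ K) (φ ψ a b a' b' t : Ω → ℝ) (p : Ω → Fin 2 → ℝ)
    (ρ : Ω → ℕ) (Z : Ω → γ)
    (H : ∀ ω, 0 < P.w ω → |b ω| ≤ K ∧ |b' ω| ≤ K ∧ 0 ≤ t ω ∧ t ω ≤ 1 ∧ (∀ i, |p ω i| ≤ K) ∧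
      |co (φ ω) (p ω) 1 - a ω - t ω * b ω| ≤ K * (1 / 2 : ℝ) ^ j ∧
      |co (ψ ω) (p ω) 1 - a' ω - t ω * b' ω| ≤ K * (1 / 2 : ℝ) ^ j ∧ ρ ω ≤ j ∧
      (ρ ω < j → 1 ≤ K * 2 ^ ρ ω *
        (dn (φ ω) (ψ ω) + |b' ω - sg (dm (φ ω) (ψ ω)) * b ω|)))
    (HZ : ∀ ω ω', 0 < P.w ω → 0 < P.w ω' → Z ω = Z ω' → φ ω = φ ω' ∧ ψ ω = ψ ω' ∧ ρ ω = ρ ω' ∧
      (|b' ω - sg (dm (φ ω) (ψ ω)) * b ω| ≤ 4 * K * dn (φ ω) (ψ ω) ↔
        |b' ω' - sg (dm (φ ω') (ψ ω')) * b ω'| ≤ 4 * K * dn (φ ω') (ψ ω')) ∧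
      |a ω - a ω'| ≤ K * (1 / 2 : ℝ) ^ j ∧ |b ω - b ω'| ≤ K * (1 / 2 : ℝ) ^ j ∧
      |a' ω - a' ω'| ≤ K * (1 / 2 : ℝ) ^ j ∧ |b' ω - b' ω'| ≤ K * (1 / 2 : ℝ) ^ j) :
    hc P (fun ω => pq j (t ω, p ω)) Z ≤
      P.ex (fun ω => (ρ ω : ℝ)) * Real.log 2 + j * Real.log 2 +
        (Real.log (8 * K + 3) + Real.log (616 * K ^ 4 + 3) + 2 * Real.log (16 * K ^ 2 + 3)) := by
  classical
  have hKr : (1 : ℝ) ≤ K := by exact_mod_cast hK
  set δ : ℝ := (1 / 2 : ℝ) ^ j with hδ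
  have hδ0 : 0 < δ := by positivity
  have h2j : (2 : ℝ) ^ j * δ = 1 := by
    rw [hδ, ← mul_pow]
    norm_num
  set C : Ω → Prop := fun ω => |b' ω - sg (dm (φ ω) (ψ ω)) * b ω| ≤ 4 * K * dn (φ ω) (ψ ω) with hC
  set g : Ω → ℝ := fun ω => co (φ ω) (p ω) 0 with hg
  -- differences
  have D1 : ∀ ω ω', 0 < P.w ω → 0 < P.w ω' → Z ω = Z ω' →
      |co (φ ω) (fun i => p ω i - p ω' i) 1 - b ω * (t ω - t ω')| ≤ 6 * (K : ℝ) ^ 2 * δ ∧
      |co (ψ ω) (fun i => p ω i - p ω' i) 1 - b' ω * (t ω - t ω')| ≤ 6 * (K : ℝ) ^ 2 * δ := by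
    intro ω ω' hω hω' e
    obtain ⟨-, -, -, -, p1, s1, s1', -, -⟩ := H ω hω
    obtain ⟨-, -, t0, t1, p2, s2, s2', -, -⟩ := H ω' hω'
    obtain ⟨e1, e2, -, -, a1, a2, a3, a4⟩ := HZ ω ω' hω hω' e
    have ht' : |t ω'| ≤ 1 := abs_le.2 ⟨by linarith, t1⟩
    rw [co_one, sub_sub] at s1 s2 s1' s2'
    have z : ∀ x : ℝ, |x - x| ≤ K * δ := fun x => by
      rw [sub_self, abs_zero]
      positivity
    constructor
    · have := slab_diff (K := K) (δ := δ) hKr hδ0.le (e0 := -Real.sin (φ ω)) (e1 := Real.cos (φ ω))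
        (f0 := -Real.sin (φ ω')) (f1 := Real.cos (φ ω')) (a := a ω) (a' := a ω') (b := b ω)
        (b' := b ω') (p0 := p ω 0) (p1 := p ω 1) (q0 := p ω' 0) (q1 := p ω' 1) (t := t ω)
        (t' := t ω') (by rw [sub_sub]; exact s1) (by rw [sub_sub]; exact s2)
        (by rw [e1]; exact z _) (by rw [e1]; exact z _) a1 a2 (p2 0) (p2 1) ht'
      rw [co_one]
      exact this
    · have := slab_diff (K := K) (δ := δ) hKr hδ0.le (e0 := -Real.sin (ψ ω)) (e1 := Real.cos (ψ ω))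
        (f0 := -Real.sin (ψ ω')) (f1 := Real.cos (ψ ω')) (a := a' ω) (a' := a' ω') (b := b' ω)
        (b' := b' ω') (p0 := p ω 0) (p1 := p ω 1) (q0 := p ω' 0) (q1 := p ω' 1) (t := t ω)
        (t' := t ω') (by rw [sub_sub]; exact s1') (by rw [sub_sub]; exact s2')
        (by rw [e2]; exact z _) (by rw [e2]; exact z _) a3 a4 (p2 0) (p2 1) ht'
      rw [co_one]
      exact this
  have D2 : ∀ ω ω', 0 < P.w ω → 0 < P.w ω' → Z ω = Z ω' →
      g ω - g ω' = co (φ ω) (fun i => p ω i - p ω' i) 0 := by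
    intro ω ω' hω hω' e
    obtain ⟨e1, -⟩ := HZ ω ω' hω hω' e
    show co (φ ω) (p ω) 0 - co (φ ω') (p ω') 0 = _
    rw [← e1, co_zero, co_zero, co_zero]
    ring
  have K4 : (1 : ℝ) ≤ (K : ℝ) ^ 4 := one_le_pow₀ hKr
  have K34 : (K : ℝ) ^ 3 ≤ (K : ℝ) ^ 4 := pow_le_pow_right₀ hKr (by norm_num)
  have K14 : (K : ℝ) ≤ (K : ℝ) ^ 4 := le_self_pow₀ hKr (by norm_num)
  have K12 : (K : ℝ) ≤ (K : ℝ) ^ 2 := le_self_pow₀ hKr (by norm_num)
  -- the two cases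
  have key : ∀ ω ω', 0 < P.w ω → 0 < P.w ω' → Z ω = Z ω' →
      (C ω → |t ω - t ω'| ≤ δ → |g ω - g ω'| ≤ 308 * (K : ℝ) ^ 4 * 2 ^ ρ ω * δ) ∧
      (¬ C ω → |g ω - g ω'| ≤ δ → |t ω - t ω'| ≤ 308 * (K : ℝ) ^ 4 * 2 ^ ρ ω * δ) := by
    intro ω ω' hω hω' e
    obtain ⟨b1, b1', t0, t1, p1, s1, s1', r1, r2⟩ := H ω hω
    obtain ⟨-, -, t0', t1', p2, -, -, -, -⟩ := H ω' hω'
    obtain ⟨d1, d2⟩ := D1 ω ω' hω hω' e
    rw [D2 ω ω' hω hω' e]
    have hR : (1 : ℝ) ≤ 2 ^ ρ ω := one_le_pow₀ (by norm_num)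
    have hv : (∀ i, |p ω i - p ω' i| ≤ 154 * (K : ℝ) ^ 4 * 2 ^ ρ ω * δ) →
        |co (φ ω) (fun i => p ω i - p ω' i) 0| ≤ 308 * (K : ℝ) ^ 4 * 2 ^ ρ ω * δ := by
      intro hv
      have := co_bd (φ ω) (fun i => p ω i - p ω' i) hv 0
      linarith
    rcases r1.lt_or_eq with hlt | heq
    · have hlow := r2 hlt
      constructor
      · intro hc hτ
        obtain ⟨q0, q1⟩ := two_A hKr hδ0.le b1 b1' d1 d2 hτ hc hR hlow
        refine hv fun i => ?_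
        fin_cases i
        · exact q0
        · exact q1
      · intro hc hτ
        have q0 := two_B hKr hδ0.le b1 b1' d1 d2 hτ hc hR hlow
        refine q0.trans ?_
        have : 96 * (K : ℝ) ^ 3 ≤ 308 * (K : ℝ) ^ 4 := by linarith
        gcongr
    · have h1 : (2 : ℝ) ^ ρ ω * δ = 1 := by rw [heq]; exact h2j
      constructor
      · intro _ _
        refine hv fun i => ?_
        rw [mul_assoc, h1, mul_one]
        have := abs_sub (p ω i) (p ω' i)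
        have := p1 i
        have := p2 i
        linarith
      · intro _ _
        rw [mul_assoc, h1, mul_one]
        have : |t ω - t ω'| ≤ 1 := abs_le.2 ⟨by linarith, by linarith⟩
        linarith
  set u1 : Ω → ℝ := fun ω => if C ω then t ω else g ω with hu1
  set u2 : Ω → ℝ := fun ω => if C ω then g ω else t ω with hu2
  -- first variable
  have E1 : hc P (fun ω => fl1 j (u1 ω)) Z ≤ j * Real.log 2 + Real.log (8 * K + 3) := by
    have h1 := hc_fl1_apx P j (4 * K * 2 ^ j) u1 Z (by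
      intro ω ω' hω hω' e
      obtain ⟨-, -, t0, t1, p1, -⟩ := H ω hω
      obtain ⟨-, -, t0', t1', p2, -⟩ := H ω' hω'
      have hCC := (HZ ω ω' hω hω' e).2.2.2.1
      push_cast
      rw [mul_assoc, h2j, mul_one]
      show |(if C ω then t ω else g ω) - (if C ω' then t ω' else g ω')| ≤ _
      by_cases hc : C ω
      · have hc' : C ω' := hCC.1 hc
        rw [if_pos hc, if_pos hc']
        have : |t ω - t ω'| ≤ 1 := abs_le.2 ⟨by linarith, by linarith⟩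
        linarith
      · have hc' : ¬ C ω' := fun h => hc (hCC.2 h)
        rw [if_neg hc, if_neg hc']
        have a1 := co_bd (φ ω) (p ω) p1 0
        have a2 := co_bd (φ ω') (p ω') p2 0
        have := abs_sub (g ω) (g ω')
        have e1 : |g ω| ≤ 2 * K := a1
        have e2 : |g ω'| ≤ 2 * K := a2
        linarith)
    refine h1.trans ?_
    rw [← Real.log_pow, ← Real.log_mul (by positivity) (by positivity)]
    apply Real.log_le_log (by positivity)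
    push_cast
    have : (1:ℝ) ≤ 2 ^ j := one_le_pow₀ (by norm_num)
    nlinarith
  -- second variable
  have E2 : hc P (fun ω => fl1 j (u2 ω)) (fun ω => (fl1 j (u1 ω), Z ω)) ≤
      P.ex (fun ω => (ρ ω : ℝ)) * Real.log 2 + Real.log (616 * K ^ 4 + 3) := by
    have h0 : hc P (fun ω => fl1 j (u2 ω)) (fun ω => (fl1 j (u1 ω), Z ω)) ≤
        hc P (fun ω => fl1 j (u2 ω)) (fun ω => (ρ ω, (fl1 j (u1 ω), Z ω))) := by
      refine hc_mono_right P _ ?_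
      intro ω ω' hω hω' e
      exact Prod.ext (HZ ω ω' hω hω' (congrArg Prod.snd e)).2.2.1 e
    have h1 := hc_fl1_diam_var P j u2 (fun ω => (ρ ω, (fl1 j (u1 ω), Z ω)))
      (fun y => 308 * K ^ 4 * 2 ^ y.1) (by
      intro ω ω' hω hω' e
      have e1 : fl1 j (u1 ω) = fl1 j (u1 ω') := congrArg (fun y => y.2.1) e
      have e2 : Z ω = Z ω' := congrArg (fun y => y.2.2) e
      have c1 := fl1_close e1
      have hCC := (HZ ω ω' hω hω' e2).2.2.2.1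
      obtain ⟨k1, k2⟩ := key ω ω' hω hω' e2
      push_cast
      show |(if C ω then g ω else t ω) - (if C ω' then g ω' else t ω')| ≤ _
      have c2 : |(if C ω then t ω else g ω) - (if C ω' then t ω' else g ω')| ≤ δ := c1
      by_cases hc : C ω
      · have hc' : C ω' := hCC.1 hc
        rw [if_pos hc, if_pos hc'] at c2 ⊢
        exact k1 hc c2
      · have hc' : ¬ C ω' := fun h => hc (hCC.2 h)
        rw [if_neg hc, if_neg hc'] at c2 ⊢
        exact k2 hc c2)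
    refine h0.trans (h1.trans ?_)
    have h2 : P.ex (fun ω => Real.log (2 * ((308 * K ^ 4 * 2 ^ ρ ω : ℕ) : ℝ) + 3)) ≤
        P.ex (fun ω => (ρ ω : ℝ) * Real.log 2 + Real.log (616 * K ^ 4 + 3)) := by
      refine P.ex_mono fun ω _ => ?_
      rw [← Real.log_pow, ← Real.log_mul (by positivity) (by positivity)]
      apply Real.log_le_log (by positivity)
      push_cast
      have : (1:ℝ) ≤ 2 ^ ρ ω := one_le_pow₀ (by norm_num)
      nlinarith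
    refine h2.trans (le_of_eq ?_)
    rw [P.ex_add, P.ex_const]
    congr 1
    have := P.ex_const_mul (Real.log 2) (fun ω => (ρ ω : ℝ))
    rw [mul_comm, ← this]
    exact P.ex_congr fun ω _ => mul_comm _ _
  -- the point
  have E3 : hc P (fun ω => pq j (t ω, p ω)) (fun ω => (fl1 j (u2 ω), (fl1 j (u1 ω), Z ω))) ≤
      2 * Real.log (16 * K ^ 2 + 3) := by
    have hcl : ∀ ω ω', 0 < P.w ω → 0 < P.w ω' →
        (fl1 j (u2 ω), (fl1 j (u1 ω), Z ω)) = (fl1 j (u2 ω'), (fl1 j (u1 ω'), Z ω')) →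
        fl1 j (t ω) = fl1 j (t ω') ∧ fl1 j (g ω) = fl1 j (g ω') := by
      intro ω ω' hω hω' e
      have e0 : fl1 j (u2 ω) = fl1 j (u2 ω') := congrArg (fun y => y.1) e
      have e1 : fl1 j (u1 ω) = fl1 j (u1 ω') := congrArg (fun y => y.2.1) e
      have e2 : Z ω = Z ω' := congrArg (fun y => y.2.2) e
      have hCC := (HZ ω ω' hω hω' e2).2.2.2.1
      have e0' : fl1 j (if C ω then g ω else t ω) = fl1 j (if C ω' then g ω' else t ω') := e0
      have e1' : fl1 j (if C ω then t ω else g ω) = fl1 j (if C ω' then t ω' else g ω') := e1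
      by_cases hc : C ω
      · have hc' : C ω' := hCC.1 hc
        rw [if_pos hc, if_pos hc'] at e0' e1'
        exact ⟨e1', e0'⟩
      · have hc' : ¬ C ω' := fun h => hc (hCC.2 h)
        rw [if_neg hc, if_neg hc'] at e0' e1'
        exact ⟨e0', e1'⟩
    have h1 : hc P (fun ω => pq j (t ω, p ω)) (fun ω => (fl1 j (u2 ω), (fl1 j (u1 ω), Z ω))) ≤
        hc P (fun ω => fl j (p ω)) (fun ω => (fl1 j (u2 ω), (fl1 j (u1 ω), Z ω))) := by
      refine hc_mono_left P ?_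
      intro ω ω' hω hω' e
      have e1 : fl j (p ω) = fl j (p ω') := congrArg Prod.fst e
      exact Prod.ext (hcl ω ω' hω hω' (congrArg Prod.snd e)).1 e1
    refine h1.trans ?_
    have h2 := hc_fl_apx P (ι := Fin 2) j (8 * K ^ 2) p
      (fun ω => (fl1 j (u2 ω), (fl1 j (u1 ω), Z ω))) (by
      intro ω ω' hω hω' e i
      have e2 : Z ω = Z ω' := congrArg (fun y => y.2.2) e
      obtain ⟨c1, c2⟩ := hcl ω ω' hω hω' e
      have c1' : |t ω - t ω'| ≤ δ := fl1_close c1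
      have c2' : |g ω - g ω'| ≤ δ := fl1_close c2
      rw [D2 ω ω' hω hω' e2] at c2'
      obtain ⟨d1, -⟩ := D1 ω ω' hω hω' e2
      obtain ⟨b1, -⟩ := H ω hω
      have d1' : |co (φ ω) (fun i => p ω i - p ω' i) 1| ≤ 7 * (K : ℝ) ^ 2 * δ := by
        have q1 : |b ω * (t ω - t ω')| ≤ K * δ := by
          rw [abs_mul]
          exact mul_le_mul b1 c1' (abs_nonneg _) (by positivity)
        have q2 := abs_add_le (co (φ ω) (fun i => p ω i - p ω' i) 1 - b ω * (t ω - t ω'))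
          (b ω * (t ω - t ω'))
        rw [sub_add_cancel] at q2
        have q3 : (K : ℝ) * δ ≤ (K : ℝ) ^ 2 * δ := mul_le_mul_of_nonneg_right K12 hδ0.le
        linarith
      have he : (-Real.sin (φ ω)) ^ 2 + Real.cos (φ ω) ^ 2 = 1 := by
        rw [neg_sq]
        exact Real.sin_sq_add_cos_sq (φ ω)
      have q4 := comp_le (v0 := p ω 0 - p ω' 0) (v1 := p ω 1 - p ω' 1) he
        (A := 7 * (K : ℝ) ^ 2 * δ) (B := δ) (by rw [co_one] at d1'; exact d1') (by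
          have e : -Real.sin (φ ω) * (p ω 1 - p ω' 1) - Real.cos (φ ω) * (p ω 0 - p ω' 0) =
              -(co (φ ω) (fun i => p ω i - p ω' i) 0) := by
            rw [co_zero]
            ring
          rw [e, abs_neg]
          exact c2')
      have q5 : 7 * (K : ℝ) ^ 2 * δ + δ ≤ 8 * (K : ℝ) ^ 2 * δ := by
        have : (1 : ℝ) * δ ≤ (K : ℝ) ^ 2 * δ :=
          mul_le_mul_of_nonneg_right (hKr.trans K12) hδ0.le
        linarith
      push_cast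
      fin_cases i
      · exact q4.1.trans q5
      · exact q4.2.trans q5)
    refine h2.trans (le_of_eq ?_)
    rw [Fintype.card_fin]
    push_cast
    congr 2
    ring
  have F1 := hc_via P (fun ω => pq j (t ω, p ω)) (fun ω => fl1 j (u1 ω)) Z
  have F2 := hc_via P (fun ω => pq j (t ω, p ω)) (fun ω => fl1 j (u2 ω))
    (fun ω => (fl1 j (u1 ω), Z ω))
  linarith

/-- the label of the slab of thickness `2^-ρ` around the second slab, given the first slab -/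
theorem lab_le (M j : ℕ) (θ0 θ1 a b : Ω → ℝ) (l : Ω → Ln) (m : Ω → ℤ) (ρ : Ω → ℕ) (Z : Ω → γ)
    (H : ∀ ω, 0 < P.w ω → LnOk (l ω) ∧ ρ ω ≤ j ∧
      |θ1 ω - (θ0 ω + m ω * Real.pi)| ≤ M * (1 / 2 : ℝ) ^ ρ ω ∧
      |co (qa j (θ1 ω)) (l ω).1 1 - sg (m ω) * a ω| ≤ M * (1 / 2 : ℝ) ^ ρ ω ∧
      |co (qa j (θ1 ω)) (l ω).2 1 - sg (m ω) * b ω| ≤ M * (1 / 2 : ℝ) ^ ρ ω)
    (HZ : ∀ ω ω', 0 < P.w ω → 0 < P.w ω' → Z ω = Z ω' → θ0 ω = θ0 ω' ∧ m ω = m ω' ∧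
      ρ ω = ρ ω' ∧ |a ω - a ω'| ≤ (1 / 2 : ℝ) ^ j ∧ |b ω - b ω'| ≤ (1 / 2 : ℝ) ^ j) :
    hc P (fun ω => lab (θ1 ω) 0 (ρ ω) (l ω)) Z ≤ 5 * Real.log (2 * (2 * M + 9) + 3) := by
  set N : ℕ := 2 * M + 9 with hN
  have hNr : (N : ℝ) = 2 * M + 9 := by rw [hN]; push_cast; ring
  have hMr : (0 : ℝ) ≤ M := Nat.cast_nonneg _
  have half : ∀ {x y : ℕ}, x ≤ y → (1 / 2 : ℝ) ^ y ≤ (1 / 2) ^ x := fun {x y} h =>
    pow_le_pow_of_le_one (by norm_num) (by norm_num) h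
  have hs : ∀ ω ω', 0 < P.w ω → 0 < P.w ω' → Z ω = Z ω' → ρ ω = ρ ω' :=
    fun ω ω' p p' e => (HZ ω ω' p p' e).2.2.1
  -- rounding of the angle at precision `ρ`
  have hr : ∀ ω, 0 < P.w ω → |qa (ρ ω) (θ1 ω) - qa j (θ1 ω)| ≤ 2 * (1 / 2 : ℝ) ^ ρ ω := by
    intro ω hω
    have h1 := abs_sub_qa (ρ ω) (θ1 ω)
    have h2 := abs_sub_qa j (θ1 ω)
    have h3 := half (H ω hω).2.1
    have e : qa (ρ ω) (θ1 ω) - qa j (θ1 ω) = (θ1 ω - qa j (θ1 ω)) - (θ1 ω - qa (ρ ω) (θ1 ω)) := by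
      ring
    rw [e]
    have := abs_sub (θ1 ω - qa j (θ1 ω)) (θ1 ω - qa (ρ ω) (θ1 ω))
    linarith
  have h1 : hc P (fun ω => fl1 (ρ ω) (θ1 ω)) Z ≤ Real.log (2 * N + 3) := by
    refine hc_fl1_apx_var P ρ N θ1 Z hs ?_
    intro ω ω' p p' e
    obtain ⟨e1, e2, e3, -, -⟩ := HZ ω ω' p p' e
    have g1 := (H ω p).2.2.1
    have g2 := (H ω' p').2.2.1
    rw [← e1, ← e2, ← e3] at g2
    have e : θ1 ω - θ1 ω' = (θ1 ω - (θ0 ω + m ω * Real.pi)) - (θ1 ω' - (θ0 ω + m ω * Real.pi)) := by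
      ring
    rw [e]
    have := abs_sub (θ1 ω - (θ0 ω + m ω * Real.pi)) (θ1 ω' - (θ0 ω + m ω * Real.pi))
    have hp : (0 : ℝ) < (1 / 2) ^ ρ ω := by positivity
    rw [hNr]
    nlinarith
  -- wide coordinates
  have hw : ∀ x : Ω → Fin 2 → ℝ, (∀ ω, 0 < P.w ω → ∀ i, |x ω i| ≤ 1) →
      hc P (fun ω => fl1 0 (co (qa (ρ ω) (θ1 ω)) (x ω) 0)) Z ≤ Real.log (2 * N + 3) := by
    intro x hx
    refine hc_fl1_apx P 0 N _ Z ?_
    intro ω ω' p p' _
    have g1 := co_bd (qa (ρ ω) (θ1 ω)) (x ω) (hx ω p) 0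
    have g2 := co_bd (qa (ρ ω') (θ1 ω')) (x ω') (hx ω' p') 0
    have := abs_sub (co (qa (ρ ω) (θ1 ω)) (x ω) 0) (co (qa (ρ ω') (θ1 ω')) (x ω') 0)
    rw [hNr, pow_zero]
    linarith
  -- normal coordinates
  have hn : ∀ (x : Ω → Fin 2 → ℝ) (u : Ω → ℝ), (∀ ω, 0 < P.w ω → ∀ i, |x ω i| ≤ 1) →
      (∀ ω, 0 < P.w ω → |co (qa j (θ1 ω)) (x ω) 1 - sg (m ω) * u ω| ≤ M * (1 / 2 : ℝ) ^ ρ ω) →
      (∀ ω ω', 0 < P.w ω → 0 < P.w ω' → Z ω = Z ω' → |u ω - u ω'| ≤ (1 / 2 : ℝ) ^ j) →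
      hc P (fun ω => fl1 (ρ ω) (co (qa (ρ ω) (θ1 ω)) (x ω) 1)) Z ≤ Real.log (2 * N + 3) := by
    intro x u hx hu huu
    refine hc_fl1_apx_var P ρ N _ Z hs ?_
    have key : ∀ ω, 0 < P.w ω → |co (qa (ρ ω) (θ1 ω)) (x ω) 1 - sg (m ω) * u ω| ≤
        (M + 4) * (1 / 2 : ℝ) ^ ρ ω := by
      intro ω p
      have g1 := co_lip (qa (ρ ω) (θ1 ω)) (qa j (θ1 ω)) (x ω) (hx ω p) 1
      have g2 := hr ω p
      have g3 := hu ω p
      have := abs_add_le (co (qa (ρ ω) (θ1 ω)) (x ω) 1 - co (qa j (θ1 ω)) (x ω) 1)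
        (co (qa j (θ1 ω)) (x ω) 1 - sg (m ω) * u ω)
      rw [sub_add_sub_cancel] at this
      linarith
    intro ω ω' p p' e
    obtain ⟨-, e2, e3, -, -⟩ := HZ ω ω' p p' e
    have g1 := key ω p
    have g2 := key ω' p'
    rw [← e2] at g2
    have g3 := huu ω ω' p p' e
    have g4 := half (H ω p).2.1
    have g5 : |sg (m ω) * u ω - sg (m ω) * u ω'| ≤ (1 / 2 : ℝ) ^ ρ ω := by
      rw [← mul_sub, abs_mul, sg_abs, one_mul]
      exact g3.trans g4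
    have e4 : (M + 4) * (1 / 2 : ℝ) ^ ρ ω' = (M + 4) * (1 / 2 : ℝ) ^ ρ ω := by rw [e3]
    rw [e4] at g2
    have e : co (qa (ρ ω) (θ1 ω)) (x ω) 1 - co (qa (ρ ω') (θ1 ω')) (x ω') 1 =
        (co (qa (ρ ω) (θ1 ω)) (x ω) 1 - sg (m ω) * u ω) -
        (co (qa (ρ ω') (θ1 ω')) (x ω') 1 - sg (m ω) * u ω') +
        (sg (m ω) * u ω - sg (m ω) * u ω') := by ring
    rw [e]
    have q1 := abs_add_le ((co (qa (ρ ω) (θ1 ω)) (x ω) 1 - sg (m ω) * u ω) -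
        (co (qa (ρ ω') (θ1 ω')) (x ω') 1 - sg (m ω) * u ω'))
        (sg (m ω) * u ω - sg (m ω) * u ω')
    have q2 := abs_sub (co (qa (ρ ω) (θ1 ω)) (x ω) 1 - sg (m ω) * u ω)
        (co (qa (ρ ω') (θ1 ω')) (x ω') 1 - sg (m ω) * u ω')
    rw [hNr]
    linarith
  have h2 := hw (fun ω => (l ω).1) (fun ω p => (H ω p).1.1)
  have h3 := hn (fun ω => (l ω).1) a (fun ω p => (H ω p).1.1) (fun ω p => (H ω p).2.2.2.1)
    (fun ω ω' p p' e => (HZ ω ω' p p' e).2.2.2.1)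
  have h4 := hw (fun ω => (l ω).2) (fun ω p => (H ω p).1.2)
  have h5 := hn (fun ω => (l ω).2) b (fun ω p => (H ω p).1.2) (fun ω p => (H ω p).2.2.2.2)
    (fun ω ω' p p' e => (HZ ω ω' p p' e).2.2.2.2)
  have c1 := hc_pair_le P (fun ω => fl1 (ρ ω) (θ1 ω))
    (fun ω => ((fl1 0 (co (qa (ρ ω) (θ1 ω)) (l ω).1 0),
      fl1 (ρ ω) (co (qa (ρ ω) (θ1 ω)) (l ω).1 1)),
      (fl1 0 (co (qa (ρ ω) (θ1 ω)) (l ω).2 0), fl1 (ρ ω) (co (qa (ρ ω) (θ1 ω)) (l ω).2 1)))) Z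
  have c2 := hc_pair_le P (fun ω => (fl1 0 (co (qa (ρ ω) (θ1 ω)) (l ω).1 0),
      fl1 (ρ ω) (co (qa (ρ ω) (θ1 ω)) (l ω).1 1)))
    (fun ω => (fl1 0 (co (qa (ρ ω) (θ1 ω)) (l ω).2 0),
      fl1 (ρ ω) (co (qa (ρ ω) (θ1 ω)) (l ω).2 1))) Z
  have c3 := hc_pair_le P (fun ω => fl1 0 (co (qa (ρ ω) (θ1 ω)) (l ω).1 0))
    (fun ω => fl1 (ρ ω) (co (qa (ρ ω) (θ1 ω)) (l ω).1 1)) Z
  have c4 := hc_pair_le P (fun ω => fl1 0 (co (qa (ρ ω) (θ1 ω)) (l ω).2 0))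
    (fun ω => fl1 (ρ ω) (co (qa (ρ ω) (θ1 ω)) (l ω).2 1)) Z
  have c0 : hc P (fun ω => lab (θ1 ω) 0 (ρ ω) (l ω)) Z ≤
      hc P (fun ω => (fl1 (ρ ω) (θ1 ω), ((fl1 0 (co (qa (ρ ω) (θ1 ω)) (l ω).1 0),
      fl1 (ρ ω) (co (qa (ρ ω) (θ1 ω)) (l ω).1 1)),
      (fl1 0 (co (qa (ρ ω) (θ1 ω)) (l ω).2 0), fl1 (ρ ω) (co (qa (ρ ω) (θ1 ω)) (l ω).2 1))))) Z := by
    refine hc_mono_left P ?_
    intro ω ω' p p' e
    have e1 := hs ω ω' p p' (congrArg Prod.snd e)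
    have e2 := congrArg Prod.fst e
    exact Prod.ext rfl (Prod.ext e1 e2)
  rw [← hNr]
  linarith

/-- the number of half turns -/
theorem H_dm_le (m : Ω → ℤ) (Z : Ω → γ) (h : ∀ ω, 0 < P.w ω → |m ω| ≤ 4) :
    hc P m Z ≤ Real.log 9 := by
  classical
  have h1 := hc_le_log P m Z 9 (fun ω _ => ⟨Finset.Icc (-4) 4, by simp, fun ω' hω' _ => by
    have := abs_le.1 (h ω' hω')
    rw [Finset.mem_Icc]
    exact this⟩)
  exact_mod_cast h1

/-- the precision -/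
theorem H_rho_le (j : ℕ) (ρ : Ω → ℕ) (Z : Ω → γ) (h : ∀ ω, 0 < P.w ω → ρ ω ≤ j) :
    hc P ρ Z ≤ Real.log (j + 1) := by
  classical
  have h1 := hc_le_log P ρ Z (j + 1) (fun ω _ => ⟨Finset.range (j + 1), by simp,
    fun ω' hω' _ => by
      have := h ω' hω'
      rw [Finset.mem_range]
      omega⟩)
  exact_mod_cast h1

theorem H_prop_le (κ : Ω → Prop) (Z : Ω → γ) : hc P κ Z ≤ Real.log 2 := by
  have h1 := hc_le_H P κ Z
  have h2 := P.H_le_log_card κ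
  simp only [Fintype.card_prop] at h2
  exact_mod_cast h1.trans h2

end count

/-! ### the slab of a box -/

/-- numerical data of a slab and of a point of the slab -/
theorem box_facts {Ω : Type} (K : ℕ) {c : ℝ} (hcK : c ≤ K) {B : Bx Ω} {ω : Ω} {q : Ω → Pt} {j : ℕ}
    (hB : BxOk B ω) (hk : B.k ω = 0) (hj : B.j ω = j) (hq : Inb c B q ω) :
    |qa j (B.θ ω)| ≤ 5 ∧ |co (qa j (B.θ ω)) (B.l ω).2 1| ≤ 2 ∧ 0 ≤ (q ω).1 ∧ (q ω).1 ≤ 1 ∧
      (∀ i, |(q ω).2 i| ≤ 2 * K + 2) ∧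
      |co (qa j (B.θ ω)) (q ω).2 1 - co (qa j (B.θ ω)) (B.l ω).1 1 -
        (q ω).1 * co (qa j (B.θ ω)) (B.l ω).2 1| ≤ 5 * K * (1 / 2 : ℝ) ^ j := by
  obtain ⟨hl, hθ, -⟩ := hB
  obtain ⟨t0, t1, q0, q1⟩ := hq
  rw [hk, pow_zero, mul_one] at q0
  rw [hj] at q1
  have hd1 : (1 / 2 : ℝ) ^ j ≤ 1 := pow_le_one₀ (by norm_num) (by norm_num)
  have hd0 : (0 : ℝ) < (1 / 2 : ℝ) ^ j := by positivity
  set v : Fin 2 → ℝ := fun i => (q ω).2 i - pos (B.l ω) (q ω).1 i with hv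
  have hK0 : (0 : ℝ) ≤ K := Nat.cast_nonneg _
  have q1' : |co (B.θ ω) v 1| ≤ K * (1 / 2 : ℝ) ^ j :=
    q1.trans (mul_le_mul_of_nonneg_right hcK hd0.le)
  have hvb : ∀ i, |v i| ≤ 2 * K := bd_of_co (B.θ ω) v (q0.trans hcK)
    (q1'.trans (by nlinarith))
  have hqa := abs_sub_qa j (B.θ ω)
  refine ⟨?_, ?_, t0, t1, ?_, ?_⟩
  · have := abs_sub (B.θ ω) (B.θ ω - qa j (B.θ ω))
    rw [sub_sub_cancel] at this
    linarith
  · have := co_bd (qa j (B.θ ω)) (B.l ω).2 hl.2 1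
    linarith
  · intro i
    have h1 := abs_pos_le hl t0 t1 i
    have h2 := hvb i
    have e : (q ω).2 i = v i + pos (B.l ω) (q ω).1 i := by
      rw [hv]
      ring
    rw [e]
    have := abs_add_le (v i) (pos (B.l ω) (q ω).1 i)
    linarith
  · have e : co (qa j (B.θ ω)) (q ω).2 1 - co (qa j (B.θ ω)) (B.l ω).1 1 -
        (q ω).1 * co (qa j (B.θ ω)) (B.l ω).2 1 = co (qa j (B.θ ω)) v 1 := by
      rw [hv, co_one, co_one, co_one, co_one]
      unfold pos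
      ring
    rw [e]
    have h1 := co_lip (qa j (B.θ ω)) (B.θ ω) v hvb 1
    rw [abs_sub_comm (qa j (B.θ ω)) (B.θ ω)] at h1
    have h2 : 2 * (2 * (K : ℝ)) * |B.θ ω - qa j (B.θ ω)| ≤ 2 * (2 * K) * (1 / 2 : ℝ) ^ j := by
      gcongr
    have h3 := abs_add_le (co (qa j (B.θ ω)) v 1 - co (B.θ ω) v 1) (co (B.θ ω) v 1)
    rw [sub_add_cancel] at h3
    linarith

/-- precision up to which two slabs agree -/
noncomputable def rh (j : ℕ) (E : ℝ) : ℕ := by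
  classical exact Nat.findGreatest (fun r => E ≤ 8 * (1 / 2 : ℝ) ^ r) j

theorem rh_le (j : ℕ) (E : ℝ) : rh j E ≤ j := by
  classical
  unfold rh
  exact Nat.findGreatest_le j

theorem rh_spec {j : ℕ} {E : ℝ} (h : E ≤ 8) : E ≤ 8 * (1 / 2 : ℝ) ^ rh j E := by
  classical
  unfold rh
  exact Nat.findGreatest_spec (P := fun r => E ≤ 8 * (1 / 2 : ℝ) ^ r) (Nat.zero_le j)
    (by simpa using h)

theorem rh_lt {j : ℕ} {E : ℝ} (h : rh j E < j) : 4 * (1 / 2 : ℝ) ^ rh j E < E := by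
  classical
  have h1 : ¬ (E ≤ 8 * (1 / 2 : ℝ) ^ (rh j E + 1)) := by
    have := Nat.findGreatest_is_greatest (P := fun r => E ≤ 8 * (1 / 2 : ℝ) ^ r) (n := j)
      (k := rh j E + 1) (by unfold rh; exact Nat.lt_succ_self _) h
    exact this
  push Not at h1
  rw [pow_succ] at h1
  linarith

end Vale.Agent.P127.U.C2
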