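import Vale.Agent.P127.U.MixA
import Vale.Agent.P127.U.Blocks1

/-!
# P127 / U : decomposition of a system into a dominated part and the rest (helper308)
-/

set_option autoImplicit false

namespace Vale.Agent.P127.U

open Filter Topology Vale.Agent.P127 Vale.Agent.P127.Stk Sys

/-- the remainder law (also for bad indices) -/
theorem exists_rem {Ω Ω' : Type} [Fintype Ω] [Fintype Ω'] (P : Law Ω) (Q : Law Ω') (π : Ω' → Ω)
    (K : ℝ) : ∃ R : Law Ω, (∀ ω, Q.pr π ω ≤ max K 2 * P.w ω) → Dom R id P 2 ∧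
      ∀ ω, P.w ω = 1 / max K 2 * Q.pr π ω + (1 - 1 / max K 2) * R.w ω := by
  by_cases h : ∀ ω, Q.pr π ω ≤ max K 2 * P.w ω
  · obtain ⟨R, h1, h2⟩ := Stk.Dom.split (le_max_right K 2) (show Dom Q π P (max K 2) from h)
    exact ⟨R, fun _ => ⟨h1, h2⟩⟩
  · exact ⟨P, fun h' => absurd h' h⟩

/-- normalised limits of three sequences -/
theorem ulim_mix {S S' S'' : Sys} (h' : S'.L = S.L) (h'' : S''.L = S.L) {p : ℝ} (hp0 : 0 < p)
    (hp1 : p < 1) {f f' f'' : ℕ → ℝ}
    (h : ∀ᶠ i in (uf : Filter ℕ), 0 ≤ f' i ∧ 0 ≤ f'' i ∧ p * f' i + (1 - p) * f'' i ≤ f i ∧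
      f i ≤ p * f' i + (1 - p) * f'' i + Real.log 2)
    (hub : UB fun i => f i / S.nm i) :
    ulim (fun i => f i / S.nm i) = p * ulim (fun i => f' i / S'.nm i) +
      (1 - p) * ulim (fun i => f'' i / S''.nm i) := by
  have hp1' : 0 < 1 - p := sub_pos.2 hp1
  have n1 : S'.nm = S.nm := by
    funext i; unfold Sys.nm; rw [h']
  have n2 : S''.nm = S.nm := by
    funext i; unfold Sys.nm; rw [h'']
  rw [n1, n2]
  obtain ⟨C, hC⟩ := hub
  have u1 : UB fun i => f' i / S.nm i := by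
    refine UB.of_le (C := C / p) ?_ ?_
    · filter_upwards [S.nm_pos, h] with i hi h1
      exact div_nonneg h1.1 hi.le
    · filter_upwards [S.nm_pos, h, hC] with i hi h1 h2
      have h3 := (abs_le.1 h2).2
      rw [div_le_iff₀ hi] at h3
      rw [div_le_div_iff₀ hi hp0]
      have h4 := mul_nonneg hp1'.le h1.2.1
      nlinarith [h1.2.2.1]
  have u2 : UB fun i => f'' i / S.nm i := by
    refine UB.of_le (C := C / (1 - p)) ?_ ?_
    · filter_upwards [S.nm_pos, h] with i hi h1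
      exact div_nonneg h1.2.1 hi.le
    · filter_upwards [S.nm_pos, h, hC] with i hi h1 h2
      have h3 := (abs_le.1 h2).2
      rw [div_le_iff₀ hi] at h3
      rw [div_le_div_iff₀ hi hp1']
      have h4 := mul_nonneg hp0.le h1.1
      nlinarith [h1.2.2.1]
  rw [← ulim_const_mul p u1, ← ulim_const_mul (1 - p) u2,
    ← ulim_add (u1.const_mul p) (u2.const_mul (1 - p))]
  refine ulim_squeeze ⟨C, hC⟩ ((u1.const_mul p).add (u2.const_mul (1 - p)))
    (S.const_div_nm (Real.log 2)) ?_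
  filter_upwards [S.nm_pos, h] with i hi h1
  have e : f i / S.nm i - (p * (f' i / S.nm i) + (1 - p) * (f'' i / S.nm i)) =
      (f i - (p * f' i + (1 - p) * f'' i)) / S.nm i := by ring
  have hl : 0 ≤ Real.log 2 := Real.log_nonneg (by norm_num)
  rw [e, abs_div, abs_of_pos hi]
  apply div_le_div_of_nonneg_right _ hi.le
  rw [abs_le]
  constructor <;> linarith [h1.2.2.1, h1.2.2.2]

/-- **(MIX)** -/
theorem pMix_of (tame : ∀ (S : Sys) (B : S.BX), BxA B → Tame B.lab) : PMix := by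
  intro S S' d
  choose R hR using fun i => exists_rem (S.P i) (S'.P i) (d.π i) d.K
  set K := max d.K 2 with hK
  have hK2 : 2 ≤ K := le_max_right _ _
  have hK0 : 0 < K := by linarith
  have hdom : ∀ᶠ i in (uf : Filter ℕ), Dom (R i) id (S.P i) 2 ∧
      ∀ ω, (S.P i).w ω = 1 / K * (S'.P i).pr (d.π i) ω + (1 - 1 / K) * (R i).w ω := by
    filter_upwards [d.dom] with i hi
    exact hR i fun ω => (hi ω).trans
      (mul_le_mul_of_nonneg_right (le_max_left _ _) ((S.P i).nn ω))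
  have hp0 : 0 < 1 / K := by positivity
  have hp1 : 1 / K < 1 := by rw [div_lt_one hK0]; linarith
  let S'' : Sys := ⟨S.Ω, S.fin, R, S.L, S.Ltop⟩
  let d' : Dmn S'' S := ⟨fun _ ω => ω, rfl, 2, by
    filter_upwards [hdom] with i hi ω
    exact hi.1 ω⟩
  refine ⟨S'', d', 1 / K, hp0, hp1, ?_, ?_⟩
  · intro α β X Y hX
    refine ulim_mix (S := S) (S' := S') (S'' := S'') d.L_eq rfl hp0 hp1 ?_ (UB.hc hX Y)
    filter_upwards [hdom] with i hi
    obtain ⟨h1, h2⟩ := Stk.mix_hc hp0.le hp1.le hi.2 (X i) (Y i)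
    exact ⟨Stk.hc_nonneg _ _ _, Stk.hc_nonneg _ _ _, h1, h2⟩
  · intro γ C B hB
    obtain ⟨C0, hC0⟩ := tame S B hB
    refine ulim_mix (S := S) (S' := S') (S'' := S'') d.L_eq rfl hp0 hp1 ?_ ?_
    · filter_upwards [hdom, hB.1, d.dom] with i hi hok hdi
      have hok' : ∀ ω, 0 < (S.P i).w ω → |(B i).θ ω| ≤ 4 ∧ (B i).k ω ≤ (B i).j ω :=
        fun ω hω => (hok ω hω).2
      obtain ⟨h1, h2⟩ := excF_mix hp0 hp1 hi.2 (B i) (C i) hok'
      refine ⟨excF_nonnegM _ _ _ fun ω hω => ?_, excF_nonnegM _ _ _ fun ω hω => ?_, h1, h2⟩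
      · exact hok' _ (Stk.Dom.pos (show Dom (S'.P i) (d.π i) (S.P i) d.K from hdi) hω)
      · exact hok' _ (Stk.Dom.pos hi.1 hω)
    · refine UB.of_le (C := C0) ?_ ?_
      · filter_upwards [S.nm_pos, hB.1] with i hi hok
        exact div_nonneg (excF_nonnegM _ _ _ fun ω hω => (hok ω hω).2) hi.le
      · filter_upwards [S.nm_pos, hB.1, hC0] with i hi hok h1
        rw [div_le_iff₀ hi]
        exact (excF_le_HM _ _ _ fun ω hω => (hok ω hω).2).trans h1

end Vale.Agent.P127.U
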