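import Vale.Agent.P127.U.TameLab
import Vale.Agent.P127.U.Mix

/-!
# P127: the block MIX, final form
-/

namespace Vale.Agent.P127.U

/-- **MIX** -/
theorem pMix : PMix := pMix_of fun _ _ h => Sys.tame_lab h

end Vale.Agent.P127.U
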