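
import Vale.Agent.P127.U.ApxS
import Vale.Agent.P127.U.ExcBase

/-!
# P127 / U : trivial bounds for the finite inequality (helper404)
-/

set_option autoImplicit false

namespace Vale.Agent.P127.U.Ex

open Finset Filter Topology Vale.Agent.P127 Vale.Agent.P127.Stk Vale.Agent.P127.U

variable {Ω : Type} [Fintype Ω] {γ : Type*}

/-- digits of a number in `[-1, 1]` -/
theorem hc_fl1_abs (P : Law Ω) (s : ℕ) (v : Ω → ℝ) (Z : Ω → γ) (h : ∀ ω, 0 < P.w ω → |v ω| ≤ 1) :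
    hc P (fun ω => fl1 s (v ω)) Z ≤ s * Real.log 2 + Real.log 3 := by
  have h1 := hc_le_log P (fun ω => fl1 s (v ω)) Z (3 * 2 ^ s) (fun ω _ => by
    refine ⟨Finset.Icc (-(2 ^ s) : ℤ) (2 ^ s), ?_, ?_⟩
    · rw [Int.card_Icc]
      have : (1 : ℤ) ≤ 2 ^ s := by exact_mod_cast Nat.one_le_two_pow
      have e : ((2 ^ s : ℤ) + 1 - -(2 ^ s)).toNat = 2 * 2 ^ s + 1 := by
        have : ((2 ^ s : ℤ) + 1 - -(2 ^ s)) = ((2 * 2 ^ s + 1 : ℕ) : ℤ) := by push_cast; ring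
        rw [this, Int.toNat_natCast]
      rw [e]
      have : 1 ≤ 2 ^ s := Nat.one_le_two_pow
      omega
    · intro ω' hω' _
      have hv := abs_le.1 (h ω' hω')
      have h2 : (0 : ℝ) < 2 ^ s := by positivity
      rw [Finset.mem_Icc]
      constructor
      · apply Int.le_floor.2
        push_cast
        nlinarith
      · have h3 : (⌊(2 : ℝ) ^ s * v ω'⌋ : ℝ) ≤ (2 : ℝ) ^ s * v ω' := Int.floor_le _
        have h4 : (⌊(2 : ℝ) ^ s * v ω'⌋ : ℝ) ≤ ((2 ^ s : ℤ) : ℝ) := by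
          push_cast
          nlinarith
        have h5 : ⌊(2 : ℝ) ^ s * v ω'⌋ ≤ (2 ^ s : ℤ) := by exact_mod_cast h4
        exact h5)
  refine h1.trans (le_of_eq ?_)
  push_cast
  rw [Real.log_mul (by norm_num) (by positivity), Real.log_pow]
  ring

/-- digits of a planar vector in `[-1, 1]²` -/
theorem hc_fl_abs (P : Law Ω) (s : ℕ) (v : Ω → Fin 2 → ℝ) (Z : Ω → γ)
    (h : ∀ ω, 0 < P.w ω → ∀ i, |v ω i| ≤ 1) :
    hc P (fun ω => fl s (v ω)) Z ≤ 2 * (s * Real.log 2) + 2 * Real.log 3 := by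
  have h0 := hc_fl1_abs P s (fun ω => v ω 0) Z (fun ω hω => h ω hω 0)
  have h1 := hc_fl1_abs P s (fun ω => v ω 1) Z (fun ω hω => h ω hω 1)
  have h2 : hc P (fun ω => fl s (v ω)) Z ≤ hc P (fun ω => (fl1 s (v ω 0), fl1 s (v ω 1))) Z := by
    apply hc_mono_left
    intro ω ω' _ _ e
    simp only [Prod.mk.injEq] at e
    funext j
    fin_cases j
    · exact e.1.1
    · exact e.1.2
  have h3 := Apx.hc_pair_le P (fun ω => fl1 s (v ω 0)) (fun ω => fl1 s (v ω 1)) Z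
  linarith

/-- the line is known from the point up to `2 n` bits -/
theorem line_le (P : Law Ω) (n : ℕ) (l : Ω → Ln) (t : Ω → ℝ)
    (h : ∀ ω, 0 < P.w ω → LnOk (l ω) ∧ 0 ≤ t ω ∧ t ω ≤ 1) :
    hc P (fun ω => tb n (l ω)) (fun ω => pq n (t ω, pos (l ω) (t ω))) ≤
      2 * (n * Real.log 2) + (2 * Real.log 3 + 2 * Real.log 9) := by
  set Z := fun ω => pq n (t ω, pos (l ω) (t ω)) with hZ
  have h1 : hc P (fun ω => tb n (l ω)) Z ≤
      hc P (fun ω => fl n (l ω).2) Z + hc P (fun ω => fl n (l ω).1) (fun ω => (fl n (l ω).2, Z ω)) := by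
    rw [← hc_pair]
    apply hc_mono_left
    intro ω ω' _ _ e
    simp only [Prod.mk.injEq] at e
    show (fl n (l ω).1, fl n (l ω).2) = (fl n (l ω').1, fl n (l ω').2)
    rw [e.1.1, e.1.2]
  have h2 := hc_fl_abs P n (fun ω => (l ω).2) Z (fun ω hω => (h ω hω).1.2)
  have h3 := Apx.hc_fl_apx P n 3 (fun ω => (l ω).1) (fun ω => (fl n (l ω).2, Z ω)) (by
    intro ω ω' hω hω' e i
    simp only [Prod.mk.injEq, hZ, pq] at e
    obtain ⟨e1, e2, e3⟩ := e
    have g1 := Apx.fl_close e1 i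
    have g2 := Apx.fl1_close e2
    have g3 := Apx.fl_close e3 i
    have k1 : |(l ω).1 i - (l ω').1 i| = |(pos (l ω) (t ω) i - pos (l ω') (t ω') i)
        - t ω * ((l ω).2 i - (l ω').2 i) - (t ω - t ω') * (l ω').2 i| := by
      congr 1
      unfold pos
      ring
    rw [k1]
    have k2 : |t ω * ((l ω).2 i - (l ω').2 i)| ≤ (1/2 : ℝ) ^ n := by
      rw [abs_mul, abs_of_nonneg (h ω hω).2.1]
      calc t ω * |(l ω).2 i - (l ω').2 i| ≤ 1 * (1 / 2) ^ n :=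
            mul_le_mul (h ω hω).2.2 g1 (abs_nonneg _) (by norm_num)
        _ = _ := one_mul _
    have k3 : |(t ω - t ω') * (l ω').2 i| ≤ (1/2 : ℝ) ^ n := by
      rw [abs_mul]
      calc |t ω - t ω'| * |(l ω').2 i| ≤ (1 / 2) ^ n * 1 :=
            mul_le_mul g2 ((h ω' hω').1.2 i) (abs_nonneg _) (by positivity)
        _ = _ := mul_one _
    have k4 := abs_sub (pos (l ω) (t ω) i - pos (l ω') (t ω') i - t ω * ((l ω).2 i - (l ω').2 i)) ((t ω - t ω') * (l ω').2 i)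
    have k5 := abs_sub (pos (l ω) (t ω) i - pos (l ω') (t ω') i) (t ω * ((l ω).2 i - (l ω').2 i))
    push_cast
    linarith)
  have e9 : ((2:ℝ) * (3:ℕ) + 3) = 9 := by norm_num
  rw [e9] at h3
  simp only [Fintype.card_fin, Nat.cast_ofNat] at h3
  linarith

omit [Fintype Ω] in
/-- the tube is a normalised box -/
theorem tbx_ok {n : ℕ} {l : Ω → Ln} {ω : Ω} (h : LnOk (l ω)) : BxOk (tbx n l) ω := by
  refine ⟨h, ?_, le_rfl⟩
  show |(0 : ℝ)| ≤ 4
  rw [abs_zero]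
  norm_num

/-- deficit of time, lower bound -/
theorem def_ge (P : Law Ω) (n : ℕ) (l : Ω → Ln) (t : Ω → ℝ)
    (h : ∀ ω, 0 < P.w ω → LnOk (l ω) ∧ 0 ≤ t ω ∧ t ω ≤ 1) (Z : Ω → γ) :
    - Real.log 3 ≤ n * Real.log 2 - hc P (fun ω => fl1 n (t ω)) Z := by
  have := hc_fl1_abs P n t Z (fun ω hω => by
    rw [abs_le]
    constructor <;> linarith [(h ω hω).2.1, (h ω hω).2.2])
  linarith

theorem jf_two {N : ℝ} (hN : 0 ≤ N) : JF N 2 := by
  intro ε hε
  refine ⟨2 * Real.log 3 + 2 * Real.log 9 + N * Real.log 3, ?_⟩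
  intro Ω _ P l t n h
  have h1 := line_le P n l t h
  have h2 : 0 ≤ excF P (tbx n l) (fun _ => ()) := excF_nonneg (fun ω hω => tbx_ok (h ω hω).1)
  have h3 := def_ge P n l t h (fun ω => tb n (l ω))
  have h4 : 0 ≤ ε * n * Real.log 2 := by
    have : 0 ≤ Real.log 2 := Real.log_nonneg (by norm_num)
    positivity
  have h5 := mul_le_mul_of_nonneg_left h3 hN
  nlinarith

end Vale.Agent.P127.U.Ex
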