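import Vale.Agent.P127.U.ExistB

/-!
# P127 / U : best constant for full time (helper404)

The best constant is the infimum over all finite prices of the best constants of `JF`.
-/

set_option autoImplicit false

namespace Vale.Agent.P127.U.Ex

open Finset Filter Topology Vale.Agent.P127 Vale.Agent.P127.Stk Vale.Agent.P127.U

/-- `Df` as a limit -/
theorem df_eq {S : Sys} {l : S.RV Ln} {t : S.RV ℝ} (ht : Sys.T01 t) :
    Sys.Df l t S.L = ulim fun i => 1 - Stk.hc (S.P i) (Sys.dg S.L t i) (Sys.tbs S.L l i) / S.nm i := by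
  have hB : S.Bd S.L := ⟨1, Eventually.of_forall fun i => by rw [one_mul]⟩
  have uD : UB fun i => Stk.hc (S.P i) (Sys.dg S.L t i) (Sys.tbs S.L l i) / S.nm i :=
    Sys.UB.hc (Apx.tame_dg hB ht) _
  have eNu : S.nu S.L = 1 := by
    unfold Sys.nu
    refine (ulim_congr ?_).trans (ulim_const 1)
    filter_upwards [S.L_pos] with i hi
    have : (0 : ℝ) < S.L i := by exact_mod_cast hi
    exact div_self this.ne'
  rw [ulim_sub (UB.const 1) uD, ulim_const]
  unfold Sys.Df
  rw [eNu]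
  rfl

theorem pExistU (hJS : PJS) : PExistU := by
  set A : Set ℝ := {b | 0 ≤ b ∧ ∃ N : ℝ, 0 ≤ N ∧ JF N b} with hA
  have h2A : (2:ℝ) ∈ A := ⟨by norm_num, 0, le_rfl, jf_two le_rfl⟩
  have hne : A.Nonempty := ⟨2, h2A⟩
  have hbd : BddBelow A := ⟨0, fun b hb => hb.1⟩
  set β := sInf A with hβ
  have hβ0 : 0 ≤ β := le_csInf hne fun b hb => hb.1
  have hβ2 : β ≤ 2 := csInf_le hbd h2A
  have hnear : ∀ ε : ℝ, 0 < ε → ∃ b N : ℝ, 0 ≤ b ∧ b < β + ε ∧ 0 ≤ N ∧ JF N b := by
    intro ε hε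
    obtain ⟨b, hb, hb2⟩ := exists_lt_of_csInf_lt hne (show sInf A < β + ε by linarith)
    obtain ⟨h0, N, hN, hJ⟩ := hb
    exact ⟨b, N, h0, hb2, hN, hJ⟩
  refine ⟨β, hβ0, hβ2, ?_, fun hpos => ?_⟩
  · -- `JU β`
    intro S γ C l q n hn hl hq hfull
    have hnu : 0 ≤ S.nu n := by
      refine const_le_ulim (Apx.UB.nu hn) (Eventually.of_forall fun i => by positivity)
    have key : ∀ ε : ℝ, 0 < ε → S.hc (Sys.tbs n l) (Sys.pr (Sys.pqs n q) C) ≤
        (β + ε) * S.nu n + S.exc (Sys.tubes n l) C := by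
      intro ε hε
      obtain ⟨b, N, h0, hb, hN, hJ⟩ := hnear ε hε
      have h1 := hJS N b hN h0 hJ S γ C l q n hn hl hq
      rw [hfull, sub_self, mul_zero, add_zero] at h1
      have h2 : b * S.nu n ≤ (β + ε) * S.nu n := mul_le_mul_of_nonneg_right hb.le hnu
      linarith
    by_contra hcon
    push Not at hcon
    set d := S.hc (Sys.tbs n l) (Sys.pr (Sys.pqs n q) C) - (β * S.nu n + S.exc (Sys.tubes n l) C) with hd
    have hd0 : 0 < d := by rw [hd]; linarith
    have h3 := key (d / (2 * (S.nu n + 1))) (by positivity)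
    have h4 : d / (2 * (S.nu n + 1)) * S.nu n ≤ d / 2 := by
      rw [div_mul_eq_mul_div, div_le_div_iff₀ (by positivity) (by norm_num)]
      nlinarith
    linarith
  -- the violating sequence
  set b : ℕ → ℝ := fun m => β * (1 - 1 / ((m:ℝ) + 1)) with hb
  have hfac : ∀ m : ℕ, 0 ≤ 1 - 1 / ((m:ℝ) + 1) := by
    intro m
    have h2 : 1 / ((m:ℝ) + 1) ≤ 1 := by
      rw [div_le_one (by positivity)]
      linarith [(Nat.cast_nonneg m : (0:ℝ) ≤ m)]
    linarith
  have hb0 : ∀ m, 0 ≤ b m := fun m => mul_nonneg hβ0 (hfac m)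
  have hbn : ∀ m : ℕ, ¬ JF (m:ℝ) (b m) := by
    intro m hm
    have h1 : 0 < 1 / ((m:ℝ) + 1) := by positivity
    have h4 : β ≤ b m := csInf_le hbd ⟨hb0 m, m, Nat.cast_nonneg _, hm⟩
    have h5 : b m < β := by
      show β * (1 - 1 / ((m:ℝ) + 1)) < β
      nlinarith
    linarith
  choose Ω hf P l t n hg hlt using fun m : ℕ => jf_not (hbn m) ((m : ℝ) + m * Real.log 3)
  set c : ℝ := 2 * Real.log 3 + 2 * Real.log 9 with hc
  have hlog : 0 < Real.log 2 := Real.log_pos (by norm_num)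
  have hlog3 : 0 < Real.log 3 := Real.log_pos (by norm_num)
  have hlog9 : 0 < Real.log 9 := Real.log_pos (by norm_num)
  -- deficits
  have hDlow : ∀ m, - Real.log 3 ≤ (n m) * Real.log 2 - Stk.hc (P m) (fun ω => fl1 (n m) (t m ω)) (fun ω => tb (n m) (l m ω)) :=
    fun m => def_ge (P m) (n m) (l m) (t m) (hg m) (fun ω => tb (n m) (l m ω))
  have hE : ∀ m, 0 ≤ excF (P m) (tbx (n m) (l m)) (fun _ => ()) :=
    fun m => excF_nonneg (fun ω hω => tbx_ok (hg m ω hω).1)
  have hbn0 : ∀ m : ℕ, 0 ≤ b m * ((n m : ℝ) * Real.log 2) := fun m =>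
    mul_nonneg (hb0 m) (mul_nonneg (Nat.cast_nonneg _) hlog.le)
  have hmD : ∀ m : ℕ, (m:ℝ) * ((n m) * Real.log 2 - Stk.hc (P m) (fun ω => fl1 (n m) (t m ω)) (fun ω => tb (n m) (l m ω))) ≤
      2 * (n m * Real.log 2) + c := by
    intro m
    have h1 := line_le (P m) (n m) (l m) (t m) (hg m)
    have h6 := hlt m
    have h8 : (0:ℝ) ≤ m := Nat.cast_nonneg _
    have h9 : 0 ≤ (m:ℝ) * Real.log 3 := by positivity
    have := hE m
    have := hbn0 m
    rw [hc]
    linarith
  have hn : ∀ m : ℕ, (m:ℝ) - c ≤ 2 * (n m * Real.log 2) := by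
    intro m
    have h1 := line_le (P m) (n m) (l m) (t m) (hg m)
    have h3 := mul_le_mul_of_nonneg_left (hDlow m) (Nat.cast_nonneg m : (0:ℝ) ≤ m)
    have h6 := hlt m
    have := hE m
    have := hbn0 m
    rw [hc]
    linarith
  have htop : Tendsto n (uf : Filter ℕ) atTop := by
    refine Tendsto.mono_left ?_ uf_le
    rw [tendsto_atTop]
    intro k
    filter_upwards [eventually_ge_atTop ⌈c + 2 * (k * Real.log 2)⌉₊] with m hm
    have h1 : c + 2 * (k * Real.log 2) ≤ m := (Nat.le_ceil _).trans (by exact_mod_cast hm)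
    have h2 := hn m
    have h3 : (k:ℝ) ≤ n m := by
      have : (k:ℝ) * Real.log 2 ≤ n m * Real.log 2 := by linarith
      exact le_of_mul_le_mul_right this hlog
    exact_mod_cast h3
  let S : Sys := ⟨Ω, hf, P, n, htop⟩
  have hl : Sys.LnA (S := S) l := Eventually.of_forall fun m ω hω => (hg m ω hω).1
  have ht : Sys.T01 (S := S) t := Eventually.of_forall fun m ω hω => (hg m ω hω).2
  -- the deficit vanishes in the limit
  have hDf : Sys.Df (S := S) l t S.L = 0 := by
    rw [df_eq ht]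
    refine ulim_eq ?_
    have t1 : Tendsto (fun i : ℕ => -(Real.log 3 / S.nm i)) (uf : Filter ℕ) (𝓝 0) := by
      have := (S.const_div_nm (Real.log 3)).neg
      rwa [neg_zero] at this
    have t2 : Tendsto (fun i : ℕ => 2 * (1 / (i:ℝ)) + c * (1 / (i:ℝ))) (uf : Filter ℕ) (𝓝 0) := by
      refine Tendsto.mono_left ?_ uf_le
      have h1 : Tendsto (fun m : ℕ => 1 / (m:ℝ)) atTop (𝓝 0) := tendsto_one_div_atTop_nhds_zero_nat
      have h2 := (h1.const_mul 2).add (h1.const_mul c)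
      simpa using h2
    refine tendsto_of_tendsto_of_tendsto_of_le_of_le' t1 t2 ?_ ?_
    · filter_upwards [S.nm_pos] with i hi
      have h1 : - Real.log 3 ≤ S.nm i - Stk.hc (S.P i) (Sys.dg S.L t i) (Sys.tbs S.L l i) := hDlow i
      have e : 1 - Stk.hc (S.P i) (Sys.dg S.L t i) (Sys.tbs S.L l i) / S.nm i =
        (S.nm i - Stk.hc (S.P i) (Sys.dg S.L t i) (Sys.tbs S.L l i)) / S.nm i := by
        rw [sub_div, div_self hi.ne']
      rw [e, ← neg_div]
      exact div_le_div_of_nonneg_right h1 hi.le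
    · have hi1 : ∀ᶠ i in (uf : Filter ℕ), 1 ≤ i := uf_le (eventually_ge_atTop 1)
      have hi2 : ∀ᶠ i in (uf : Filter ℕ), 1 ≤ S.nm i := S.nm_tendsto.eventually_ge_atTop 1
      filter_upwards [S.nm_pos, hi1, hi2] with i hi h1 h2
      have h3 : (i:ℝ) * (S.nm i - Stk.hc (S.P i) (Sys.dg S.L t i) (Sys.tbs S.L l i)) ≤ 2 * S.nm i + c := hmD i
      have hi0 : (0:ℝ) < i := by exact_mod_cast h1
      have e : 1 - Stk.hc (S.P i) (Sys.dg S.L t i) (Sys.tbs S.L l i) / S.nm i =
        (S.nm i - Stk.hc (S.P i) (Sys.dg S.L t i) (Sys.tbs S.L l i)) / S.nm i := by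
        rw [sub_div, div_self hi.ne']
      rw [e, div_le_iff₀ hi]
      have hc0 : 0 ≤ c := by rw [hc]; positivity
      have h4 : 2 * S.nm i + c ≤ (2 + c) * S.nm i := by nlinarith
      have h5 : (2 * (1 / (i:ℝ)) + c * (1 / (i:ℝ))) * S.nm i = ((2 + c) * S.nm i) / i := by
        field_simp
      rw [h5, le_div_iff₀ hi0]
      linarith
  refine ⟨S, l, t, ⟨hl, ht, ?_⟩, hDf⟩
  rw [zero_mul, add_zero]
  refine le_antisymm ?_ ?_
  · refine le_of_forall_pos_le_add fun ε hε => ?_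
    obtain ⟨b', N, h0, hb', hN, hJ⟩ := hnear ε hε
    have h1 := sys_le hJ (S := S) hl ht
    rw [hDf, mul_zero, add_zero] at h1
    linarith
  · have h1 := sys_ge (N := 0) (β := β) (S := S) hl ht (b := b) ?_ ?_
    · rwa [zero_mul, add_zero] at h1
    · refine Tendsto.mono_left ?_ uf_le
      have h1 : Tendsto (fun m : ℕ => 1 / ((m:ℝ) + 1)) atTop (𝓝 0) := tendsto_one_div_add_atTop_nhds_zero_nat
      have h2 := (tendsto_const_nhds (x := (1:ℝ))).sub h1
      have h3 := h2.const_mul β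
      rw [sub_zero, mul_one] at h3
      exact h3
    · refine Eventually.of_forall fun m => ?_
      have h1 := (hlt m).le
      have h0 : (0:ℝ) ≤ m := Nat.cast_nonneg _
      have h3 := mul_le_mul_of_nonneg_left (hDlow m) h0
      refine le_trans ?_ h1
      show b m * ((n m : ℝ) * Real.log 2) + excF (P m) (tbx (n m) (l m)) (fun _ => ()) +
        0 * ((n m : ℝ) * Real.log 2 - Stk.hc (P m) (fun ω => fl1 (n m) (t m ω)) (fun ω => tb (n m) (l m ω))) ≤ _
      linarith

end Vale.Agent.P127.U.Ex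

namespace Vale.Agent.P127.U

theorem pExistU (hJS : PJS) : PExistU := Ex.pExistU hJS

end Vale.Agent.P127.U
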