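import Vale.Agent.P127.U.BasicA
import Vale.Agent.P127.U.Mix

/-!
# P127 / U : extremal systems form a face (helper205)
-/

set_option autoImplicit false

namespace Vale.Agent.P127.U

open Filter Topology Vale.Agent.P127 Vale.Agent.P127.Stk Sys

theorem pFace_of (hM : PMix) : PFace := by
  intro N β hJ S S' d l t hX
  obtain ⟨S'', d', p, hp0, hp1, hH, hE⟩ := hM S S' d
  have hl' : LnA (d.pull l) := d.ae hX.ln
  have ht' : T01 (d.pull t) := d.ae hX.t01
  have hl'' : LnA (d'.pull l) := d'.ae hX.ln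
  have ht'' : T01 (d'.pull t) := d'.ae hX.t01
  refine ⟨hl', ht', ?_⟩
  have J' := hJ.line hl' ht'
  have J'' := hJ.line hl'' ht''
  have a1 := hH _ _ (tbs S.L l) (pqs S.L (pt l t)) (tame_tbs Bd_L hX.ln)
  have a2 := hH _ _ (dg S.L t) (tbs S.L l) (tame_dg_t Bd_L hX.t01)
  have a3 := hE _ (one (S := S)) (tubes S.L l) (tubes_ok Bd_L hX.ln)
  have hq := hX.eq
  unfold Df at J' J'' hq ⊢
  rw [nu_L] at J' J'' hq ⊢
  have b1 : S'.hc (d.pull (tbs S.L l)) (d.pull (pqs S.L (pt l t))) =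
      S'.hc (tbs S'.L (d.pull l)) (pqs S'.L (pt (d.pull l) (d.pull t))) := by
    rw [d.L_eq]
    rfl
  have b2 : S'.hc (d.pull (dg S.L t)) (d.pull (tbs S.L l)) =
      S'.hc (dg S'.L (d.pull t)) (tbs S'.L (d.pull l)) := by
    rw [d.L_eq]
    rfl
  have b3 : S'.exc (d.pullB (tubes S.L l)) (d.pull (one (S := S))) =
      S'.exc (tubes S'.L (d.pull l)) (one (S := S')) := by
    rw [d.L_eq]
    rfl
  have c1 : S''.hc (d'.pull (tbs S.L l)) (d'.pull (pqs S.L (pt l t))) =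
      S''.hc (tbs S''.L (d'.pull l)) (pqs S''.L (pt (d'.pull l) (d'.pull t))) := by
    rw [d'.L_eq]
    rfl
  have c2 : S''.hc (d'.pull (dg S.L t)) (d'.pull (tbs S.L l)) =
      S''.hc (dg S''.L (d'.pull t)) (tbs S''.L (d'.pull l)) := by
    rw [d'.L_eq]
    rfl
  have c3 : S''.exc (d'.pullB (tubes S.L l)) (d'.pull (one (S := S))) =
      S''.exc (tubes S''.L (d'.pull l)) (one (S := S'')) := by
    rw [d'.L_eq]
    rfl
  rw [b1, c1] at a1
  rw [b2, c2] at a2
  rw [b3, c3] at a3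
  rw [a1, a2, a3] at hq
  refine le_antisymm J' ?_
  by_contra hcon
  push Not at hcon
  have hq' : p * (β + S'.exc (tubes S'.L (d.pull l)) (one (S := S')) +
      N * (1 - S'.hc (dg S'.L (d.pull t)) (tbs S'.L (d.pull l))) -
      S'.hc (tbs S'.L (d.pull l)) (pqs S'.L (pt (d.pull l) (d.pull t)))) +
      (1 - p) * (β + S''.exc (tubes S''.L (d'.pull l)) (one (S := S'')) +
      N * (1 - S''.hc (dg S''.L (d'.pull t)) (tbs S''.L (d'.pull l))) -
      S''.hc (tbs S''.L (d'.pull l)) (pqs S''.L (pt (d'.pull l) (d'.pull t)))) = 0 := by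
    linarith
  have g1 := mul_pos hp0 (sub_pos.2 hcon)
  have g2 := mul_nonneg (sub_pos.2 hp1).le (sub_nonneg.2 J'')
  linarith

theorem pFace : PFace := pFace_of (pMix_of fun _ _ h => tame_lab h)

end Vale.Agent.P127.U
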