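import Vale.Agent.P127.U.FillC

/-!
# P127 / U : the fill-in inequality (helper465)

`pFill_of (hA : PExcAtt) : PFill`.  The time is replaced by a uniform time of its cell of
precision `s`; the inequality with price `N` for the new time bounds the number of points from
below, the box `W` which attains the excess in the ball bounds it from above.
-/

set_option autoImplicit false

namespace Vale.Agent.P127.U.Fi

open Finset Filter Topology Vale.Agent.P127 Vale.Agent.P127.U Sys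
open Vale.Agent.P127.Stk (fl fl1 fl_of_fl fl_fract floor_close_aux pr_id)

/-! ### the new time -/

/-- cell of the time -/
noncomputable def cl (s : ℕ) (t : ℝ) : ℤ := min (fl1 s t) (2 ^ s - 1)

theorem cl_facts {s : ℕ} {t : ℝ} (h0 : 0 ≤ t) (h1 : t ≤ 1) :
    0 ≤ cl s t ∧ cl s t + 1 ≤ 2 ^ s ∧ cl s t ≤ fl1 s t ∧ fl1 s t ≤ cl s t + 1 := by
  have h2 : (0:ℤ) ≤ fl1 s t := Int.floor_nonneg.2 (by positivity)
  have h3 : fl1 s t ≤ 2 ^ s := by
    unfold fl1
    have : ⌊(2:ℝ) ^ s * t⌋ ≤ ⌊(((2:ℤ) ^ s : ℤ) : ℝ)⌋ := by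
      apply Int.floor_le_floor
      push_cast
      have : (0:ℝ) < 2 ^ s := by positivity
      nlinarith
    rwa [Int.floor_intCast] at this
  have h4 : (1:ℤ) ≤ 2 ^ s := by exact_mod_cast Nat.one_le_two_pow
  unfold cl
  rcases min_cases (fl1 s t) (2 ^ s - 1) with ⟨e, _⟩ | ⟨e, _⟩ <;> rw [e] <;> omega

/-- the time with cell `c` and last digits `u` -/
noncomputable def nt (m n : ℕ) (c u : ℤ) : ℝ := ((c * 2 ^ m + u : ℤ) : ℝ) / 2 ^ n

theorem fl1_nt (m n : ℕ) (c u : ℤ) : fl1 n (nt m n c u) = c * 2 ^ m + u := by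
  unfold fl1 nt
  rw [mul_div_cancel₀ _ (by positivity), Int.floor_intCast]

theorem nt_facts {s m n : ℕ} (hn : s + m = n) {t : ℝ} (h0 : 0 ≤ t) (h1 : t ≤ 1) {u : ℤ}
    (hu0 : 0 ≤ u) (hu : u < 2 ^ m) :
    0 ≤ nt m n (cl s t) u ∧ nt m n (cl s t) u ≤ 1 ∧
      |nt m n (cl s t) u - t| ≤ 2 * (1 / 2 : ℝ) ^ s := by
  obtain ⟨c0, c1, c2, c3⟩ := cl_facts (s := s) h0 h1
  set c := cl s t with hc
  have hs : (0:ℝ) < 2 ^ s := by positivity
  have hm : (0:ℝ) < 2 ^ m := by positivity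
  have hnn : (0:ℝ) < 2 ^ n := by positivity
  have e : (2:ℝ) ^ n = 2 ^ s * 2 ^ m := by rw [← hn, pow_add]
  have c0' : (0:ℝ) ≤ c := by exact_mod_cast c0
  have c1' : (c:ℝ) + 1 ≤ 2 ^ s := by exact_mod_cast c1
  have c2' : (c:ℝ) ≤ fl1 s t := by exact_mod_cast c2
  have c3' : (fl1 s t : ℝ) ≤ c + 1 := by exact_mod_cast c3
  have u0' : (0:ℝ) ≤ u := by exact_mod_cast hu0
  have u1' : (u:ℝ) ≤ 2 ^ m := by exact_mod_cast hu.le
  have f1 := Int.floor_le ((2:ℝ) ^ s * t)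
  have f2 := Int.lt_floor_add_one ((2:ℝ) ^ s * t)
  change (fl1 s t : ℝ) ≤ _ at f1
  change _ < (fl1 s t : ℝ) + 1 at f2
  have e2 : nt m n c u = (c + u / 2 ^ m) / 2 ^ s := by
    unfold nt
    rw [e]
    push_cast
    field_simp
  have u2 : (u:ℝ) / 2 ^ m ≤ 1 := by rw [div_le_one hm]; exact u1'
  have u3 : 0 ≤ (u:ℝ) / 2 ^ m := by positivity
  rw [e2]
  refine ⟨by positivity, ?_, ?_⟩
  · rw [div_le_one hs]; linarith
  · have e3 : (1 / 2 : ℝ) ^ s = 1 / 2 ^ s := by rw [div_pow, one_pow]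
    have e4 : ((c:ℝ) + u / 2 ^ m) / 2 ^ s - t = (c + u / 2 ^ m - 2 ^ s * t) / 2 ^ s := by
      field_simp
    rw [e3, e4, abs_div, abs_of_pos hs, mul_one_div]
    apply div_le_div_of_nonneg_right _ hs.le
    rw [abs_le]
    constructor <;> linarith

section sys

variable {S : Sys} {α β γ δ : Type*}

/-- extension by uniform digits -/
theorem exists_unif (S : Sys) (m : ℕ → ℕ) :
    ∃ (S' : Sys) (e : Ext S' S) (u : S'.RV ℤ), (∀ i ω, 0 ≤ u i ω ∧ u i ω < 2 ^ m i) ∧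
      ∀ (β : Type) (Y : S.RV β), S'.hc u (e.pull Y) = S.nu m := by
  have hpos : ∀ i, 0 < 2 ^ m i := fun i => by positivity
  let S' : Sys := ⟨fun i => S.Ω i × Fin (2 ^ m i), fun i => inferInstance,
    fun i => Stk.Bs.pu (S.P i) (2 ^ m i) (hpos i), S.L, S.Ltop⟩
  let e : Ext S' S := ⟨fun i p => p.1, rfl, fun i ω => by
    have := Stk.Bs.pu_pr_fst (S.P i) (2 ^ m i) (hpos i) id ω
    rw [pr_id] at this
    exact this⟩
  refine ⟨S', e, fun i p => ((p.2 : ℕ) : ℤ), ?_, ?_⟩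
  · intro i p
    refine ⟨Nat.cast_nonneg _, ?_⟩
    have h := p.2.2
    show ((p.2 : ℕ) : ℤ) < 2 ^ m i
    exact_mod_cast h
  · intro β Y
    show ulim _ = ulim _
    refine ulim_congr ?_
    filter_upwards [S.L_pos] with i hi
    have hL : (0:ℝ) < S.L i := by exact_mod_cast hi
    have h1 : Stk.hc (S'.P i) (fun p : S'.Ω i => ((p.2 : ℕ) : ℤ)) (e.pull Y i) =
        Real.log (2 ^ m i : ℕ) := by
      rw [← Stk.Bs.pu_hc_snd (S.P i) (2 ^ m i) (hpos i) (Y i)]
      refine Stk.hc_congr _ ?_ ?_ (fun _ _ _ _ h => h) (fun _ _ _ _ h => h)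
      · intro p p' _ _ h
        have := congrArg Prod.fst h
        simp only at this ⊢
        rw [this]
      · intro p p' _ _ h
        have := congrArg Prod.fst h
        simp only at this ⊢
        exact Fin.ext (by exact_mod_cast this)
    rw [h1]
    have hl2 : 0 < Real.log 2 := Real.log_pos (by norm_num)
    have h2 : S'.nm i = S.L i * Real.log 2 := rfl
    rw [h2]
    push_cast
    rw [Real.log_pow]
    field_simp

/-- bounded integers are tame -/
theorem tame_digits {m : ℕ → ℕ} (hm : ∃ c : ℝ, ∀ᶠ i in (uf : Filter ℕ), (m i : ℝ) ≤ c * S.L i)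
    {u : S.RV ℤ} (hu : ∀ i ω, 0 ≤ u i ω ∧ u i ω < 2 ^ m i) : Tame u := by
  obtain ⟨c, hc⟩ := hm
  refine ⟨c + 2, ?_⟩
  filter_upwards [hc, S.L_pos] with i h1 h2
  have hL : (1:ℝ) ≤ S.L i := by exact_mod_cast h2
  have hl2 : 0 < Real.log 2 := Real.log_pos (by norm_num)
  have h3 := near_int (S.P i) (u i) (fun _ => ()) (fun _ => 2 ^ m i) (by
    intro ω ω' _ _ _
    have a := hu i ω
    have b := hu i ω'
    push_cast
    rw [abs_le]
    constructor <;> linarith [a.1, a.2, b.1, b.2])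
  rw [hc_unit, (S.P i).ex_const] at h3
  refine h3.trans ?_
  have h4 : ((2 * 2 ^ m i + 1 : ℕ) : ℝ) ≤ 2 ^ (m i + 2) := by
    have : (1:ℝ) ≤ 2 ^ m i := one_le_pow₀ (by norm_num)
    push_cast
    rw [pow_add]
    linarith
  have h5 : (0:ℝ) < ((2 * 2 ^ m i + 1 : ℕ) : ℝ) := by positivity
  refine (Real.log_le_log h5 h4).trans ?_
  rw [Real.log_pow]
  push_cast
  unfold Sys.nm
  nlinarith

theorem Par.ext {n s m : ℕ → ℕ} {S' S : Sys} (e : Ext S' S) (h : Par S n s m) :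
    Par S' n s m := by
  refine ⟨h.add, ?_⟩
  rw [e.L_eq]
  exact h.bd

theorem nu_ext {S' S : Sys} (e : Ext S' S) (n : ℕ → ℕ) : S'.nu n = S.nu n := by
  unfold nu
  rw [e.L_eq]

theorem hc_pr_one (X : S.RV α) (Y : S.RV β) : S.hc X (Sys.pr Y (one (S := S))) = S.hc X Y :=
  hc_congr (Eventually.of_forall fun _ _ _ _ _ e => congrArg Prod.fst e)
    (Eventually.of_forall fun _ _ _ _ _ e => congrArg Prod.fst e)
    (Eventually.of_forall fun _ _ _ _ _ e => Prod.ext e rfl)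
    (Eventually.of_forall fun _ _ _ _ _ e => congrArg Prod.fst e)

theorem hc_swap {X : S.RV α} {Y : S.RV β} (hX : Tame X) (hY : Tame Y) (Z : S.RV γ) :
    S.hc X Z + S.hc Y (Sys.pr X Z) = S.hc Y Z + S.hc X (Sys.pr Y Z) := by
  have := mi_comm hX hY Z
  unfold mi at this
  linarith

theorem h_swap {X : S.RV α} {Y : S.RV β} (hX : Tame X) (hY : Tame Y) :
    S.h X + S.hc Y X = S.h Y + S.hc X Y := by
  have := hc_swap hX hY (one (S := S))
  rw [hc_pr_one, hc_pr_one] at this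
  exact this

theorem ext_lnA {S' S : Sys} (e : Ext S' S) {l : S.RV Ln} (h : LnA l) : LnA (e.pull l) := e.ae h

theorem ext_t01 {S' S : Sys} (e : Ext S' S) {t : S.RV ℝ} (h : T01 t) : T01 (e.pull t) := e.ae h

end sys

/-- points of a box, upper bound for the entropy of the points in a ball -/
theorem fill_upper (hA : PExcAtt) {S : Sys} {n s m : ℕ → ℕ} {l : S.RV Ln} {t t' : S.RV ℝ}
    (h : Par S n s m) (hl : LnA l) (ht : T01 t) (ht' : T01 t')
    (hn : S.Ae fun i ω => |t' i ω - t i ω| ≤ 2 * (1 / 2 : ℝ) ^ s i) :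
    S.hc (pqs n (pt l t')) (pqs s (pt l t)) + S.exc (tubes m (bl s l t)) (pqs s (pt l t)) ≤
      S.hc (BX.lab (tubes m (bl s l t))) (pqs s (pt l t)) + S.nu m := by
  have hB : BxA (tubes m (bl s l t)) := tubes_bxA h.bdm (bl_ok hl)
  obtain ⟨S₂, e, W, hWA, hWS, hWv, hWi⟩ := hA S _ (pqs s (pt l t)) (tubes m (bl s l t)) hB
  have h₂ : Par S₂ n s m := h.ext e
  have hl₂ := ext_lnA e hl
  have ht₂ := ext_t01 e ht
  have ht'₂ := ext_t01 e ht'
  have hn₂ : S₂.Ae fun i ω => |e.pull t' i ω - e.pull t i ω| ≤ 2 * (1 / 2 : ℝ) ^ s i := e.ae hn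
  have hB₂ : BxA (tubes m (bl s (e.pull l) (e.pull t))) := e.bxA hB
  have hWS' : SubA (tubes m (bl s (e.pull l) (e.pull t))) W := hWS
  have k1 := count h₂ hl₂ ht₂ ht'₂ hn₂ hWS'
  set P' := pqs n (pt (e.pull l) (e.pull t')) with hP'
  set C := pqs s (pt (e.pull l) (e.pull t)) with hC
  set Bl := BX.lab (tubes m (bl s (e.pull l) (e.pull t))) with hBl
  set Wl := BX.lab W with hWl
  have tP' : Tame P' := tame_pqs h₂.bd hl₂ ht'₂
  have tC : Tame C := tame_pqs h₂.bds hl₂ ht₂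
  have tB : Tame Bl := hB₂.tame
  have tW : Tame Wl := hWA.tame
  have k2 := hc_swap tW tP' C
  have k3 := hc_swap tW tB C
  have k4 : S₂.hc Bl (Sys.pr Wl C) - (2 * S₂.nu m - S₂.av W.sz) =
      S.exc (tubes m (bl s l t)) (pqs s (pt l t)) := by
    have e1 : S₂.av (fun i ω => ((tubes m (bl s (e.pull l) (e.pull t))) i).sz ω - (W i).sz ω) =
        2 * S₂.nu m - S₂.av W.sz := by
      have e2 := av_sub (ol_sz hB₂) (ol_sz hWA)
      have e3 : S₂.av (BX.sz (tubes m (bl s (e.pull l) (e.pull t)))) = 2 * S₂.nu m := by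
        have : BX.sz (tubes m (bl s (e.pull l) (e.pull t))) = fun i _ => 2 * (m i : ℝ) := by
          funext i ω
          show (m i : ℝ) + m i = _
          ring
        rw [this, av_const]
        unfold nu
        rw [← ulim_const_mul 2 (ub_nu h₂.bdm)]
        refine ulim_congr (Eventually.of_forall fun i => ?_)
        ring
      rw [← e3]
      exact e2
    rw [← hWv, ← e1]
    rfl
  have k5 : S₂.hc Wl (Sys.pr Bl C) ≤ S₂.hc Wl (Sys.pr P' C) := by
    have a1 : S₂.hc Wl (Sys.pr P' (Sys.pr Bl C)) = S₂.hc Wl (Sys.pr Bl C) :=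
      hWi _ (pqs n (pt l t'))
    rw [← a1]
    exact hc_mono_right tW (Eventually.of_forall fun _ _ _ _ _ e => by
      simp only [pr_apply, Prod.mk.injEq] at e ⊢
      exact ⟨e.1, e.2.2⟩)
  have k6 : S₂.hc P' C = S.hc (pqs n (pt l t')) (pqs s (pt l t)) :=
    e.hc (pqs n (pt l t')) (pqs s (pt l t))
  have k7 : S₂.hc Bl C = S.hc (BX.lab (tubes m (bl s l t))) (pqs s (pt l t)) :=
    e.hc (BX.lab (tubes m (bl s l t))) (pqs s (pt l t))
  have k8 := nu_ext e m
  rw [← k6, ← k7]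
  linarith

/-- **the fill-in inequality** -/
theorem pFill_of (hA : PExcAtt) : PFill := by
  intro N β hN hJ S l t hx s hs0 hs1
  set σ : ℕ → ℕ := S.sc s with hσ
  set m : ℕ → ℕ := fun i => S.L i - σ i with hm
  have hσL : ∀ i, σ i ≤ S.L i := by
    intro i
    show ⌊s * S.L i⌋₊ ≤ S.L i
    have h1 : s * (S.L i : ℝ) ≤ S.L i := by
      have := Nat.cast_nonneg (α := ℝ) (S.L i)
      nlinarith
    exact_mod_cast (Nat.floor_le (by positivity)).trans h1
  have hP : Par S S.L σ m := by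
    refine ⟨fun i => ?_, 1, Eventually.of_forall fun i => by simp⟩
    have := hσL i
    show σ i + (S.L i - σ i) = S.L i
    omega
  have hl := hx.ln
  have ht := hx.t01
  obtain ⟨S₁, e₁, u, hu, hu'⟩ := exists_unif S m
  have hP₁ : Par S₁ S.L σ m := hP.ext e₁
  set l₁ := e₁.pull l with hl₁d
  set t₁ := e₁.pull t with ht₁d
  have hl₁ : LnA l₁ := ext_lnA e₁ hl
  have ht₁ : T01 t₁ := ext_t01 e₁ ht
  set c₀ : S.RV ℤ := fun i ω => cl (σ i) (t i ω) with hc₀
  set t' : S₁.RV ℝ := fun i ω => nt (m i) (S.L i) (e₁.pull c₀ i ω) (u i ω) with ht'd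
  have hnt : S₁.Ae fun i ω => 0 ≤ t' i ω ∧ t' i ω ≤ 1 ∧
      |t' i ω - t₁ i ω| ≤ 2 * (1 / 2 : ℝ) ^ σ i := by
    filter_upwards [ht₁] with i hi ω hω
    exact nt_facts (hP.add i) (hi ω hω).1 (hi ω hω).2 (hu i ω).1 (hu i ω).2
  have ht' : T01 t' := by
    filter_upwards [hnt] with i hi ω hω
    exact ⟨(hi ω hω).1, (hi ω hω).2.1⟩
  have hnear : S₁.Ae fun i ω => |t' i ω - t₁ i ω| ≤ 2 * (1 / 2 : ℝ) ^ σ i := by
    filter_upwards [hnt] with i hi ω hω
    exact (hi ω hω).2.2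
  -- names
  have tT : Tame (tbs S.L l) := tame_tbs hP.bd hl
  have tT₁ : Tame (tbs S.L l₁) := tame_tbs hP₁.bd hl₁
  have tp : Tame (pqs S.L (pt l t)) := tame_pqs hP.bd hl ht
  have tp' : Tame (pqs S.L (pt l₁ t')) := tame_pqs hP₁.bd hl₁ ht'
  have tC : Tame (pqs σ (pt l t)) := tame_pqs hP.bds hl ht
  have tC₁ : Tame (pqs σ (pt l₁ t₁)) := tame_pqs hP₁.bds hl₁ ht₁
  have tdL : Tame (dg S.L t) := t01_tame ht hP.bd
  have tdσ : Tame (dg σ t) := t01_tame ht hP.bds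
  have tc₀ : Tame c₀ := by
    refine tdσ.mono (Eventually.of_forall fun i ω ω' _ _ e => ?_)
    show min (fl1 (σ i) (t i ω)) _ = min (fl1 (σ i) (t i ω')) _
    have e' : fl1 (σ i) (t i ω) = fl1 (σ i) (t i ω') := e
    rw [e']
  have tu : Tame u := tame_digits hP₁.bdm hu
  have tB : Tame (BX.lab (tubes m (bl σ l t))) := (tubes_bxA hP.bdm (bl_ok hl)).tame
  have tdir : Tame (dgv m (dir l)) := tame_dirv hP.bdm hl
  -- entropy of the new time
  have k1 : S₁.hc (dg S.L t') (tbs S.L l₁) = S.hc (dg σ t) (tbs S.L l) + S.nu m := by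
    have a1 : S₁.hc (dg S.L t') (tbs S.L l₁) = S₁.hc (Sys.pr (e₁.pull c₀) u) (tbs S.L l₁) := by
      refine hc_congr (Eventually.of_forall fun i ω ω' _ _ e => ?_)
        (Eventually.of_forall fun i ω ω' _ _ e => ?_) (Eventually.of_forall fun _ _ _ _ _ e => e)
        (Eventually.of_forall fun _ _ _ _ _ e => e)
      · simp only [pr_apply, Prod.mk.injEq] at e
        show fl1 (S.L i) (nt _ _ _ _) = fl1 (S.L i) (nt _ _ _ _)
        rw [fl1_nt, fl1_nt, e.1.1, e.1.2]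
      · simp only [pr_apply, Prod.mk.injEq] at e
        have e1 : fl1 (S.L i) (nt (m i) (S.L i) (e₁.pull c₀ i ω) (u i ω)) =
          fl1 (S.L i) (nt (m i) (S.L i) (e₁.pull c₀ i ω') (u i ω')) := e.1
        rw [fl1_nt, fl1_nt] at e1
        have b1 := hu i ω
        have b2 := hu i ω'
        have b3 : e₁.pull c₀ i ω = e₁.pull c₀ i ω' := by
          have q1 : (e₁.pull c₀ i ω * 2 ^ m i + u i ω) / 2 ^ m i = e₁.pull c₀ i ω := by
            rw [add_comm, Int.add_mul_ediv_right _ _ (by positivity),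
              Int.ediv_eq_zero_of_lt b1.1 b1.2, zero_add]
          have q2 : (e₁.pull c₀ i ω' * 2 ^ m i + u i ω') / 2 ^ m i = e₁.pull c₀ i ω' := by
            rw [add_comm, Int.add_mul_ediv_right _ _ (by positivity),
              Int.ediv_eq_zero_of_lt b2.1 b2.2, zero_add]
          rw [← q1, ← q2, e1]
        simp only [pr_apply, Prod.mk.injEq]
        refine ⟨b3, ?_⟩
        rw [b3] at e1
        linarith
    rw [a1, hc_pair (e₁.tame tc₀) tu]
    have a2 : S₁.hc (e₁.pull c₀) (tbs S.L l₁) = S.hc c₀ (tbs S.L l) := e₁.hc c₀ (tbs S.L l)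
    have a3 : S₁.hc u (Sys.pr (e₁.pull c₀) (tbs S.L l₁)) = S.nu m := hu' _ (Sys.pr c₀ (tbs S.L l))
    rw [a2, a3]
    congr 1
    refine hc_eq_of_zero tc₀ tdσ ?_ ?_
    · refine hc_fn (Eventually.of_forall fun i ω ω' _ _ e => ?_)
      simp only [pr_apply, Prod.mk.injEq] at e
      show min (fl1 (σ i) (t i ω)) _ = min (fl1 (σ i) (t i ω')) _
      have e' : fl1 (σ i) (t i ω) = fl1 (σ i) (t i ω') := e.1
      rw [e']
    · refine hc_zero_int 1 (dg σ t) _ ?_
      filter_upwards [ht] with i hi ω ω' hω hω' e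
      simp only [pr_apply, Prod.mk.injEq] at e
      have e' : cl (σ i) (t i ω') = cl (σ i) (t i ω) := e.1
      obtain ⟨-, -, c2, c3⟩ := cl_facts (s := σ i) (hi ω hω).1 (hi ω hω).2
      obtain ⟨-, -, c2', c3'⟩ := cl_facts (s := σ i) (hi ω' hω').1 (hi ω' hω').2
      show |fl1 (σ i) (t i ω') - fl1 (σ i) (t i ω)| ≤ _
      rw [e'] at c2' c3'
      rw [abs_le]
      push_cast
      constructor <;> linarith
  have k1' : S₁.hc (pqs S.L (pt l₁ t')) (tbs S.L l₁) = S.hc (dg σ t) (tbs S.L l) + S.nu m := by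
    rw [hc_pt hP₁.bd hl₁ ht', k1]
  -- the inequality with price `N` for the new time
  have k2 : S₁.hc (tbs S.L l₁) (pqs S.L (pt l₁ t')) ≤ β +
      S.exc (tubes S.L l) (one (S := S)) + N * (1 - (S.hc (dg σ t) (tbs S.L l) + S.nu m)) := by
    have a1 := hJ S₁ Unit (one (S := S₁)) l₁ (pt l₁ t') S.L hP₁.bd hl₁ (by
      refine ⟨0, ?_⟩
      filter_upwards [ht'] with i hi ω hω
      refine ⟨(hi ω hω).1, (hi ω hω).2, ?_, ?_⟩
      · show |co 0 (fun i_1 => pos (l₁ i ω) (t' i ω) i_1 - pos (l₁ i ω) (t' i ω) i_1) 0| ≤ _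
        rw [co_sub, sub_self, abs_zero, zero_mul]
      · show |co 0 (fun i_1 => pos (l₁ i ω) (t' i ω) i_1 - pos (l₁ i ω) (t' i ω) i_1) 1| ≤ _
        rw [co_sub, sub_self, abs_zero, zero_mul])
    rw [hc_pr_one, hc_pr_one, nu_ext e₁, nu_L, mul_one, k1'] at a1
    have a2 : S₁.exc (tubes S.L l₁) (one (S := S₁)) = S.exc (tubes S.L l) (one (S := S)) :=
      exc_ext e₁ (one (S := S)) (tubes S.L l)
    rw [a2] at a1
    exact a1
  -- upper bound
  have k3 := fill_upper hA hP₁ hl₁ ht₁ ht' hnear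
  have k4 : S₁.exc (tubes m (bl σ l₁ t₁)) (pqs σ (pt l₁ t₁)) =
      S.exc (tubes m (bl σ l t)) (pqs σ (pt l t)) :=
    exc_ext e₁ (pqs σ (pt l t)) (tubes m (bl σ l t))
  have k5 : S₁.hc (BX.lab (tubes m (bl σ l₁ t₁))) (pqs σ (pt l₁ t₁)) =
      S.hc (BX.lab (tubes m (bl σ l t))) (pqs σ (pt l t)) :=
    e₁.hc (BX.lab (tubes m (bl σ l t))) (pqs σ (pt l t))
  rw [k4, k5, nu_ext e₁] at k3
  -- counting the points
  have k6 := h_swap tp' tC₁
  rw [zero_coarse hP₁ hl₁ ht₁ ht' hnear, add_zero] at k6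
  have k6' : S₁.h (pqs σ (pt l₁ t₁)) = S.h (pqs σ (pt l t)) := e₁.h (pqs σ (pt l t))
  have k7 := h_swap tp' tT₁
  have k7' : S₁.h (tbs S.L l₁) = S.h (tbs S.L l) := e₁.h (tbs S.L l)
  have k8 := h_swap tp tT
  have k9 : S.hc (pqs S.L (pt l t)) (tbs S.L l) = S.hc (dg S.L t) (tbs S.L l) := hc_pt hP.bd hl ht
  have k10 := hx.eq
  -- the tubelets
  have k11 : S.hc (dg S.L t) (tbs S.L l) - S.hc (dg σ t) (tbs S.L l) ≤
      S.hc (pqs S.L (pt l t)) (Sys.pr (BX.lab (tubes m (bl σ l t))) (pqs σ (pt l t))) := by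
    have a1 : S.hc (dg S.L t) (Sys.pr (BX.lab (tubes m (bl σ l t))) (pqs σ (pt l t))) ≤
        S.hc (pqs S.L (pt l t)) (Sys.pr (BX.lab (tubes m (bl σ l t))) (pqs σ (pt l t))) := by
      refine hc_mono_left tp tdL (Eventually.of_forall fun _ _ _ _ _ e => ?_)
      simp only [pr_apply, Prod.mk.injEq] at e
      exact congrArg Prod.fst e.1
    have a2 : S.hc (dg S.L t) (Sys.pr (Sys.pr (BX.lab (tubes m (bl σ l t))) (pqs σ (pt l t)))
        (Sys.pr (dg σ t) (tbs S.L l))) = S.hc (dg S.L t) (Sys.pr (dg σ t) (tbs S.L l)) := by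
      refine hc_cond_zero tdL (tB.pr tC) (hc_zero_pair tB tC ?_ ?_)
      · exact zero_tubelet_tb hP hl ht
      · exact zero_coarse' hP hl ht
    have a3 : S.hc (dg S.L t) (Sys.pr (Sys.pr (BX.lab (tubes m (bl σ l t))) (pqs σ (pt l t)))
        (Sys.pr (dg σ t) (tbs S.L l))) ≤
        S.hc (dg S.L t) (Sys.pr (BX.lab (tubes m (bl σ l t))) (pqs σ (pt l t))) :=
      hc_mono_right tdL (Eventually.of_forall fun _ _ _ _ _ e => congrArg Prod.fst e)
    have a4 := hc_swap tdL tdσ (tbs S.L l)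
    have a5 : S.hc (dg σ t) (Sys.pr (dg S.L t) (tbs S.L l)) = 0 := by
      refine hc_fn (Eventually.of_forall fun i ω ω' _ _ e => ?_)
      simp only [pr_apply, Prod.mk.injEq] at e
      exact fl1_of_fl1 (hσL i) e.1
    linarith
  have k12 : S.h (pqs σ (pt l t)) + S.hc (BX.lab (tubes m (bl σ l t))) (pqs σ (pt l t)) +
      S.hc (pqs S.L (pt l t)) (Sys.pr (BX.lab (tubes m (bl σ l t))) (pqs σ (pt l t))) ≤
      S.h (pqs S.L (pt l t)) + S.hc (dgv m (dir l)) (pqs S.L (pt l t)) := by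
    have a1 := hc_pair tB tp (pqs σ (pt l t))
    have a2 := h_swap tC (tB.pr tp)
    have a3 : S.hc (pqs σ (pt l t)) (Sys.pr (BX.lab (tubes m (bl σ l t))) (pqs S.L (pt l t))) = 0 :=
      hc_fn (Eventually.of_forall fun i ω ω' _ _ e => by
        simp only [pr_apply, Prod.mk.injEq] at e
        exact Prod.ext (fl1_of_fl1 (hσL i) (congrArg Prod.fst e.2))
          (fl_of_fl (hσL i) _ _ (congrArg Prod.snd e.2)))
    have a4 : S.h (Sys.pr (BX.lab (tubes m (bl σ l t))) (pqs S.L (pt l t))) ≤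
        S.h (Sys.pr (dgv m (dir l)) (pqs S.L (pt l t))) := by
      refine hc_le_of_zero (tB.pr tp) (tdir.pr tp) ?_
      rw [hc_pr_one]
      refine hc_zero_pair tB tp (zero_tubelet_pt hP hl ht) ?_
      exact hc_fn (Eventually.of_forall fun _ _ _ _ _ e => congrArg Prod.snd e)
    have a5 : S.h (Sys.pr (dgv m (dir l)) (pqs S.L (pt l t))) =
        S.h (dgv m (dir l)) + S.hc (pqs S.L (pt l t)) (dgv m (dir l)) := by
      have := hc_pair tdir tp (one (S := S))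
      rw [hc_pr_one] at this
      exact this
    have a6 := h_swap tdir tp
    linarith
  have k13 := nu_add hP
  rw [nu_L] at k13
  show S.exc (tubes m (bl σ l t)) (pqs σ (pt l t)) + N * (Df l t S.L - Df l t σ) ≤
    S.hc (dgv m (dir l)) (pqs S.L (pt l t))
  have k14 : Df l t S.L = 1 - S.hc (dg S.L t) (tbs S.L l) := by unfold Df; rw [nu_L]
  have k15 : Df l t σ = 1 - (S.hc (dg σ t) (tbs S.L l) + S.nu m) := by unfold Df; linarith
  rw [← k15] at k2
  rw [k6'] at k6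
  rw [k7', k1'] at k7
  have k16 : N * (Df l t S.L - Df l t σ) = N * Df l t S.L - N * Df l t σ := by ring
  rw [k16]
  linarith

end Vale.Agent.P127.U.Fi

namespace Vale.Agent.P127.U

/-- **block `PFill`** -/
theorem pFill_of (hA : PExcAtt) : PFill := Fi.pFill_of hA

end Vale.Agent.P127.U
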