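import Vale.Agent.P127.U.LocB
import Vale.Agent.P127.U.Coarse

/-!
# P127 / U : block FLAT (helper513)

`pFlat_of : PPlane → PC1 → PFill → PFlat` : for an extremal system the time is full on the last levels.
In a ball of radius `2^-s`, `s = (1-r) L`, the tubelets lie in slabs of thickness `2^-(L-s)` which are
functions of the ball (`PPlane`), so planar Cordoba (`PC1`, price `1`) holds there; the fill-in
inequality (`PFill`, price `N ≥ 2`) leaves no deficit.
-/

set_option autoImplicit false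

namespace Vale.Agent.P127.U

open Filter Topology Vale.Agent.P127 Vale.Agent.P127.Stk Sys Apx Coa

namespace Flat

/-! ### frames -/

theorem co_sub' (θ : ℝ) (v w : Fin 2 → ℝ) (i : Fin 2) :
    co θ (fun j => v j - w j) i = co θ v i - co θ w i := by
  fin_cases i <;> simp [co] <;> ring

theorem co1 (θ : ℝ) (v : Fin 2 → ℝ) :
    co θ v 1 = -Real.sin θ * v 0 + Real.cos θ * v 1 := rfl

theorem co_rot (φ ψ : ℝ) (v : Fin 2 → ℝ) :
    co ψ v 1 = -Real.sin (ψ - φ) * co φ v 0 + Real.cos (ψ - φ) * co φ v 1 := by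
  have h := Real.sin_sq_add_cos_sq φ
  simp only [co, Real.cos_sub, Real.sin_sub, Matrix.cons_val_zero, Matrix.cons_val_one]
  linear_combination (Real.sin ψ * v 0 - Real.cos ψ * v 1) * h

theorem half_pow_mono {a b : ℕ} (h : a ≤ b) : (1 / 2 : ℝ) ^ b ≤ (1 / 2 : ℝ) ^ a :=
  pow_le_pow_of_le_one (by norm_num) (by norm_num) h

section finite

variable {Ω : Type} [Fintype Ω] {γ : Type*} (P : Law Ω)

/-- the label of a slab is known up to a bounded number of values -/
theorem slab_le (R M : ℕ) (l : Ω → Ln) (θ : Ω → ℝ) (Z : Ω → γ) (hl : ∀ ω, 0 < P.w ω → LnOk (l ω))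
    (h0 : ∀ ω ω', 0 < P.w ω → 0 < P.w ω' → Z ω = Z ω' → |θ ω - θ ω'| ≤ M * (1 / 2 : ℝ) ^ R)
    (h1 : ∀ ω ω', 0 < P.w ω → 0 < P.w ω' → Z ω = Z ω' → fl1 R (θ ω) = fl1 R (θ ω') →
      |co (qa R (θ ω)) (fun j => (l ω).1 j - (l ω').1 j) 1| ≤ M * (1 / 2 : ℝ) ^ R)
    (h2 : ∀ ω ω', 0 < P.w ω → 0 < P.w ω' → Z ω = Z ω' → fl1 R (θ ω) = fl1 R (θ ω') →
      |co (qa R (θ ω)) (fun j => (l ω).2 j - (l ω').2 j) 1| ≤ M * (1 / 2 : ℝ) ^ R) :
    Stk.hc P (fun ω => lab (θ ω) 0 R (l ω)) Z ≤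
      Real.log (2 * M + 3) + (2 * Real.log 11 + 2 * Real.log (2 * M + 3)) := by
  set Z' := fun ω => (fl1 R (θ ω), Z ω) with hZ'
  have hb : ∀ ω, 0 < P.w ω → ∀ φ : ℝ, |co φ (l ω).1 0| ≤ 2 ∧ |co φ (l ω).2 0| ≤ 2 := by
    intro ω hω φ
    have a1 := co_le φ (l ω).1 (M := 1) (hl ω hω).1 0
    have a2 := co_le φ (l ω).2 (M := 1) (hl ω hω).2 0
    constructor <;> linarith
  have e0 : Stk.hc P (fun ω => fl1 R (θ ω)) Z ≤ Real.log (2 * M + 3) :=
    hc_fl1_apx P R M θ Z h0
  have hq : ∀ ω ω', Z' ω = Z' ω' → qa R (θ ω) = qa R (θ ω') := fun ω ω' e =>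
    qa_congr (congrArg Prod.fst e)
  have e1 : Stk.hc P (fun ω => fl1 0 (co (qa R (θ ω)) (l ω).1 0)) Z' ≤ Real.log 11 := by
    have := hc_fl1_apx P 0 4 (fun ω => co (qa R (θ ω)) (l ω).1 0) Z' (by
      intro ω ω' p p' e
      have a1 := (hb ω p (qa R (θ ω))).1
      have a2 := (hb ω' p' (qa R (θ ω'))).1
      have a3 := abs_sub (co (qa R (θ ω)) (l ω).1 0) (co (qa R (θ ω')) (l ω').1 0)
      push_cast
      rw [pow_zero, mul_one]
      linarith)
    refine this.trans (le_of_eq ?_)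
    norm_num
  have e2 : Stk.hc P (fun ω => fl1 0 (co (qa R (θ ω)) (l ω).2 0)) Z' ≤ Real.log 11 := by
    have := hc_fl1_apx P 0 4 (fun ω => co (qa R (θ ω)) (l ω).2 0) Z' (by
      intro ω ω' p p' e
      have a1 := (hb ω p (qa R (θ ω))).2
      have a2 := (hb ω' p' (qa R (θ ω'))).2
      have a3 := abs_sub (co (qa R (θ ω)) (l ω).2 0) (co (qa R (θ ω')) (l ω').2 0)
      push_cast
      rw [pow_zero, mul_one]
      linarith)
    refine this.trans (le_of_eq ?_)
    norm_num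
  have e3 : Stk.hc P (fun ω => fl1 R (co (qa R (θ ω)) (l ω).1 1)) Z' ≤ Real.log (2 * M + 3) := by
    refine hc_fl1_apx P R M (fun ω => co (qa R (θ ω)) (l ω).1 1) Z' ?_
    intro ω ω' p p' e
    have g := h1 ω ω' p p' (congrArg Prod.snd e) (congrArg Prod.fst e)
    rw [co_sub'] at g
    rw [← hq ω ω' e]
    exact g
  have e4 : Stk.hc P (fun ω => fl1 R (co (qa R (θ ω)) (l ω).2 1)) Z' ≤ Real.log (2 * M + 3) := by
    refine hc_fl1_apx P R M (fun ω => co (qa R (θ ω)) (l ω).2 1) Z' ?_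
    intro ω ω' p p' e
    have g := h2 ω ω' p p' (congrArg Prod.snd e) (congrArg Prod.fst e)
    rw [co_sub'] at g
    rw [← hq ω ω' e]
    exact g
  have p1 := hc_pair_le P (fun ω => fl1 0 (co (qa R (θ ω)) (l ω).1 0))
    (fun ω => fl1 R (co (qa R (θ ω)) (l ω).1 1)) Z'
  have p2 := hc_pair_le P (fun ω => fl1 0 (co (qa R (θ ω)) (l ω).2 0))
    (fun ω => fl1 R (co (qa R (θ ω)) (l ω).2 1)) Z'
  have p3 := hc_pair_le P (fun ω => (fl1 0 (co (qa R (θ ω)) (l ω).1 0),
      fl1 R (co (qa R (θ ω)) (l ω).1 1)))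
    (fun ω => (fl1 0 (co (qa R (θ ω)) (l ω).2 0), fl1 R (co (qa R (θ ω)) (l ω).2 1))) Z'
  have p4 : Stk.hc P (fun ω => lab (θ ω) 0 R (l ω)) Z' ≤
      Stk.hc P (fun ω => ((fl1 0 (co (qa R (θ ω)) (l ω).1 0), fl1 R (co (qa R (θ ω)) (l ω).1 1)),
        (fl1 0 (co (qa R (θ ω)) (l ω).2 0), fl1 R (co (qa R (θ ω)) (l ω).2 1)))) Z' := by
    refine Stk.hc_mono_left P ?_
    intro ω ω' _ _ e
    have g1 : fl1 R (θ ω) = fl1 R (θ ω') := congrArg (fun q => q.2.1) e
    have g2 := congrArg (fun q => q.1.1) e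
    have g3 := congrArg (fun q => q.1.2) e
    simp only at g2 g3
    unfold lab
    simp only [Nat.sub_zero, fkj]
    rw [g1, g2, g3]
  have p5 := hc_via P (fun ω => lab (θ ω) 0 R (l ω)) (fun ω => fl1 R (θ ω)) Z
  have p6 : Stk.hc P (fun ω => lab (θ ω) 0 R (l ω)) (fun ω => (fl1 R (θ ω), Z ω)) =
    Stk.hc P (fun ω => lab (θ ω) 0 R (l ω)) Z' := rfl
  linarith

/-- the frame of precision `m` and the frame of precision `R ≤ m + 1` -/
theorem frame_le {m R : ℕ} (hR : R ≤ m + 1) (hm : m ≤ R) {θ θ' : ℝ} {v w : Fin 2 → ℝ}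
    (hθ : fl1 m θ = fl1 m θ') (hv : ∀ i, |v i| ≤ 1) (hw : ∀ i, |w i| ≤ 1)
    (h : fl1 m (co (qa m θ) v 1) = fl1 m (co (qa m θ') w 1)) :
    |co (qa R θ) (fun j => v j - w j) 1| ≤ 18 * (1 / 2 : ℝ) ^ R := by
  have hpow : (1 / 2 : ℝ) ^ m ≤ 2 * (1 / 2 : ℝ) ^ R := by
    have := half_pow_mono hR
    rw [pow_succ] at this
    linarith
  have hpm : (0 : ℝ) < (1 / 2) ^ m := by positivity
  rw [← qa_congr hθ] at h
  have h1 := fl1_close h
  rw [← co_sub'] at h1
  have h2 : |co (qa m θ) (fun j => v j - w j) 0| ≤ 4 := by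
    have := co_le (qa m θ) (fun j => v j - w j) (M := 2) (fun i => by
      have a := abs_sub (v i) (w i)
      have b := hv i
      have c := hw i
      linarith) 0
    linarith
  have h3 : |qa R θ - qa m θ| ≤ 2 * (1 / 2 : ℝ) ^ m := by
    have a := abs_sub_qa R θ
    have b := abs_sub_qa m θ
    have c := half_pow_mono hm
    rw [abs_le] at a b ⊢
    constructor <;> linarith [a.1, a.2, b.1, b.2]
  rw [co_rot (qa m θ) (qa R θ)]
  have h4 : |Real.sin (qa R θ - qa m θ)| ≤ 2 * (1 / 2 : ℝ) ^ m := Real.abs_sin_le_abs.trans h3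
  have h5 := Real.abs_cos_le_one (qa R θ - qa m θ)
  calc |-Real.sin (qa R θ - qa m θ) * co (qa m θ) (fun j => v j - w j) 0 +
        Real.cos (qa R θ - qa m θ) * co (qa m θ) (fun j => v j - w j) 1|
      ≤ |-Real.sin (qa R θ - qa m θ) * co (qa m θ) (fun j => v j - w j) 0| +
        |Real.cos (qa R θ - qa m θ) * co (qa m θ) (fun j => v j - w j) 1| := abs_add_le _ _
    _ ≤ (2 * (1 / 2 : ℝ) ^ m) * 4 + 1 * (1 / 2 : ℝ) ^ m := by
        rw [abs_mul, abs_mul, abs_neg]
        gcongr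
    _ ≤ 18 * (1 / 2 : ℝ) ^ R := by linarith

end finite

variable {S : Sys}

/-- the time deficit of the last levels -/
theorem df_sub {l : S.RV Ln} {t : S.RV ℝ} (ht : T01 t) {s : ℕ → ℕ} (hs : ∀ i, s i ≤ S.L i) :
    Df l t S.L - Df l t s =
      S.nu (fun i => S.L i - s i) - S.hc (dg S.L t) (Sys.pr (dg s t) (tbs S.L l)) := by
  have T1 : Tame (dg S.L t) := tame_dg_t Bd_L ht
  have T2 : Tame (dg s t) := tame_dg_t (bd_of_le Bd_L hs) ht
  have h1 := hc_pair T2 T1 (tbs S.L l)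
  have h2 : S.hc (Sys.pr (dg s t) (dg S.L t)) (tbs S.L l) = S.hc (dg S.L t) (tbs S.L l) := by
    refine hc_congr ?_ ?_ ?_ ?_
    · filter_upwards [fn_dg hs t] with i g1 ω ω' p p' e
      have e1 := congrArg Prod.fst e
      exact Prod.ext (g1 ω ω' p p' e1) e1
    · exact Eventually.of_forall fun _ _ _ _ _ e => congrArg (fun q => q.1.2) e
    · exact Eventually.of_forall fun _ _ _ _ _ e => e
    · exact Eventually.of_forall fun _ _ _ _ _ e => e
  rw [Apx.nu_sub Bd_L hs]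
  unfold Df
  linarith

/-- the digits of the time beyond `s` -/
theorem dg_le {γ : Type} {t : S.RV ℝ} (ht : T01 t) {s : ℕ → ℕ} (hs : ∀ i, s i ≤ S.L i) (C : S.RV γ) :
    S.hc (dg S.L t) (Sys.pr (dg s t) C) ≤ S.nu (fun i => S.L i - s i) := by
  have hb : S.Bd (fun i => S.L i - s i) := bd_of_le Bd_L fun i => Nat.sub_le _ _
  have hl : 0 < Real.log 2 := Real.log_pos (by norm_num)
  refine ulim_le_of_sub (UB.hc (tame_dg_t Bd_L ht) _) (Apx.UB.nu hb) (S.const_div_nm (Real.log 5)) ?_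
  filter_upwards [S.L_pos] with i hi
  have hL : (0:ℝ) < S.L i := by exact_mod_cast hi
  have hk := hc_fl1_apx (S.P i) (S.L i) (2 ^ (S.L i - s i)) (t i)
    ((Sys.pr (dg s t) C) i) (by
      intro ω ω' _ _ e
      have e1 : fl1 (s i) (t i ω) = fl1 (s i) (t i ω') := congrArg Prod.fst e
      have e2 := fl1_close e1
      have e3 : (1 / 2 : ℝ) ^ S.L i = (1 / 2) ^ (S.L i - s i) * (1 / 2) ^ s i := by
        rw [← pow_add, Nat.sub_add_cancel (hs i)]
      push_cast
      rw [e3, ← mul_assoc, ← mul_pow]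
      norm_num
      simpa using e2)
  have hk2 : Real.log (2 * ((2 ^ (S.L i - s i) : ℕ) : ℝ) + 3) ≤
      (S.L i - s i : ℕ) * Real.log 2 + Real.log 5 := by
    rw [← Real.log_pow, ← Real.log_mul (by positivity) (by norm_num)]
    apply Real.log_le_log (by positivity)
    push_cast
    have : (1:ℝ) ≤ 2 ^ (S.L i - s i) := one_le_pow₀ (by norm_num)
    nlinarith
  have hnm : 0 < S.nm i := mul_pos hL hl
  have hk3 : Stk.hc (S.P i) (dg S.L t i) ((Sys.pr (dg s t) C) i) ≤
      (S.L i - s i : ℕ) * Real.log 2 + Real.log 5 := hk.trans hk2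
  calc Stk.hc (S.P i) (dg S.L t i) ((Sys.pr (dg s t) C) i) / S.nm i
      ≤ ((S.L i - s i : ℕ) * Real.log 2 + Real.log 5) / S.nm i := div_le_div_of_nonneg_right hk3 hnm.le
    _ = ((S.L i - s i : ℕ) : ℝ) / S.L i + Real.log 5 / S.nm i := by
        rw [add_div]
        congr 1
        unfold Sys.nm
        field_simp

end Flat

open Flat

theorem pFlat_of (hPl : PPlane) (hC1 : PC1) (hFi : PFill) : PFlat := by
  intro N β hN hβ hJ S l t hX
  have hN0 : 0 ≤ N := by linarith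
  obtain ⟨r₀, hr0, hr1, hpl⟩ := hPl N β hN hβ hJ S l t hX
  refine ⟨r₀, hr0, hr1, fun r hr hrr => ?_⟩
  rcases hr.eq_or_lt with h0 | hr'
  · rw [← h0]
    have : S.sc (1 - 0) = S.L := by
      funext i
      unfold Sys.sc
      rw [sub_zero, one_mul, Nat.floor_natCast]
    rw [this]
  obtain ⟨θ, hθ4, hθ⟩ := hpl r hr' hrr
  have hl := hX.ln
  have ht := hX.t01
  set s : ℕ → ℕ := S.sc (1 - r) with hs_def
  set m : ℕ → ℕ := S.sc r with hm_def
  set R : ℕ → ℕ := fun i => S.L i - s i with hR_def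
  have hs : ∀ i, s i ≤ S.L i := sc_le (by linarith)
  have hbs : S.Bd s := bd_of_le Bd_L hs
  have hbR : S.Bd R := bd_of_le Bd_L fun i => Nat.sub_le _ _
  have hbm : S.Bd m := bd_sc hr
  have hmR : ∀ i, m i ≤ R i ∧ R i ≤ m i + 1 := by
    intro i
    have hL : (0:ℝ) ≤ S.L i := Nat.cast_nonneg _
    have a1 : (s i : ℝ) ≤ (1 - r) * S.L i := Nat.floor_le (mul_nonneg (by linarith) hL)
    have a2 : (1 - r) * S.L i < s i + 1 := Nat.lt_floor_add_one _
    have b1 : (m i : ℝ) ≤ r * S.L i := Nat.floor_le (mul_nonneg hr hL)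
    have b2 : r * S.L i < m i + 1 := Nat.lt_floor_add_one _
    have c : (R i : ℝ) = S.L i - s i := by
      rw [hR_def]
      exact Nat.cast_sub (hs i)
    constructor
    · have : (m i : ℝ) < R i + 1 := by linarith
      exact Nat.lt_succ_iff.1 (by exact_mod_cast this)
    · have : (R i : ℝ) < m i + 1 + 1 := by linarith
      exact Nat.lt_succ_iff.1 (by exact_mod_cast this)
  -- the lines in the ball
  set l' : S.RV Ln := bl s l t with hl'_def
  set t' : S.RV ℝ := LocB.tb' s t with ht'_def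
  have hl' : LnA l' := by
    filter_upwards [hl] with i hi ω hω
    refine ⟨fun j => ?_, (hi ω hω).2⟩
    show |Int.fract _| ≤ 1
    rw [abs_of_nonneg (Int.fract_nonneg _)]
    exact (Int.fract_lt_one _).le
  have ht01 : T01 t' := Eventually.of_forall fun i ω _ => ⟨Int.fract_nonneg _, (Int.fract_lt_one _).le⟩
  have hsl : BxA (slab R θ l') := by
    obtain ⟨c, hc⟩ := hbR
    refine ⟨(Ae.and hl' hθ4).mono fun i ω g => ⟨g.1, g.2, Nat.zero_le _⟩, c, ?_⟩
    filter_upwards [hc] with i hi ω _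
    exact hi
  -- tameness
  have T1 : Tame (tbs R l') := Sys.tame_tbs hbR hl'
  have T2 : Tame (dgv R (dir l)) := tame_dir hbR hl
  have T3 : Tame (pqs s (pt l t)) := Sys.tame_pt hbs hl ht
  have T4 : Tame (pqs R (pt l' t')) := Sys.tame_pt hbR hl' ht01
  have T5 : Tame (dg S.L t) := tame_dg_t Bd_L ht
  have T6 : Tame (dg R t') := tame_dg_t hbR ht01
  have T7 : Tame (slab R θ l').lab := tame_lab hsl
  set A : S.RV (ℤ × ℤ) := fun i ω => (fl1 (m i) (θ i ω), fl1 (m i) (co (qa (m i) (θ i ω)) (dir l i ω) 1)) with hA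
  have TA : Tame A := by
    refine (tame_dg hbm (X := θ) 4 hθ4 |>.pr (tame_dg hbm
      (X := fun i ω => co (qa (m i) (θ i ω)) (dir l i ω) 1) 2 ?_)).mono
      (Eventually.of_forall fun _ _ _ _ _ e => e)
    refine hl.mono fun i ω g => ?_
    have := co_le (qa (m i) (θ i ω)) (l i ω).2 (M := 1) g.2 1
    rw [mul_one] at this
    exact_mod_cast this
  have hA0 : ∀ {δ : Type} (Z : S.RV δ), Fn (pqs s (pt l t)) Z → S.hc A Z = 0 := by
    intro δ Z hZ
    refine le_antisymm ?_ (hc_nonneg TA Z)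
    rw [← hθ]
    exact hc_mono_right TA hZ
  -- the slab is a function of the point
  have K1 : S.hc (slab R θ l').lab (Sys.pr (pqs R (pt l' t')) (pqs s (pt l t))) = 0 := by
    have g0 : S.hc A (Sys.pr (pqs R (pt l' t')) (pqs s (pt l t))) = 0 :=
      hA0 _ (Eventually.of_forall fun _ _ _ _ _ e => congrArg Prod.snd e)
    refine le_antisymm ?_ (hc_nonneg T7 _)
    have g1 := hc_le_add T7 TA (Sys.pr (pqs R (pt l' t')) (pqs s (pt l t)))
    rw [g0, add_zero] at g1
    refine g1.trans (le_of_eq ?_)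
    refine hc_zero_of_le (Real.log (2 * (22 : ℕ) + 3) + (2 * Real.log 11 + 2 * Real.log (2 * (22 : ℕ) + 3))) ?_
    filter_upwards [hl, hl', ht01] with i hi hi' hti
    have hRp : (0 : ℝ) < (1 / 2) ^ R i := by positivity
    have key : ∀ ω ω', 0 < (S.P i).w ω → 0 < (S.P i).w ω' →
        (Sys.pr A (Sys.pr (pqs R (pt l' t')) (pqs s (pt l t)))) i ω =
          (Sys.pr A (Sys.pr (pqs R (pt l' t')) (pqs s (pt l t)))) i ω' →
        |co (qa (R i) (θ i ω)) (fun j => (l i ω).2 j - (l i ω').2 j) 1| ≤ 18 * (1 / 2 : ℝ) ^ R i := by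
      intro ω ω' p p' e
      have a1 : fl1 (m i) (θ i ω) = fl1 (m i) (θ i ω') := congrArg (fun q => q.1.1) e
      have a2 : fl1 (m i) (co (qa (m i) (θ i ω)) (l i ω).2 1) =
        fl1 (m i) (co (qa (m i) (θ i ω')) (l i ω').2 1) := congrArg (fun q => q.1.2) e
      exact frame_le (hmR i).2 (hmR i).1 a1 (hi ω p).2 (hi ω' p').2 a2
    refine slab_le (S.P i) (R i) 22 (l' i) (θ i) _ hi' ?_ ?_ ?_
    · intro ω ω' p p' e
      have a1 : fl1 (m i) (θ i ω) = fl1 (m i) (θ i ω') := congrArg (fun q => q.1.1) e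
      have a2 := Apx.fl1_close a1
      have a3 := half_pow_mono (hmR i).2
      rw [pow_succ] at a3
      push_cast
      linarith
    · intro ω ω' p p' e _
      have b1 : fl1 (R i) (t' i ω) = fl1 (R i) (t' i ω') := congrArg (fun q => q.2.1.1) e
      have b2 : fl (R i) (pos (l' i ω) (t' i ω)) = fl (R i) (pos (l' i ω') (t' i ω')) :=
        congrArg (fun q => q.2.1.2) e
      have b3 := Apx.fl1_close b1
      have b4 := Apx.fl_close b2
      have k := key ω ω' p p' e
      set φ := qa (R i) (θ i ω) with hφ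
      have c1 : co φ (fun j => (l' i ω).1 j - (l' i ω').1 j) 1 =
          co φ (fun j => pos (l' i ω) (t' i ω) j - pos (l' i ω') (t' i ω') j) 1 -
          t' i ω * co φ (fun j => (l i ω).2 j - (l i ω').2 j) 1 -
          (t' i ω - t' i ω') * co φ (l i ω').2 1 := by
        have d1 : ∀ ω, (l' i ω).2 = (l i ω).2 := fun _ => rfl
        simp only [co1, pos, d1]
        ring
      have c2 : |co φ (fun j => pos (l' i ω) (t' i ω) j - pos (l' i ω') (t' i ω') j) 1| ≤
          2 * (1 / 2 : ℝ) ^ R i := co_le φ _ (M := (1 / 2 : ℝ) ^ R i) b4 1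
      have c3 : |t' i ω * co φ (fun j => (l i ω).2 j - (l i ω').2 j) 1| ≤ 18 * (1 / 2 : ℝ) ^ R i := by
        rw [abs_mul, abs_of_nonneg (hti ω p).1]
        calc t' i ω * |co φ (fun j => (l i ω).2 j - (l i ω').2 j) 1| ≤ 1 * (18 * (1 / 2 : ℝ) ^ R i) :=
              mul_le_mul (hti ω p).2 k (abs_nonneg _) (by norm_num)
          _ = _ := one_mul _
      have c4 : |(t' i ω - t' i ω') * co φ (l i ω').2 1| ≤ 2 * (1 / 2 : ℝ) ^ R i := by
        rw [abs_mul]
        have d := co_le φ (l i ω').2 (M := 1) (hi ω' p').2 1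
        calc |t' i ω - t' i ω'| * |co φ (l i ω').2 1| ≤ (1 / 2 : ℝ) ^ R i * (2 * 1) :=
              mul_le_mul b3 d (abs_nonneg _) hRp.le
          _ = _ := by ring
      rw [c1]
      push_cast
      rw [abs_le] at c2 c3 c4 ⊢
      constructor <;> linarith [c2.1, c2.2, c3.1, c3.2, c4.1, c4.2]
    · intro ω ω' p p' e _
      have k := key ω ω' p p' e
      have d1 : ∀ ω, (l' i ω).2 = (l i ω).2 := fun _ => rfl
      simp only [d1]
      push_cast
      linarith
  -- the slab is a function of the tube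
  have K2 : S.hc (slab R θ l').lab (Sys.pr (tbs R l') (pqs s (pt l t))) = 0 := by
    have g0 : S.hc A (Sys.pr (tbs R l') (pqs s (pt l t))) = 0 :=
      hA0 _ (Eventually.of_forall fun _ _ _ _ _ e => congrArg Prod.snd e)
    refine le_antisymm ?_ (hc_nonneg T7 _)
    have g1 := hc_le_add T7 TA (Sys.pr (tbs R l') (pqs s (pt l t)))
    rw [g0, add_zero] at g1
    refine g1.trans (le_of_eq ?_)
    refine hc_zero_of_le (Real.log (2 * (2 : ℕ) + 3) + (2 * Real.log 11 + 2 * Real.log (2 * (2 : ℕ) + 3))) ?_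
    filter_upwards [hl'] with i hi'
    refine slab_le (S.P i) (R i) 2 (l' i) (θ i) _ hi' ?_ ?_ ?_
    · intro ω ω' p p' e
      have a1 : fl1 (m i) (θ i ω) = fl1 (m i) (θ i ω') := congrArg (fun q => q.1.1) e
      have a2 := Apx.fl1_close a1
      have a3 := half_pow_mono (hmR i).2
      rw [pow_succ] at a3
      push_cast
      linarith
    · intro ω ω' p p' e _
      have b1 : fl (R i) (l' i ω).1 = fl (R i) (l' i ω').1 := congrArg (fun q => q.2.1.1) e
      have b4 := Apx.fl_close b1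
      have := co_le (qa (R i) (θ i ω)) _ (M := (1 / 2 : ℝ) ^ R i) b4 1
      exact_mod_cast this
    · intro ω ω' p p' e _
      have b1 : fl (R i) (l' i ω).2 = fl (R i) (l' i ω').2 := congrArg (fun q => q.2.1.2) e
      have b4 := Apx.fl_close b1
      have := co_le (qa (R i) (θ i ω)) _ (M := (1 / 2 : ℝ) ^ R i) b4 1
      exact_mod_cast this
  -- planar Cordoba in the ball
  have J1 := hC1 S _ (pqs s (pt l t)) l' t' θ R hbR hl' ht01 hsl K1 K2
  -- fill-in
  have J2 := hFi N β hN0 hJ S l t hX (1 - r) (by linarith) (by linarith)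
  -- comparison of the branching
  have J3 : S.hc (dgv R (dir l)) (pqs S.L (pt l t)) ≤
      S.hc (tbs R l') (Sys.pr (pqs R (pt l' t')) (pqs s (pt l t))) := by
    refine hc_cmp_sys T2 T1 (2 * Real.log 9 + (Real.log 5 + 2 * Real.log 5)) ?_
    filter_upwards [hl] with i hi
    have z1 : Stk.hc (S.P i) (dgv R (dir l) i) (fun ω => (tbs R l' i ω, (pqs S.L (pt l t)) i ω)) = 0 := by
      apply Stk.hc_zero
      intro ω ω' _ _ e
      exact congrArg (fun q => q.1.2) e
    have b1 := hc_pair_le (S.P i) (pqs R (pt l' t') i) (pqs s (pt l t) i) (pqs S.L (pt l t) i)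
    have b2 : Stk.hc (S.P i) (pqs s (pt l t) i) (pqs S.L (pt l t) i) = 0 := by
      apply Stk.hc_zero
      intro ω ω' _ _ e
      have e3 : fl1 (S.L i) (t i ω) = fl1 (S.L i) (t i ω') := congrArg Prod.fst e
      have e4 : fl (S.L i) (pos (l i ω) (t i ω)) = fl (S.L i) (pos (l i ω') (t i ω')) :=
        congrArg Prod.snd e
      exact Prod.ext (fl1_of_fl1 (hs i) e3) (fl_of_fl (hs i) _ _ e4)
    have b3 := LocB.point_le (S.P i) (s i) (S.L i) (hs i) (l i) (t i) hi (pqs S.L (pt l t) i) (by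
      intro ω ω' _ _ e
      exact ⟨congrArg Prod.fst e, congrArg Prod.snd e⟩)
    have b4 : Stk.hc (S.P i) (pqs R (pt l' t') i) (pqs S.L (pt l t) i) ≤
        2 * Real.log 9 + (Real.log 5 + 2 * Real.log 5) := b3
    have b5 : Stk.hc (S.P i) ((Sys.pr (pqs R (pt l' t')) (pqs s (pt l t))) i) (pqs S.L (pt l t) i) ≤ _ := b1
    linarith
  -- comparison of the times
  have J4 : S.hc (dg S.L t) (Sys.pr (dg s t) (tbs S.L l)) ≤
      S.hc (dg R t') (Sys.pr (tbs R l') (pqs s (pt l t))) := by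
    refine hc_cmp_sys T5 T6 (2 * Real.log 9 + 2 * Real.log 7) ?_
    filter_upwards [hl, ht] with i hi hti
    have z1 : Stk.hc (S.P i) (dg S.L t i) (fun ω => (dg R t' i ω, (Sys.pr (dg s t) (tbs S.L l)) i ω)) = 0 := by
      apply Stk.hc_zero
      intro ω ω' _ _ e
      have e1 : fl1 (S.L i - s i) (Int.fract ((2 : ℝ) ^ s i * t i ω)) =
        fl1 (S.L i - s i) (Int.fract ((2 : ℝ) ^ s i * t i ω')) := congrArg Prod.fst e
      have e2 : fl1 (s i) (t i ω) = fl1 (s i) (t i ω') := congrArg (fun q => q.2.1) e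
      have f1 : ∀ x : ℝ, fl1 (S.L i - s i) (Int.fract ((2 : ℝ) ^ s i * x)) =
          fl1 (S.L i) x - 2 ^ (S.L i - s i) * fl1 (s i) x := by
        intro x
        have := fl_fract (s i) (S.L i - s i) (fun _ : Unit => x) ()
        rw [Nat.add_sub_cancel' (hs i)] at this
        exact this
      rw [f1, f1, e2] at e1
      show fl1 (S.L i) (t i ω) = fl1 (S.L i) (t i ω')
      linarith
    have z2 := LocB.tube_le (S.P i) (s i) (S.L i) (hs i) (l i) (t i) hi (fun _ : S.Ω i => ())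
    have z3 : Stk.hc (S.P i) (fun ω => ((fl1 (s i) (t i ω), fl (S.L i) (pos (l i ω) (qa (s i) (t i ω))),
        fl (S.L i - s i) (l i ω).2), ())) ((Sys.pr (dg s t) (tbs S.L l)) i) ≤ 2 * Real.log 7 := by
      have y1 := hc_fl_apx (S.P i) (ι := Fin 2) (S.L i) 2 (fun ω => pos (l i ω) (qa (s i) (t i ω)))
        ((Sys.pr (dg s t) (tbs S.L l)) i) (by
        intro ω ω' p p' e j
        have e2 : fl1 (s i) (t i ω) = fl1 (s i) (t i ω') := congrArg Prod.fst e
        have e3 : fl (S.L i) (l i ω).1 = fl (S.L i) (l i ω').1 := congrArg (fun q => q.2.1) e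
        have e4 : fl (S.L i) (l i ω).2 = fl (S.L i) (l i ω').2 := congrArg (fun q => q.2.2) e
        have e5 := Apx.fl_close e3 j
        have e6 := Apx.fl_close e4 j
        rw [← qa_congr e2]
        have e7 : 0 ≤ qa (s i) (t i ω) := by
          unfold qa fl1
          apply div_nonneg _ (by positivity)
          have : (0 : ℤ) ≤ ⌊(2 : ℝ) ^ s i * t i ω⌋ := Int.floor_nonneg.2 (mul_nonneg (by positivity) (hti ω p).1)
          exact_mod_cast this
        have e8 : qa (s i) (t i ω) ≤ 1 := (qa_le _ _).trans (hti ω p).2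
        have e9 : pos (l i ω) (qa (s i) (t i ω)) j - pos (l i ω') (qa (s i) (t i ω)) j =
          ((l i ω).1 j - (l i ω').1 j) + qa (s i) (t i ω) * ((l i ω).2 j - (l i ω').2 j) := by
          unfold pos
          ring
        rw [e9]
        refine (abs_add_le _ _).trans ?_
        rw [abs_mul, abs_of_nonneg e7]
        have e10 : qa (s i) (t i ω) * |(l i ω).2 j - (l i ω').2 j| ≤ 1 * (1 / 2 : ℝ) ^ S.L i :=
          mul_le_mul e8 e6 (abs_nonneg _) (by norm_num)
        push_cast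
        linarith)
      have y2 : Stk.hc (S.P i) (fun ω => ((fl1 (s i) (t i ω), fl (S.L i) (pos (l i ω) (qa (s i) (t i ω))),
        fl (S.L i - s i) (l i ω).2), ())) ((Sys.pr (dg s t) (tbs S.L l)) i) ≤
        Stk.hc (S.P i) (fun ω => fl (S.L i) (pos (l i ω) (qa (s i) (t i ω)))) ((Sys.pr (dg s t) (tbs S.L l)) i) := by
        refine Stk.hc_mono_left _ ?_
        intro ω ω' _ _ e
        have e1 : fl (S.L i) (pos (l i ω) (qa (s i) (t i ω))) = fl (S.L i) (pos (l i ω') (qa (s i) (t i ω'))) :=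
          congrArg Prod.fst e
        have e2 : fl1 (s i) (t i ω) = fl1 (s i) (t i ω') := congrArg (fun q => q.2.1) e
        have e4 : fl (S.L i) (l i ω).2 = fl (S.L i) (l i ω').2 := congrArg (fun q => q.2.2.2) e
        have e5 : fl (S.L i - s i) (l i ω).2 = fl (S.L i - s i) (l i ω').2 := fl_of_fl (Nat.sub_le _ _) _ _ e4
        simp only [e1, e2, e5]
      refine y2.trans (y1.trans (le_of_eq ?_))
      rw [Fintype.card_fin]
      norm_num
    have z4 : Stk.hc (S.P i) ((Sys.pr (tbs R l') (pqs s (pt l t))) i) ((Sys.pr (dg s t) (tbs S.L l)) i) ≤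
        2 * Real.log 9 + 2 * Real.log 7 := by
      have w1 := hc_via (S.P i) ((Sys.pr (tbs R l') (pqs s (pt l t))) i)
        (fun ω => ((fl1 (s i) (t i ω), fl (S.L i) (pos (l i ω) (qa (s i) (t i ω))),
        fl (S.L i - s i) (l i ω).2), ())) ((Sys.pr (dg s t) (tbs S.L l)) i)
      have w2 : Stk.hc (S.P i) ((Sys.pr (tbs R l') (pqs s (pt l t))) i)
          (fun ω => (((fl1 (s i) (t i ω), fl (S.L i) (pos (l i ω) (qa (s i) (t i ω))),
        fl (S.L i - s i) (l i ω).2), ()), (Sys.pr (dg s t) (tbs S.L l)) i ω)) ≤ 2 * Real.log 9 := by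
        refine (Stk.hc_mono_right (S.P i) ((Sys.pr (tbs R l') (pqs s (pt l t))) i) (fun ω ω' _ _ e => congrArg Prod.fst e)).trans
          (le_trans ?_ z2)
        refine Stk.hc_mono_left _ ?_
        intro ω ω' _ _ e
        have e1 := congrArg (fun q => q.1.1) e
        have e2 := congrArg (fun q => q.1.2.1) e
        exact Prod.ext e1 e2
      linarith
    linarith
  -- conclusion
  have D1 := df_sub (l := l) ht hs
  have D2 := dg_le ht hs (tbs S.L l)
  have D3 : 0 ≤ Df l t S.L - Df l t s := by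
    rw [D1]
    linarith
  have D4 : N * (Df l t S.L - Df l t s) ≤ Df l t S.L - Df l t s := by
    have e1 : S.exc (tubes R l') (pqs s (pt l t)) + N * (Df l t S.L - Df l t s) ≤
      S.hc (dgv R (dir l)) (pqs S.L (pt l t)) := J2
    have e2 : S.nu R = S.nu (fun i => S.L i - s i) := rfl
    rw [D1] at *
    linarith
  nlinarith

end Vale.Agent.P127.U
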