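import Vale.Agent.P127.U.StrD

/-!
# P127 / U / Str : stretching a box (helper499)

* `box_of_map` : the box of a linear map
* `strb` : a box contained in the frame box, seen in the stretched coordinates
* `hc_str` : label of the stretched box from the label of the box and of the frame box
-/

set_option autoImplicit false

namespace Vale.Agent.P127.U.Str

open Filter Topology Vale.Agent.P127 Vale.Agent.P127.Stk Vale.Agent.P127.U Sys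

theorem log_low {s : ℝ} {m : ℕ} (hs : 1 ≤ 2 ^ m * s) : (2:ℝ) ^ (Nat.log 2 ⌊s⌋₊) ≤ 2 ^ m * s := by
  rcases lt_or_ge s 1 with h | h
  · have : ⌊s⌋₊ = 0 := Nat.floor_eq_zero.2 h
    rw [this]
    simpa using hs
  · have f1 : 1 ≤ ⌊s⌋₊ := Nat.le_floor (by exact_mod_cast h)
    have h1 : 2 ^ (Nat.log 2 ⌊s⌋₊) ≤ ⌊s⌋₊ := Nat.pow_log_le_self 2 (by omega)
    have h2 : ((2 ^ (Nat.log 2 ⌊s⌋₊) : ℕ) : ℝ) ≤ ⌊s⌋₊ := by exact_mod_cast h1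
    push_cast at h2
    have h3 : (1:ℝ) ≤ 2 ^ m := one_le_pow₀ (by norm_num)
    have h4 := h2.trans (Nat.floor_le (by linarith : (0:ℝ) ≤ s))
    nlinarith

theorem log_up (s : ℝ) : s < (2:ℝ) ^ (Nat.log 2 ⌊s⌋₊ + 1) := by
  have h1 : ⌊s⌋₊ < 2 ^ (Nat.log 2 ⌊s⌋₊ + 1) := Nat.lt_pow_succ_log_self (by norm_num) _
  have h2 : ((⌊s⌋₊ + 1 : ℕ) : ℝ) ≤ ((2 ^ (Nat.log 2 ⌊s⌋₊ + 1) : ℕ) : ℝ) := by exact_mod_cast h1
  push_cast at h2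
  exact (Nat.lt_floor_add_one s).trans_le h2

/-- the box of a linear map -/
theorem box_of_map (α0 β0 α1 β1 : ℝ) (m : ℕ) (hd : 0 < α0 * β1 - α1 * β0)
    (hlow : ∀ v : Fin 2 → ℝ, v 0 ^ 2 + v 1 ^ 2 ≤
      ((2:ℝ) ^ m) ^ 2 * ((α0 * v 0 + β0 * v 1) ^ 2 + (α1 * v 0 + β1 * v 1) ^ 2)) :
    ∃ (ψ : ℝ) (k' j' : ℕ), |ψ| ≤ 2 ∧ k' ≤ j' ∧
      (∀ v : Fin 2 → ℝ, gq ψ k' j' v ≤
        ((2:ℝ) ^ m) ^ 2 * ((α0 * v 0 + β0 * v 1) ^ 2 + (α1 * v 0 + β1 * v 1) ^ 2)) ∧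
      (∀ v : Fin 2 → ℝ, (α0 * v 0 + β0 * v 1) ^ 2 + (α1 * v 0 + β1 * v 1) ^ 2 ≤ 4 * gq ψ k' j' v) ∧
      (2:ℝ) ^ (k' + j') ≤ ((2:ℝ) ^ m) ^ 2 * (α0 * β1 - α1 * β0) ∧
      α0 * β1 - α1 * β0 ≤ 4 * (2:ℝ) ^ (k' + j') := by
  obtain ⟨ψ, s0, s1, hψ, h0, h01, hds, hG⟩ := svd α0 β0 α1 β1 hd
  have hs0 : 1 ≤ 2 ^ m * s0 := by
    have h1 := hlow (mv ψ)
    rw [hG, co_mv0, co_mv1, sub_self, Real.cos_zero, Real.sin_zero] at h1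
    have h2 : mv ψ 0 ^ 2 + mv ψ 1 ^ 2 = 1 := by
      simp [mv]
    rw [h2] at h1
    have h3 : (1:ℝ) ^ 2 ≤ (2 ^ m * s0) ^ 2 := by
      rw [mul_pow]
      nlinarith
    exact le_of_sq_le_sq h3 (by positivity)
  have hs1 : 1 ≤ 2 ^ m * s1 := hs0.trans (by gcongr)
  have a0 := log_low hs0
  have a1 := log_low hs1
  have b0 := log_up s0
  have b1 := log_up s1
  set k' := Nat.log 2 ⌊s0⌋₊ with hk'
  set j' := Nat.log 2 ⌊s1⌋₊ with hj'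
  have hs1p : 0 < s1 := h0.trans_le h01
  rw [pow_succ] at b0 b1
  refine ⟨ψ, k', j', hψ, Nat.log_mono_right (Nat.floor_le_floor h01), fun v => ?_, fun v => ?_, ?_, ?_⟩
  · rw [hG]
    unfold gq
    rw [mul_pow, mul_pow, mul_pow, mul_pow]
    have c0 := pow_le_pow_left₀ (by positivity) a0 2
    have c1 := pow_le_pow_left₀ (by positivity) a1 2
    rw [mul_pow] at c0 c1
    nlinarith [mul_le_mul_of_nonneg_right c0 (sq_nonneg (co ψ v 0)), mul_le_mul_of_nonneg_right c1 (sq_nonneg (co ψ v 1))]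
  · rw [hG]
    unfold gq
    rw [mul_pow, mul_pow, mul_pow, mul_pow]
    have c0 := pow_le_pow_left₀ h0.le b0.le 2
    have c1 := pow_le_pow_left₀ hs1p.le b1.le 2
    rw [mul_pow] at c0 c1
    nlinarith [mul_le_mul_of_nonneg_right c0 (sq_nonneg (co ψ v 0)), mul_le_mul_of_nonneg_right c1 (sq_nonneg (co ψ v 1))]
  · rw [← hds, pow_add]
    calc (2:ℝ) ^ k' * 2 ^ j' ≤ (2 ^ m * s0) * (2 ^ m * s1) := mul_le_mul a0 a1 (by positivity) (by positivity)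
      _ = _ := by ring
  · rw [← hds, pow_add]
    calc s0 * s1 ≤ (2 ^ k' * 2) * (2 ^ j' * 2) := mul_le_mul b0.le b1.le hs1p.le (by positivity)
      _ = _ := by ring

/-- every vector is a stretched vector -/
theorem stv_surj (φ : ℝ) (a b : ℕ) (w : Fin 2 → ℝ) : ∃ v, stv φ a b v = w := by
  refine ⟨![Real.cos φ * (w 0 / 2 ^ a) - Real.sin φ * (w 1 / 2 ^ b),
    Real.sin φ * (w 0 / 2 ^ a) + Real.cos φ * (w 1 / 2 ^ b)], ?_⟩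
  have t := Real.sin_sq_add_cos_sq φ
  have pa : (2:ℝ) ^ a ≠ 0 := by positivity
  have pb : (2:ℝ) ^ b ≠ 0 := by positivity
  funext i
  fin_cases i
  · show (2:ℝ) ^ a * co φ _ 0 = w 0
    rw [co0]
    simp only [Matrix.cons_val_zero, Matrix.cons_val_one]
    have e : (2:ℝ) ^ a * (Real.cos φ * (Real.cos φ * (w 0 / 2 ^ a) - Real.sin φ * (w 1 / 2 ^ b)) +
        Real.sin φ * (Real.sin φ * (w 0 / 2 ^ a) + Real.cos φ * (w 1 / 2 ^ b))) =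
        (Real.sin φ ^ 2 + Real.cos φ ^ 2) * ((2:ℝ) ^ a * (w 0 / 2 ^ a)) := by ring
    rw [e, t, one_mul]
    field_simp
  · show (2:ℝ) ^ b * co φ _ 1 = w 1
    rw [co1]
    simp only [Matrix.cons_val_zero, Matrix.cons_val_one]
    have e : (2:ℝ) ^ b * (-Real.sin φ * (Real.cos φ * (w 0 / 2 ^ a) - Real.sin φ * (w 1 / 2 ^ b)) +
        Real.cos φ * (Real.sin φ * (w 0 / 2 ^ a) + Real.cos φ * (w 1 / 2 ^ b))) =
        (Real.sin φ ^ 2 + Real.cos φ ^ 2) * ((2:ℝ) ^ b * (w 1 / 2 ^ b)) := by ring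
    rw [e, t, one_mul]
    field_simp

/-- **stretching a box** contained in the frame box -/
theorem strb (φ : ℝ) (a b : ℕ) (θ : ℝ) (k j m : ℕ)
    (hin : ∀ v, gq φ a b v ≤ ((2:ℝ) ^ m) ^ 2 * gq θ k j v) :
    ∃ (ψ : ℝ) (k' j' : ℕ), |ψ| ≤ 2 ∧ k' ≤ j' ∧
      k' + j' + (a + b) ≤ k + j + 2 * m ∧ k + j ≤ k' + j' + (a + b) + 2 ∧
      (∀ v, gq ψ k' j' (stv φ a b v) ≤ ((2:ℝ) ^ m) ^ 2 * gq θ k j v) ∧
      (∀ v, gq θ k j v ≤ 4 * gq ψ k' j' (stv φ a b v)) := by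
  set α0 : ℝ := 2 ^ k * Real.cos (θ - φ) / 2 ^ a with hα0
  set β0 : ℝ := 2 ^ k * Real.sin (θ - φ) / 2 ^ b with hβ0
  set α1 : ℝ := -(2 ^ j * Real.sin (θ - φ)) / 2 ^ a with hα1
  set β1 : ℝ := 2 ^ j * Real.cos (θ - φ) / 2 ^ b with hβ1
  have t := Real.sin_sq_add_cos_sq (θ - φ)
  have pa : (2:ℝ) ^ a ≠ 0 := by positivity
  have pb : (2:ℝ) ^ b ≠ 0 := by positivity
  have hdet : α0 * β1 - α1 * β0 = 2 ^ (k + j) / 2 ^ (a + b) := by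
    rw [hα0, hβ0, hα1, hβ1, pow_add, pow_add]
    have e : 2 ^ k * Real.cos (θ - φ) / 2 ^ a * (2 ^ j * Real.cos (θ - φ) / 2 ^ b) -
        -(2 ^ j * Real.sin (θ - φ)) / 2 ^ a * (2 ^ k * Real.sin (θ - φ) / 2 ^ b) =
        (Real.sin (θ - φ) ^ 2 + Real.cos (θ - φ) ^ 2) * (2 ^ k * 2 ^ j / (2 ^ a * 2 ^ b)) := by
      field_simp
      ring
    rw [e, t, one_mul]
  have hgv : ∀ v, gq θ k j v = (α0 * stv φ a b v 0 + β0 * stv φ a b v 1) ^ 2 +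
      (α1 * stv φ a b v 0 + β1 * stv φ a b v 1) ^ 2 := by
    intro v
    unfold gq
    rw [stv0, stv1, co_rot0 φ θ, co_rot1 φ θ, hα0, hβ0, hα1, hβ1]
    congr 2
    · field_simp
    · field_simp
  obtain ⟨ψ, k', j', h1, h2, h3, h4, h5, h6⟩ := box_of_map α0 β0 α1 β1 m (by rw [hdet]; positivity) (by
    intro w
    obtain ⟨v, rfl⟩ := stv_surj φ a b w
    rw [← hgv]
    have := hin v
    unfold gq at this ⊢
    exact this)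
  rw [hdet] at h5 h6
  refine ⟨ψ, k', j', h1, h2, ?_, ?_, fun v => ?_, fun v => ?_⟩
  · have h7 : (2:ℝ) ^ (k' + j' + (a + b)) ≤ 2 ^ (k + j + 2 * m) := by
      rw [pow_add (2:ℝ) (k' + j'), pow_add (2:ℝ) (k + j), pow_mul']
      calc (2:ℝ) ^ (k' + j') * 2 ^ (a + b) ≤ (((2:ℝ) ^ m) ^ 2 * (2 ^ (k + j) / 2 ^ (a + b))) * 2 ^ (a + b) := by gcongr
        _ = _ := by field_simp
    exact (pow_le_pow_iff_right₀ (by norm_num)).1 h7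
  · have h7 : (2:ℝ) ^ (k + j) ≤ 2 ^ (k' + j' + (a + b) + 2) := by
      rw [pow_add (2:ℝ) (k' + j' + (a + b)), pow_add (2:ℝ) (k' + j')]
      calc (2:ℝ) ^ (k + j) = (2 ^ (k + j) / 2 ^ (a + b)) * 2 ^ (a + b) := by field_simp
        _ ≤ (4 * (2:ℝ) ^ (k' + j')) * 2 ^ (a + b) := by gcongr
        _ = _ := by ring
    exact (pow_le_pow_iff_right₀ (by norm_num)).1 h7
  · rw [hgv]
    exact h3 _
  · rw [hgv]
    exact h4 _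

section finite

variable {Ω : Type} [Fintype Ω] {γ : Type*}

/-- **the label of the stretched box is known** -/
theorem hc_str (P : Law Ω) (W T U : Bx Ω) (Y : Ω → γ) (m : ℕ)
    (hT : ∀ ω, 0 < P.w ω → |T.θ ω| ≤ 4 ∧ T.k ω ≤ T.j ω ∧
      T.l ω = stl (qa (W.j ω - W.k ω) (W.θ ω)) (W.k ω) (W.j ω) (W.l ω))
    (hU : ∀ ω, 0 < P.w ω → U.l ω = W.l ω ∧ U.k ω ≤ U.j ω ∧
      (∀ v, gq (U.θ ω) (U.k ω) (U.j ω) v ≤ ((2:ℝ) ^ m) ^ 2 *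
        gq (T.θ ω) (T.k ω) (T.j ω) (stv (qa (W.j ω - W.k ω) (W.θ ω)) (W.k ω) (W.j ω) v)) ∧
      (∀ v, gq (T.θ ω) (T.k ω) (T.j ω) (stv (qa (W.j ω - W.k ω) (W.θ ω)) (W.k ω) (W.j ω) v) ≤
        ((2:ℝ) ^ m) ^ 2 * gq (U.θ ω) (U.k ω) (U.j ω) v)) :
    Stk.hc P T.lab (fun ω => (U.lab ω, (W.lab ω, Y ω))) ≤
      Real.log (((2 * (2 * m + 2) + 1) * ((2 * (2 * m + 2) + 1) * (7 *
        ((2 * (2 ^ (2 * (2 * m + 2) + 1) + 1) + 1) * (2 * (2 ^ (2 * (2 * m + 2) + 1) + 1) + 1) ^ 4))) : ℕ) : ℝ) := by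
  refine Stk.hc_le_log P _ _ _ fun ω hω => ?_
  refine ⟨labF (2 * m + 2) (2 ^ (2 * (2 * m + 2) + 1) + 1) (T.θ ω) (T.k ω) (T.j ω) (T.l ω),
    card_labF _ _ _ _ _ _, ?_⟩
  intro ω' hω' e
  obtain ⟨t0, t1, t2⟩ := hT ω hω
  obtain ⟨t0', t1', t2'⟩ := hT ω' hω'
  obtain ⟨w1, w3, w4, w5⟩ := hU ω hω
  obtain ⟨w1', w3', w4', w5'⟩ := hU ω' hω'
  simp only [Prod.mk.injEq] at e
  obtain ⟨eT, eW, -⟩ := e
  unfold Bx.lab lab at eT eW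
  simp only [Prod.mk.injEq] at eT eW
  obtain ⟨ek, ej, eθ, ex, ey⟩ := eT
  obtain ⟨fk, fj, fθ, fx, fy⟩ := eW
  rw [ek, ej] at eθ ex ey
  rw [fk, fj] at fθ fx fy
  have fq : qa (W.j ω - W.k ω) (W.θ ω') = qa (W.j ω - W.k ω) (W.θ ω) := by unfold qa; rw [fθ]
  have eq' : qa (U.j ω - U.k ω) (U.θ ω') = qa (U.j ω - U.k ω) (U.θ ω) := by unfold qa; rw [eθ]
  rw [fq] at fx fy
  rw [eq'] at ex ey
  rw [fk, fj, fq] at t2' w4' w5'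
  rw [ek, ej] at w4' w5'
  rw [w1, w1'] at ex ey
  set φ := qa (W.j ω - W.k ω) (W.θ ω) with hφ
  set a := W.k ω with ha
  set b := W.j ω with hb
  have rot1 : ∀ w, gq (U.θ ω') (U.k ω) (U.j ω) w ≤ 4 * gq (U.θ ω) (U.k ω) (U.j ω) w :=
    gq_rot w3 (sin_of_fl1 eθ)
  have rot2 : ∀ w, gq (U.θ ω) (U.k ω) (U.j ω) w ≤ 4 * gq (U.θ ω') (U.k ω) (U.j ω) w :=
    gq_rot w3 (sin_of_fl1 eθ.symm)
  have p1 : (1:ℝ) ≤ 2 ^ m := one_le_pow₀ (by norm_num)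
  have big : ((2:ℝ) ^ m) ^ 2 * 4 * ((2:ℝ) ^ m) ^ 2 ≤ ((2:ℝ) ^ (2 * m + 2)) ^ 2 := by
    have : ((2:ℝ) ^ (2 * m + 2)) ^ 2 = 4 * (((2:ℝ) ^ m) ^ 2 * 4 * ((2:ℝ) ^ m) ^ 2) := by ring
    rw [this]
    have : 0 ≤ ((2:ℝ) ^ m) ^ 2 * 4 * ((2:ℝ) ^ m) ^ 2 := by positivity
    linarith
  have line : ∀ v w : Fin 2 → ℝ, fkj a b (co φ v) = fkj a b (co φ w) →
      fkj (U.k ω) (U.j ω) (co (qa (U.j ω - U.k ω) (U.θ ω)) v) =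
      fkj (U.k ω) (U.j ω) (co (qa (U.j ω - U.k ω) (U.θ ω)) w) →
      gq (T.θ ω) (T.k ω) (T.j ω) (fun i => Int.fract (stv φ a b v i) - Int.fract (stv φ a b w i)) ≤
        ((2:ℝ) ^ (2 * m + 2)) ^ 2 := by
    intro v w h1 h2
    rw [← stv_fract h1]
    have h3 := gq_dig w3 h2
    calc gq (T.θ ω) (T.k ω) (T.j ω) (stv φ a b fun i => v i - w i)
        ≤ ((2:ℝ) ^ m) ^ 2 * gq (U.θ ω) (U.k ω) (U.j ω) (fun i => v i - w i) := w5 _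
      _ ≤ ((2:ℝ) ^ m) ^ 2 * 8 := by gcongr
      _ ≤ _ := by
        have e5 : ((2:ℝ) ^ (2 * m + 2)) ^ 2 = ((2:ℝ) ^ m) ^ 2 * (16 * ((2:ℝ) ^ m) ^ 2) := by ring
        rw [e5]
        gcongr
        nlinarith
  show lab (T.θ ω') (T.k ω') (T.j ω') (T.l ω') ∈ _
  refine lab_mem t0 t0' t1 t1' (fun w => ?_) (fun w => ?_) ?_ ?_
  · obtain ⟨v, rfl⟩ := stv_surj φ a b w
    calc gq (T.θ ω') (T.k ω') (T.j ω') (stv φ a b v)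
        ≤ ((2:ℝ) ^ m) ^ 2 * gq (U.θ ω') (U.k ω) (U.j ω) v := w5' v
      _ ≤ ((2:ℝ) ^ m) ^ 2 * (4 * gq (U.θ ω) (U.k ω) (U.j ω) v) := by gcongr; exact rot1 _
      _ ≤ ((2:ℝ) ^ m) ^ 2 * (4 * (((2:ℝ) ^ m) ^ 2 * gq (T.θ ω) (T.k ω) (T.j ω) (stv φ a b v))) := by gcongr; exact w4 _
      _ = (((2:ℝ) ^ m) ^ 2 * 4 * ((2:ℝ) ^ m) ^ 2) * gq (T.θ ω) (T.k ω) (T.j ω) (stv φ a b v) := by ring
      _ ≤ _ := mul_le_mul_of_nonneg_right big (gq_nonneg _ _ _ _)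
  · obtain ⟨v, rfl⟩ := stv_surj φ a b w
    calc gq (T.θ ω) (T.k ω) (T.j ω) (stv φ a b v) ≤ ((2:ℝ) ^ m) ^ 2 * gq (U.θ ω) (U.k ω) (U.j ω) v := w5 v
      _ ≤ ((2:ℝ) ^ m) ^ 2 * (4 * gq (U.θ ω') (U.k ω) (U.j ω) v) := by gcongr; exact rot2 _
      _ ≤ ((2:ℝ) ^ m) ^ 2 * (4 * (((2:ℝ) ^ m) ^ 2 * gq (T.θ ω') (T.k ω') (T.j ω') (stv φ a b v))) := by
          gcongr; exact w4' _
      _ = (((2:ℝ) ^ m) ^ 2 * 4 * ((2:ℝ) ^ m) ^ 2) * gq (T.θ ω') (T.k ω') (T.j ω') (stv φ a b v) := by ring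
      _ ≤ _ := mul_le_mul_of_nonneg_right big (gq_nonneg _ _ _ _)
  · rw [t2, t2']
    exact line _ _ fx ex
  · rw [t2, t2']
    exact line _ _ fy ey

end finite

end Vale.Agent.P127.U.Str
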