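import Vale.Agent.P127.U.C2Geo

/-!
# P127 / U : submodularity for two boxes of the same line (finite form, explicit constants)

Two boxes `A`, `A'` of the same line and of the same shape `(k, j)`, with directions at angle about
`2^-s`, `s ≤ j - k`.  The box `J` of shape `(k, k + s)` is a function of each of them (and of `s`),
the box `M` of shape `(j - s, j)` is a function of both.
-/

set_option autoImplicit false

namespace Vale.Agent.P127.U.SubF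

open Vale.Agent.P127 Vale.Agent.P127.Stk Apx C2

/-! ### frames -/

theorem co_rot_zero (φ ψ : ℝ) (v : Fin 2 → ℝ) :
    co ψ v 0 = Real.cos (ψ - φ) * co φ v 0 + Real.sin (ψ - φ) * co φ v 1 := by
  rw [co_zero, co_zero, co_one, Real.cos_sub, Real.sin_sub]
  have h := Real.sin_sq_add_cos_sq φ
  linear_combination (-(Real.cos ψ * v 0 + Real.sin ψ * v 1)) * h

theorem co_rot_one (φ ψ : ℝ) (v : Fin 2 → ℝ) :
    co ψ v 1 = -Real.sin (ψ - φ) * co φ v 0 + Real.cos (ψ - φ) * co φ v 1 := by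
  rw [co_one, co_zero, co_one, Real.cos_sub, Real.sin_sub]
  have h := Real.sin_sq_add_cos_sq φ
  linear_combination (-(-Real.sin ψ * v 0 + Real.cos ψ * v 1)) * h

theorem geo_J {φ ψ σ a b : ℝ} {v : Fin 2 → ℝ} (h0 : |co φ v 0| ≤ a) (h1 : |co φ v 1| ≤ b)
    (hs : |Real.sin (ψ - φ)| ≤ σ) : |co ψ v 0| ≤ a + b ∧ |co ψ v 1| ≤ σ * a + b := by
  have hc := Real.abs_cos_le_one (ψ - φ)
  have hs1 := Real.abs_sin_le_one (ψ - φ)
  have ha : 0 ≤ a := (abs_nonneg _).trans h0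
  have hb : 0 ≤ b := (abs_nonneg _).trans h1
  constructor
  · rw [co_rot_zero φ ψ v]
    refine (abs_add_le _ _).trans ?_
    rw [abs_mul, abs_mul]
    have e1 : |Real.cos (ψ - φ)| * |co φ v 0| ≤ 1 * a := mul_le_mul hc h0 (abs_nonneg _) (by norm_num)
    have e2 : |Real.sin (ψ - φ)| * |co φ v 1| ≤ 1 * b := mul_le_mul hs1 h1 (abs_nonneg _) (by norm_num)
    linarith
  · rw [co_rot_one φ ψ v]
    refine (abs_add_le _ _).trans ?_
    rw [abs_mul, abs_mul, abs_neg]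
    have e1 : |Real.sin (ψ - φ)| * |co φ v 0| ≤ σ * a :=
      mul_le_mul hs h0 (abs_nonneg _) ((abs_nonneg _).trans hs)
    have e2 : |Real.cos (ψ - φ)| * |co φ v 1| ≤ 1 * b := mul_le_mul hc h1 (abs_nonneg _) (by norm_num)
    linarith

theorem geo_M {φ ψ b c : ℝ} {v : Fin 2 → ℝ} (h1 : |co φ v 1| ≤ b) (h2 : |co ψ v 1| ≤ c) :
    |Real.sin (ψ - φ)| * |co φ v 0| ≤ b + c := by
  have hc := Real.abs_cos_le_one (ψ - φ)
  have hb : 0 ≤ b := (abs_nonneg _).trans h1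
  have e : Real.sin (ψ - φ) * co φ v 0 = Real.cos (ψ - φ) * co φ v 1 - co ψ v 1 := by
    rw [co_rot_one φ ψ v]
    ring
  rw [← abs_mul, e]
  refine (abs_sub _ _).trans ?_
  rw [abs_mul]
  have e2 : |Real.cos (ψ - φ)| * |co φ v 1| ≤ 1 * b := mul_le_mul hc h1 (abs_nonneg _) (by norm_num)
  linarith

/-- difference of two lines -/
def df (u v : Fin 2 → ℝ) : Fin 2 → ℝ := fun i => u i - v i

theorem co_df (φ : ℝ) (u v : Fin 2 → ℝ) (i : Fin 2) : co φ (df u v) i = co φ u i - co φ v i := by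
  fin_cases i
  · show co φ (df u v) 0 = co φ u 0 - co φ v 0
    rw [co_zero, co_zero, co_zero]
    unfold df
    ring
  · show co φ (df u v) 1 = co φ u 1 - co φ v 1
    rw [co_one, co_one, co_one]
    unfold df
    ring

/-- the two lines differ by at most `δ` -/
def Nr (δ : ℝ) (l l' : Ln) : Prop := (∀ i, |l.1 i - l'.1 i| ≤ δ) ∧ ∀ i, |l.2 i - l'.2 i| ≤ δ

theorem Nr.symm {δ : ℝ} {l l' : Ln} (h : Nr δ l l') : Nr δ l' l :=
  ⟨fun i => by rw [abs_sub_comm]; exact h.1 i, fun i => by rw [abs_sub_comm]; exact h.2 i⟩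

theorem Nr.refl {δ : ℝ} (hδ : 0 ≤ δ) (l : Ln) : Nr δ l l :=
  ⟨fun i => by rw [sub_self, abs_zero]; exact hδ, fun i => by rw [sub_self, abs_zero]; exact hδ⟩

theorem nr_of_tb {n j : ℕ} (h : j ≤ n) {l l' : Ln} (e : tb n l = tb n l') :
    Nr ((1 / 2 : ℝ) ^ j) l l' := by
  have h1 : (1 / 2 : ℝ) ^ n ≤ (1 / 2) ^ j := pow_le_pow_of_le_one (by norm_num) (by norm_num) h
  unfold tb at e
  simp only [Prod.mk.injEq] at e
  exact ⟨fun i => (fl_close e.1 i).trans h1, fun i => (fl_close e.2 i).trans h1⟩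

theorem co_near {δ B : ℝ} {φ : ℝ} {u u' v v' : Fin 2 → ℝ} (hu : ∀ i, |u i - u' i| ≤ δ)
    (hv : ∀ i, |v i - v' i| ≤ δ) (i : Fin 2) (h : |co φ (df u' v') i| ≤ B) :
    |co φ (df u v) i| ≤ B + 4 * δ := by
  have e : co φ (df u v) i = co φ (df u' v') i + (co φ (df u u') i - co φ (df v v') i) := by
    simp only [co_df]
    ring
  rw [e]
  have h1 := co_bd (M := δ) φ (df u u') hu i
  have h2 := co_bd (M := δ) φ (df v v') hv i
  have h3 := abs_add_le (co φ (df u' v') i) (co φ (df u u') i - co φ (df v v') i)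
  have h4 := abs_sub (co φ (df u u') i) (co φ (df v v') i)
  linarith

/-- two lines in the same box -/
theorem lab_eq {θ θ' : ℝ} {k k' j j' : ℕ} {l l' : Ln} (h : lab θ k j l = lab θ' k' j' l') :
    k = k' ∧ j = j' ∧ fl1 (j - k) θ = fl1 (j - k) θ' ∧
      (|co (qa (j - k) θ) (df l.1 l'.1) 0| ≤ (1 / 2 : ℝ) ^ k ∧
        |co (qa (j - k) θ) (df l.1 l'.1) 1| ≤ (1 / 2 : ℝ) ^ j) ∧
      (|co (qa (j - k) θ) (df l.2 l'.2) 0| ≤ (1 / 2 : ℝ) ^ k ∧
        |co (qa (j - k) θ) (df l.2 l'.2) 1| ≤ (1 / 2 : ℝ) ^ j) := by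
  unfold lab at h
  simp only [Prod.mk.injEq] at h
  obtain ⟨hk, hj, hθ, h1, h2⟩ := h
  subst hk hj
  have hq : qa (j - k) θ = qa (j - k) θ' := qa_congr hθ
  unfold fkj at h1 h2
  rw [← hq] at h1 h2
  simp only [Prod.mk.injEq] at h1 h2
  refine ⟨rfl, rfl, hθ, ⟨?_, ?_⟩, ⟨?_, ?_⟩⟩
  · rw [co_df]; exact fl1_close h1.1
  · rw [co_df]; exact fl1_close h1.2
  · rw [co_df]; exact fl1_close h2.1
  · rw [co_df]; exact fl1_close h2.2

/-- the angle level of two boxes -/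
noncomputable def lv {Ω : Type} (A A' : Bx Ω) (ω : Ω) : ℕ :=
  rh (A.j ω - A.k ω) |Real.sin (A'.θ ω - A.θ ω)|

/-- the join -/
noncomputable def jn {Ω : Type} (A A' : Bx Ω) : Bx Ω := ⟨A.l, A.θ, A.k, fun ω => A.k ω + lv A A' ω⟩

/-- the meet -/
noncomputable def mt {Ω : Type} (A A' : Bx Ω) : Bx Ω := ⟨A.l, A.θ, fun ω => A.j ω - lv A A' ω, A.j⟩

theorem lv_le {Ω : Type} (A A' : Bx Ω) (ω : Ω) : lv A A' ω ≤ A.j ω - A.k ω := rh_le _ _

theorem lv_spec {Ω : Type} (A A' : Bx Ω) (ω : Ω) :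
    |Real.sin (A'.θ ω - A.θ ω)| ≤ 8 * (1 / 2 : ℝ) ^ lv A A' ω :=
  rh_spec ((Real.abs_sin_le_one _).trans (by norm_num))

theorem lv_lt {Ω : Type} (A A' : Bx Ω) (ω : Ω) (h : lv A A' ω < A.j ω - A.k ω) :
    4 * (1 / 2 : ℝ) ^ lv A A' ω < |Real.sin (A'.θ ω - A.θ ω)| := rh_lt h

theorem sz_jn_mt {Ω : Type} (A A' : Bx Ω) (ω : Ω) :
    (jn A A').sz ω + (mt A A').sz ω = 2 * A.sz ω := by
  have h1 := lv_le A A' ω
  have h2 : lv A A' ω ≤ A.j ω := h1.trans (Nat.sub_le _ _)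
  unfold Bx.sz jn mt
  simp only
  push_cast [Nat.cast_sub h2]
  ring

section count

variable {Ω : Type} [Fintype Ω] {γ : Type*} (P : Law Ω)

/-- the label of a box, given approximately the direction and the line -/
theorem lab_apx (N : ℕ) (θ : Ω → ℝ) (k j : Ω → ℕ) (l : Ω → Ln) (Z : Ω → γ)
    (hkj : ∀ ω ω', 0 < P.w ω → 0 < P.w ω' → Z ω = Z ω' → k ω = k ω' ∧ j ω = j ω')
    (hθ : ∀ ω ω', 0 < P.w ω → 0 < P.w ω' → Z ω = Z ω' →
      |θ ω - θ ω'| ≤ N * (1 / 2 : ℝ) ^ (j ω - k ω))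
    (hl : ∀ ω ω', 0 < P.w ω → 0 < P.w ω' → Z ω = Z ω' →
      (|co (qa (j ω - k ω) (θ ω)) (df (l ω).1 (l ω').1) 0| ≤ N * (1 / 2 : ℝ) ^ k ω ∧
        |co (qa (j ω - k ω) (θ ω)) (df (l ω).1 (l ω').1) 1| ≤ N * (1 / 2 : ℝ) ^ j ω) ∧
      (|co (qa (j ω - k ω) (θ ω)) (df (l ω).2 (l ω').2) 0| ≤ N * (1 / 2 : ℝ) ^ k ω ∧
        |co (qa (j ω - k ω) (θ ω)) (df (l ω).2 (l ω').2) 1| ≤ N * (1 / 2 : ℝ) ^ j ω)) :
    hc P (fun ω => lab (θ ω) (k ω) (j ω) (l ω)) Z ≤ 5 * Real.log (2 * N + 3) := by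
  have hr : ∀ ω ω', 0 < P.w ω → 0 < P.w ω' → Z ω = Z ω' → j ω - k ω = j ω' - k ω' := by
    intro ω ω' p p' e
    obtain ⟨h1, h2⟩ := hkj ω ω' p p' e
    rw [h1, h2]
  have h0 : hc P (fun ω => fl1 (j ω - k ω) (θ ω)) Z ≤ Real.log (2 * N + 3) :=
    hc_fl1_apx_var P (fun ω => j ω - k ω) N θ Z hr hθ
  have hc1 : ∀ (c : Ω → Fin 2 → ℝ) (i : Fin 2) (s : Ω → ℕ)
      (_ : ∀ ω ω', 0 < P.w ω → 0 < P.w ω' → Z ω = Z ω' → s ω = s ω')
      (_ : ∀ ω ω', 0 < P.w ω → 0 < P.w ω' → Z ω = Z ω' →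
        |co (qa (j ω - k ω) (θ ω)) (df (c ω) (c ω')) i| ≤ N * (1 / 2 : ℝ) ^ s ω),
      hc P (fun ω => fl1 (s ω) (co (qa (j ω - k ω) (θ ω)) (c ω) i))
        (fun ω => (fl1 (j ω - k ω) (θ ω), Z ω)) ≤ Real.log (2 * N + 3) := by
    intro c i s hs hb
    refine hc_fl1_apx_var P s N (fun ω => co (qa (j ω - k ω) (θ ω)) (c ω) i)
      (fun ω => (fl1 (j ω - k ω) (θ ω), Z ω)) ?_ ?_
    · intro ω ω' p p' e
      exact hs ω ω' p p' (congrArg Prod.snd e)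
    · intro ω ω' p p' e
      have e2 : Z ω = Z ω' := congrArg Prod.snd e
      have e1 : fl1 (j ω - k ω) (θ ω) = fl1 (j ω' - k ω') (θ ω') := congrArg Prod.fst e
      rw [← hr ω ω' p p' e2] at e1
      have e3 : qa (j ω' - k ω') (θ ω') = qa (j ω - k ω) (θ ω) := by
        rw [← hr ω ω' p p' e2]
        exact (qa_congr e1).symm
      rw [e3, ← co_df]
      exact hb ω ω' p p' e2
  have h1 := hc1 (fun ω => (l ω).1) 0 k (fun ω ω' p p' e => (hkj ω ω' p p' e).1)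
    (fun ω ω' p p' e => (hl ω ω' p p' e).1.1)
  have h2 := hc1 (fun ω => (l ω).1) 1 j (fun ω ω' p p' e => (hkj ω ω' p p' e).2)
    (fun ω ω' p p' e => (hl ω ω' p p' e).1.2)
  have h3 := hc1 (fun ω => (l ω).2) 0 k (fun ω ω' p p' e => (hkj ω ω' p p' e).1)
    (fun ω ω' p p' e => (hl ω ω' p p' e).2.1)
  have h4 := hc1 (fun ω => (l ω).2) 1 j (fun ω ω' p p' e => (hkj ω ω' p p' e).2)
    (fun ω ω' p p' e => (hl ω ω' p p' e).2.2)
  set F : Ω → ℤ := fun ω => fl1 (j ω - k ω) (θ ω) with hF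
  have c1 := hc_pair_le P (fun ω => (fl1 (k ω) (co (qa (j ω - k ω) (θ ω)) (l ω).1 0),
      fl1 (j ω) (co (qa (j ω - k ω) (θ ω)) (l ω).1 1)))
    (fun ω => (fl1 (k ω) (co (qa (j ω - k ω) (θ ω)) (l ω).2 0),
      fl1 (j ω) (co (qa (j ω - k ω) (θ ω)) (l ω).2 1))) (fun ω => (F ω, Z ω))
  have c2 := hc_pair_le P (fun ω => fl1 (k ω) (co (qa (j ω - k ω) (θ ω)) (l ω).1 0))
    (fun ω => fl1 (j ω) (co (qa (j ω - k ω) (θ ω)) (l ω).1 1)) (fun ω => (F ω, Z ω))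
  have c3 := hc_pair_le P (fun ω => fl1 (k ω) (co (qa (j ω - k ω) (θ ω)) (l ω).2 0))
    (fun ω => fl1 (j ω) (co (qa (j ω - k ω) (θ ω)) (l ω).2 1)) (fun ω => (F ω, Z ω))
  have c4 := hc_via P (fun ω => lab (θ ω) (k ω) (j ω) (l ω)) F Z
  have c5 : hc P (fun ω => lab (θ ω) (k ω) (j ω) (l ω)) (fun ω => (F ω, Z ω)) ≤
      hc P (fun ω => ((fl1 (k ω) (co (qa (j ω - k ω) (θ ω)) (l ω).1 0),
      fl1 (j ω) (co (qa (j ω - k ω) (θ ω)) (l ω).1 1)),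
      (fl1 (k ω) (co (qa (j ω - k ω) (θ ω)) (l ω).2 0),
      fl1 (j ω) (co (qa (j ω - k ω) (θ ω)) (l ω).2 1)))) (fun ω => (F ω, Z ω)) := by
    refine hc_mono_left P ?_
    intro ω ω' p p' e
    have e1 : Z ω = Z ω' := congrArg (fun z => z.2.2) e
    have e2 : F ω = F ω' := congrArg (fun z => z.2.1) e
    have e3 := congrArg Prod.fst e
    obtain ⟨k1, j1⟩ := hkj ω ω' p p' e1
    show lab (θ ω) (k ω) (j ω) (l ω) = lab (θ ω') (k ω') (j ω') (l ω')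
    unfold lab
    refine Prod.ext k1 (Prod.ext j1 (Prod.ext e2 ?_))
    exact e3
  linarith

/-- **join** : the box `(θ', k, k + s)` is a function of the box `(θ, k, j)` if the angle of `θ`
and `θ'` is at most `2^-s` -/
theorem join_le (A : Bx Ω) (l : Ω → Ln) (θ' : Ω → ℝ) (s : Ω → ℕ) (m : Ω → ℤ) (Z : Ω → γ)
    (hok : ∀ ω, 0 < P.w ω → (A.k ω ≤ A.j ω ∧ s ω ≤ A.j ω - A.k ω ∧
      |θ' ω - (A.θ ω + m ω * Real.pi)| ≤ 16 * (1 / 2 : ℝ) ^ s ω) ∧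
      Nr ((1 / 2 : ℝ) ^ A.j ω) (l ω) (A.l ω))
    (hZ : ∀ ω ω', 0 < P.w ω → 0 < P.w ω' → Z ω = Z ω' → A.lab ω = A.lab ω' ∧ s ω = s ω' ∧
      m ω = m ω') :
    hc P (fun ω => lab (θ' ω) (A.k ω) (A.k ω + s ω) (l ω)) Z ≤ 5 * Real.log (2 * (95 : ℕ) + 3) := by
  have half : ∀ {x y : ℕ}, x ≤ y → (1 / 2 : ℝ) ^ y ≤ (1 / 2) ^ x := fun {x y} h =>
    pow_le_pow_of_le_one (by norm_num) (by norm_num) h
  have hA : ∀ ω ω', 0 < P.w ω → 0 < P.w ω' → Z ω = Z ω' →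
      A.k ω = A.k ω' ∧ A.j ω = A.j ω' ∧ fl1 (A.j ω - A.k ω) (A.θ ω) = fl1 (A.j ω - A.k ω) (A.θ ω') ∧
      (|co (qa (A.j ω - A.k ω) (A.θ ω)) (df (A.l ω).1 (A.l ω').1) 0| ≤ (1 / 2 : ℝ) ^ A.k ω ∧
        |co (qa (A.j ω - A.k ω) (A.θ ω)) (df (A.l ω).1 (A.l ω').1) 1| ≤ (1 / 2 : ℝ) ^ A.j ω) ∧
      (|co (qa (A.j ω - A.k ω) (A.θ ω)) (df (A.l ω).2 (A.l ω').2) 0| ≤ (1 / 2 : ℝ) ^ A.k ω ∧
        |co (qa (A.j ω - A.k ω) (A.θ ω)) (df (A.l ω).2 (A.l ω').2) 1| ≤ (1 / 2 : ℝ) ^ A.j ω) :=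
    fun ω ω' p p' e => lab_eq (hZ ω ω' p p' e).1
  refine lab_apx P 95 θ' A.k (fun ω => A.k ω + s ω) l Z ?_ ?_ ?_
  · intro ω ω' p p' e
    obtain ⟨h1, -, -, -, -⟩ := hA ω ω' p p' e
    exact ⟨h1, by rw [h1, (hZ ω ω' p p' e).2.1]⟩
  · intro ω ω' p p' e
    obtain ⟨-, -, h1, -, -⟩ := hA ω ω' p p' e
    have h2 := fl1_close h1
    have h3 := half (hok ω p).1.2.1
    have h4 := (hok ω p).1.2.2
    have h5 := (hok ω' p').1.2.2
    rw [← (hZ ω ω' p p' e).2.1, ← (hZ ω ω' p p' e).2.2] at h5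
    have e : θ' ω - θ' ω' = (θ' ω - (A.θ ω + m ω * Real.pi)) -
        (θ' ω' - (A.θ ω' + m ω * Real.pi)) + (A.θ ω - A.θ ω') := by ring
    rw [e, Nat.add_sub_cancel_left]
    have q1 := abs_add_le ((θ' ω - (A.θ ω + m ω * Real.pi)) -
        (θ' ω' - (A.θ ω' + m ω * Real.pi))) (A.θ ω - A.θ ω')
    have q2 := abs_sub (θ' ω - (A.θ ω + m ω * Real.pi)) (θ' ω' - (A.θ ω' + m ω * Real.pi))
    have hp : (0 : ℝ) < (1 / 2 : ℝ) ^ s ω := by positivity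
    push_cast
    linarith
  · intro ω ω' p p' e
    obtain ⟨-, -, -, h1, h2⟩ := hA ω ω' p p' e
    rw [Nat.add_sub_cancel_left]
    set φ := qa (A.j ω - A.k ω) (A.θ ω) with hφ
    set ψ := qa (s ω) (θ' ω) with hψ
    have hp : (0 : ℝ) < (1 / 2 : ℝ) ^ s ω := by positivity
    have hsin : |Real.sin (ψ - φ)| ≤ 18 * (1 / 2 : ℝ) ^ s ω := by
      have g1 := abs_sub_qa (s ω) (θ' ω)
      have g2 := abs_sub_qa (A.j ω - A.k ω) (A.θ ω)
      have g3 := half (hok ω p).1.2.1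
      have g4 := (hok ω p).1.2.2
      have g5 : |ψ - φ - m ω * Real.pi| ≤ 18 * (1 / 2 : ℝ) ^ s ω := by
        have e : ψ - φ - m ω * Real.pi = (θ' ω - (A.θ ω + m ω * Real.pi)) -
            (θ' ω - qa (s ω) (θ' ω)) + (A.θ ω - qa (A.j ω - A.k ω) (A.θ ω)) := by
          rw [hφ, hψ]
          ring
        rw [e]
        have q1 := abs_add_le ((θ' ω - (A.θ ω + m ω * Real.pi)) -
            (θ' ω - qa (s ω) (θ' ω))) (A.θ ω - qa (A.j ω - A.k ω) (A.θ ω))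
        have q2 := abs_sub (θ' ω - (A.θ ω + m ω * Real.pi)) (θ' ω - qa (s ω) (θ' ω))
        linarith
      have g6 : |Real.sin (ψ - φ)| = |Real.sin (ψ - φ - m ω * Real.pi)| := by
        rw [Real.sin_sub (ψ - φ) (m ω * Real.pi), Real.sin_int_mul_pi, mul_zero, sub_zero, abs_mul]
        have := sg_abs (m ω)
        unfold sg at this
        rw [this, mul_one]
      rw [g6]
      exact Real.abs_sin_le_abs.trans g5
    have hk1 : (1 / 2 : ℝ) ^ A.j ω ≤ (1 / 2 : ℝ) ^ (A.k ω + s ω) := by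
      have := (hok ω p).1.1
      have := (hok ω p).1.2.1
      exact half (by omega)
    have hk2 : (1 / 2 : ℝ) ^ (A.k ω + s ω) ≤ (1 / 2 : ℝ) ^ A.k ω := half (by omega)
    have hmul : (1 / 2 : ℝ) ^ s ω * (1 / 2 : ℝ) ^ A.k ω = (1 / 2 : ℝ) ^ (A.k ω + s ω) := by
      rw [← pow_add, add_comm]
    have hpk : (0 : ℝ) < (1 / 2 : ℝ) ^ A.k ω := by positivity
    have hpks : (0 : ℝ) < (1 / 2 : ℝ) ^ (A.k ω + s ω) := by positivity
    have n1 := (hok ω p).2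
    have n2 := (hok ω' p').2
    rw [← (hA ω ω' p p' e).2.1] at n2
    have r1 := geo_J (co_near n1.1 n2.1 0 h1.1) (co_near n1.1 n2.1 1 h1.2) hsin
    have r2 := geo_J (co_near n1.2 n2.2 0 h2.1) (co_near n1.2 n2.2 1 h2.2) hsin
    have hjk : (1 / 2 : ℝ) ^ A.j ω ≤ (1 / 2 : ℝ) ^ A.k ω := half (hok ω p).1.1
    have r3 : 18 * (1 / 2 : ℝ) ^ s ω * ((1 / 2 : ℝ) ^ A.k ω + 4 * (1 / 2 : ℝ) ^ A.j ω) ≤
        90 * (1 / 2 : ℝ) ^ (A.k ω + s ω) := by
      have : 18 * (1 / 2 : ℝ) ^ s ω * ((1 / 2 : ℝ) ^ A.k ω + 4 * (1 / 2 : ℝ) ^ A.j ω) ≤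
          18 * (1 / 2 : ℝ) ^ s ω * (5 * (1 / 2 : ℝ) ^ A.k ω) :=
        mul_le_mul_of_nonneg_left (by linarith) (by positivity)
      refine this.trans (le_of_eq ?_)
      rw [← hmul]
      ring
    push_cast
    exact ⟨⟨by linarith [r1.1], by linarith [r1.2]⟩, ⟨by linarith [r2.1], by linarith [r2.2]⟩⟩

/-- **meet** : the box `(θ, j - s, j)` is a function of the boxes `(θ, k, j)`, `(θ', k, j)` of the
same line if the angle of `θ` and `θ'` is at least `2^-s` (or `s = j - k`) -/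
theorem meet_le (A A' : Bx Ω) (s : Ω → ℕ) (Z : Ω → γ)
    (hok : ∀ ω, 0 < P.w ω → Nr ((1 / 2 : ℝ) ^ A.j ω) (A'.l ω) (A.l ω) ∧ A'.k ω = A.k ω ∧ A'.j ω = A.j ω ∧
      A.k ω ≤ A.j ω ∧ s ω ≤ A.j ω - A.k ω ∧
      (s ω < A.j ω - A.k ω → 4 * (1 / 2 : ℝ) ^ s ω ≤ |Real.sin (A'.θ ω - A.θ ω)|))
    (hZ : ∀ ω ω', 0 < P.w ω → 0 < P.w ω' → Z ω = Z ω' → A.lab ω = A.lab ω' ∧
      A'.lab ω = A'.lab ω' ∧ s ω = s ω') :
    hc P (fun ω => lab (A.θ ω) (A.j ω - s ω) (A.j ω) (A.l ω)) Z ≤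
      5 * Real.log (2 * (7 : ℕ) + 3) := by
  have half : ∀ {x y : ℕ}, x ≤ y → (1 / 2 : ℝ) ^ y ≤ (1 / 2) ^ x := fun {x y} h =>
    pow_le_pow_of_le_one (by norm_num) (by norm_num) h
  have hA : ∀ ω ω', 0 < P.w ω → 0 < P.w ω' → Z ω = Z ω' →
      A.k ω = A.k ω' ∧ A.j ω = A.j ω' ∧ fl1 (A.j ω - A.k ω) (A.θ ω) = fl1 (A.j ω - A.k ω) (A.θ ω') ∧
      (|co (qa (A.j ω - A.k ω) (A.θ ω)) (df (A.l ω).1 (A.l ω').1) 0| ≤ (1 / 2 : ℝ) ^ A.k ω ∧
        |co (qa (A.j ω - A.k ω) (A.θ ω)) (df (A.l ω).1 (A.l ω').1) 1| ≤ (1 / 2 : ℝ) ^ A.j ω) ∧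
      (|co (qa (A.j ω - A.k ω) (A.θ ω)) (df (A.l ω).2 (A.l ω').2) 0| ≤ (1 / 2 : ℝ) ^ A.k ω ∧
        |co (qa (A.j ω - A.k ω) (A.θ ω)) (df (A.l ω).2 (A.l ω').2) 1| ≤ (1 / 2 : ℝ) ^ A.j ω) :=
    fun ω ω' p p' e => lab_eq (hZ ω ω' p p' e).1
  have hA' : ∀ ω ω', 0 < P.w ω → 0 < P.w ω' → Z ω = Z ω' →
      |co (qa (A.j ω - A.k ω) (A'.θ ω)) (df (A.l ω).1 (A.l ω').1) 1| ≤ 5 * (1 / 2 : ℝ) ^ A.j ω ∧
      |co (qa (A.j ω - A.k ω) (A'.θ ω)) (df (A.l ω).2 (A.l ω').2) 1| ≤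
        5 * (1 / 2 : ℝ) ^ A.j ω := by
    intro ω ω' p p' e
    have h1 := lab_eq (hZ ω ω' p p' e).2.1
    obtain ⟨a1, a2, a3, -⟩ := hok ω p
    obtain ⟨b1, -⟩ := hok ω' p'
    rw [← (hA ω ω' p p' e).2.1] at b1
    rw [a2, a3] at h1
    have q1 := co_near a1.symm.1 b1.symm.1 1 h1.2.2.2.1.2
    have q2 := co_near a1.symm.2 b1.symm.2 1 h1.2.2.2.2.2
    exact ⟨by linarith, by linarith⟩
  refine lab_apx P 7 A.θ (fun ω => A.j ω - s ω) A.j A.l Z ?_ ?_ ?_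
  · intro ω ω' p p' e
    obtain ⟨-, h1, -, -, -⟩ := hA ω ω' p p' e
    exact ⟨by rw [h1, (hZ ω ω' p p' e).2.2], h1⟩
  · intro ω ω' p p' e
    obtain ⟨-, -, h1, -, -⟩ := hA ω ω' p p' e
    have h2 := fl1_close h1
    have hs : A.j ω - (A.j ω - s ω) = s ω := by
      have := (hok ω p).2.2.2.2.1
      omega
    rw [hs]
    have h3 := half (hok ω p).2.2.2.2.1
    have hp : (0 : ℝ) < (1 / 2 : ℝ) ^ s ω := by positivity
    push_cast
    linarith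
  · intro ω ω' p p' e
    obtain ⟨-, -, -, h1, h2⟩ := hA ω ω' p p' e
    obtain ⟨h1', h2'⟩ := hA' ω ω' p p' e
    obtain ⟨-, -, -, hkj, hs, hsin⟩ := hok ω p
    have es : A.j ω - (A.j ω - s ω) = s ω := by omega
    rw [es]
    set φ := qa (A.j ω - A.k ω) (A.θ ω) with hφ
    set χ := qa (A.j ω - A.k ω) (A'.θ ω) with hχ
    set ψ := qa (s ω) (A.θ ω) with hψ
    have hp : (0 : ℝ) < (1 / 2 : ℝ) ^ s ω := by positivity
    have hpj : (0 : ℝ) < (1 / 2 : ℝ) ^ A.j ω := by positivity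
    have hmul : (1 / 2 : ℝ) ^ s ω * (1 / 2 : ℝ) ^ (A.j ω - s ω) = (1 / 2 : ℝ) ^ A.j ω := by
      rw [← pow_add]
      congr 1
      omega
    -- the wide coordinate
    have hw : ∀ v : Fin 2 → ℝ, |co φ v 0| ≤ (1 / 2 : ℝ) ^ A.k ω → |co φ v 1| ≤ (1 / 2 : ℝ) ^ A.j ω →
        |co χ v 1| ≤ 5 * (1 / 2 : ℝ) ^ A.j ω → |co φ v 0| ≤ 3 * (1 / 2 : ℝ) ^ (A.j ω - s ω) := by
      intro v g0 g1 g2
      rcases hs.lt_or_eq with h | h
      · have q1 := hsin h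
        have q2 := abs_sub_qa (A.j ω - A.k ω) (A.θ ω)
        have q3 := abs_sub_qa (A.j ω - A.k ω) (A'.θ ω)
        have q4 : 2 * (1 / 2 : ℝ) ^ (A.j ω - A.k ω) ≤ (1 / 2 : ℝ) ^ s ω := by
          have := half (Nat.succ_le_of_lt h)
          rw [pow_succ] at this
          linarith
        have q5 : |Real.sin (A'.θ ω - A.θ ω) - Real.sin (χ - φ)| ≤ (1 / 2 : ℝ) ^ s ω := by
          refine (sin_lip _ _).trans ?_
          have e : A'.θ ω - A.θ ω - (χ - φ) = (A'.θ ω - χ) - (A.θ ω - φ) := by ring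
          rw [e]
          have := abs_sub (A'.θ ω - χ) (A.θ ω - φ)
          linarith
        have q6 : 2 * (1 / 2 : ℝ) ^ s ω ≤ |Real.sin (χ - φ)| := by
          have := abs_sub_abs_le_abs_sub (Real.sin (A'.θ ω - A.θ ω)) (Real.sin (χ - φ))
          linarith
        have q7 := geo_M g1 g2
        have q8 : 2 * (1 / 2 : ℝ) ^ s ω * |co φ v 0| ≤
            (1 / 2 : ℝ) ^ A.j ω + 5 * (1 / 2 : ℝ) ^ A.j ω :=
          (mul_le_mul_of_nonneg_right q6 (abs_nonneg _)).trans q7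
        rw [← hmul] at q8
        have q9 : (1 / 2 : ℝ) ^ s ω * |co φ v 0| ≤
            (1 / 2 : ℝ) ^ s ω * (3 * (1 / 2 : ℝ) ^ (A.j ω - s ω)) := by linarith
        exact le_of_mul_le_mul_left q9 hp
      · have : A.j ω - s ω = A.k ω := by omega
        rw [this]
        have : (0 : ℝ) < (1 / 2 : ℝ) ^ A.k ω := by positivity
        linarith
    have hsin2 : |Real.sin (ψ - φ)| ≤ 2 * (1 / 2 : ℝ) ^ s ω := by
      refine Real.abs_sin_le_abs.trans ?_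
      have g1 := abs_sub_qa (s ω) (A.θ ω)
      have g2 := abs_sub_qa (A.j ω - A.k ω) (A.θ ω)
      have g3 := half hs
      have e : ψ - φ = (A.θ ω - φ) - (A.θ ω - ψ) := by ring
      rw [e]
      have := abs_sub (A.θ ω - φ) (A.θ ω - ψ)
      linarith
    have fin : ∀ v : Fin 2 → ℝ, |co φ v 0| ≤ (1 / 2 : ℝ) ^ A.k ω →
        |co φ v 1| ≤ (1 / 2 : ℝ) ^ A.j ω → |co χ v 1| ≤ 5 * (1 / 2 : ℝ) ^ A.j ω →
        |co ψ v 0| ≤ ((7 : ℕ) : ℝ) * (1 / 2 : ℝ) ^ (A.j ω - s ω) ∧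
          |co ψ v 1| ≤ ((7 : ℕ) : ℝ) * (1 / 2 : ℝ) ^ A.j ω := by
      intro v g0 g1 g2
      have g3 := hw v g0 g1 g2
      have g4 := geo_J g3 g1 hsin2
      have g5 : (1 / 2 : ℝ) ^ A.j ω ≤ (1 / 2 : ℝ) ^ (A.j ω - s ω) := half (by omega)
      have g6 : 2 * (1 / 2 : ℝ) ^ s ω * (3 * (1 / 2 : ℝ) ^ (A.j ω - s ω)) =
          6 * (1 / 2 : ℝ) ^ A.j ω := by
        rw [← hmul]
        ring
      rw [g6] at g4
      have g7 : (0 : ℝ) < (1 / 2 : ℝ) ^ (A.j ω - s ω) := by positivity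
      push_cast
      exact ⟨by linarith [g4.1], by linarith [g4.2]⟩
    exact ⟨fin _ h1.1 h1.2 h1', fin _ h2.1 h2.2 h2'⟩

/-! ### the abstract submodularity -/

/-- Shannon form : `J` nearly a function of `A` and of `A'`, `M` nearly a function of `(A, A')` -/
theorem shannon {α α' β β' ξ : Type*} (X : Ω → ξ) (A : Ω → α) (A' : Ω → α') (J : Ω → β) (M : Ω → β')
    (C : Ω → γ) :
    hc P X (fun ω => (A ω, C ω)) + hc P X (fun ω => (A' ω, C ω)) ≤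
      hc P X (fun ω => (M ω, C ω)) + hc P X (fun ω => (J ω, C ω)) +
      mi P A A' (fun ω => (X ω, C ω)) + hc P J (fun ω => (A ω, C ω)) +
      hc P J (fun ω => (A' ω, C ω)) + hc P M (fun ω => (A ω, A' ω, C ω)) := by
  -- the meet
  have h1 : hc P X (fun ω => (A ω, A' ω, C ω)) ≤
      hc P M (fun ω => (A ω, A' ω, C ω)) + hc P X (fun ω => (M ω, C ω)) := by
    have g1 := hc_le_add P X M (fun ω => (A ω, A' ω, C ω))
    have g2 := hc_mono_right P X (Y := fun ω => (M ω, C ω)) (Y' := fun ω => (M ω, A ω, A' ω, C ω))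
      (fun ω ω' _ _ e => by
        simp only [Prod.mk.injEq] at e ⊢
        exact ⟨e.1, e.2.2.2⟩)
    linarith
  -- the join
  have h2 : hc P J C ≤ mi P A A' C + hc P J (fun ω => (A ω, C ω)) +
      hc P J (fun ω => (A' ω, C ω)) := by
    have g1 := mi_pair P A' A J C
    have g2 := mi_le_hc' P A' J (fun ω => (A ω, C ω))
    have g3 : mi P A' J C ≤ mi P A' (fun ω => (A ω, J ω)) C := mi_mono_right P A'
      (fun ω ω' _ _ e => by
        simp only [Prod.mk.injEq] at e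
        exact e.1.2)
    have g4 := mi_symm P A' J C
    have g5 := mi_symm P A' A C
    have g6 : mi P J A' C = hc P J C - hc P J (fun ω => (A' ω, C ω)) := rfl
    linarith
  have h3 := hc_le_add P X J C
  -- the two chain rules
  have h4 : mi P A' A C + mi P A' X (fun ω => (A ω, C ω)) =
      mi P A' X C + mi P A' A (fun ω => (X ω, C ω)) := by
    rw [← mi_pair, ← mi_pair]
    refine le_antisymm (mi_mono_right P A' ?_) (mi_mono_right P A' ?_)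
    · intro ω ω' _ _ e
      simp only [Prod.mk.injEq] at e ⊢
      exact ⟨e.1.2, e.1.1⟩
    · intro ω ω' _ _ e
      simp only [Prod.mk.injEq] at e ⊢
      exact ⟨e.1.2, e.1.1⟩
  have h5 : mi P A' X (fun ω => (A ω, C ω)) = hc P X (fun ω => (A ω, C ω)) -
      hc P X (fun ω => (A' ω, A ω, C ω)) := by
    rw [mi_symm]
    rfl
  have h6 : mi P A' X C = hc P X C - hc P X (fun ω => (A' ω, C ω)) := by
    rw [mi_symm]
    rfl
  have h7 : hc P X (fun ω => (A' ω, A ω, C ω)) = hc P X (fun ω => (A ω, A' ω, C ω)) := by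
    refine hc_congr P (fun ω ω' _ _ e => congrArg Prod.fst e)
      (fun ω ω' _ _ e => congrArg Prod.fst e) ?_ ?_
    · intro ω ω' _ _ e
      simp only [Prod.mk.injEq] at e ⊢
      exact ⟨e.2.1, e.1, e.2.2⟩
    · intro ω ω' _ _ e
      simp only [Prod.mk.injEq] at e ⊢
      exact ⟨e.2.1, e.1, e.2.2⟩
  have h8 := mi_symm P A' A C
  have h9 := mi_symm P A' A (fun ω => (X ω, C ω))
  linarith

/-- the angle modulo half turns -/
theorem dl_le_sin (φ ψ : ℝ) : |dl φ ψ| ≤ 2 * |Real.sin (ψ - φ)| := by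
  have hp := Real.pi_pos
  have hp4 := Real.pi_le_four
  have h1 := Real.mul_abs_le_abs_sin (x := dl φ ψ) (dl_le φ ψ)
  have h2 : |Real.sin (ψ - φ)| = |Real.sin (dl φ ψ)| := by
    have e : dl φ ψ = (ψ - φ) - dm φ ψ * Real.pi := rfl
    rw [e, Real.sin_sub (ψ - φ) (dm φ ψ * Real.pi), Real.sin_int_mul_pi, mul_zero, sub_zero,
      abs_mul]
    have := sg_abs (dm φ ψ)
    unfold sg at this
    rw [this, mul_one]
  have h3 : 1 / 2 ≤ 2 / Real.pi := by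
    rw [div_le_div_iff₀ (by norm_num) hp]
    linarith
  have h4 : 1 / 2 * |dl φ ψ| ≤ |Real.sin (ψ - φ)| := by
    rw [h2]
    exact (mul_le_mul_of_nonneg_right h3 (abs_nonneg _)).trans h1
  linarith

/-- **finite SUB** : two boxes of the same line and the same shape -/
theorem sub_fin {ξ : Type*} (n : ℕ) (A A' : Bx Ω) (X : Ω → ξ) (C : Ω → γ)
    (hok : ∀ ω, 0 < P.w ω → Nr ((1 / 2 : ℝ) ^ A.j ω) (A'.l ω) (A.l ω) ∧ A'.k ω = A.k ω ∧ A'.j ω = A.j ω ∧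
      A.k ω ≤ A.j ω ∧ A.j ω - A.k ω ≤ n ∧ |A.θ ω| ≤ 4 ∧ |A'.θ ω| ≤ 4) :
    hc P X (fun ω => (A.lab ω, C ω)) + hc P X (fun ω => (A'.lab ω, C ω)) ≤
      hc P X (fun ω => ((mt A A').lab ω, C ω)) + hc P X (fun ω => ((jn A A').lab ω, C ω)) +
      mi P A.lab A'.lab (fun ω => (X ω, C ω)) + 100 + 3 * Real.log (n + 1) := by
  set s : Ω → ℕ := lv A A' with hs
  have hsn : ∀ ω, 0 < P.w ω → s ω ≤ n := fun ω hω => (lv_le A A' ω).trans (hok ω hω).2.2.2.2.1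
  have hS : ∀ {β : Type _} (Z : Ω → β), hc P s Z ≤ Real.log (n + 1) := fun Z =>
    H_rho_le P n s Z hsn
  have h0 := shannon P X A.lab A'.lab (jn A A').lab (mt A A').lab C
  -- the join from `A`
  have h1 : hc P (jn A A').lab (fun ω => (A.lab ω, C ω)) ≤ Real.log (n + 1) +
      5 * Real.log (2 * (95 : ℕ) + 3) := by
    have g1 := hc_via P (jn A A').lab s (fun ω => (A.lab ω, C ω))
    have g2 := hS (fun ω => (A.lab ω, C ω))
    have g3 := join_le P A A.l A.θ s (fun _ => 0) (fun ω => (s ω, A.lab ω, C ω))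
      (fun ω hω => ⟨⟨(hok ω hω).2.2.2.1, lv_le A A' ω, by
        rw [Int.cast_zero, zero_mul, add_zero, sub_self, abs_zero]
        positivity⟩, Nr.refl (by positivity) _⟩)
      (fun ω ω' _ _ e => by
        simp only [Prod.mk.injEq] at e
        exact ⟨e.2.1, e.1, rfl⟩)
    have g4 : hc P (jn A A').lab (fun ω => (s ω, A.lab ω, C ω)) ≤
      5 * Real.log (2 * (95 : ℕ) + 3) := g3
    linarith
  -- the join from `A'`
  set m : Ω → ℤ := fun ω => dm (A'.θ ω) (A.θ ω) with hm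
  have h2 : hc P (jn A A').lab (fun ω => (A'.lab ω, C ω)) ≤ Real.log (n + 1) + Real.log 9 +
      5 * Real.log (2 * (95 : ℕ) + 3) := by
    have g1 := hc_via P (jn A A').lab s (fun ω => (A'.lab ω, C ω))
    have g2 := hS (fun ω => (A'.lab ω, C ω))
    have g1' := hc_via P (jn A A').lab m (fun ω => (s ω, A'.lab ω, C ω))
    have g2' := H_dm_le P m (fun ω => (s ω, A'.lab ω, C ω)) (fun ω hω =>
      dm_le (by linarith [(hok ω hω).2.2.2.2.2.2]) (by linarith [(hok ω hω).2.2.2.2.2.1]))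
    have g3 := join_le P A' A.l A.θ s m (fun ω => (m ω, s ω, A'.lab ω, C ω))
      (fun ω hω => by
        obtain ⟨a1, a2, a3, a4, -, -, -⟩ := hok ω hω
        refine ⟨⟨by rw [a2, a3]; exact a4, by rw [a2, a3]; exact lv_le A A' ω, ?_⟩, by
          rw [a3]; exact a1.symm⟩
        have b1 := dl_le_sin (A'.θ ω) (A.θ ω)
        have b2 := lv_spec A A' ω
        have b3 : |Real.sin (A.θ ω - A'.θ ω)| = |Real.sin (A'.θ ω - A.θ ω)| := by
          rw [← abs_neg (Real.sin (A.θ ω - A'.θ ω)), ← Real.sin_neg, neg_sub]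
        rw [b3] at b1
        have e : A.θ ω - (A'.θ ω + m ω * Real.pi) = dl (A'.θ ω) (A.θ ω) := by
          rw [hm]
          unfold dl
          ring
        rw [e]
        linarith)
      (fun ω ω' _ _ e => by
        simp only [Prod.mk.injEq] at e
        exact ⟨e.2.2.1, e.2.1, e.1⟩)
    have g4 : hc P (jn A A').lab (fun ω => (m ω, s ω, A'.lab ω, C ω)) ≤
        5 * Real.log (2 * (95 : ℕ) + 3) := by
      refine le_trans (le_of_eq ?_) g3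
      refine hc_congr P ?_ ?_ (fun ω ω' _ _ e => e) (fun ω ω' _ _ e => e)
      · intro ω ω' p p' e
        have e1 := congrArg Prod.fst e
        simp only at e1
        unfold Bx.lab jn
        simp only
        rw [(hok ω p).2.1, (hok ω' p').2.1] at e1
        exact e1
      · intro ω ω' p p' e
        have e1 := congrArg Prod.fst e
        unfold Bx.lab jn at e1
        simp only at e1 ⊢
        rw [(hok ω p).2.1, (hok ω' p').2.1]
        exact e1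
    linarith
  -- the meet
  have h3 : hc P (mt A A').lab (fun ω => (A.lab ω, A'.lab ω, C ω)) ≤ Real.log (n + 1) +
      5 * Real.log (2 * (7 : ℕ) + 3) := by
    have g1 := hc_via P (mt A A').lab s (fun ω => (A.lab ω, A'.lab ω, C ω))
    have g2 := hS (fun ω => (A.lab ω, A'.lab ω, C ω))
    have g3 := meet_le P A A' s (fun ω => (s ω, A.lab ω, A'.lab ω, C ω))
      (fun ω hω => by
        obtain ⟨a1, a2, a3, a4, -, -, -⟩ := hok ω hω
        exact ⟨a1, a2, a3, a4, lv_le A A' ω, fun h => (lv_lt A A' ω h).le⟩)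
      (fun ω ω' _ _ e => by
        simp only [Prod.mk.injEq] at e
        exact ⟨e.2.1, e.2.2.1, e.1⟩)
    have g4 : hc P (mt A A').lab (fun ω => (s ω, A.lab ω, A'.lab ω, C ω)) ≤
        5 * Real.log (2 * (7 : ℕ) + 3) := g3
    linarith
  have l1 : Real.log (2 * (95 : ℕ) + 3) ≤ 7 := by
    have : Real.log (2 * (95 : ℕ) + 3) ≤ Real.log (2 ^ 8) :=
      Real.log_le_log (by norm_num) (by norm_num)
    rw [Real.log_pow] at this
    have h2 := Real.log_two_lt_d9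
    push_cast at this ⊢
    linarith
  have l2 : Real.log (2 * (7 : ℕ) + 3) ≤ 4 := by
    have : Real.log (2 * (7 : ℕ) + 3) ≤ Real.log (2 ^ 5) :=
      Real.log_le_log (by norm_num) (by norm_num)
    rw [Real.log_pow] at this
    have h2 := Real.log_two_lt_d9
    push_cast at this ⊢
    linarith
  have l3 : Real.log 9 ≤ 4 := by
    have : Real.log 9 ≤ Real.log (2 ^ 4) := Real.log_le_log (by norm_num) (by norm_num)
    rw [Real.log_pow] at this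
    have h2 := Real.log_two_lt_d9
    push_cast at this
    linarith
  linarith

end count

end Vale.Agent.P127.U.SubF
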