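import Vale.Agent.P127.U.StrE
import Vale.Agent.P127.U.Blocks1

/-!
# P127 / U / Str : stretched boxes, systems (helper499)

`StrOf B Bt W` : `Bt` is the box `B` seen in the stretched coordinates of the frame box `W`.

* `StrOf.labT`, `StrOf.labB` : given the label of `W` the labels of `B` and `Bt` are equivalent
* `StrOf.sz`, `StrOf.av` : sizes add up; `StrOf.asp`, `StrOf.asp'` : aspects
* `StrOf.box` : every box `T` containing `Bt` comes from a box `U` containing `B`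
* `StrOf.box'` : every box `U` containing `B` and contained in `W` gives a box `T` containing `Bt`
* `exists_str` : existence
* `StrOf.val` : equality of the values; `exc_le_of_str` : the excess of `Bt` is at most the excess of `B`,
  given the label of `W`; `val_le_str` : boxes inside `W`
-/

set_option autoImplicit false

namespace Vale.Agent.P127.U.Str

open Filter Topology Vale.Agent.P127 Vale.Agent.P127.Stk Vale.Agent.P127.U Sys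

/-- gauge of a box -/
noncomputable def bg {Ω : Type} (B : Bx Ω) (ω : Ω) (v : Fin 2 → ℝ) : ℝ := gq (B.θ ω) (B.k ω) (B.j ω) v

/-- the stretched vector in the frame of a box -/
noncomputable def fv {Ω : Type} (W : Bx Ω) (ω : Ω) (v : Fin 2 → ℝ) : Fin 2 → ℝ :=
  stv (qa (W.j ω - W.k ω) (W.θ ω)) (W.k ω) (W.j ω) v

/-- the stretched line in the frame of a box -/
noncomputable def fl' {Ω : Type} (W : Bx Ω) (ω : Ω) : Ln :=
  stl (qa (W.j ω - W.k ω) (W.θ ω)) (W.k ω) (W.j ω) (W.l ω)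

theorem bg_nonneg {Ω : Type} (B : Bx Ω) (ω : Ω) (v : Fin 2 → ℝ) : 0 ≤ bg B ω v := gq_nonneg _ _ _ _

theorem fv_surj {Ω : Type} (W : Bx Ω) (ω : Ω) (w : Fin 2 → ℝ) : ∃ v, fv W ω v = w := stv_surj _ _ _ w

/-- gauge of the frame box in its rounded frame -/
theorem frame_gq {Ω : Type} (W : Bx Ω) (ω : Ω) (h : W.k ω ≤ W.j ω) (v : Fin 2 → ℝ) :
    gq (qa (W.j ω - W.k ω) (W.θ ω)) (W.k ω) (W.j ω) v ≤ 4 * bg W ω v :=
  gq_rot h (sin_le_of_qa) v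

theorem fv_sq {Ω : Type} (W : Bx Ω) (ω : Ω) (v : Fin 2 → ℝ) :
    fv W ω v 0 ^ 2 + fv W ω v 1 ^ 2 = gq (qa (W.j ω - W.k ω) (W.θ ω)) (W.k ω) (W.j ω) v := rfl

theorem bg_ge {Ω : Type} (B : Bx Ω) (ω : Ω) (h : B.k ω ≤ B.j ω) (w : Fin 2 → ℝ) :
    ((2:ℝ) ^ B.k ω) ^ 2 * (w 0 ^ 2 + w 1 ^ 2) ≤ bg B ω w := by
  rw [← co_sq (B.θ ω) w]
  unfold bg gq
  have : ((2:ℝ) ^ B.k ω) ^ 2 ≤ ((2:ℝ) ^ B.j ω) ^ 2 :=
    pow_le_pow_left₀ (by positivity) (pow_le_pow_right₀ (by norm_num) h) 2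
  rw [mul_pow, mul_pow, mul_add]
  gcongr

theorem bg_le {Ω : Type} (B : Bx Ω) (ω : Ω) (h : B.k ω ≤ B.j ω) (w : Fin 2 → ℝ) :
    bg B ω w ≤ ((2:ℝ) ^ B.j ω) ^ 2 * (w 0 ^ 2 + w 1 ^ 2) := by
  rw [← co_sq (B.θ ω) w]
  unfold bg gq
  have : ((2:ℝ) ^ B.k ω) ^ 2 ≤ ((2:ℝ) ^ B.j ω) ^ 2 :=
    pow_le_pow_left₀ (by positivity) (pow_le_pow_right₀ (by norm_num) h) 2
  rw [mul_pow, mul_pow, mul_add]
  gcongr

section systems

variable {S : Sys}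

theorem av_zero_of_le {f : S.RV ℝ} (c : ℝ) (h : S.Ae fun i ω => |f i ω| ≤ c) : S.av f = 0 := by
  unfold Sys.av
  refine ulim_eq ?_
  have hL : Tendsto (fun i => (S.L i : ℝ)) (uf : Filter ℕ) atTop := tendsto_natCast_atTop_atTop.comp S.Ltop
  have h0 : Tendsto (fun i => |c| / (S.L i : ℝ)) (uf : Filter ℕ) (𝓝 0) := tendsto_const_nhds.div_atTop hL
  refine squeeze_zero_norm' ?_ h0
  filter_upwards [h] with i hi
  rw [Real.norm_eq_abs, abs_div, abs_of_nonneg (Nat.cast_nonneg (S.L i) : (0:ℝ) ≤ S.L i)]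
  refine div_le_div_of_nonneg_right ?_ (Nat.cast_nonneg _)
  rw [abs_le]
  constructor
  · have := (S.P i).ex_mono (f := fun _ => -|c|) (g := f i)
      (fun ω hω => by
        have := (abs_le.1 (hi ω hω)).1
        have := le_abs_self c
        linarith)
    rwa [(S.P i).ex_const] at this
  · have := (S.P i).ex_mono (f := f i) (g := fun _ => |c|)
      (fun ω hω => by
        have := (abs_le.1 (hi ω hω)).2
        have := le_abs_self c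
        linarith)
    rwa [(S.P i).ex_const] at this

/-- `Bt` is the box `B` in the stretched coordinates of the frame box `W` -/
structure StrOf (B Bt W : S.BX) : Prop where
  hB : BxA B
  hW : BxA W
  hBt : BxA Bt
  l : ∃ m : ℕ, S.Ae fun i ω => (W i).l ω = (B i).l ω ∧ (Bt i).l ω = fl' (W i) ω ∧
      (∀ v, bg (Bt i) ω (fv (W i) ω v) ≤ ((2:ℝ) ^ m) ^ 2 * bg (B i) ω v) ∧
      ∀ v, bg (B i) ω v ≤ ((2:ℝ) ^ m) ^ 2 * bg (Bt i) ω (fv (W i) ω v)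

variable {B Bt W U T : S.BX}

/-- the label of the stretched box is known -/
theorem StrOf.labT (h : StrOf B Bt W) {γ : Type} (Y : S.RV γ) :
    S.hc Bt.lab (Sys.pr B.lab (Sys.pr W.lab Y)) = 0 := by
  obtain ⟨m, hm⟩ := h.l
  refine hc_zero_of_le (Real.log (((2 * (2 * m + 2) + 1) * ((2 * (2 * m + 2) + 1) * (7 *
        ((2 * (2 ^ (2 * (2 * m + 2) + 1) + 1) + 1) *
          (2 * (2 ^ (2 * (2 * m + 2) + 1) + 1) + 1) ^ 4))) : ℕ) : ℝ)) ?_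
  filter_upwards [h.hB.1, h.hBt.1, hm] with i g1 g2 g3
  refine hc_str (S.P i) (W i) (Bt i) (B i) (Y i) m (fun ω hω => ?_) fun ω hω => ?_
  · exact ⟨(g2 ω hω).2.1, (g2 ω hω).2.2, (g3 ω hω).2.1⟩
  · exact ⟨(g3 ω hω).1.symm, (g1 ω hω).2.2, (g3 ω hω).2.2.2, (g3 ω hω).2.2.1⟩

/-- the label of the box is known from the stretched box and the frame -/
theorem StrOf.labB (h : StrOf B Bt W) {γ : Type} (Y : S.RV γ) :
    S.hc B.lab (Sys.pr Bt.lab (Sys.pr W.lab Y)) = 0 := by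
  obtain ⟨m, hm⟩ := h.l
  refine hc_zero_of_le (Real.log (((2 * (2 * m + 2) + 1) * ((2 * (2 * m + 2) + 1) * (7 *
        ((2 * (2 ^ (2 * (2 * m + 2) + 1) + 1) + 1) *
          (2 * (2 ^ (2 * (2 * m + 2) + 1) + 1) + 1) ^ 4))) : ℕ) : ℝ)) ?_
  filter_upwards [h.hB.1, h.hBt.1, hm] with i g1 g2 g3
  refine hc_unst (S.P i) (W i) (Bt i) (B i) (Y i) m (fun ω hω => ?_) fun ω hω => ?_
  · exact ⟨(g2 ω hω).2.2, (g3 ω hω).2.1⟩
  · exact ⟨(g3 ω hω).1.symm, (g1 ω hω).2.1, (g1 ω hω).2.2, (g3 ω hω).2.2.2, (g3 ω hω).2.2.1⟩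

/-- sizes and exponents -/
theorem StrOf.exps (h : StrOf B Bt W) : ∃ c : ℕ, S.Ae fun i ω =>
    |(B i).sz ω - (Bt i).sz ω - (W i).sz ω| ≤ c ∧
    (Bt i).k ω + (W i).k ω ≤ (B i).k ω + c ∧ (B i).j ω ≤ (Bt i).j ω + (W i).j ω + c ∧
    (Bt i).j ω + (W i).k ω ≤ (B i).j ω + c := by
  obtain ⟨m, hm⟩ := h.l
  refine ⟨3 * (m + 1), ?_⟩
  filter_upwards [h.hB.1, h.hBt.1, h.hW.1, hm] with i g1 g2 g4 g3 ω hω
  obtain ⟨-, -, a1, a2⟩ := g3 ω hω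
  obtain ⟨-, -, b1⟩ := g1 ω hω
  obtain ⟨-, -, b2⟩ := g2 ω hω
  obtain ⟨-, -, b3⟩ := g4 ω hω
  obtain ⟨ψ, k', j', u1, u2, u3, u4, u5⟩ :=
    unst (qa ((W i).j ω - (W i).k ω) ((W i).θ ω)) ((W i).k ω) ((W i).j ω) ((Bt i).θ ω) ((Bt i).k ω) ((Bt i).j ω)
  have c1 : ∀ v, gq ψ k' j' v ≤ ((2:ℝ) ^ (m + 1)) ^ 2 * gq ((B i).θ ω) ((B i).k ω) ((B i).j ω) v := by
    intro v
    refine (u4 v).trans ?_
    calc 4 * bg (Bt i) ω (fv (W i) ω v) ≤ 4 * (((2:ℝ) ^ m) ^ 2 * bg (B i) ω v) :=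
          mul_le_mul_of_nonneg_left (a1 v) (by norm_num)
      _ = _ := by unfold bg; rw [pow_succ (2:ℝ) m]; ring
  have c2 : ∀ v, gq ((B i).θ ω) ((B i).k ω) ((B i).j ω) v ≤ ((2:ℝ) ^ (m + 1)) ^ 2 * gq ψ k' j' v := by
    intro v
    calc gq ((B i).θ ω) ((B i).k ω) ((B i).j ω) v ≤ ((2:ℝ) ^ m) ^ 2 * bg (Bt i) ω (fv (W i) ω v) := a2 v
      _ ≤ ((2:ℝ) ^ m) ^ 2 * (4 * gq ψ k' j' v) := by
          have := u5 v
          unfold bg fv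
          gcongr
      _ = _ := by rw [pow_succ (2:ℝ) m]; ring
  obtain ⟨d1, d2, -⟩ := cmp_shape b1 u2 c1
  obtain ⟨e1, e2, -⟩ := cmp_shape u2 b1 c2
  -- lower bound for `k'`
  have f1 : (Bt i).k ω + (W i).k ω ≤ (B i).k ω + m := by
    have h1 := a1 (mv ((B i).θ ω))
    have h2 : bg (B i) ω (mv ((B i).θ ω)) = ((2:ℝ) ^ (B i).k ω) ^ 2 := gq_mv _ _ _
    rw [h2] at h1
    refine pow_le_of_sq (le_trans ?_ h1)
    refine le_trans ?_ (bg_ge (Bt i) ω b2 _)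
    rw [pow_add, mul_pow, fv_sq]
    have := gq_mv_ge (θ := qa ((W i).j ω - (W i).k ω) ((W i).θ ω)) (ψ := (B i).θ ω) b3
    gcongr
  have f2 : (Bt i).j ω + (W i).k ω ≤ (B i).j ω + m := by
    obtain ⟨v, hv⟩ := fv_surj (W i) ω (nv ((Bt i).θ ω))
    have h1 := a1 v
    rw [hv] at h1
    have h2 : bg (Bt i) ω (nv ((Bt i).θ ω)) = ((2:ℝ) ^ (Bt i).j ω) ^ 2 := gq_nv _ _ _
    rw [h2] at h1
    have h3 := bg_le (B i) ω b1 v
    have h4 : ((2:ℝ) ^ (W i).k ω) ^ 2 * (v 0 ^ 2 + v 1 ^ 2) ≤ 1 := by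
      have h5 : fv (W i) ω v 0 ^ 2 + fv (W i) ω v 1 ^ 2 = 1 := by
        rw [hv]
        simp [nv]
      rw [fv_sq] at h5
      rw [← h5]
      have h6 := bg_ge ⟨(W i).l, fun _ => qa ((W i).j ω - (W i).k ω) ((W i).θ ω), (W i).k, (W i).j⟩ ω b3 v
      unfold bg at h6
      exact h6
    refine pow_le_of_sq ?_
    rw [pow_add, mul_pow]
    calc ((2:ℝ) ^ (Bt i).j ω) ^ 2 * ((2:ℝ) ^ (W i).k ω) ^ 2
        ≤ (((2:ℝ) ^ m) ^ 2 * (((2:ℝ) ^ (B i).j ω) ^ 2 * (v 0 ^ 2 + v 1 ^ 2))) * ((2:ℝ) ^ (W i).k ω) ^ 2 := by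
          gcongr
          exact h1.trans (by gcongr)
      _ = ((2:ℝ) ^ m) ^ 2 * ((2:ℝ) ^ (B i).j ω) ^ 2 * (((2:ℝ) ^ (W i).k ω) ^ 2 * (v 0 ^ 2 + v 1 ^ 2)) := by ring
      _ ≤ ((2:ℝ) ^ m) ^ 2 * ((2:ℝ) ^ (B i).j ω) ^ 2 * 1 := by gcongr
      _ = _ := by ring
  refine ⟨?_, by omega, by omega, by omega⟩
  show |(((B i).k ω : ℝ) + (B i).j ω) - (((Bt i).k ω : ℝ) + (Bt i).j ω) - (((W i).k ω : ℝ) + (W i).j ω)| ≤
    ((3 * (m + 1) : ℕ) : ℝ)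
  have h3 : (k' : ℝ) + j' = (Bt i).k ω + (Bt i).j ω + (W i).k ω + (W i).j ω := by exact_mod_cast u3
  have d1' : (k' : ℝ) ≤ (B i).k ω + (m + 1) := by exact_mod_cast d1
  have d2' : (j' : ℝ) ≤ (B i).j ω + (m + 1) := by exact_mod_cast d2
  have e1' : ((B i).k ω : ℝ) ≤ k' + (m + 1) := by exact_mod_cast e1
  have e2' : ((B i).j ω : ℝ) ≤ j' + (m + 1) := by exact_mod_cast e2
  have hm0 : (0:ℝ) ≤ m := Nat.cast_nonneg _
  push_cast
  rw [abs_le]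
  constructor <;> linarith

theorem StrOf.av (h : StrOf B Bt W) : S.av (BX.sz B) = S.av (BX.sz Bt) + S.av (BX.sz W) := by
  have e3 : S.av (fun i ω => BX.sz B i ω - BX.sz Bt i ω - BX.sz W i ω) = 0 := by
    obtain ⟨c, hc⟩ := h.exps
    refine av_zero_of_le c ?_
    filter_upwards [hc] with i hi ω hω
    exact (hi ω hω).1
  rw [av_sub ((ol_sz h.hB).sub (ol_sz h.hBt)) (ol_sz h.hW), av_sub (ol_sz h.hB) (ol_sz h.hBt)] at e3
  linarith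

/-- the aspect of a box and of the stretched box -/
theorem StrOf.asp (h : StrOf B Bt W) : ∃ c : ℝ, S.Ae fun i ω =>
    (((B i).j ω : ℝ) - (B i).k ω ≤ ((Bt i).j ω - (Bt i).k ω) + ((W i).j ω - (W i).k ω) + c) ∧
    (((Bt i).j ω : ℝ) - (Bt i).k ω ≤ ((B i).j ω - (B i).k ω) + ((W i).j ω - (W i).k ω) + c) := by
  obtain ⟨c, hc⟩ := h.exps
  refine ⟨3 * c, ?_⟩
  filter_upwards [hc] with i hi ω hω
  obtain ⟨h1, h2, h3, h4⟩ := hi ω hω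
  have h2' : ((Bt i).k ω : ℝ) + (W i).k ω ≤ (B i).k ω + c := by exact_mod_cast h2
  have h3' : ((B i).j ω : ℝ) ≤ (Bt i).j ω + (W i).j ω + c := by exact_mod_cast h3
  have h4' : ((Bt i).j ω : ℝ) + (W i).k ω ≤ (B i).j ω + c := by exact_mod_cast h4
  have h5 : |(((B i).k ω : ℝ) + (B i).j ω) - (((Bt i).k ω : ℝ) + (Bt i).j ω) - (((W i).k ω : ℝ) + (W i).j ω)| ≤ c := h1
  rw [abs_le] at h5
  have hc0 : (0:ℝ) ≤ c := Nat.cast_nonneg _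
  constructor <;> linarith [h5.1, h5.2]

/-- **every box containing `Bt` comes from a box containing `B`** -/
theorem StrOf.box (h : StrOf B Bt W) (hT : BxA T) (hs : SubA Bt T) :
    ∃ U : S.BX, SubA B U ∧ StrOf U T W := by
  obtain ⟨c, hc⟩ := hs
  obtain ⟨m1, hm1⟩ : ∃ m1 : ℕ, c ≤ 2 ^ m1 := by
    obtain ⟨m1, hm1⟩ := pow_unbounded_of_one_lt c (by norm_num : (1:ℝ) < 2)
    exact ⟨m1, hm1.le⟩
  obtain ⟨m, hm⟩ := h.l
  choose ψ k' j' u1 u2 u3 u4 u5 using fun (i : ℕ) (ω : S.Ω i) =>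
    unst (qa ((W i).j ω - (W i).k ω) ((W i).θ ω)) ((W i).k ω) ((W i).j ω) ((T i).θ ω) ((T i).k ω) ((T i).j ω)
  let U : S.BX := fun i => ⟨(B i).l, ψ i, fun ω => min (k' i ω) ((B i).k ω), fun ω => min (j' i ω) ((B i).j ω)⟩
  set M := m1 + 1 + m + 1 with hM
  have key : S.Ae fun i ω => Sub (2 ^ M) (B i) (U i) ω ∧ (∀ v, bg (U i) ω v ≤ gq (ψ i ω) (k' i ω) (j' i ω) v) ∧
      ∀ v, gq (ψ i ω) (k' i ω) (j' i ω) v ≤ ((2:ℝ) ^ M) ^ 2 * bg (U i) ω v := by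
    filter_upwards [h.hB.1, hm, hc, h.hBt.1] with i g1 g2 g3 g4 ω hω
    refine sub_of_gq (g1 ω hω).2.2 ((u1 i ω).trans (by norm_num)) (u2 i ω) (fun v => ?_) ⟨rfl, rfl, rfl, rfl⟩
    obtain ⟨-, -, g5, -⟩ := g2 ω hω
    calc gq (ψ i ω) (k' i ω) (j' i ω) v
        ≤ 4 * bg (T i) ω (fv (W i) ω v) := u4 i ω v
      _ ≤ 4 * (((2:ℝ) ^ (m1 + 1)) ^ 2 * bg (Bt i) ω (fv (W i) ω v)) := by
          have : bg (T i) ω (fv (W i) ω v) ≤ ((2:ℝ) ^ (m1 + 1)) ^ 2 * bg (Bt i) ω (fv (W i) ω v) :=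
            gq_of_sub hm1 (g4 ω hω).2.2 (g3 ω hω) _
          gcongr
      _ ≤ 4 * (((2:ℝ) ^ (m1 + 1)) ^ 2 * (((2:ℝ) ^ m) ^ 2 * bg (B i) ω v)) := by
          have := g5 v
          gcongr
      _ = _ := by
          unfold bg
          rw [hM, pow_succ (2:ℝ) (m1 + 1 + m), pow_add (2:ℝ) (m1 + 1) m]; ring
  have hsub : SubA B U := ⟨2 ^ M, by
    filter_upwards [key] with i hi ω hω
    exact (hi ω hω).1⟩
  refine ⟨U, hsub, ⟨bxA_of_sub h.hB hsub, h.hW, hT, M + 1, ?_⟩⟩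
  filter_upwards [key, hm, hc] with i g1 g2 g3 ω hω
  obtain ⟨-, a1, a2⟩ := g1 ω hω
  refine ⟨(g2 ω hω).1, ?_, fun v => ?_, fun v => ?_⟩
  · rw [(g3 ω hω).1]
    exact (g2 ω hω).2.1
  · calc bg (T i) ω (fv (W i) ω v) ≤ 4 * gq (ψ i ω) (k' i ω) (j' i ω) v := u5 i ω v
      _ ≤ 4 * (((2:ℝ) ^ M) ^ 2 * bg (U i) ω v) := by
          have := a2 v
          gcongr
      _ = _ := by rw [pow_succ (2:ℝ) M]; ring
  · calc bg (U i) ω v ≤ gq (ψ i ω) (k' i ω) (j' i ω) v := a1 v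
      _ ≤ 4 * bg (T i) ω (fv (W i) ω v) := u4 i ω v
      _ ≤ _ := by
          refine mul_le_mul_of_nonneg_right ?_ (bg_nonneg _ _ _)
          rw [pow_succ (2:ℝ) M]
          have : (1:ℝ) ≤ 2 ^ M := one_le_pow₀ (by norm_num)
          nlinarith

/-- the box `U` in the frame of `W` : shapes -/
theorem exists_shape (hU : BxA U) (hs : SubA U W) :
    ∃ (ψ : ∀ i, S.Ω i → ℝ) (k' j' : ∀ i, S.Ω i → ℕ) (m : ℕ), S.Ae fun i ω =>
      |ψ i ω| ≤ 2 ∧ k' i ω ≤ j' i ω ∧ k' i ω + j' i ω ≤ (U i).k ω + (U i).j ω + 2 * m ∧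
      (∀ v, gq (ψ i ω) (k' i ω) (j' i ω) (fv (W i) ω v) ≤ ((2:ℝ) ^ m) ^ 2 * bg (U i) ω v) ∧
      ∀ v, bg (U i) ω v ≤ ((2:ℝ) ^ m) ^ 2 * gq (ψ i ω) (k' i ω) (j' i ω) (fv (W i) ω v) := by
  obtain ⟨c, hc⟩ := hs
  obtain ⟨m1, hm1⟩ : ∃ m1 : ℕ, c ≤ 2 ^ m1 := by
    obtain ⟨m1, hm1⟩ := pow_unbounded_of_one_lt c (by norm_num : (1:ℝ) < 2)
    exact ⟨m1, hm1.le⟩
  have key : ∀ (i : ℕ) (ω : S.Ω i), ∃ (ψ : ℝ) (k' j' : ℕ), (Sub c (U i) (W i) ω ∧ (U i).k ω ≤ (U i).j ω) →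
      |ψ| ≤ 2 ∧ k' ≤ j' ∧ k' + j' ≤ (U i).k ω + (U i).j ω + 2 * (m1 + 2) ∧
      (∀ v, gq ψ k' j' (fv (W i) ω v) ≤ ((2:ℝ) ^ (m1 + 2)) ^ 2 * bg (U i) ω v) ∧
      ∀ v, bg (U i) ω v ≤ ((2:ℝ) ^ (m1 + 2)) ^ 2 * gq ψ k' j' (fv (W i) ω v) := by
    intro i ω
    by_cases hh : Sub c (U i) (W i) ω ∧ (U i).k ω ≤ (U i).j ω
    · obtain ⟨h1, h2⟩ := hh
      have hin : ∀ v, gq (qa ((W i).j ω - (W i).k ω) ((W i).θ ω)) ((W i).k ω) ((W i).j ω) v ≤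
          ((2:ℝ) ^ (m1 + 2)) ^ 2 * gq ((U i).θ ω) ((U i).k ω) ((U i).j ω) v := by
        intro v
        refine (frame_gq (W i) ω h1.2.2.1 v).trans ?_
        calc 4 * bg (W i) ω v ≤ 4 * (((2:ℝ) ^ (m1 + 1)) ^ 2 * gq ((U i).θ ω) ((U i).k ω) ((U i).j ω) v) := by
              have : bg (W i) ω v ≤ _ := gq_of_sub hm1 h2 h1 v
              gcongr
          _ = _ := by rw [pow_succ (2:ℝ) (m1 + 1)]; ring
      obtain ⟨ψ, k', j', s1, s2, s3, s4, s5, s6⟩ := strb _ _ _ ((U i).θ ω) ((U i).k ω) ((U i).j ω) (m1 + 2) hin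
      refine ⟨ψ, k', j', fun _ => ⟨s1, s2, by omega, s5, fun v => (s6 v).trans ?_⟩⟩
      refine mul_le_mul_of_nonneg_right ?_ (gq_nonneg _ _ _ _)
      have : (1:ℝ) ≤ 2 ^ m1 := one_le_pow₀ (by norm_num)
      rw [pow_add]
      nlinarith
    · exact ⟨0, 0, 0, fun h => absurd h hh⟩
  choose ψ k' j' hk using key
  refine ⟨ψ, k', j', m1 + 2, ?_⟩
  filter_upwards [hU.1, hc] with i g1 g2 ω hω
  exact hk i ω ⟨g2 ω hω, (g1 ω hω).2.2⟩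

/-- existence of the stretched box -/
theorem exists_str (hU : BxA U) (hW : BxA W) (hs : SubA U W) : ∃ T : S.BX, StrOf U T W := by
  obtain ⟨ψ, k', j', m, hm⟩ := exists_shape hU hs
  obtain ⟨c, hc⟩ := hs
  obtain ⟨cU, hcU⟩ := hU.2
  refine ⟨fun i => ⟨fl' (W i), ψ i, k' i, j' i⟩, ⟨hU, hW, ⟨?_, 2 * cU + 2 * m, ?_⟩, m, ?_⟩⟩
  · filter_upwards [hm] with i hi ω hω
    exact ⟨stl_ok _ _ _ _, (hi ω hω).1.trans (by norm_num), (hi ω hω).2.1⟩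
  · filter_upwards [hm, hcU, hU.1, S.L_pos] with i hi g1 g2 g3 ω hω
    have h1 := (hi ω hω).2.2.1
    have h2 := g1 ω hω
    have h3 : ((U i).k ω : ℝ) ≤ (U i).j ω := by exact_mod_cast (g2 ω hω).2.2
    have h4 : (k' i ω : ℝ) + j' i ω ≤ (U i).k ω + (U i).j ω + 2 * m := by exact_mod_cast h1
    have h5 : (0:ℝ) ≤ k' i ω := Nat.cast_nonneg _
    have h6 : (1:ℝ) ≤ S.L i := by exact_mod_cast g3
    have h7 : (0:ℝ) ≤ m := Nat.cast_nonneg _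
    show (j' i ω : ℝ) ≤ (2 * cU + 2 * m) * S.L i
    nlinarith
  · filter_upwards [hm, hc] with i hi g1 ω hω
    exact ⟨(g1 ω hω).1, rfl, (hi ω hω).2.2.2.1, (hi ω hω).2.2.2.2⟩

/-- **every box containing `B` and contained in `W` gives a box containing `Bt`** -/
theorem StrOf.box' (h : StrOf B Bt W) (hU : BxA U) (hBU : SubA B U) (hUW : SubA U W) :
    ∃ T : S.BX, SubA Bt T ∧ StrOf U T W := by
  obtain ⟨ψ, k', j', m, hm⟩ := exists_shape hU hUW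
  obtain ⟨c, hc⟩ := hBU
  obtain ⟨cW, hcW⟩ := hUW
  obtain ⟨m1, hm1⟩ : ∃ m1 : ℕ, c ≤ 2 ^ m1 := by
    obtain ⟨m1, hm1⟩ := pow_unbounded_of_one_lt c (by norm_num : (1:ℝ) < 2)
    exact ⟨m1, hm1.le⟩
  obtain ⟨m2, hm2⟩ := h.l
  let T : S.BX := fun i => ⟨(Bt i).l, ψ i, fun ω => min (k' i ω) ((Bt i).k ω), fun ω => min (j' i ω) ((Bt i).j ω)⟩
  set M := m + (m1 + 1) + m2 with hM
  have key : S.Ae fun i ω => Sub (2 ^ M) (Bt i) (T i) ω ∧ (∀ v, bg (T i) ω v ≤ gq (ψ i ω) (k' i ω) (j' i ω) v) ∧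
      ∀ v, gq (ψ i ω) (k' i ω) (j' i ω) v ≤ ((2:ℝ) ^ M) ^ 2 * bg (T i) ω v := by
    filter_upwards [h.hB.1, hm, hc, h.hBt.1, hm2] with i g1 g2 g3 g4 g6 ω hω
    refine sub_of_gq (g4 ω hω).2.2 ((g2 ω hω).1.trans (by norm_num)) (g2 ω hω).2.1 (fun w => ?_) ⟨rfl, rfl, rfl, rfl⟩
    obtain ⟨v, rfl⟩ := fv_surj (W i) ω w
    calc gq (ψ i ω) (k' i ω) (j' i ω) (fv (W i) ω v)
        ≤ ((2:ℝ) ^ m) ^ 2 * bg (U i) ω v := (g2 ω hω).2.2.2.1 v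
      _ ≤ ((2:ℝ) ^ m) ^ 2 * (((2:ℝ) ^ (m1 + 1)) ^ 2 * bg (B i) ω v) := by
          have : bg (U i) ω v ≤ ((2:ℝ) ^ (m1 + 1)) ^ 2 * bg (B i) ω v :=
            gq_of_sub hm1 (g1 ω hω).2.2 (g3 ω hω) _
          gcongr
      _ ≤ ((2:ℝ) ^ m) ^ 2 * (((2:ℝ) ^ (m1 + 1)) ^ 2 * (((2:ℝ) ^ m2) ^ 2 * bg (Bt i) ω (fv (W i) ω v))) := by
          have := (g6 ω hω).2.2.2 v
          gcongr
      _ = _ := by
          show _ = ((2:ℝ) ^ M) ^ 2 * bg (Bt i) ω (fv (W i) ω v)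
          rw [hM, pow_add (2:ℝ) (m + (m1 + 1)), pow_add (2:ℝ) m]; ring
  have hsub : SubA Bt T := ⟨2 ^ M, by
    filter_upwards [key] with i hi ω hω
    exact (hi ω hω).1⟩
  refine ⟨T, hsub, ⟨hU, h.hW, bxA_of_sub h.hBt hsub, m + M, ?_⟩⟩
  filter_upwards [key, hm, hcW, hm2] with i g1 g2 g3 g4 ω hω
  obtain ⟨-, a1, a2⟩ := g1 ω hω
  refine ⟨(g3 ω hω).1, (g4 ω hω).2.1, fun v => ?_, fun v => ?_⟩
  · calc bg (T i) ω (fv (W i) ω v) ≤ gq (ψ i ω) (k' i ω) (j' i ω) (fv (W i) ω v) := a1 _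
      _ ≤ ((2:ℝ) ^ m) ^ 2 * bg (U i) ω v := (g2 ω hω).2.2.2.1 v
      _ ≤ _ := by
          refine mul_le_mul_of_nonneg_right ?_ (bg_nonneg _ _ _)
          gcongr
          · norm_num
          · omega
  · calc bg (U i) ω v ≤ ((2:ℝ) ^ m) ^ 2 * gq (ψ i ω) (k' i ω) (j' i ω) (fv (W i) ω v) := (g2 ω hω).2.2.2.2 v
      _ ≤ ((2:ℝ) ^ m) ^ 2 * (((2:ℝ) ^ M) ^ 2 * bg (T i) ω (fv (W i) ω v)) := by
          have := a2 (fv (W i) ω v)
          gcongr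
      _ = _ := by rw [pow_add (2:ℝ) m]; ring

/-- the values agree -/
theorem StrOf.val (h : StrOf B Bt W) (h' : StrOf U T W) {γ : Type} (C : S.RV γ) :
    S.val Bt T (Sys.pr W.lab C) = S.val B U (Sys.pr W.lab C) := by
  have e1 : S.av (fun i ω => BX.sz B i ω - BX.sz U i ω) = S.av (fun i ω => BX.sz Bt i ω - BX.sz T i ω) := by
    rw [av_sub (ol_sz h.hB) (ol_sz h'.hB), av_sub (ol_sz h.hBt) (ol_sz h'.hBt), h.av, h'.av]
    ring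
  have tB := h.hB.tame
  have tBt := h.hBt.tame
  have tU := h'.hB.tame
  have tT := h'.hBt.tame
  -- conditions `(T, W, C)` and `(U, W, C)` are equivalent
  have cond : ∀ {α : Type} {X : S.RV α}, Tame X →
      S.hc X (Sys.pr T.lab (Sys.pr W.lab C)) = S.hc X (Sys.pr U.lab (Sys.pr W.lab C)) := by
    intro α X hX
    have a1 := hc_cond_zero (Z := Sys.pr T.lab (Sys.pr W.lab C)) hX tU (h'.labB C)
    have a2 := hc_cond_zero (Z := Sys.pr U.lab (Sys.pr W.lab C)) hX tT (h'.labT C)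
    rw [← a1, ← a2]
    exact hc_congr (Eventually.of_forall fun _ _ _ _ _ e => congrArg Prod.fst e)
      (Eventually.of_forall fun _ _ _ _ _ e => congrArg Prod.fst e)
      (Eventually.of_forall fun _ _ _ _ _ e => by
        simp only [pr_apply, Prod.mk.injEq] at e ⊢
        exact ⟨e.2.1, e.1, e.2.2⟩)
      (Eventually.of_forall fun _ _ _ _ _ e => by
        simp only [pr_apply, Prod.mk.injEq] at e ⊢
        exact ⟨e.2.1, e.1, e.2.2⟩)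
  have key : S.hc Bt.lab (Sys.pr U.lab (Sys.pr W.lab C)) = S.hc B.lab (Sys.pr U.lab (Sys.pr W.lab C)) := by
    refine le_antisymm (hc_le_of_zero tBt tB (le_antisymm ?_ (hc_nonneg tBt _)))
      (hc_le_of_zero tB tBt (le_antisymm ?_ (hc_nonneg tB _)))
    · rw [← h.labT C]
      exact hc_mono_right tBt (Eventually.of_forall fun _ _ _ _ _ e => by
        simp only [pr_apply, Prod.mk.injEq] at e ⊢
        exact ⟨e.1, e.2.2⟩)
    · rw [← h.labB C]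
      exact hc_mono_right tB (Eventually.of_forall fun _ _ _ _ _ e => by
        simp only [pr_apply, Prod.mk.injEq] at e ⊢
        exact ⟨e.1, e.2.2⟩)
  unfold Sys.val
  have e2 : S.av (fun i ω => B.sz i ω - U.sz i ω) = S.av (fun i ω => Bt.sz i ω - T.sz i ω) := e1
  rw [e2, cond tBt, key]

end systems

section ext

variable {S S' : Sys}

theorem StrOf.pull (e : Ext S' S) {B Bt W : S.BX} (h : StrOf B Bt W) :
    StrOf (e.pullB B) (e.pullB Bt) (e.pullB W) where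
  hB := e.bxA h.hB
  hW := e.bxA h.hW
  hBt := e.bxA h.hBt
  l := by
    obtain ⟨m, hm⟩ := h.l
    exact ⟨m, e.ae hm⟩

/-- **the excess of the stretched box**, given the label of the frame box -/
theorem exc_le_of_str (hA : PExcAtt) (hLe : PExcLe) {B Bt W : S.BX} (h : StrOf B Bt W) {γ : Type} (C : S.RV γ) :
    S.exc Bt (Sys.pr W.lab C) ≤ S.exc B (Sys.pr W.lab C) := by
  obtain ⟨S', e, T, hT, hs, hv, -⟩ := hA S _ (Sys.pr W.lab C) Bt h.hBt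
  obtain ⟨U, h1, h2⟩ := (h.pull e).box hT hs
  rw [← hv]
  refine le_trans (le_of_eq ((h.pull e).val h2 (e.pull C))) ?_
  exact hLe S S' e _ (Sys.pr W.lab C) B U h.hB h2.hB h1

/-- boxes inside the frame box give a lower bound for the excess of the stretched box -/
theorem val_le_str (hLe : PExcLe) {B Bt W : S.BX} (h : StrOf B Bt W) {γ : Type} (C : S.RV γ)
    (e : Ext S' S) (U : S'.BX) (hU : BxA U) (h1 : SubA (e.pullB B) U) (h2 : SubA U (e.pullB W)) :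
    S'.val (e.pullB B) U (e.pull (Sys.pr W.lab C)) ≤ S.exc Bt (Sys.pr W.lab C) := by
  obtain ⟨T, t1, t2⟩ := (h.pull e).box' hU h1 h2
  refine le_trans (le_of_eq ((h.pull e).val t2 (e.pull C)).symm) ?_
  exact hLe S S' e _ (Sys.pr W.lab C) Bt T h.hBt t2.hBt t1

end ext

end Vale.Agent.P127.U.Str
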