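import Vale.Agent.P127.U.PathT
import Vale.Agent.P127.Stk.LibEnt

/-!
# P127 / U : costs along the path of rule R*, total collision bound, selection (helper823)
-/

set_option autoImplicit false

namespace Vale.Agent.P127.U.PathS

open Finset Vale.Agent.P127 Vale.Agent.P127.Stk Vale.Agent.P127.U.Path

/-- length of the last run of `a`-steps -/
def tr : List Lt → ℕ
  | [] => 0
  | .a :: w => tr w + 1
  | .f :: _ => 0
  | .c :: _ => 0
  | .g :: _ => 0

lemma le_tr (J : ℕ) (w : List Lt) (h : J ≤ w.length) (h' : ∀ b ∈ w.take J, b = Lt.a) :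
    J ≤ tr w := by
  induction J generalizing w with
  | zero => exact Nat.zero_le _
  | succ J ih =>
    cases w with
    | nil => simp at h
    | cons b w =>
      rw [List.take_succ_cons] at h'
      have hb : b = Lt.a := h' b (by simp)
      subst hb
      have := ih w (by simpa using h) (fun b hb => h' b (by simp [hb]))
      simp only [tr]
      omega

lemma tr_notA {x : Lt} (hx : x ≠ Lt.a) (w : List Lt) : tr (x :: w) = 0 := by
  cases x
  · exact absurd rfl hx
  · rfl
  · rfl
  · rfl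

variable {Ω : Type} [Fintype Ω] {α β γ : Type*}

namespace Expl

variable {e : Expl Ω α β γ}

lemma hK_a (Q : Law Ω) (a r : ℕ) :
    Q.H (e.K (a + 1) r) = Q.H (e.K a r) + hc Q (e.tt (a + 1)) (e.K a r) := by
  have h : Q.H (fun ω => (e.tt (a + 1) ω, e.K a r ω)) = Q.H (e.K (a + 1) r) := by
    refine Q.H_congr fun ω ω' => ?_
    simp only [K, Prod.mk.injEq]
    constructor
    · rintro ⟨h1, h2, h3, h4⟩
      exact ⟨h2, h1, h4⟩
    · rintro ⟨h1, h2, h3⟩
      exact ⟨h2, h1, e.hT a ω ω' h2, h3⟩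
  unfold hc
  rw [h]
  ring

lemma hK_r (Q : Law Ω) (a r : ℕ) :
    Q.H (e.K a (r + 1)) = Q.H (e.K a r) + hc Q (e.vv (r + 1)) (e.K a r) := by
  have h : Q.H (fun ω => (e.vv (r + 1) ω, e.K a r ω)) = Q.H (e.K a (r + 1)) := by
    refine Q.H_congr fun ω ω' => ?_
    simp only [K, Prod.mk.injEq]
    constructor
    · rintro ⟨h1, h2, h3, h4⟩
      exact ⟨h2, h3, h1⟩
    · rintro ⟨h1, h2, h3⟩
      exact ⟨h3, h1, h2, e.hV r ω ω' h3⟩
  unfold hc
  rw [h]
  ring

lemma hK_rj (Q : Law Ω) (a r j : ℕ) :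
    Q.H (e.K a (r + j)) = Q.H (e.K a r) + hc Q (e.vv (r + j)) (e.K a r) := by
  have h : Q.H (fun ω => (e.vv (r + j) ω, e.K a r ω)) = Q.H (e.K a (r + j)) := by
    refine Q.H_congr fun ω ω' => ?_
    simp only [K, Prod.mk.injEq]
    constructor
    · rintro ⟨h1, h2, h3, h4⟩
      exact ⟨h2, h3, h1⟩
    · rintro ⟨h1, h2, h3⟩
      exact ⟨h3, h1, h2, vv_mono (Nat.le_add_right r j) h3⟩
  unfold hc
  rw [h]
  ring

/-- chain rule for a group -/
lemma chain_group (Q : Law Ω) (a r j : ℕ) :
    ∑ t ∈ Finset.range j, hc Q (e.vv (r + t + 1)) (e.K a (r + t)) =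
      hc Q (e.vv (r + j)) (e.K a r) := by
  have h1 := hK_rj (e := e) Q a r j
  have h2 : ∑ t ∈ Finset.range j, hc Q (e.vv (r + t + 1)) (e.K a (r + t)) =
      Q.H (e.K a (r + j)) - Q.H (e.K a (r + 0)) := by
    rw [← Finset.sum_range_sub (fun t => Q.H (e.K a (r + t)))]
    refine Finset.sum_congr rfl fun t _ => ?_
    have := hK_r (e := e) Q a (r + t)
    have e1 : r + (t + 1) = r + t + 1 := by ring
    simp only [e1]
    linarith
  rw [h2, add_zero]
  linarith

lemma hL_a (Q : Law Ω) (a : ℕ) :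
    Q.H (fun ω => (e.Lv ω, e.tt (a + 1) ω)) = Q.H (fun ω => (e.Lv ω, e.tt a ω)) +
      hc Q (e.tt (a + 1)) (fun ω => (e.Lv ω, e.tt a ω)) := by
  have h : Q.H (fun ω => (e.tt (a + 1) ω, (e.Lv ω, e.tt a ω))) =
      Q.H (fun ω => (e.Lv ω, e.tt (a + 1) ω)) := by
    refine Q.H_congr fun ω ω' => ?_
    simp only [Prod.mk.injEq]
    constructor
    · rintro ⟨h1, h2, h3⟩
      exact ⟨h2, h1⟩
    · rintro ⟨h1, h2⟩
      exact ⟨h2, h1, e.hT a ω ω' h2⟩
  unfold hc
  rw [h]
  ring

end Expl

namespace Cnd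

open Expl

variable {e : Expl Ω α β γ} {P Q : Law Ω} {E : List Lt} {p : ℝ} (h : Cnd e P Q E p)

include h

open Classical in
/-- number of steps forced by `J` consecutive `a`-steps -/
theorem forced_card (i : ℕ) (hi : i ≤ e.A + e.R) :
    e.J * ((Finset.range i).filter (fun j => e.ri E (j + 1) = e.ri E j + 1 ∧
      e.J ≤ (E.drop (e.A + e.R - j)).length ∧
      ∀ b ∈ (E.drop (e.A + e.R - j)).take e.J, b = Lt.a)).card +
      tr (E.drop (e.A + e.R - i)) ≤ e.ai E i := by
  induction i with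
  | zero =>
    have h1 : E.drop (e.A + e.R - 0) = [] := by
      obtain ⟨ω, hω⟩ := exists_pos Q
      have := h.pat_eq hω (i := 0) (Nat.zero_le _)
      rw [pat_zero] at this
      exact this.symm
    rw [h1]
    simp [tr]
  | succ i ih =>
    have hi' : i < e.A + e.R := hi
    have ih' := ih hi'.le
    rw [Finset.range_add_one, Finset.filter_insert]
    obtain ⟨x, h1, _, h3, h4⟩ := h.letters hi'
    by_cases hx : x = Lt.a
    · obtain ⟨h5, h6⟩ := h3 hx
      rw [if_neg (by
        rintro ⟨h7, _⟩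
        omega), h1, h5, hx]
      simp only [tr]
      omega
    · obtain ⟨h5, h6⟩ := h4 hx
      rw [h1, h5, tr_notA hx]
      split_ifs with hc
      · rw [Finset.card_insert_of_notMem (by simp)]
        have := le_tr e.J _ hc.2.1 hc.2.2
        rw [mul_add]
        omega
      · omega

/-- chain rule along the path (any law) -/
theorem chain_K (Q' : Law Ω) (i : ℕ) (hi : i ≤ e.A + e.R) :
    ∑ j ∈ Finset.range i, ((if e.ai E (j + 1) = e.ai E j + 1 then
        hc Q' (e.tt (e.ai E j + 1)) (e.K (e.ai E j) (e.ri E j)) else 0) +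
      (if e.ri E (j + 1) = e.ri E j + 1 then
        hc Q' (e.vv (e.ri E j + 1)) (e.K (e.ai E j) (e.ri E j)) else 0)) =
      Q'.H (e.K (e.ai E i) (e.ri E i)) - Q'.H (e.K 0 0) := by
  induction i with
  | zero => rw [h.ai_zero, h.ri_zero]; simp
  | succ i ih =>
    have hi' : i < e.A + e.R := hi
    rw [Finset.sum_range_succ, ih hi'.le]
    rcases h.step_cases hi' with ⟨h2, h3⟩ | ⟨h2, h3⟩
    · rw [if_pos h2, if_neg (by omega), h2, h3, hK_a]
      ring
    · rw [if_pos h3, if_neg (by omega), h2, h3, hK_r]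
      ring

/-- chain rule for the time alone (any law) -/
theorem chain_L (Q' : Law Ω) (i : ℕ) (hi : i ≤ e.A + e.R) :
    ∑ j ∈ Finset.range i, (if e.ai E (j + 1) = e.ai E j + 1 then
        hc Q' (e.tt (e.ai E j + 1)) (fun ω => (e.Lv ω, e.tt (e.ai E j) ω)) else 0) =
      Q'.H (fun ω => (e.Lv ω, e.tt (e.ai E i) ω)) - Q'.H (fun ω => (e.Lv ω, e.tt 0 ω)) := by
  induction i with
  | zero =>
    rw [h.ai_zero]
    simp
  | succ i ih =>
    have hi' : i < e.A + e.R := hi
    rw [Finset.sum_range_succ, ih hi'.le]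
    rcases h.step_cases hi' with ⟨h2, h3⟩ | ⟨h2, h3⟩
    · rw [if_pos h2, h2, hL_a]
      ring
    · rw [if_neg (by omega), h2]
      ring

/-- **(P3)** the time entropy lost along the path is at most the cost of the steps of the slope
(any law) -/
theorem time_loss (Q' : Law Ω) (i : ℕ) (hi : i ≤ e.A + e.R) :
    ∑ j ∈ Finset.range i, (if e.ai E (j + 1) = e.ai E j + 1 then
        (hc Q' (e.tt (e.ai E j + 1)) (fun ω => (e.Lv ω, e.tt (e.ai E j) ω)) -
          hc Q' (e.tt (e.ai E j + 1)) (e.K (e.ai E j) (e.ri E j))) else 0) ≤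
      ∑ j ∈ Finset.range i, (if e.ri E (j + 1) = e.ri E j + 1 then
        hc Q' (e.vv (e.ri E j + 1)) (e.K (e.ai E j) (e.ri E j)) else 0) +
      hc Q' (e.vv 0) (fun ω => (e.Lv ω, e.tt 0 ω)) := by
  have h1 := h.chain_K Q' i hi
  have h2 := h.chain_L Q' i hi
  rw [Finset.sum_add_distrib] at h1
  have h3 : ∑ j ∈ Finset.range i, (if e.ai E (j + 1) = e.ai E j + 1 then
        (hc Q' (e.tt (e.ai E j + 1)) (fun ω => (e.Lv ω, e.tt (e.ai E j) ω)) -
          hc Q' (e.tt (e.ai E j + 1)) (e.K (e.ai E j) (e.ri E j))) else 0) =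
      ∑ j ∈ Finset.range i, (if e.ai E (j + 1) = e.ai E j + 1 then
        hc Q' (e.tt (e.ai E j + 1)) (fun ω => (e.Lv ω, e.tt (e.ai E j) ω)) else 0) -
      ∑ j ∈ Finset.range i, (if e.ai E (j + 1) = e.ai E j + 1 then
        hc Q' (e.tt (e.ai E j + 1)) (e.K (e.ai E j) (e.ri E j)) else 0) := by
    rw [← Finset.sum_sub_distrib]
    refine Finset.sum_congr rfl fun j _ => ?_
    split_ifs <;> ring
  have h4 : Q'.H (fun ω => (e.Lv ω, e.tt (e.ai E i) ω)) ≤ Q'.H (e.K (e.ai E i) (e.ri E i)) := by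
    refine H_mono' Q' fun ω ω' _ _ h' => ?_
    simp only [K, Prod.mk.injEq] at h' ⊢
    exact ⟨h'.1, h'.2.1⟩
  have h5 : Q'.H (e.K 0 0) = Q'.H (fun ω => (e.Lv ω, e.tt 0 ω)) +
      hc Q' (e.vv 0) (fun ω => (e.Lv ω, e.tt 0 ω)) := by
    unfold hc
    have : Q'.H (fun ω => (e.vv 0 ω, e.Lv ω, e.tt 0 ω)) = Q'.H (e.K 0 0) := by
      refine Q'.H_congr fun ω ω' => ?_
      simp only [K, Prod.mk.injEq]
      tauto
    rw [this]
    ring
  rw [h3, h2]
  linarith

/-- the steps of the slope at the end of the path -/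
theorem cost_end (Q' : Law Ω) :
    ∑ j ∈ Finset.range (e.A + e.R), (if e.ri E (j + 1) = e.ri E j + 1 ∧ e.ai E j = e.A then
        hc Q' (e.vv (e.ri E j + 1)) (e.K (e.ai E j) (e.ri E j)) else 0) ≤
      hc Q' (e.vv e.R) (fun ω => (e.Lv ω, e.tt e.A ω)) := by
  classical
  have h1 : ∑ r ∈ Finset.range e.R, hc Q' (e.vv (r + 1)) (e.K e.A r) =
      Q'.H (e.K e.A e.R) - Q'.H (e.K e.A 0) := by
    rw [← Finset.sum_range_sub (fun r => Q'.H (e.K e.A r))]
    refine Finset.sum_congr rfl fun r _ => ?_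
    rw [hK_r]
    ring
  have h2 : Q'.H (fun ω => (e.Lv ω, e.tt e.A ω)) ≤ Q'.H (e.K e.A 0) := by
    refine H_mono' Q' fun ω ω' _ _ h' => ?_
    simp only [K, Prod.mk.injEq] at h' ⊢
    exact ⟨h'.1, h'.2.1⟩
  have h3 : hc Q' (e.vv e.R) (fun ω => (e.Lv ω, e.tt e.A ω)) =
      Q'.H (e.K e.A e.R) - Q'.H (fun ω => (e.Lv ω, e.tt e.A ω)) := by
    unfold hc
    have : Q'.H (fun ω => (e.vv e.R ω, e.Lv ω, e.tt e.A ω)) = Q'.H (e.K e.A e.R) := by
      refine Q'.H_congr fun ω ω' => ?_
      simp only [K, Prod.mk.injEq]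
      tauto
    rw [this]
  have h4 : ∑ j ∈ Finset.range (e.A + e.R),
      (if e.ri E (j + 1) = e.ri E j + 1 ∧ e.ai E j = e.A then
        hc Q' (e.vv (e.ri E j + 1)) (e.K (e.ai E j) (e.ri E j)) else 0) ≤
      ∑ r ∈ Finset.range e.R, hc Q' (e.vv (r + 1)) (e.K e.A r) := by
    rw [← Finset.sum_filter]
    have h5 : ∑ j ∈ (Finset.range (e.A + e.R)).filter
        (fun j => e.ri E (j + 1) = e.ri E j + 1 ∧ e.ai E j = e.A),
        hc Q' (e.vv (e.ri E j + 1)) (e.K (e.ai E j) (e.ri E j)) =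
        ∑ r ∈ ((Finset.range (e.A + e.R)).filter
          (fun j => e.ri E (j + 1) = e.ri E j + 1 ∧ e.ai E j = e.A)).image (fun j => e.ri E j),
          hc Q' (e.vv (r + 1)) (e.K e.A r) := by
      rw [Finset.sum_image]
      · refine Finset.sum_congr rfl fun j hj => ?_
        rw [((Finset.mem_filter.1 hj).2).2]
      · intro j hj k hk hjk
        simp only [Finset.coe_filter, Finset.mem_range, Set.mem_ofPred_eq] at hj hk
        have a1 := h.ai_add_ri hj.1.le
        have a2 := h.ai_add_ri hk.1.le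
        simp only at hjk
        omega
    rw [h5]
    refine Finset.sum_le_sum_of_subset_of_nonneg ?_ fun r _ _ => hc_nonneg Q' _ _
    intro r hr
    simp only [Finset.mem_image, Finset.mem_filter, Finset.mem_range] at hr ⊢
    obtain ⟨j, ⟨hj1, hj2, _⟩, rfl⟩ := hr
    have := h.ri_le (i := j + 1) hj1
    omega
  linarith

/-- the groups are the same for all outcomes -/
lemma eff_eq {ω ω' : Ω} (hω : 0 < Q.w ω) (hω' : 0 < Q.w ω') {i : ℕ} (hi : i < e.A + e.R) :
    e.eff P i ω = e.eff P i ω' :=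
  eff_unique (by rw [h.hE ω hω, h.hE ω' hω']) hi

lemma pnd_eq {ω ω' : Ω} (hω : 0 < Q.w ω) (hω' : 0 < Q.w ω') {i : ℕ} (hi : i ≤ e.A + e.R) :
    e.pnd P i ω = e.pnd P i ω' := by
  cases i with
  | zero => rfl
  | succ i => rw [pnd_succ, pnd_succ, h.eff_eq hω hω' hi]

/-- a group is cheap -/
lemma cost_group {i j : ℕ} (hi : i ≤ e.A + e.R) (h0 : 0 < e.thr) (hj : 1 ≤ j)
    (hd : ∀ ω, 0 < Q.w ω → e.dec P (e.pat P i) ω = j) :
    hc Q (e.vv (e.ri E i + j)) (e.K (e.ai E i) (e.ri E i)) ≤ j * Real.log (1 / e.thr) := by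
  have h1 := h.kap_nonneg hi j
  unfold kap at h1
  rw [Q.ex_sub] at h1
  have h2 := hc_eq Q (e.vv (e.ri E i + j)) (e.K (e.ai E i) (e.ri E i))
  rw [Q.ex_neg] at h2
  have h3 := Q.ex_mono (f := fun _ => -(j * Real.log (1 / e.thr)))
    (g := fun ω => Real.log (gr e P i j ω)) (fun ω hω => by
      have h4 := (dec_spec (e := e) (P := P) (p := e.pat P i) (ω := ω)
        (by rw [hd ω hω]; omega)).2
      rw [hd ω hω] at h4
      have h5 := Real.log_le_log (pow_pos h0 j) h4
      rw [Real.log_pow] at h5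
      rw [one_div, Real.log_inv]
      unfold gr
      linarith)
  rw [Q.ex_const] at h3
  linarith

open Classical in
/-- cost of the steps of the slope, apart from the forced ones -/
theorem cost_aux (h0 : 0 < e.thr) (h1 : e.thr ≤ 1) (d : ℕ) : ∀ i : ℕ, i ≤ e.A + e.R →
    e.A + e.R - i = d → (∀ ω, 0 < Q.w ω → e.pnd P i ω = 0) →
    ∑ j ∈ Finset.Ico i (e.A + e.R), (if e.ri E (j + 1) = e.ri E j + 1 then
        hc Q (e.vv (e.ri E j + 1)) (e.K (e.ai E j) (e.ri E j)) else 0) ≤
      ((e.R : ℝ) - e.ri E i) * Real.log (1 / e.thr) +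
      ∑ j ∈ Finset.Ico i (e.A + e.R),
        (if e.ri E (j + 1) = e.ri E j + 1 ∧ e.forced (E.drop (e.A + e.R - j)) then
        hc Q (e.vv (e.ri E j + 1)) (e.K (e.ai E j) (e.ri E j)) else 0) := by
  set n := e.A + e.R with hn
  have hlog : 0 ≤ Real.log (1 / e.thr) := Real.log_nonneg (by rw [le_div_iff₀ h0]; linarith)
  induction d using Nat.strong_induction_on with
  | _ d ih =>
    intro i hi hd hp
    have hF0 : ∀ j, 0 ≤ (if e.ri E (j + 1) = e.ri E j + 1 ∧ e.forced (E.drop (n - j)) then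
        hc Q (e.vv (e.ri E j + 1)) (e.K (e.ai E j) (e.ri E j)) else 0) := by
      intro j
      split_ifs
      · exact hc_nonneg Q _ _
      · exact le_rfl
    rcases hi.eq_or_lt with heq | hlt
    · rw [heq, Finset.Ico_self, Finset.sum_empty, Finset.sum_empty]
      have : e.ri E n = e.R := h.ri_top
      rw [this]
      simp
    · obtain ⟨ω0, hω0⟩ := exists_pos Q
      rcases Nat.eq_zero_or_pos (e.eff P i ω0) with hk | hk
      · -- one step
        have hp' : ∀ ω, 0 < Q.w ω → e.pnd P (i + 1) ω = 0 := by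
          intro ω hω
          rw [pnd_succ, h.eff_eq hω hω0 hlt, hk]
        have hd1 : n - (i + 1) < d := by clear_value n; omega
        have ih1 := ih (n - (i + 1)) hd1 (i + 1) hlt rfl hp'
        rw [Finset.sum_eq_sum_Ico_succ_bot hlt, Finset.sum_eq_sum_Ico_succ_bot hlt]
        obtain ⟨x, h3, h4, h5, h6⟩ := h.letters hlt
        by_cases hx : x = Lt.a
        · obtain ⟨h7, h8⟩ := h5 hx
          rw [if_neg (by omega), if_neg (by omega)]
          rw [h8] at ih1
          linarith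
        · obtain ⟨h7, h8⟩ := h6 hx
          have h9 := h4 ω0 hω0
          rw [hk] at h9
          have h10 : e.forced (E.drop (n - i)) := by
            rcases ltr_zero_or (e := e) (e.pat P i) ω0 with ⟨_, h11, _⟩ | ⟨_, h11⟩
            · rw [h.pat_eq hω0 hlt.le] at h11
              exact h11
            · rw [h11] at h9
              exact absurd h9.symm hx
          rw [if_pos h8, if_pos ⟨h8, h10⟩]
          rw [h8] at ih1
          push_cast at ih1
          nlinarith
      · -- a group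
        set k := e.eff P i ω0 with hk'
        obtain ⟨r1, r2, r3⟩ := run_end i ω0 hk
        have hik : i + k ≤ n := by
          have h4 := nr_le (e := e) (P := P) (i + k) ω0
          have h5 := na_le (e := e) (P := P) i hi ω0
          have h6 := na_add_nr (e.pat P (i + k) ω0)
          rw [pat_length] at h6
          have r3' : na (e.pat P (i + k) ω0) = na (e.pat P i ω0) := r3
          rw [r3'] at h6
          clear_value n k
          omega
        have hp' : ∀ ω, 0 < Q.w ω → e.pnd P (i + k) ω = 0 := by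
          intro ω hω
          rw [h.pnd_eq hω hω0 hik]
          exact r1
        have hd1 : n - (i + k) < d := by clear_value n k; omega
        have ih1 := ih (n - (i + k)) hd1 (i + k) hik rfl hp'
        have hrk : e.ri E (i + k) = e.ri E i + k := by
          rw [← h.ri_eq hω0 hik, ← h.ri_eq hω0 hi]
          exact r2
        rw [← Finset.sum_Ico_consecutive _ (Nat.le_add_right i k) hik,
          ← Finset.sum_Ico_consecutive _ (Nat.le_add_right i k) hik]
        have hg : ∑ j ∈ Finset.Ico i (i + k), (if e.ri E (j + 1) = e.ri E j + 1 then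
            hc Q (e.vv (e.ri E j + 1)) (e.K (e.ai E j) (e.ri E j)) else 0) ≤
            k * Real.log (1 / e.thr) := by
          have hg1 := h.cost_group hi h0 (j := k) hk (by
            intro ω hω
            have := h.eff_eq hω hω0 hlt
            rw [← eff_of_zero (hp ω hω), this])
          refine le_trans (le_of_eq ?_) hg1
          rw [← chain_group Q (e.ai E i) (e.ri E i) k, Finset.sum_Ico_eq_sum_range]
          simp only [Nat.add_sub_cancel_left]
          refine Finset.sum_congr rfl fun t ht => ?_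
          have ht' : t < k := Finset.mem_range.1 ht
          obtain ⟨q1, q2, q3⟩ := run (e := e) (P := P) i ω0 t ht'
          have e1 : e.ri E (i + t) = e.ri E i + t := by
            rw [← h.ri_eq hω0 (by omega), ← h.ri_eq hω0 hi]
            exact q2
          have e2 : e.ai E (i + t) = e.ai E i := by
            rw [← h.ai_eq hω0 (by omega), ← h.ai_eq hω0 hi]
            exact q3
          have e3 : e.ri E (i + t + 1) = e.ri E (i + t) + 1 := by
            have hlt' : i + t < n := by omega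
            have hR := isR_ltr (e := e) (e.pat P (i + t)) ω0 (k := e.eff P (i + t) ω0) (by omega)
            rw [← h.ri_eq hω0 (i := i + t + 1) hlt', ← h.ri_eq hω0 hlt'.le, pat_succ,
              nr_cons_isR hR]
          rw [if_pos e3, e1, e2]
        have hf : 0 ≤ ∑ j ∈ Finset.Ico i (i + k),
            (if e.ri E (j + 1) = e.ri E j + 1 ∧ e.forced (E.drop (n - j)) then
            hc Q (e.vv (e.ri E j + 1)) (e.K (e.ai E j) (e.ri E j)) else 0) :=
          Finset.sum_nonneg fun j _ => hF0 j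
        rw [hrk] at ih1
        push_cast at ih1
        nlinarith

/-- **(P2)** total cost of the steps of the slope -/
theorem cost_total (hJ : 0 < e.J) (h0 : 0 < e.thr) (h1 : e.thr ≤ 1) (M : ℝ)
    (hM0 : 0 ≤ M) (hM : ∀ a r, hc Q (e.vv (r + 1)) (e.K a r) ≤ M) :
    ∑ j ∈ Finset.range (e.A + e.R), (if e.ri E (j + 1) = e.ri E j + 1 then
        hc Q (e.vv (e.ri E j + 1)) (e.K (e.ai E j) (e.ri E j)) else 0) ≤
      e.R * Real.log (1 / e.thr) + (e.A / e.J : ℝ) * M +
        hc Q (e.vv e.R) (fun ω => (e.Lv ω, e.tt e.A ω)) := by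
  classical
  set n := e.A + e.R with hn
  have a1 := h.cost_aux h0 h1 n 0 (Nat.zero_le _) (Nat.sub_zero n) (fun ω _ => pnd_zero ω)
  rw [h.ri_zero] at a1
  simp only [Nat.cast_zero, sub_zero] at a1
  rw [← hn, Nat.Ico_zero_eq_range] at a1
  set F : ℕ → Prop := fun j => e.ri E (j + 1) = e.ri E j + 1 ∧
      e.J ≤ (E.drop (n - j)).length ∧ ∀ b ∈ (E.drop (n - j)).take e.J, b = Lt.a with hF
  have key : ∀ j ∈ Finset.range n,
      (if e.ri E (j + 1) = e.ri E j + 1 ∧ e.forced (E.drop (n - j)) then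
        hc Q (e.vv (e.ri E j + 1)) (e.K (e.ai E j) (e.ri E j)) else 0) ≤
      (if F j then M else 0) +
      (if e.ri E (j + 1) = e.ri E j + 1 ∧ e.ai E j = e.A then
        hc Q (e.vv (e.ri E j + 1)) (e.K (e.ai E j) (e.ri E j)) else 0) := by
    intro j hj
    have hj' : j < n := Finset.mem_range.1 hj
    have hc0 := hc_nonneg Q (e.vv (e.ri E j + 1)) (e.K (e.ai E j) (e.ri E j))
    have hF0 : 0 ≤ (if F j then M else 0) := by
      by_cases hf : F j
      · rw [if_pos hf]; exact hM0
      · rw [if_neg hf]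
    have hG0 : 0 ≤ (if e.ri E (j + 1) = e.ri E j + 1 ∧ e.ai E j = e.A then
        hc Q (e.vv (e.ri E j + 1)) (e.K (e.ai E j) (e.ri E j)) else 0) := by
      split_ifs
      · exact hc0
      · exact le_rfl
    by_cases hr : e.ri E (j + 1) = e.ri E j + 1 ∧ e.forced (E.drop (n - j))
    · rw [if_pos hr]
      rcases hr.2 with h3 | h3
      · have h4 : e.ai E j = e.A := by
          have h5 := h.ai_le hj'.le
          unfold Expl.ai at h5 ⊢
          rw [hn] at h3
          omega
        have c1 : (if e.ri E (j + 1) = e.ri E j + 1 ∧ e.ai E j = e.A then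
          hc Q (e.vv (e.ri E j + 1)) (e.K (e.ai E j) (e.ri E j)) else 0) =
          hc Q (e.vv (e.ri E j + 1)) (e.K (e.ai E j) (e.ri E j)) := if_pos ⟨hr.1, h4⟩
        rw [c1]
        linarith
      · have h4 : F j := ⟨hr.1, h3⟩
        rw [if_pos h4]
        have := hM (e.ai E j) (e.ri E j)
        linarith
    · rw [if_neg hr]
      linarith
  have a2 := Finset.sum_le_sum key
  rw [Finset.sum_add_distrib] at a2
  have s2 : ∑ j ∈ Finset.range n, (if F j then M else 0) ≤ (e.A / e.J : ℝ) * M := by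
    rw [← Finset.sum_filter, Finset.sum_const, nsmul_eq_mul]
    refine mul_le_mul_of_nonneg_right ?_ hM0
    have hJ' : (0 : ℝ) < e.J := by exact_mod_cast hJ
    rw [le_div_iff₀ hJ']
    have h5 := h.forced_card n le_rfl
    rw [h.ai_top] at h5
    have h6 : e.J * ((Finset.range n).filter F).card ≤ e.A := by
      have : (Finset.range n).filter F = (Finset.range n).filter
        (fun j => e.ri E (j + 1) = e.ri E j + 1 ∧
          e.J ≤ (E.drop (e.A + e.R - j)).length ∧
          ∀ b ∈ (E.drop (e.A + e.R - j)).take e.J, b = Lt.a) := rfl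
      rw [this]
      omega
    have h7 : ((e.J * ((Finset.range n).filter F).card : ℕ) : ℝ) ≤ e.A := by exact_mod_cast h6
    push_cast at h7
    linarith
  have s3 := h.cost_end Q
  linarith

/-- **(P1)** total collision bound for the next block of the slope at the thin steps -/
theorem coll_total (h0 : 0 < e.thr) {ε : ℝ} (hε : e.thr < ε) :
    ∑ i ∈ Finset.range (e.A + e.R),
      (if e.ai E (i + 1) = e.ai E i + 1 ∧ e.ri E i < e.R then
      coll Q (e.vv (e.ri E i + 1)) (e.K (e.ai E i) (e.ri E i))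
      else 0) ≤
      (e.A + e.R : ℕ) * ε +
        ((e.J + 1) * Real.log (1 / p) + (e.A + e.R : ℕ)) / Real.log (ε / e.thr) := by
  classical
  have hε0 : 0 < ε := h0.trans hε
  have hlog : 0 < Real.log (ε / e.thr) := Real.log_pos (by rwa [lt_div_iff₀ h0, one_mul])
  have h1 : ∀ i ∈ Finset.range (e.A + e.R),
      (if e.ai E (i + 1) = e.ai E i + 1 ∧ e.ri E i < e.R then
        coll Q (e.vv (e.ri E i + 1)) (e.K (e.ai E i) (e.ri E i)) else 0) ≤
      ε + ((if e.ri E i < e.R then kap e P Q E i 1 else 0) + 1) / Real.log (ε / e.thr) := by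
    intro i hi
    have hi' := Finset.mem_range.1 hi
    by_cases hc : e.ai E (i + 1) = e.ai E i + 1 ∧ e.ri E i < e.R
    · rw [if_pos hc, if_pos hc.2]
      have := h.coll_thin' hi' (h.thin_of_a hi' hc.1) (le_refl 1) (by omega) h0
        (ε := ε) (by rwa [pow_one])
      rwa [pow_one] at this
    · rw [if_neg hc]
      have hk : 0 ≤ (if e.ri E i < e.R then kap e P Q E i 1 else 0) := by
        split_ifs
        · exact h.kap_nonneg hi'.le 1
        · exact le_rfl
      positivity
  refine (Finset.sum_le_sum h1).trans ?_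
  rw [Finset.sum_add_distrib, ← Finset.sum_div, Finset.sum_add_distrib]
  simp only [Finset.sum_const, Finset.card_range, nsmul_eq_mul, mul_one]
  have h2 := h.sum_kap
  gcongr

end Cnd

/-! ### Selection of a pattern -/

/-- letters as numbers -/
def cd : Lt → Fin 4
  | .a => 0
  | .f => 1
  | .c => 2
  | .g => 3

lemma cd_inj : Function.Injective cd := by
  intro x y h
  cases x <;> cases y <;> first | rfl | (exact absurd h (by decide))

/-- the entropy of the pattern is at most `n log 4` -/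
theorem pat_H_le (e : Expl Ω α β γ) (P : Law Ω) (n : ℕ) :
    P.H (e.pat P n) ≤ n * Real.log 4 := by
  classical
  set Z : Ω → List.Vector (Fin 4) n := fun ω =>
    ⟨(e.pat P n ω).map cd, by rw [List.length_map, Expl.pat_length]⟩ with hZ
  have h1 := P.H_le_log_card Z
  have h2 : P.H Z = P.H (e.pat P n) := by
    refine P.H_congr fun ω ω' => ?_
    constructor
    · intro h
      exact List.map_injective_iff.2 cd_inj (congrArg Subtype.val h)
    · intro h
      exact Subtype.ext (by simp only [hZ]; rw [h])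
  rw [h2] at h1
  have h3 : (Fintype.card (List.Vector (Fin 4) n) : ℝ) = 4 ^ n := by
    rw [card_vector, Fintype.card_fin]
    push_cast
    rfl
  rw [h3, Real.log_pow] at h1
  exact h1

/-- selection of a value : finitely many nonnegative quantities with prescribed averages -/
theorem select {S : Type*} {ι : Type*} (P : Law Ω) (Z : Ω → S) (s : Finset ι)
    (F : ι → S → ℝ) (c : ι → ℝ) (h0 : ∀ j ∈ s, ∀ z, 0 < P.pr Z z → 0 ≤ F j z)
    (hc : ∀ j ∈ s, 0 < c j)
    (hF : ∀ j ∈ s, P.ex (fun ω => F j (Z ω)) ≤ c j) (H : ℝ) (hH0 : 0 < H) (hH : P.H Z ≤ H) :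
    ∃ ω, 0 < P.w ω ∧ Real.log (1 / P.pr Z (Z ω)) ≤ (s.card + 1) * H ∧
      ∀ j ∈ s, F j (Z ω) ≤ (s.card + 1) * c j := by
  classical
  by_contra hcon
  push Not at hcon
  -- the normalised sum
  set G : Ω → ℝ := fun ω => Real.log (1 / P.pr Z (Z ω)) / H + ∑ j ∈ s, F j (Z ω) / c j with hG
  have hnn : ∀ ω, 0 < P.w ω → 0 ≤ Real.log (1 / P.pr Z (Z ω)) := by
    intro ω hω
    have h1 := P.pr_pos Z hω
    have h2 := P.pr_le_one Z (Z ω)
    exact Real.log_nonneg (by rw [le_div_iff₀ h1]; linarith)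
  have h1 : P.ex G ≤ s.card + 1 := by
    rw [hG, P.ex_add]
    have e1 : P.ex (fun ω => Real.log (1 / P.pr Z (Z ω)) / H) = P.H Z / H := by
      unfold Law.H
      rw [div_eq_inv_mul, ← P.ex_const_mul]
      refine P.ex_congr fun ω hω => ?_
      rw [one_div, Real.log_inv]
      ring
    have e2 : P.ex (fun ω => ∑ j ∈ s, F j (Z ω) / c j) = ∑ j ∈ s, P.ex (fun ω => F j (Z ω)) / c j := by
      unfold Law.ex
      simp only [Finset.mul_sum]
      rw [Finset.sum_comm]
      refine Finset.sum_congr rfl fun j _ => ?_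
      rw [Finset.sum_div]
      refine Finset.sum_congr rfl fun ω _ => ?_
      ring
    rw [e1, e2]
    have h2 : P.H Z / H ≤ 1 := by rw [div_le_one hH0]; exact hH
    have h3 : ∑ j ∈ s, P.ex (fun ω => F j (Z ω)) / c j ≤ ∑ _j ∈ s, (1 : ℝ) := by
      refine Finset.sum_le_sum fun j hj => ?_
      rw [div_le_one (hc j hj)]
      exact hF j hj
    rw [Finset.sum_const, nsmul_eq_mul, mul_one] at h3
    linarith
  have h2 : ∀ ω, 0 < P.w ω → (s.card + 1 : ℝ) < G ω := by
    intro ω hω
    have hpos := P.pr_pos Z hω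
    have t0 : ∀ j ∈ s, 0 ≤ F j (Z ω) / c j := fun j hj =>
      div_nonneg (h0 j hj _ hpos) (hc j hj).le
    simp only [hG]
    rcases lt_or_ge ((s.card + 1 : ℝ) * H) (Real.log (1 / P.pr Z (Z ω))) with h3 | h3
    · have h4 : (s.card + 1 : ℝ) < Real.log (1 / P.pr Z (Z ω)) / H := by
        rwa [lt_div_iff₀ hH0]
      have := Finset.sum_nonneg t0
      linarith
    · obtain ⟨j, hj, hlt⟩ := hcon ω hω h3
      have h4 : (s.card + 1 : ℝ) < F j (Z ω) / c j := by
        rwa [lt_div_iff₀ (hc j hj)]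
      have h5 := Finset.single_le_sum t0 hj
      have h6 : 0 ≤ Real.log (1 / P.pr Z (Z ω)) / H := div_nonneg (hnn ω hω) hH0.le
      linarith
  have h3 : (s.card + 1 : ℝ) < P.ex G := by
    obtain ⟨ω0, hω0⟩ := exists_pos P
    have h4 : P.ex (fun _ => (s.card + 1 : ℝ)) < P.ex G := by
      unfold Law.ex
      refine Finset.sum_lt_sum (fun ω _ => ?_) ⟨ω0, Finset.mem_univ _, ?_⟩
      · rcases (P.nn ω).eq_or_lt with h5 | h5
        · rw [← h5]; simp
        · exact mul_le_mul_of_nonneg_left (h2 ω h5).le h5.le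
      · exact mul_lt_mul_of_pos_left (h2 ω0 hω0) hω0
    rwa [P.ex_const] at h4
  linarith

end Vale.Agent.P127.U.PathS
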