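import Mathlib

/-!
# P127 / U : limits along a fixed nonprincipal ultrafilter (helper357)

`uf` the ultrafilter, `ulim a` the limit of a bounded sequence, `UB a` boundedness along `uf`.
-/

set_option autoImplicit false

namespace Vale.Agent.P127.U

open Filter Topology

/-- the fixed nonprincipal ultrafilter on `ℕ` -/
noncomputable def uf : Ultrafilter ℕ := Filter.hyperfilter ℕ

theorem uf_le : (uf : Filter ℕ) ≤ atTop := by
  rw [← Nat.cofinite_eq_atTop]
  exact Filter.hyperfilter_le_cofinite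

/-- bounded along the ultrafilter -/
def UB (a : ℕ → ℝ) : Prop := ∃ C : ℝ, ∀ᶠ i in (uf : Filter ℕ), |a i| ≤ C

/-- limit along the ultrafilter -/
noncomputable def ulim (a : ℕ → ℝ) : ℝ := limUnder (uf : Filter ℕ) a

variable {a b : ℕ → ℝ}

theorem UB.tendsto (h : UB a) : Tendsto a (uf : Filter ℕ) (𝓝 (ulim a)) := by
  obtain ⟨C, hC⟩ := h
  have h1 : IsCompact (Set.Icc (-C) C) := isCompact_Icc
  have h2 : (Filter.map a (uf : Filter ℕ)) ≤ 𝓟 (Set.Icc (-C) C) := by
    rw [le_principal_iff, mem_map]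
    filter_upwards [hC] with i hi
    exact abs_le.1 hi
  obtain ⟨x, -, hx⟩ := isCompact_iff_ultrafilter_le_nhds.1 h1 (uf.map a) h2
  exact tendsto_nhds_limUnder ⟨x, hx⟩

theorem ulim_eq {x : ℝ} (h : Tendsto a (uf : Filter ℕ) (𝓝 x)) : ulim a = x := h.limUnder_eq

theorem UB.of_tendsto {x : ℝ} (h : Tendsto a (uf : Filter ℕ) (𝓝 x)) : UB a := by
  refine ⟨|x| + 1, ?_⟩
  have := h.abs.eventually (gt_mem_nhds (lt_add_one |x|))
  filter_upwards [this] with i hi
  exact hi.le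

theorem UB.const (c : ℝ) : UB fun _ => c := ⟨|c|, Eventually.of_forall fun _ => le_rfl⟩

theorem UB.of_le {C : ℝ} (h0 : ∀ᶠ i in (uf : Filter ℕ), 0 ≤ a i)
    (h : ∀ᶠ i in (uf : Filter ℕ), a i ≤ C) : UB a := by
  refine ⟨C, ?_⟩
  filter_upwards [h0, h] with i h1 h2
  rwa [abs_of_nonneg h1]

theorem UB.of_between {C C' : ℝ} (h0 : ∀ᶠ i in (uf : Filter ℕ), C ≤ a i)
    (h : ∀ᶠ i in (uf : Filter ℕ), a i ≤ C') : UB a := by
  refine ⟨max |C| |C'|, ?_⟩
  filter_upwards [h0, h] with i h1 h2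
  rw [abs_le]
  constructor
  · have := neg_abs_le C
    have := le_max_left |C| |C'|
    linarith
  · have := le_abs_self C'
    have := le_max_right |C| |C'|
    linarith

theorem UB.add (ha : UB a) (hb : UB b) : UB fun i => a i + b i :=
  UB.of_tendsto (ha.tendsto.add hb.tendsto)

theorem UB.sub (ha : UB a) (hb : UB b) : UB fun i => a i - b i :=
  UB.of_tendsto (ha.tendsto.sub hb.tendsto)

theorem UB.neg (ha : UB a) : UB fun i => - a i := UB.of_tendsto ha.tendsto.neg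

theorem UB.mul (ha : UB a) (hb : UB b) : UB fun i => a i * b i :=
  UB.of_tendsto (ha.tendsto.mul hb.tendsto)

theorem UB.const_mul (c : ℝ) (ha : UB a) : UB fun i => c * a i :=
  UB.of_tendsto (ha.tendsto.const_mul c)

theorem ulim_const (c : ℝ) : ulim (fun _ => c) = c := ulim_eq tendsto_const_nhds

theorem ulim_add (ha : UB a) (hb : UB b) : ulim (fun i => a i + b i) = ulim a + ulim b :=
  ulim_eq (ha.tendsto.add hb.tendsto)

theorem ulim_sub (ha : UB a) (hb : UB b) : ulim (fun i => a i - b i) = ulim a - ulim b :=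
  ulim_eq (ha.tendsto.sub hb.tendsto)

theorem ulim_neg (ha : UB a) : ulim (fun i => - a i) = - ulim a := ulim_eq ha.tendsto.neg

theorem ulim_mul (ha : UB a) (hb : UB b) : ulim (fun i => a i * b i) = ulim a * ulim b :=
  ulim_eq (ha.tendsto.mul hb.tendsto)

theorem ulim_const_mul (c : ℝ) (ha : UB a) : ulim (fun i => c * a i) = c * ulim a :=
  ulim_eq (ha.tendsto.const_mul c)

theorem ulim_congr (h : ∀ᶠ i in (uf : Filter ℕ), a i = b i) : ulim a = ulim b := by
  unfold ulim limUnder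
  rw [Filter.map_congr h]

theorem ulim_le (ha : UB a) (hb : UB b) (h : ∀ᶠ i in (uf : Filter ℕ), a i ≤ b i) :
    ulim a ≤ ulim b := le_of_tendsto_of_tendsto ha.tendsto hb.tendsto h

theorem ulim_le_const (ha : UB a) {c : ℝ} (h : ∀ᶠ i in (uf : Filter ℕ), a i ≤ c) : ulim a ≤ c :=
  le_of_tendsto ha.tendsto h

theorem const_le_ulim (ha : UB a) {c : ℝ} (h : ∀ᶠ i in (uf : Filter ℕ), c ≤ a i) : c ≤ ulim a :=
  ge_of_tendsto ha.tendsto h

/-- `a ≤ b + o(1)` -/
theorem ulim_le_of_sub {c : ℕ → ℝ} (ha : UB a) (hb : UB b) (hc : Tendsto c (uf : Filter ℕ) (𝓝 0))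
    (h : ∀ᶠ i in (uf : Filter ℕ), a i ≤ b i + c i) : ulim a ≤ ulim b := by
  have h1 := ulim_le ha (hb.add (UB.of_tendsto hc)) h
  rwa [ulim_add hb (UB.of_tendsto hc), ulim_eq hc, add_zero] at h1

theorem ulim_lt_eventually (ha : UB a) {c : ℝ} (h : ulim a < c) :
    ∀ᶠ i in (uf : Filter ℕ), a i < c := ha.tendsto.eventually (gt_mem_nhds h)

theorem lt_ulim_eventually (ha : UB a) {c : ℝ} (h : c < ulim a) :
    ∀ᶠ i in (uf : Filter ℕ), c < a i := ha.tendsto.eventually (lt_mem_nhds h)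

theorem ulim_squeeze {c : ℕ → ℝ} (ha : UB a) (hb : UB b) (hc : Tendsto c (uf : Filter ℕ) (𝓝 0))
    (h : ∀ᶠ i in (uf : Filter ℕ), |a i - b i| ≤ c i) : ulim a = ulim b := by
  refine le_antisymm (ulim_le_of_sub ha hb hc ?_) (ulim_le_of_sub hb ha hc ?_)
  · filter_upwards [h] with i hi
    have := (abs_le.1 hi).2
    linarith
  · filter_upwards [h] with i hi
    have := (abs_le.1 hi).1
    linarith

/-- **diagonal lemma**: if `A n` are sets of the ultrafilter, then there is `n : ℕ → ℕ` tending to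
infinity along the ultrafilter with `i ∈ A (n i)` eventually. -/
theorem diagonal {A : ℕ → Set ℕ} (hA : ∀ n, ∀ᶠ i in (uf : Filter ℕ), i ∈ A n) :
    ∃ n : ℕ → ℕ, Tendsto n (uf : Filter ℕ) atTop ∧ ∀ᶠ i in (uf : Filter ℕ), i ∈ A (n i) := by
  classical
  set p : ℕ → ℕ → Prop := fun i k => i ∈ A k ∧ k ≤ i with hp
  refine ⟨fun i => Nat.findGreatest (p i) i, ?_, ?_⟩
  · rw [tendsto_atTop]
    intro k
    have h1 : ∀ᶠ i in (uf : Filter ℕ), k ≤ i := uf_le (eventually_ge_atTop k)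
    filter_upwards [hA k, h1] with i hi hki
    exact Nat.le_findGreatest hki ⟨hi, hki⟩
  · filter_upwards [hA 0] with i hi
    exact (Nat.findGreatest_spec (P := p i) (Nat.zero_le i) ⟨hi, Nat.zero_le i⟩).1

end Vale.Agent.P127.U
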