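import Vale.Agent.P127.U.ApxS

/-!
# P127 / U : localisation to balls (helper572)
-/

set_option autoImplicit false

namespace Vale.Agent.P127.U.LocB

open Filter Topology Vale.Agent.P127 Vale.Agent.P127.Stk Apx

/-- time inside the ball -/
noncomputable def tb' {S : Sys} (s : ℕ → ℕ) (t : S.RV ℝ) : S.RV ℝ := fun i ω => Int.fract ((2 : ℝ) ^ s i * t i ω)

/-- position inside the ball -/
theorem pos_bl (s : ℕ) (l : Ln) (t : ℝ) (j : Fin 2) :
    pos ((fun j => Int.fract ((2 : ℝ) ^ s * pos l (qa s t) j), l.2) : Ln) (Int.fract ((2 : ℝ) ^ s * t)) j =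
      (2 : ℝ) ^ s * pos l t j - fl s (pos l (qa s t)) j := by
  have h1 := pos_sub l t (qa s t) j
  have h2 : Int.fract ((2 : ℝ) ^ s * t) = (2 : ℝ) ^ s * (t - qa s t) := by
    rw [mul_sub, qa_mul, Int.fract]
  show Int.fract ((2 : ℝ) ^ s * pos l (qa s t) j) + Int.fract ((2 : ℝ) ^ s * t) * l.2 j = _
  rw [h2, Int.fract]
  show (2 : ℝ) ^ s * pos l (qa s t) j - (⌊(2 : ℝ) ^ s * pos l (qa s t) j⌋ : ℝ) + (2 : ℝ) ^ s * (t - qa s t) * l.2 j =
    (2 : ℝ) ^ s * pos l t j - (⌊(2 : ℝ) ^ s * pos l (qa s t) j⌋ : ℝ)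
  have h3 : pos l t j = pos l (qa s t) j + (t - qa s t) * l.2 j := by linarith
  rw [h3]
  ring

section finite

variable {Ω : Type} [Fintype Ω] {γ : Type*} (P : Law Ω)

/-- the cell of the position at the time `t_s`, given the point -/
theorem cell_le (s n : ℕ) (hsn : s ≤ n) (l : Ω → Ln) (t : Ω → ℝ) (hl : ∀ ω, 0 < P.w ω → LnOk (l ω)) (Z : Ω → γ)
    (hZ : ∀ ω ω', 0 < P.w ω → 0 < P.w ω' → Z ω = Z ω' → fl n (pos (l ω) (t ω)) = fl n (pos (l ω') (t ω'))) :
    Stk.hc P (fun ω => fl s (pos (l ω) (qa s (t ω)))) Z ≤ 2 * Real.log 9 := by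
  have h := hc_fl_apx P (ι := Fin 2) s 3 (fun ω => pos (l ω) (qa s (t ω))) Z (by
    intro ω ω' p p' e j
    have a1 := fl_close (fl_of_fl hsn _ _ (hZ ω ω' p p' e)) j
    have a2 : ∀ ω, 0 < P.w ω → |pos (l ω) (qa s (t ω)) j - pos (l ω) (t ω) j| ≤ (1 / 2 : ℝ) ^ s := by
      intro ω hω
      rw [pos_sub, abs_mul]
      have b1 := abs_sub_qa s (t ω)
      have b2 := (hl ω hω).2 j
      rw [abs_sub_comm] at b1
      calc |qa s (t ω) - t ω| * |(l ω).2 j| ≤ (1 / 2 : ℝ) ^ s * 1 := by gcongr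
        _ = _ := mul_one _
    have a3 := a2 ω p
    have a4 := a2 ω' p'
    rw [abs_le] at a1 a3 a4 ⊢
    push_cast
    constructor <;> linarith [a1.1, a1.2, a3.1, a3.2, a4.1, a4.2])
  refine h.trans (le_of_eq ?_)
  rw [Fintype.card_fin]
  norm_num

/-- the point in the ball, given the point -/
theorem point_le (s n : ℕ) (hsn : s ≤ n) (l : Ω → Ln) (t : Ω → ℝ) (hl : ∀ ω, 0 < P.w ω → LnOk (l ω)) (Z : Ω → γ)
    (hZ : ∀ ω ω', 0 < P.w ω → 0 < P.w ω' → Z ω = Z ω' →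
      fl1 n (t ω) = fl1 n (t ω') ∧ fl n (pos (l ω) (t ω)) = fl n (pos (l ω') (t ω'))) :
    Stk.hc P (fun ω => pq (n - s) (Int.fract ((2 : ℝ) ^ s * t ω),
      pos ((fun j => Int.fract ((2 : ℝ) ^ s * pos (l ω) (qa s (t ω)) j), (l ω).2) : Ln)
        (Int.fract ((2 : ℝ) ^ s * t ω)))) Z ≤ 2 * Real.log 9 + (Real.log 5 + 2 * Real.log 5) := by
  refine (hc_via P _ (fun ω => fl s (pos (l ω) (qa s (t ω)))) Z).trans ?_
  have h0 := cell_le P s n hsn l t hl Z (fun ω ω' p p' e => (hZ ω ω' p p' e).2)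
  have h1 : Stk.hc P (fun ω => fl1 (n - s) (Int.fract ((2 : ℝ) ^ s * t ω)))
      (fun ω => (fl s (pos (l ω) (qa s (t ω))), Z ω)) ≤ Real.log 5 := by
    have := hc_fl1_apx P (n - s) 1 (fun ω => Int.fract ((2 : ℝ) ^ s * t ω))
      (fun ω => (fl s (pos (l ω) (qa s (t ω))), Z ω)) (by
      intro ω ω' p p' e
      have e2 := (hZ ω ω' p p' (congrArg Prod.snd e)).1
      have e3 : fl1 s (t ω) = fl1 s (t ω') := fl1_of_fl1 hsn e2
      have e4 := fl1_close e2
      have e5 : (⌊(2 : ℝ) ^ s * t ω⌋ : ℝ) = ⌊(2 : ℝ) ^ s * t ω'⌋ := by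
        have : ⌊(2 : ℝ) ^ s * t ω⌋ = ⌊(2 : ℝ) ^ s * t ω'⌋ := e3
        rw [this]
      simp only [Int.fract]
      rw [e5]
      have e6 : (2 : ℝ) ^ s * t ω - ⌊(2 : ℝ) ^ s * t ω'⌋ - ((2 : ℝ) ^ s * t ω' - ⌊(2 : ℝ) ^ s * t ω'⌋) =
        2 ^ s * (t ω - t ω') := by ring
      rw [e6, abs_mul, abs_of_pos (by positivity)]
      have e7 : (1 / 2 : ℝ) ^ n = (1 / 2) ^ s * (1 / 2) ^ (n - s) := by rw [← pow_add, Nat.add_sub_cancel' hsn]
      calc (2 : ℝ) ^ s * |t ω - t ω'| ≤ 2 ^ s * (1 / 2) ^ n := by gcongr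
        _ = (2 ^ s * (1 / 2) ^ s) * (1 / 2) ^ (n - s) := by rw [e7]; ring
        _ = (1 : ℕ) * (1 / 2) ^ (n - s) := by rw [← mul_pow]; norm_num)
    refine this.trans (le_of_eq ?_)
    norm_num
  have h2 : Stk.hc P (fun ω => fl (n - s) (pos ((fun j => Int.fract ((2 : ℝ) ^ s * pos (l ω) (qa s (t ω)) j), (l ω).2) : Ln)
        (Int.fract ((2 : ℝ) ^ s * t ω)))) (fun ω => (fl s (pos (l ω) (qa s (t ω))), Z ω)) ≤ 2 * Real.log 5 := by
    have := hc_fl_apx P (ι := Fin 2) (n - s) 1 (fun ω => pos ((fun j => Int.fract ((2 : ℝ) ^ s * pos (l ω) (qa s (t ω)) j), (l ω).2) : Ln)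
        (Int.fract ((2 : ℝ) ^ s * t ω))) (fun ω => (fl s (pos (l ω) (qa s (t ω))), Z ω)) (by
      intro ω ω' p p' e j
      rw [pos_bl, pos_bl]
      have e1 : fl s (pos (l ω) (qa s (t ω))) = fl s (pos (l ω') (qa s (t ω'))) := congrArg Prod.fst e
      have e2 := (hZ ω ω' p p' (congrArg Prod.snd e)).2
      have e4 := fl_close e2 j
      rw [e1]
      have e6 : (2 : ℝ) ^ s * pos (l ω) (t ω) j - fl s (pos (l ω') (qa s (t ω'))) j -
        ((2 : ℝ) ^ s * pos (l ω') (t ω') j - fl s (pos (l ω') (qa s (t ω'))) j) =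
        2 ^ s * (pos (l ω) (t ω) j - pos (l ω') (t ω') j) := by ring
      rw [e6, abs_mul, abs_of_pos (by positivity)]
      have e7 : (1 / 2 : ℝ) ^ n = (1 / 2) ^ s * (1 / 2) ^ (n - s) := by rw [← pow_add, Nat.add_sub_cancel' hsn]
      calc (2 : ℝ) ^ s * |pos (l ω) (t ω) j - pos (l ω') (t ω') j| ≤ 2 ^ s * (1 / 2) ^ n := by gcongr
        _ = (2 ^ s * (1 / 2) ^ s) * (1 / 2) ^ (n - s) := by rw [e7]; ring
        _ = (1 : ℕ) * (1 / 2) ^ (n - s) := by rw [← mul_pow]; norm_num)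
    refine this.trans (le_of_eq ?_)
    rw [Fintype.card_fin]
    norm_num
  have h3 := hc_pair_le P (fun ω => fl1 (n - s) (Int.fract ((2 : ℝ) ^ s * t ω)))
    (fun ω => fl (n - s) (pos ((fun j => Int.fract ((2 : ℝ) ^ s * pos (l ω) (qa s (t ω)) j), (l ω).2) : Ln)
        (Int.fract ((2 : ℝ) ^ s * t ω)))) (fun ω => (fl s (pos (l ω) (qa s (t ω))), Z ω))
  have h4 : Stk.hc P (fun ω => pq (n - s) (Int.fract ((2 : ℝ) ^ s * t ω),
      pos ((fun j => Int.fract ((2 : ℝ) ^ s * pos (l ω) (qa s (t ω)) j), (l ω).2) : Ln)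
        (Int.fract ((2 : ℝ) ^ s * t ω)))) (fun ω => (fl s (pos (l ω) (qa s (t ω))), Z ω)) ≤
      Real.log 5 + 2 * Real.log 5 := h3.trans (add_le_add h1 h2)
  linarith

/-- the tube in the ball, given the tubelet, and conversely -/
theorem tube_le {δ : Type*} (s n : ℕ) (hsn : s ≤ n) (l : Ω → Ln) (t : Ω → ℝ) (hl : ∀ ω, 0 < P.w ω → LnOk (l ω))
    (C : Ω → δ) :
    Stk.hc P (fun ω => (tb (n - s) ((fun j => Int.fract ((2 : ℝ) ^ s * pos (l ω) (qa s (t ω)) j), (l ω).2) : Ln),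
      (pq s (t ω, pos (l ω) (t ω)), C ω)))
      (fun ω => ((fl1 s (t ω), fl n (pos (l ω) (qa s (t ω))), fl (n - s) (l ω).2), C ω)) ≤ 2 * Real.log 9 := by
  set Z := fun ω => ((fl1 s (t ω), fl n (pos (l ω) (qa s (t ω))), fl (n - s) (l ω).2), C ω) with hZ
  have h1 : Stk.hc P (fun ω => fl s (pos (l ω) (t ω))) Z ≤ 2 * Real.log 9 := by
    have h := hc_fl_apx P (ι := Fin 2) s 3 (fun ω => pos (l ω) (t ω)) Z (by
      intro ω ω' p p' e j
      have e1 : fl n (pos (l ω) (qa s (t ω))) = fl n (pos (l ω') (qa s (t ω'))) :=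
        congrArg (fun q => q.1.2.1) e
      have a1 := fl_close (fl_of_fl hsn _ _ e1) j
      have a2 : ∀ ω, 0 < P.w ω → |pos (l ω) (qa s (t ω)) j - pos (l ω) (t ω) j| ≤ (1 / 2 : ℝ) ^ s := by
        intro ω hω
        rw [pos_sub, abs_mul]
        have b1 := abs_sub_qa s (t ω)
        have b2 := (hl ω hω).2 j
        rw [abs_sub_comm] at b1
        calc |qa s (t ω) - t ω| * |(l ω).2 j| ≤ (1 / 2 : ℝ) ^ s * 1 := by gcongr
          _ = _ := mul_one _
      have a3 := a2 ω p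
      have a4 := a2 ω' p'
      rw [abs_le] at a1 a3 a4 ⊢
      push_cast
      constructor <;> linarith [a1.1, a1.2, a3.1, a3.2, a4.1, a4.2])
    refine h.trans (le_of_eq ?_)
    rw [Fintype.card_fin]
    norm_num
  have h2 := hc_le_add P (fun ω => (tb (n - s) ((fun j => Int.fract ((2 : ℝ) ^ s * pos (l ω) (qa s (t ω)) j), (l ω).2) : Ln),
      (pq s (t ω, pos (l ω) (t ω)), C ω))) (fun ω => fl s (pos (l ω) (t ω))) Z
  have h3 : Stk.hc P (fun ω => (tb (n - s) ((fun j => Int.fract ((2 : ℝ) ^ s * pos (l ω) (qa s (t ω)) j), (l ω).2) : Ln),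
      (pq s (t ω, pos (l ω) (t ω)), C ω))) (fun ω => (fl s (pos (l ω) (t ω)), Z ω)) = 0 := by
    apply Stk.hc_zero
    intro ω ω' _ _ e
    have e0 : fl s (pos (l ω) (t ω)) = fl s (pos (l ω') (t ω')) := congrArg Prod.fst e
    have e1 : fl1 s (t ω) = fl1 s (t ω') := congrArg (fun q => q.2.1.1) e
    have e2 : fl n (pos (l ω) (qa s (t ω))) = fl n (pos (l ω') (qa s (t ω'))) :=
      congrArg (fun q => q.2.1.2.1) e
    have e3 : fl (n - s) (l ω).2 = fl (n - s) (l ω').2 := congrArg (fun q => q.2.1.2.2) e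
    have e4 : C ω = C ω' := congrArg (fun q => q.2.2) e
    have e5 : fl s (pos (l ω) (qa s (t ω))) = fl s (pos (l ω') (qa s (t ω'))) := fl_of_fl hsn _ _ e2
    have e6 : fl (n - s) (fun j => Int.fract ((2 : ℝ) ^ s * pos (l ω) (qa s (t ω)) j)) =
        fl (n - s) (fun j => Int.fract ((2 : ℝ) ^ s * pos (l ω') (qa s (t ω')) j)) := by
      funext j
      rw [fl_fract, fl_fract, Nat.add_sub_cancel' hsn, e2, e5]
    have e7 : tb (n - s) ((fun j => Int.fract ((2 : ℝ) ^ s * pos (l ω) (qa s (t ω)) j), (l ω).2) : Ln) =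
        tb (n - s) ((fun j => Int.fract ((2 : ℝ) ^ s * pos (l ω') (qa s (t ω')) j), (l ω').2) : Ln) :=
      Prod.ext e6 e3
    have e8 : pq s (t ω, pos (l ω) (t ω)) = pq s (t ω', pos (l ω') (t ω')) := Prod.ext e1 e0
    simp only [e7, e8, e4]
  linarith

end finite

end Vale.Agent.P127.U.LocB

namespace Vale.Agent.P127.U

open Filter Topology Vale.Agent.P127 Vale.Agent.P127.Stk Apx Sys

theorem pLocBall : PLocBall := by
  intro N β hN hJ S γ C l t n s hn hl ht hsn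
  set n' : ℕ → ℕ := fun i => n i - s i with hn'
  have hbs : S.Bd s := bd_mono hn hsn
  have hbn' : S.Bd n' := bd_mono hn (fun i => Nat.sub_le _ _)
  have hl' : LnA (bl s l t) := by
    filter_upwards [hl] with i hi ω hω
    refine ⟨fun j => ?_, (hi ω hω).2⟩
    show |Int.fract _| ≤ 1
    rw [abs_of_nonneg (Int.fract_nonneg _)]
    exact (Int.fract_lt_one _).le
  set t' : S.RV ℝ := LocB.tb' s t with ht'
  have ht01 : T01 t' := Eventually.of_forall fun i ω _ => ⟨Int.fract_nonneg _, (Int.fract_lt_one _).le⟩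
  have hin : InA (tubes n' (bl s l t)) (pt (bl s l t) t') := by
    refine ⟨1, Eventually.of_forall fun i ω _ => ?_⟩
    refine ⟨Int.fract_nonneg _, (Int.fract_lt_one _).le, ?_, ?_⟩
    · have : (fun j => (pt (bl s l t) t' i ω).2 j - pos ((tubes n' (bl s l t) i).l ω) (pt (bl s l t) t' i ω).1 j) =
        fun _ => 0 := by
        funext j
        exact sub_self _
      rw [this]
      simp [co]
    · have : (fun j => (pt (bl s l t) t' i ω).2 j - pos ((tubes n' (bl s l t) i).l ω) (pt (bl s l t) t' i ω).1 j) =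
        fun _ => 0 := by
        funext j
        exact sub_self _
      rw [this]
      simp [co]
  have hJ1 := hJ S _ (Sys.pr (pqs s (pt l t)) C) (bl s l t) (pt (bl s l t) t') n' hbn' hl' hin
  have hnu : S.nu n' = S.nu n - S.nu s := nu_sub hn hsn
  have T1 : Tame (tbs n' (bl s l t)) := tame_tbs hbn' hl'
  have T2 : Tame (dgv n' (dir l)) := tame_dir hbn' hl
  have T3 : Tame (pqs n' (pt (bl s l t) t')) := tame_pt hbn' hl' ht01
  have T4 : Tame (dg n t) := tame_dg hn ht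
  have A : S.hc (dgv n' (dir l)) (Sys.pr (pqs n (pt l t)) C) ≤
      S.hc (tbs n' (bl s l t)) (Sys.pr (pqs n' (pt (bl s l t) t')) (Sys.pr (pqs s (pt l t)) C)) := by
    refine hc_cmp_sys T2 T1 (2 * Real.log 9 + (Real.log 5 + 2 * Real.log 5)) ?_
    filter_upwards [hl] with i hi
    have z1 : Stk.hc (S.P i) (dgv n' (dir l) i) (fun ω => (tbs n' (bl s l t) i ω, (Sys.pr (pqs n (pt l t)) C) i ω)) = 0 := by
      apply Stk.hc_zero
      intro ω ω' _ _ e
      exact congrArg (fun q => q.1.2) e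
    have z2 : Stk.hc (S.P i) ((Sys.pr (pqs n' (pt (bl s l t) t')) (Sys.pr (pqs s (pt l t)) C)) i)
        ((Sys.pr (pqs n (pt l t)) C) i) ≤ 2 * Real.log 9 + (Real.log 5 + 2 * Real.log 5) := by
      have b1 := hc_pair_le (S.P i) (pqs n' (pt (bl s l t) t') i) ((Sys.pr (pqs s (pt l t)) C) i)
        ((Sys.pr (pqs n (pt l t)) C) i)
      have b2 : Stk.hc (S.P i) ((Sys.pr (pqs s (pt l t)) C) i) ((Sys.pr (pqs n (pt l t)) C) i) = 0 := by
        apply Stk.hc_zero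
        intro ω ω' _ _ e
        have e1 : pqs n (pt l t) i ω = pqs n (pt l t) i ω' := congrArg Prod.fst e
        have e2 : C i ω = C i ω' := congrArg Prod.snd e
        have e3 : fl1 (n i) (t i ω) = fl1 (n i) (t i ω') := congrArg Prod.fst e1
        have e4 : fl (n i) (pos (l i ω) (t i ω)) = fl (n i) (pos (l i ω') (t i ω')) := congrArg Prod.snd e1
        have e5 : pqs s (pt l t) i ω = pqs s (pt l t) i ω' :=
          Prod.ext (fl1_of_fl1 (hsn i) e3) (fl_of_fl (hsn i) _ _ e4)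
        exact Prod.ext e5 e2
      have b3 := LocB.point_le (S.P i) (s i) (n i) (hsn i) (l i) (t i) hi ((Sys.pr (pqs n (pt l t)) C) i) (by
        intro ω ω' _ _ e
        have e1 : pqs n (pt l t) i ω = pqs n (pt l t) i ω' := congrArg Prod.fst e
        exact ⟨congrArg Prod.fst e1, congrArg Prod.snd e1⟩)
      have b4 : Stk.hc (S.P i) (pqs n' (pt (bl s l t) t') i) ((Sys.pr (pqs n (pt l t)) C) i) ≤
          2 * Real.log 9 + (Real.log 5 + 2 * Real.log 5) := b3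
      have b5 : Stk.hc (S.P i) ((Sys.pr (pqs n' (pt (bl s l t) t')) (Sys.pr (pqs s (pt l t)) C)) i)
        ((Sys.pr (pqs n (pt l t)) C) i) ≤ _ := b1
      linarith
    linarith
  have B : S.hc (dg n t) (Sys.pr (tl s n l t) C) ≤
      S.hc (pqs n' (pt (bl s l t) t')) (Sys.pr (tbs n' (bl s l t)) (Sys.pr (pqs s (pt l t)) C)) := by
    refine hc_cmp_sys T4 T3 (2 * Real.log 9) ?_
    filter_upwards [hl] with i hi
    have z1 : Stk.hc (S.P i) (dg n t i) (fun ω => (pqs n' (pt (bl s l t) t') i ω, (Sys.pr (tl s n l t) C) i ω)) = 0 := by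
      apply Stk.hc_zero
      intro ω ω' _ _ e
      have e1 : fl1 (n i - s i) (Int.fract ((2 : ℝ) ^ s i * t i ω)) = fl1 (n i - s i) (Int.fract ((2 : ℝ) ^ s i * t i ω')) :=
        congrArg (fun q => q.1.1) e
      have e2 : fl1 (s i) (t i ω) = fl1 (s i) (t i ω') := congrArg (fun q => q.2.1.1) e
      have f1 : ∀ x : ℝ, fl1 (n i - s i) (Int.fract ((2 : ℝ) ^ s i * x)) = fl1 (n i) x - 2 ^ (n i - s i) * fl1 (s i) x := by
        intro x
        have := fl_fract (s i) (n i - s i) (fun _ : Unit => x) ()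
        rw [Nat.add_sub_cancel' (hsn i)] at this
        exact this
      rw [f1, f1, e2] at e1
      show fl1 (n i) (t i ω) = fl1 (n i) (t i ω')
      linarith
    have z2 := LocB.tube_le (S.P i) (s i) (n i) (hsn i) (l i) (t i) hi (C i)
    have z3 : Stk.hc (S.P i) ((Sys.pr (tbs n' (bl s l t)) (Sys.pr (pqs s (pt l t)) C)) i) ((Sys.pr (tl s n l t) C) i) ≤
        2 * Real.log 9 := z2
    linarith
  rw [hnu] at hJ1
  have hB := mul_le_mul_of_nonneg_left B hN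
  calc S.hc (dgv n' (dir l)) (Sys.pr (pqs n (pt l t)) C) ≤ _ := A
    _ ≤ _ := hJ1
    _ ≤ _ := by
        have e1 : N * (S.nu n - S.nu s - S.hc (pqs n' (pt (bl s l t) t')) (Sys.pr (tbs n' (bl s l t)) (Sys.pr (pqs s (pt l t)) C))) ≤
          N * (S.nu n - S.nu s - S.hc (dg n t) (Sys.pr (tl s n l t) C)) := by
          apply mul_le_mul_of_nonneg_left _ hN
          linarith
        linarith

end Vale.Agent.P127.U
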