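import Vale.Agent.P127.U.StrF
import Vale.Agent.P127.U.C1
import Vale.Agent.P127.U.Lam.Exc

/-!
# P127 / U / MJ : meet and join of two boxes (helper499)

Two boxes `A`, `A'` of the same shape `(k, j)` around the same line, `s` = level of the angle
(`|sin| ≈ 2^-s`, `s ≤ j - k`).  Meet `M = (j - s, j)`, join `J = (k, k + s)`.

* `hc_gauge` : a label is known (up to a bounded number of values) if its gauge and line are
* `exists_mj` : meet and join for systems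
* `sub_hc` : `h(X | A, C) + h(X | A', C) ≤ h(X | M, C) + h(X | J, C)` if `A'` and `A` are independent
  given `(X, C)`
* `sub_vall` : strict submodularity of the penalised value
-/

set_option autoImplicit false

namespace Vale.Agent.P127.U.MJ

open Filter Topology Vale.Agent.P127 Vale.Agent.P127.Stk Vale.Agent.P127.U Sys Str

section finite

variable {Ω : Type} [Fintype Ω] {γ : Type*}

/-- constant of the label count -/
noncomputable def Kc (m : ℕ) : ℝ := Real.log (((2 * m + 1) * ((2 * m + 1) * (7 *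
  ((2 * (2 ^ (2 * m + 1) + 1) + 1) * (2 * (2 ^ (2 * m + 1) + 1) + 1) ^ 4))) : ℕ) : ℝ)

/-- a label is known if its gauge and its line are known -/
theorem hc_gauge (P : Law Ω) (X : Bx Ω) (Z : Ω → γ) (m : ℕ)
    (hX : ∀ ω, 0 < P.w ω → |X.θ ω| ≤ 4 ∧ X.k ω ≤ X.j ω)
    (h : ∀ ω ω', 0 < P.w ω → 0 < P.w ω' → Z ω' = Z ω →
      (∀ v, bg X ω' v ≤ ((2:ℝ) ^ m) ^ 2 * bg X ω v) ∧
      bg X ω (fun i => (X.l ω').1 i - (X.l ω).1 i) ≤ ((2:ℝ) ^ m) ^ 2 ∧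
      bg X ω (fun i => (X.l ω').2 i - (X.l ω).2 i) ≤ ((2:ℝ) ^ m) ^ 2) :
    Stk.hc P X.lab Z ≤ Kc m := by
  refine Stk.hc_le_log P _ _ _ fun ω hω => ?_
  refine ⟨labF m (2 ^ (2 * m + 1) + 1) (X.θ ω) (X.k ω) (X.j ω) (X.l ω), card_labF _ _ _ _ _ _, ?_⟩
  intro ω' hω' e
  obtain ⟨a1, a2⟩ := hX ω hω
  obtain ⟨a1', a2'⟩ := hX ω' hω'
  obtain ⟨b1, b2, b3⟩ := h ω ω' hω hω' e
  obtain ⟨b1', -, -⟩ := h ω' ω hω' hω e.symm
  exact lab_mem a1 a1' a2 a2' b1 b1' b2 b3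

omit [Fintype Ω] in
/-- consequences of the equality of labels -/
theorem gauge_of_lab {A : Bx Ω} {ω ω' : Ω} (h : A.k ω ≤ A.j ω) (e : A.lab ω' = A.lab ω) :
    A.k ω' = A.k ω ∧ A.j ω' = A.j ω ∧ |Real.sin (A.θ ω' - A.θ ω)| ≤ (1 / 2 : ℝ) ^ (A.j ω - A.k ω) ∧
      bg A ω (fun i => (A.l ω').1 i - (A.l ω).1 i) ≤ 8 ∧ bg A ω (fun i => (A.l ω').2 i - (A.l ω).2 i) ≤ 8 := by
  unfold Bx.lab lab at e
  simp only [Prod.mk.injEq] at e
  obtain ⟨ek, ej, eθ, ex, ey⟩ := e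
  rw [ek, ej] at eθ ex ey
  have eq' : qa (A.j ω - A.k ω) (A.θ ω') = qa (A.j ω - A.k ω) (A.θ ω) := by unfold qa; rw [eθ]
  rw [eq'] at ex ey
  exact ⟨ek, ej, sin_of_fl1 eθ, gq_dig h ex, gq_dig h ey⟩

/-- the label of a meet is known from the two labels -/
theorem hc_meet (P : Law Ω) (A A' M : Bx Ω) (Y : Ω → γ) (m : ℕ)
    (hA : ∀ ω, 0 < P.w ω → A.k ω ≤ A.j ω ∧ A'.k ω ≤ A'.j ω ∧ A'.l ω = A.l ω)
    (hM : ∀ ω, 0 < P.w ω → |M.θ ω| ≤ 4 ∧ M.k ω ≤ M.j ω ∧ M.l ω = A.l ω ∧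
      (∀ v, bg M ω v ≤ ((2:ℝ) ^ m) ^ 2 * (bg A ω v + bg A' ω v)) ∧
      ∀ v, bg A ω v + bg A' ω v ≤ ((2:ℝ) ^ m) ^ 2 * bg M ω v) :
    Stk.hc P M.lab (fun ω => (A.lab ω, (A'.lab ω, Y ω))) ≤ Kc (2 * m + 2) := by
  refine hc_gauge P M _ _ (fun ω hω => ⟨(hM ω hω).1, (hM ω hω).2.1⟩) ?_
  intro ω ω' hω hω' e
  simp only [Prod.mk.injEq] at e
  obtain ⟨e1, e2, -⟩ := e
  obtain ⟨a1, a2, a3⟩ := hA ω hω
  obtain ⟨a1', a2', a3'⟩ := hA ω' hω'
  obtain ⟨-, -, m3, m4, m5⟩ := hM ω hω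
  obtain ⟨-, -, m3', m4', m5'⟩ := hM ω' hω'
  obtain ⟨c1, c2, c3, c4, c5⟩ := gauge_of_lab a1 e1
  obtain ⟨d1, d2, d3, d4, d5⟩ := gauge_of_lab a2 e2
  have r1 : ∀ v, bg A ω' v ≤ 4 * bg A ω v := by
    intro v
    unfold bg
    rw [c1, c2]
    exact gq_rot a1 c3 v
  have r2 : ∀ v, bg A' ω' v ≤ 4 * bg A' ω v := by
    intro v
    unfold bg
    rw [d1, d2]
    exact gq_rot a2 d3 v
  have p1 : (1:ℝ) ≤ 2 ^ m := one_le_pow₀ (by norm_num)
  have e5 : ((2:ℝ) ^ (2 * m + 2)) ^ 2 = ((2:ℝ) ^ m) ^ 2 * (16 * ((2:ℝ) ^ m) ^ 2) := by ring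
  refine ⟨fun v => ?_, ?_, ?_⟩
  · calc bg M ω' v ≤ ((2:ℝ) ^ m) ^ 2 * (bg A ω' v + bg A' ω' v) := m4' v
      _ ≤ ((2:ℝ) ^ m) ^ 2 * (4 * (bg A ω v + bg A' ω v)) := by
          have := r1 v
          have := r2 v
          gcongr
          linarith
      _ ≤ ((2:ℝ) ^ m) ^ 2 * (4 * (((2:ℝ) ^ m) ^ 2 * bg M ω v)) := by
          have := m5 v
          gcongr
      _ ≤ _ := by
          rw [e5]
          have := bg_nonneg M ω v
          have : 0 ≤ ((2:ℝ) ^ m) ^ 2 * ((2:ℝ) ^ m) ^ 2 * bg M ω v := by positivity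
          linarith
  · rw [m3, m3']
    refine (m4 _).trans ?_
    have h2 : bg A' ω (fun i => (A.l ω').1 i - (A.l ω).1 i) ≤ 8 := by rw [← a3, ← a3']; exact d4
    rw [e5]
    calc ((2:ℝ) ^ m) ^ 2 * (bg A ω (fun i => (A.l ω').1 i - (A.l ω).1 i) + bg A' ω (fun i => (A.l ω').1 i - (A.l ω).1 i))
        ≤ ((2:ℝ) ^ m) ^ 2 * (8 + 8) := by gcongr
      _ ≤ _ := by gcongr; nlinarith
  · rw [m3, m3']
    refine (m4 _).trans ?_
    have h2 : bg A' ω (fun i => (A.l ω').2 i - (A.l ω).2 i) ≤ 8 := by rw [← a3, ← a3']; exact d5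
    rw [e5]
    calc ((2:ℝ) ^ m) ^ 2 * (bg A ω (fun i => (A.l ω').2 i - (A.l ω).2 i) + bg A' ω (fun i => (A.l ω').2 i - (A.l ω).2 i))
        ≤ ((2:ℝ) ^ m) ^ 2 * (8 + 8) := by gcongr
      _ ≤ _ := by gcongr; nlinarith

/-- the label of a coarser box of the same width is known -/
theorem hc_join (P : Law Ω) (A J : Bx Ω) (s : Ω → ℕ) (Y : Ω → γ)
    (hJ : ∀ ω, 0 < P.w ω → A.k ω ≤ A.j ω ∧ |J.θ ω| ≤ 4 ∧ J.l ω = A.l ω ∧ J.k ω = A.k ω ∧ J.j ω = A.k ω + s ω ∧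
      s ω ≤ A.j ω - A.k ω ∧ |Real.sin (J.θ ω - A.θ ω)| ≤ (1 / 2 : ℝ) ^ s ω) :
    Stk.hc P J.lab (fun ω => (s ω, (A.lab ω, Y ω))) ≤ Kc 3 := by
  refine hc_gauge P J _ _ (fun ω hω => ⟨(hJ ω hω).2.1, ?_⟩) ?_
  · obtain ⟨-, -, -, h1, h2, -⟩ := hJ ω hω
    rw [h1, h2]
    omega
  intro ω ω' hω hω' e
  simp only [Prod.mk.injEq] at e
  obtain ⟨es, e1, -⟩ := e
  obtain ⟨a1, -, a3, a4, a5, a6, a7⟩ := hJ ω hω
  obtain ⟨a1', -, a3', a4', a5', a6', a7'⟩ := hJ ω' hω'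
  obtain ⟨c1, c2, c3, c4, c5⟩ := gauge_of_lab a1 e1
  have hs : A.k ω ≤ A.k ω + s ω := by omega
  have hd : A.k ω + s ω - A.k ω = s ω := by omega
  have hsub : ∀ v, gq (A.θ ω) (A.k ω) (A.k ω + s ω) v ≤ bg A ω v := fun v => gq_mono le_rfl (by omega) v
  have q1 : ∀ v, bg J ω v ≤ 4 * gq (A.θ ω) (A.k ω) (A.k ω + s ω) v := by
    intro v
    unfold bg
    rw [a4, a5]
    exact gq_rot hs (by rw [hd]; exact a7) v
  have q1' : ∀ v, gq (A.θ ω) (A.k ω) (A.k ω + s ω) v ≤ 4 * bg J ω v := by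
    intro v
    unfold bg
    rw [a4, a5]
    refine gq_rot hs ?_ v
    rw [hd]
    have e0 : A.θ ω - J.θ ω = -(J.θ ω - A.θ ω) := by ring
    rwa [e0, Real.sin_neg, abs_neg]
  have q2 : ∀ v, bg J ω' v ≤ 4 * gq (A.θ ω') (A.k ω) (A.k ω + s ω) v := by
    intro v
    unfold bg
    rw [a4', a5', c1, es]
    refine gq_rot hs ?_ v
    rw [hd, ← es]
    exact a7'
  have q3 : ∀ v, gq (A.θ ω') (A.k ω) (A.k ω + s ω) v ≤ 4 * gq (A.θ ω) (A.k ω) (A.k ω + s ω) v := by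
    intro v
    refine gq_rot hs ?_ v
    rw [hd]
    exact c3.trans (pow_le_pow_of_le_one (by norm_num) (by norm_num) a6)
  refine ⟨fun v => ?_, ?_, ?_⟩
  · have h1 := q2 v
    have h2 := q3 v
    have h3 := q1' v
    calc bg J ω' v ≤ 4 * (4 * (4 * bg J ω v)) := by linarith
      _ = _ := by norm_num; ring
  · rw [a3, a3']
    have h1 := (q1 _).trans (mul_le_mul_of_nonneg_left ((hsub _).trans c4) (by norm_num))
    refine h1.trans (by norm_num)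
  · rw [a3, a3']
    have h1 := (q1 _).trans (mul_le_mul_of_nonneg_left ((hsub _).trans c5) (by norm_num))
    refine h1.trans (by norm_num)

end finite

/-- level of an angle, at most `N` -/
noncomputable def agl (x : ℝ) (N : ℕ) : ℕ := by
  classical exact Nat.findGreatest (fun s => |Real.sin x| ≤ (1 / 2 : ℝ) ^ s) N

theorem agl_le (x : ℝ) (N : ℕ) : agl x N ≤ N := by
  classical
  unfold agl
  exact Nat.findGreatest_le N

theorem agl_up (x : ℝ) (N : ℕ) : |Real.sin x| ≤ (1 / 2 : ℝ) ^ agl x N := by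
  classical
  unfold agl
  exact Nat.findGreatest_spec (P := fun s => |Real.sin x| ≤ (1 / 2 : ℝ) ^ s) (Nat.zero_le N)
    (by simpa using Real.abs_sin_le_one x)

theorem agl_low (x : ℝ) (N : ℕ) : agl x N = N ∨ (1 / 2 : ℝ) ^ (agl x N + 1) < |Real.sin x| := by
  classical
  rcases (agl_le x N).eq_or_lt with h | h
  · exact Or.inl h
  · refine Or.inr ?_
    unfold agl at h ⊢
    have := Nat.findGreatest_is_greatest (P := fun s => |Real.sin x| ≤ (1 / 2 : ℝ) ^ s)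
      (Nat.lt_succ_self _) (Nat.succ_le_of_lt h)
    exact not_le.1 this

/-- the inequality for the meet -/
theorem quad_meet {a b d c0 c1 sn cn : ℝ} (ha : 0 ≤ a) (hab : a ≤ b) (hbd : b ≤ d) (t : sn ^ 2 + cn ^ 2 = 1)
    (up : (d * sn) ^ 2 ≤ b ^ 2) (low : b = a ∨ b ^ 2 ≤ 4 * (d * sn) ^ 2) :
    (b * c0) ^ 2 + (d * c1) ^ 2 ≤ 16 * (((a * c0) ^ 2 + (d * c1) ^ 2) +
      ((a * (cn * c0 + sn * c1)) ^ 2 + (d * (-sn * c0 + cn * c1)) ^ 2)) ∧
    ((a * c0) ^ 2 + (d * c1) ^ 2) + ((a * (cn * c0 + sn * c1)) ^ 2 + (d * (-sn * c0 + cn * c1)) ^ 2) ≤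
      16 * ((b * c0) ^ 2 + (d * c1) ^ 2) := by
  have hcn : cn ^ 2 ≤ 1 := by nlinarith [sq_nonneg sn]
  have hb0 : 0 ≤ b := ha.trans hab
  have x1 : (cn * (d * c1)) ^ 2 ≤ (d * c1) ^ 2 := by
    rw [mul_pow]
    exact mul_le_of_le_one_left (sq_nonneg _) hcn
  obtain ⟨x, hx⟩ : ∃ x, x = cn * (d * c1) := ⟨_, rfl⟩
  obtain ⟨y, hy⟩ : ∃ y, y = d * (-sn * c0 + cn * c1) := ⟨_, rfl⟩
  obtain ⟨z, hz⟩ : ∃ z, z = a * (cn * c0 + sn * c1) := ⟨_, rfl⟩
  obtain ⟨p, hp⟩ : ∃ p, p = d * c1 := ⟨_, rfl⟩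
  obtain ⟨q, hq⟩ : ∃ q, q = b * c0 := ⟨_, rfl⟩
  obtain ⟨r, hr⟩ : ∃ r, r = a * c0 := ⟨_, rfl⟩
  have e3 : d * sn * c0 = x - y := by rw [hx, hy]; ring
  have h4 : (x - y) ^ 2 ≤ 2 * x ^ 2 + 2 * y ^ 2 := by nlinarith [sq_nonneg (x + y)]
  have ey : y = x - d * sn * c0 := by rw [e3]; ring
  have z2 : z ^ 2 ≤ q ^ 2 + p ^ 2 := by
    have h1 : (cn * c0 + sn * c1) ^ 2 ≤ c0 ^ 2 + c1 ^ 2 := by
      have h2 : (cn * c0 + sn * c1) ^ 2 + (-sn * c0 + cn * c1) ^ 2 = (sn ^ 2 + cn ^ 2) * (c0 ^ 2 + c1 ^ 2) := by ring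
      rw [t, one_mul] at h2
      linarith [sq_nonneg (-sn * c0 + cn * c1)]
    have hab2 : a ^ 2 ≤ b ^ 2 := pow_le_pow_left₀ ha hab 2
    have hbd2 : b ^ 2 ≤ d ^ 2 := pow_le_pow_left₀ hb0 hbd 2
    rw [hz, hq, hp, mul_pow, mul_pow b, mul_pow d]
    calc a ^ 2 * (cn * c0 + sn * c1) ^ 2 ≤ a ^ 2 * (c0 ^ 2 + c1 ^ 2) := by gcongr
      _ = a ^ 2 * c0 ^ 2 + a ^ 2 * c1 ^ 2 := by ring
      _ ≤ b ^ 2 * c0 ^ 2 + d ^ 2 * c1 ^ 2 := by
        have := hab2.trans hbd2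
        gcongr
  have r2 : r ^ 2 ≤ q ^ 2 := by
    rw [hr, hq, mul_pow, mul_pow]
    gcongr
  have u2 : (d * sn * c0) ^ 2 ≤ q ^ 2 := by
    rw [hq, mul_pow (d * sn), mul_pow b]
    gcongr
  have y2 : y ^ 2 ≤ 2 * x ^ 2 + 2 * (d * sn * c0) ^ 2 := by
    rw [ey]
    nlinarith [sq_nonneg (x + d * sn * c0)]
  have q2 : q ^ 2 ≤ r ^ 2 ∨ q ^ 2 ≤ 4 * (d * sn * c0) ^ 2 := by
    rcases low with h | h
    · left
      rw [hq, hr, h]
    · right
      rw [hq, mul_pow b, mul_pow (d * sn)]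
      calc b ^ 2 * c0 ^ 2 ≤ (4 * (d * sn) ^ 2) * c0 ^ 2 := by gcongr
        _ = _ := by ring
  rw [← hx, ← hp] at x1
  rw [← hy, ← hz, ← hp, ← hq, ← hr]
  rw [← e3] at h4
  have n1 := sq_nonneg x
  have n2 := sq_nonneg y
  have n3 := sq_nonneg z
  have n4 := sq_nonneg p
  have n5 := sq_nonneg q
  have n6 := sq_nonneg r
  generalize (d * sn * c0) ^ 2 = w at *
  generalize x ^ 2 = x' at *
  generalize y ^ 2 = y' at *
  generalize z ^ 2 = z' at *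
  generalize p ^ 2 = p' at *
  generalize q ^ 2 = q' at *
  generalize r ^ 2 = r' at *
  constructor
  · rcases q2 with h | h <;> linarith
  · linarith

/-- the gauge of the meet -/
theorem gq_meet {θ θ' : ℝ} {k j s : ℕ} (hs : s ≤ j - k) (hkj : k ≤ j)
    (hup : |Real.sin (θ' - θ)| ≤ (1 / 2 : ℝ) ^ s)
    (hlow : s = j - k ∨ (1 / 2 : ℝ) ^ (s + 1) < |Real.sin (θ' - θ)|) (v : Fin 2 → ℝ) :
    gq θ (j - s) j v ≤ ((2:ℝ) ^ 2) ^ 2 * (gq θ k j v + gq θ' k j v) ∧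
      gq θ k j v + gq θ' k j v ≤ ((2:ℝ) ^ 2) ^ 2 * gq θ (j - s) j v := by
  have t : Real.sin (θ' - θ) ^ 2 + Real.cos (θ' - θ) ^ 2 = 1 := Real.sin_sq_add_cos_sq _
  have e1 : (2:ℝ) ^ j = 2 ^ (j - s) * 2 ^ s := by rw [← pow_add]; congr 1; omega
  have e2 : (1 / 2 : ℝ) ^ s * 2 ^ s = 1 := by rw [← mul_pow]; norm_num
  have hk1 : (2:ℝ) ^ k ≤ 2 ^ (j - s) := pow_le_pow_right₀ (by norm_num) (by omega)
  have hk2 : (2:ℝ) ^ (j - s) ≤ 2 ^ j := pow_le_pow_right₀ (by norm_num) (by omega)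
  have up1 : (2:ℝ) ^ j * |Real.sin (θ' - θ)| ≤ 2 ^ (j - s) := by
    calc (2:ℝ) ^ j * |Real.sin (θ' - θ)| ≤ 2 ^ j * (1 / 2 : ℝ) ^ s := by gcongr
      _ = 2 ^ (j - s) * ((1 / 2 : ℝ) ^ s * 2 ^ s) := by rw [e1]; ring
      _ = _ := by rw [e2, mul_one]
  have low1 : (2:ℝ) ^ (j - s) = 2 ^ k ∨ ((2:ℝ) ^ (j - s)) ^ 2 ≤ 4 * (2 ^ j * Real.sin (θ' - θ)) ^ 2 := by
    rcases hlow with h | h
    · refine Or.inl ?_
      congr 1
      omega
    · refine Or.inr ?_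
      have h2 : (1 / 2 : ℝ) ^ s ≤ 2 * |Real.sin (θ' - θ)| := by
        rw [pow_succ] at h
        linarith
      have h3 : (2:ℝ) ^ (j - s) ≤ 2 * (2 ^ j * |Real.sin (θ' - θ)|) := by
        calc (2:ℝ) ^ (j - s) = 2 ^ (j - s) * ((1 / 2 : ℝ) ^ s * 2 ^ s) := by rw [e2, mul_one]
          _ = (2 ^ (j - s) * 2 ^ s) * (1 / 2 : ℝ) ^ s := by ring
          _ = 2 ^ j * (1 / 2 : ℝ) ^ s := by rw [e1]
          _ ≤ 2 ^ j * (2 * |Real.sin (θ' - θ)|) := by gcongr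
          _ = _ := by ring
      calc ((2:ℝ) ^ (j - s)) ^ 2 ≤ (2 * (2 ^ j * |Real.sin (θ' - θ)|)) ^ 2 := pow_le_pow_left₀ (by positivity) h3 2
        _ = _ := by rw [mul_pow, mul_pow, sq_abs]; ring
  have up2 : (2 ^ j * Real.sin (θ' - θ)) ^ 2 ≤ ((2:ℝ) ^ (j - s)) ^ 2 := by
    calc (2 ^ j * Real.sin (θ' - θ)) ^ 2 = ((2:ℝ) ^ j * |Real.sin (θ' - θ)|) ^ 2 := by rw [mul_pow, mul_pow, sq_abs]
      _ ≤ _ := pow_le_pow_left₀ (by positivity) up1 2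
  have := quad_meet (c0 := co θ v 0) (c1 := co θ v 1) (by positivity) hk1 hk2 t up2 low1
  unfold gq
  rw [co_rot0 θ θ' v, co_rot1 θ θ' v]
  have e16 : ((2:ℝ) ^ 2) ^ 2 = 16 := by norm_num
  rw [e16]
  exact this

section systems

variable {S : Sys} {B A A' : S.BX}

/-- levels have zero entropy -/
theorem hc_level' {G : S.RV ℕ} {c : ℝ} (h : S.Ae fun i ω => (G i ω : ℝ) ≤ c * S.L i) {T : Type} (Y : S.RV T) :
    S.hc G Y = 0 ∧ Tame G := by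
  set c' := max c 0 with hc'
  let n : ℕ → ℕ := fun i => ⌈c' * S.L i⌉₊
  have hn : S.Bd n := by
    refine ⟨c' + 1, ?_⟩
    filter_upwards [S.L_pos] with i hi
    have h1 : (1:ℝ) ≤ S.L i := by exact_mod_cast hi
    have h2 : (0:ℝ) ≤ c' * S.L i := by positivity
    have h3 := (Nat.ceil_lt_add_one h2).le
    show ((⌈c' * S.L i⌉₊ : ℕ) : ℝ) ≤ _
    linarith
  have hle : S.Ae fun i ω => G i ω ≤ n i := by
    filter_upwards [h] with i hi ω hω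
    have h1 : (G i ω : ℝ) ≤ c' * S.L i := (hi ω hω).trans (by gcongr; exact le_max_left _ _)
    exact_mod_cast h1.trans (Nat.le_ceil _)
  constructor
  · have h1 : S.hc (fun i ω => min (G i ω) (n i)) Y = 0 :=
      C1.hc_level hn (fun i ω => min (G i ω) (n i)) (fun i ω => min_le_right _ _) Y
    rw [← h1]
    refine hc_congr ?_ ?_ (Eventually.of_forall fun _ _ _ _ _ e => e) (Eventually.of_forall fun _ _ _ _ _ e => e)
    · filter_upwards [hle] with i hi ω ω' hω hω' e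
      have e1 : min (G i ω) (n i) = min (G i ω') (n i) := congrArg Prod.fst e
      rwa [min_eq_left (hi ω hω), min_eq_left (hi ω' hω')] at e1
    · exact Eventually.of_forall fun i ω ω' _ _ e => by
        have e1 : G i ω = G i ω' := congrArg Prod.fst e
        show min (G i ω) (n i) = min (G i ω') (n i)
        rw [e1]
  · obtain ⟨d, hd⟩ := hn
    have hl : 0 < Real.log 2 := Real.log_pos (by norm_num)
    refine ⟨d / Real.log 2, ?_⟩
    filter_upwards [hle, hd] with i h1 h2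
    have h3 : Stk.hc (S.P i) (G i) (fun _ => ()) ≤ Real.log ((n i + 1 : ℕ) : ℝ) := by
      refine Stk.hc_le_log _ _ _ _ fun ω hω => ⟨Finset.range (n i + 1), by simp, fun ω' hω' _ => ?_⟩
      rw [Finset.mem_range]
      exact Nat.lt_succ_of_le (h1 ω' hω')
    rw [hc_unit] at h3
    refine h3.trans ?_
    have h4 : Real.log ((n i + 1 : ℕ) : ℝ) ≤ n i := by
      push_cast
      have := Real.log_le_sub_one_of_pos (show (0:ℝ) < (n i : ℝ) + 1 by positivity)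
      linarith
    refine h4.trans (h2.trans (le_of_eq ?_))
    unfold Sys.nm
    field_simp

/-- **meet and join of two boxes of the same shape** -/
theorem exists_mj (hB : BxA B) (hA : SubA B A) (hA' : SubA B A')
    (hsh : S.Ae fun i ω => (A' i).k ω = (A i).k ω ∧ (A' i).j ω = (A i).j ω) :
    ∃ (M J : S.BX) (s : S.RV ℕ), BxA M ∧ BxA J ∧ SubA B M ∧ SubA B J ∧
      (∀ (γ : Type) (Y : S.RV γ), S.hc M.lab (Sys.pr A.lab (Sys.pr A'.lab Y)) = 0) ∧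
      (∀ (γ : Type) (Y : S.RV γ), S.hc J.lab (Sys.pr A.lab Y) = 0) ∧
      (∀ (γ : Type) (Y : S.RV γ), S.hc J.lab (Sys.pr A'.lab Y) = 0) ∧
      (S.Ae fun i ω => s i ω ≤ (A i).j ω - (A i).k ω ∧
        |Real.sin ((A' i).θ ω - (A i).θ ω)| ≤ (1 / 2 : ℝ) ^ s i ω ∧
        (s i ω = (A i).j ω - (A i).k ω ∨ (1 / 2 : ℝ) ^ (s i ω + 1) < |Real.sin ((A' i).θ ω - (A i).θ ω)|)) ∧
      ∃ c : ℕ, S.Ae fun i ω => (J i).k ω = (A i).k ω ∧ (J i).j ω = (A i).k ω + s i ω ∧ (M i).j ω = (A i).j ω ∧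
        (M i).k ω ≤ (A i).j ω - s i ω ∧ (A i).j ω - s i ω ≤ (M i).k ω + c := by
  have hbA := bxA_of_sub hB hA
  have hbA' := bxA_of_sub hB hA'
  obtain ⟨cA, hcA⟩ := hA
  obtain ⟨cA', hcA'⟩ := hA'
  obtain ⟨m1, hm1⟩ : ∃ m1 : ℕ, max cA cA' ≤ 2 ^ m1 := by
    obtain ⟨m1, hm1⟩ := pow_unbounded_of_one_lt (max cA cA') (by norm_num : (1:ℝ) < 2)
    exact ⟨m1, hm1.le⟩
  have hmA : cA ≤ 2 ^ m1 := (le_max_left _ _).trans hm1
  have hmA' : cA' ≤ 2 ^ m1 := (le_max_right _ _).trans hm1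
  let s : S.RV ℕ := fun i ω => agl ((A' i).θ ω - (A i).θ ω) ((A i).j ω - (A i).k ω)
  let M : S.BX := fun i => ⟨(B i).l, (A i).θ, fun ω => min ((A i).j ω - s i ω) ((B i).k ω),
    fun ω => min ((A i).j ω) ((B i).j ω)⟩
  let J : S.BX := fun i => ⟨(A i).l, (A i).θ, (A i).k, fun ω => (A i).k ω + s i ω⟩
  set K := 2 + 1 + (m1 + 1) with hK
  -- the meet
  have key : S.Ae fun i ω => Sub (2 ^ K) (B i) (M i) ω ∧
      (∀ v, bg (M i) ω v ≤ gq ((A i).θ ω) ((A i).j ω - s i ω) ((A i).j ω) v) ∧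
      ∀ v, gq ((A i).θ ω) ((A i).j ω - s i ω) ((A i).j ω) v ≤ ((2:ℝ) ^ K) ^ 2 * bg (M i) ω v := by
    filter_upwards [hB.1, hcA, hcA', hsh, hbA.1] with i g1 g2 g3 g4 g5 ω hω
    have hkj := (g5 ω hω).2.2
    refine sub_of_gq (g1 ω hω).2.2 (g5 ω hω).2.1 (Nat.sub_le _ _) (fun v => ?_) ⟨rfl, rfl, rfl, rfl⟩
    have h1 := (gq_meet (agl_le _ _) hkj (agl_up ((A' i).θ ω - (A i).θ ω) _) (agl_low _ _) v).1
    have h2 : bg (A i) ω v ≤ ((2:ℝ) ^ (m1 + 1)) ^ 2 * bg (B i) ω v := gq_of_sub hmA (g1 ω hω).2.2 (g2 ω hω) v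
    have h3 : bg (A' i) ω v ≤ ((2:ℝ) ^ (m1 + 1)) ^ 2 * bg (B i) ω v := gq_of_sub hmA' (g1 ω hω).2.2 (g3 ω hω) v
    have h4 : gq ((A' i).θ ω) ((A i).k ω) ((A i).j ω) v = bg (A' i) ω v := by
      unfold bg
      rw [(g4 ω hω).1, (g4 ω hω).2]
    rw [h4] at h1
    calc gq ((A i).θ ω) ((A i).j ω - s i ω) ((A i).j ω) v
        ≤ ((2:ℝ) ^ 2) ^ 2 * (bg (A i) ω v + bg (A' i) ω v) := h1
      _ ≤ ((2:ℝ) ^ 2) ^ 2 * (((2:ℝ) ^ (m1 + 1)) ^ 2 * bg (B i) ω v + ((2:ℝ) ^ (m1 + 1)) ^ 2 * bg (B i) ω v) := by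
          gcongr
      _ ≤ ((2:ℝ) ^ K) ^ 2 * bg (B i) ω v := by
          have e5 : ((2:ℝ) ^ K) ^ 2 = 4 * (((2:ℝ) ^ 2) ^ 2 * ((2:ℝ) ^ (m1 + 1)) ^ 2) := by
            rw [hK, pow_add (2:ℝ) (2 + 1) (m1 + 1), pow_add (2:ℝ) 2 1]; ring
          rw [e5]
          have : 0 ≤ ((2:ℝ) ^ 2) ^ 2 * ((2:ℝ) ^ (m1 + 1)) ^ 2 * bg (B i) ω v := by
            have := bg_nonneg (B i) ω v
            positivity
          linarith
  have hsM : SubA B M := ⟨2 ^ K, by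
    filter_upwards [key] with i hi ω hω
    exact (hi ω hω).1⟩
  have hsJ : SubA B J := ⟨max cA 0, by
    filter_upwards [hcA, hbA.1] with i g1 g5 ω hω
    obtain ⟨a1, a2, a3, a4, a5, a6⟩ := g1 ω hω
    have h1 : s i ω ≤ (A i).j ω - (A i).k ω := agl_le _ _
    have h2 : (A i).k ω + s i ω ≤ (A i).j ω := by omega
    refine ⟨a1, a2, Nat.le_add_right _ _, a4, h2.trans a5, ?_⟩
    refine a6.trans ?_
    calc cA * (1 / 2 : ℝ) ^ (A i).j ω ≤ max cA 0 * (1 / 2 : ℝ) ^ (A i).j ω := by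
          gcongr; exact le_max_left _ _
      _ ≤ max cA 0 * (1 / 2 : ℝ) ^ ((A i).k ω + s i ω) := by
          refine mul_le_mul_of_nonneg_left ?_ (le_max_right _ _)
          exact pow_le_pow_of_le_one (by norm_num) (by norm_num) h2⟩
  have hbM := bxA_of_sub hB hsM
  have hbJ := bxA_of_sub hB hsJ
  -- the level has zero entropy
  have hs0 : ∀ {T : Type} (Y : S.RV T), S.hc s Y = 0 ∧ Tame s := by
    intro T Y
    obtain ⟨c, hc⟩ := hbA.2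
    refine hc_level' (c := c) ?_ Y
    filter_upwards [hc] with i hi ω hω
    have h1 : s i ω ≤ (A i).j ω - (A i).k ω := agl_le _ _
    have h2 : (s i ω : ℝ) ≤ (A i).j ω := by exact_mod_cast h1.trans (Nat.sub_le _ _)
    exact h2.trans (hi ω hω)
  refine ⟨M, J, s, hbM, hbJ, hsM, hsJ, fun γ Y => ?_, fun γ Y => ?_, fun γ Y => ?_, ?_, K, ?_⟩
  · refine hc_zero_of_le (Kc (2 * (K + 2) + 2)) ?_
    filter_upwards [hbM.1, hbA.1, hbA'.1, key, hcA, hcA', hsh] with i g1 g2 g3 g4 g5 g6 g7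
    refine hc_meet (S.P i) (A i) (A' i) (M i) (Y i) (K + 2) (fun ω hω => ?_) fun ω hω => ?_
    · exact ⟨(g2 ω hω).2.2, (g3 ω hω).2.2, (g6 ω hω).1.trans (g5 ω hω).1.symm⟩
    · refine ⟨(g1 ω hω).2.1, (g1 ω hω).2.2, (g5 ω hω).1.symm, fun v => ?_, fun v => ?_⟩
      · have h1 := (gq_meet (agl_le _ _) (g2 ω hω).2.2 (agl_up ((A' i).θ ω - (A i).θ ω) _) (agl_low _ _) v).1
        have h4 : gq ((A' i).θ ω) ((A i).k ω) ((A i).j ω) v = bg (A' i) ω v := by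
          unfold bg
          rw [(g7 ω hω).1, (g7 ω hω).2]
        rw [h4] at h1
        calc bg (M i) ω v ≤ _ := (g4 ω hω).2.1 v
          _ ≤ ((2:ℝ) ^ 2) ^ 2 * (bg (A i) ω v + bg (A' i) ω v) := h1
          _ ≤ _ := by
            have := bg_nonneg (A i) ω v
            have := bg_nonneg (A' i) ω v
            gcongr
            · norm_num
            · omega
      · have h1 := (gq_meet (agl_le _ _) (g2 ω hω).2.2 (agl_up ((A' i).θ ω - (A i).θ ω) _) (agl_low _ _) v).2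
        have h4 : gq ((A' i).θ ω) ((A i).k ω) ((A i).j ω) v = bg (A' i) ω v := by
          unfold bg
          rw [(g7 ω hω).1, (g7 ω hω).2]
        rw [h4] at h1
        calc bg (A i) ω v + bg (A' i) ω v ≤ ((2:ℝ) ^ 2) ^ 2 * gq ((A i).θ ω) ((A i).j ω - s i ω) ((A i).j ω) v := h1
          _ ≤ ((2:ℝ) ^ 2) ^ 2 * (((2:ℝ) ^ K) ^ 2 * bg (M i) ω v) := by
            have := (g4 ω hω).2.2 v
            gcongr
          _ = _ := by rw [pow_add (2:ℝ) K 2]; ring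
  · have h1 : S.hc (BX.lab J) (Sys.pr s (Sys.pr (BX.lab A) Y)) = 0 := by
      refine hc_zero_of_le (Kc 3) ?_
      filter_upwards [hbJ.1, hbA.1] with i g1 g2
      refine hc_join (S.P i) (A i) (J i) (s i) (Y i) fun ω hω => ?_
      refine ⟨(g2 ω hω).2.2, (g2 ω hω).2.1, rfl, rfl, rfl, agl_le _ _, ?_⟩
      show |Real.sin ((A i).θ ω - (A i).θ ω)| ≤ _
      rw [sub_self, Real.sin_zero, abs_zero]
      positivity
    rw [hc_cond_zero hbJ.tame (hs0 (Sys.pr (BX.lab A) Y)).2 (hs0 _).1] at h1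
    exact h1
  · have h1 : S.hc (BX.lab J) (Sys.pr s (Sys.pr (BX.lab A') Y)) = 0 := by
      refine hc_zero_of_le (Kc 3) ?_
      filter_upwards [hbJ.1, hbA'.1, hsh, hcA, hcA', hbA.1] with i g1 g2 g3 g4 g5 g6
      refine hc_join (S.P i) (A' i) (J i) (s i) (Y i) fun ω hω => ?_
      obtain ⟨b1, b2⟩ := g3 ω hω
      have h2 : s i ω ≤ (A i).j ω - (A i).k ω := agl_le _ _
      refine ⟨(g2 ω hω).2.2, (g6 ω hω).2.1, (g4 ω hω).1.trans (g5 ω hω).1.symm, b1.symm, ?_, ?_, ?_⟩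
      · show (A i).k ω + s i ω = (A' i).k ω + s i ω
        rw [b1]
      · rw [b1, b2]
        exact h2
      · show |Real.sin ((A i).θ ω - (A' i).θ ω)| ≤ _
        have e0 : (A i).θ ω - (A' i).θ ω = -((A' i).θ ω - (A i).θ ω) := by ring
        rw [e0, Real.sin_neg, abs_neg]
        exact agl_up _ _
    rw [hc_cond_zero hbJ.tame (hs0 (Sys.pr (BX.lab A') Y)).2 (hs0 _).1] at h1
    exact h1
  · filter_upwards [hbA.1] with i g1 ω hω
    exact ⟨agl_le _ _, agl_up _ _, agl_low _ _⟩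
  · filter_upwards [key, hcA, hbA.1, hB.1] with i g1 g2 g3 g4 ω hω
    obtain ⟨b1, b2, b3⟩ := g1 ω hω
    have h1 : (A i).j ω ≤ (B i).j ω := (g2 ω hω).2.2.2.2.1
    have h2 : (M i).j ω = (A i).j ω := min_eq_left h1
    refine ⟨rfl, rfl, h2, min_le_left _ _, ?_⟩
    have hMkj : (M i).k ω ≤ (M i).j ω := b1.2.2.1
    obtain ⟨e1, -, -⟩ := cmp_shape hMkj (Nat.sub_le ((A i).j ω) (s i ω)) b3
    exact e1

variable {δ γ : Type}

/-- **submodularity** : abstract form -/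
theorem sub_hc {α α' μ ι : Type} {X : S.RV δ} {C : S.RV γ} {A : S.RV α} {A' : S.RV α'} {M : S.RV μ} {J : S.RV ι}
    (hX : Tame X) (hA' : Tame A') (hM : Tame M) (hJ : Tame J)
    (h1 : S.hc M (Sys.pr A (Sys.pr A' C)) = 0) (h2 : S.hc J (Sys.pr A C) = 0) (h3 : S.hc J (Sys.pr A' C) = 0)
    (hi : S.hc A' (Sys.pr A (Sys.pr X C)) = S.hc A' (Sys.pr X C)) :
    S.hc X (Sys.pr A C) + S.hc X (Sys.pr A' C) ≤ S.hc X (Sys.pr M C) + S.hc X (Sys.pr J C) := by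
  -- `h(X | M, C) ≥ h(X | A, A', C)`
  have a1 : S.hc X (Sys.pr A (Sys.pr A' C)) ≤ S.hc X (Sys.pr M C) := by
    rw [← hc_cond_zero hX hM h1]
    exact hc_mono_right hX (Eventually.of_forall fun _ _ _ _ _ e => by
      simp only [pr_apply, Prod.mk.injEq] at e ⊢
      exact ⟨e.1, e.2.2.2⟩)
  -- chain rules
  have sw : S.hc X (Sys.pr A (Sys.pr A' C)) = S.hc X (Sys.pr A' (Sys.pr A C)) :=
    hc_congr (Eventually.of_forall fun _ _ _ _ _ e => congrArg Prod.fst e)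
      (Eventually.of_forall fun _ _ _ _ _ e => congrArg Prod.fst e)
      (Eventually.of_forall fun _ _ _ _ _ e => by
        simp only [pr_apply, Prod.mk.injEq] at e ⊢
        exact ⟨e.2.1, e.1, e.2.2⟩)
      (Eventually.of_forall fun _ _ _ _ _ e => by
        simp only [pr_apply, Prod.mk.injEq] at e ⊢
        exact ⟨e.2.1, e.1, e.2.2⟩)
  have b1 : S.hc X (Sys.pr A' (Sys.pr A C)) + S.hc A' (Sys.pr A C) =
      S.hc A' (Sys.pr X (Sys.pr A C)) + S.hc X (Sys.pr A C) := by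
    have := hc_pair hX hA' (Sys.pr A C)
    have := mi_comm hX hA' (Sys.pr A C)
    unfold Sys.mi at this
    linarith
  have b2 : S.hc X (Sys.pr A' (Sys.pr J C)) + S.hc A' (Sys.pr J C) =
      S.hc A' (Sys.pr X (Sys.pr J C)) + S.hc X (Sys.pr J C) := by
    have := mi_comm hX hA' (Sys.pr J C)
    unfold Sys.mi at this
    linarith
  have c1 : S.hc X (Sys.pr A' (Sys.pr J C)) = S.hc X (Sys.pr A' C) := by
    have e1 : S.hc X (Sys.pr A' (Sys.pr J C)) = S.hc X (Sys.pr J (Sys.pr A' C)) :=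
      hc_congr (Eventually.of_forall fun _ _ _ _ _ e => congrArg Prod.fst e)
        (Eventually.of_forall fun _ _ _ _ _ e => congrArg Prod.fst e)
        (Eventually.of_forall fun _ _ _ _ _ e => by
          simp only [pr_apply, Prod.mk.injEq] at e ⊢
          exact ⟨e.2.1, e.1, e.2.2⟩)
        (Eventually.of_forall fun _ _ _ _ _ e => by
          simp only [pr_apply, Prod.mk.injEq] at e ⊢
          exact ⟨e.2.1, e.1, e.2.2⟩)
    rw [e1, hc_cond_zero hX hJ h3]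
  have c2 : S.hc A' (Sys.pr A C) ≤ S.hc A' (Sys.pr J C) := by
    rw [← hc_cond_zero hA' hJ h2]
    exact hc_mono_right hA' (Eventually.of_forall fun _ _ _ _ _ e => by
      simp only [pr_apply, Prod.mk.injEq] at e ⊢
      exact ⟨e.1, e.2.2⟩)
  have c3 : S.hc A' (Sys.pr X (Sys.pr A C)) = S.hc A' (Sys.pr X C) := by
    rw [← hi]
    exact hc_congr (Eventually.of_forall fun _ _ _ _ _ e => congrArg Prod.fst e)
      (Eventually.of_forall fun _ _ _ _ _ e => congrArg Prod.fst e)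
      (Eventually.of_forall fun _ _ _ _ _ e => by
        simp only [pr_apply, Prod.mk.injEq] at e ⊢
        exact ⟨e.2.1, e.1, e.2.2⟩)
      (Eventually.of_forall fun _ _ _ _ _ e => by
        simp only [pr_apply, Prod.mk.injEq] at e ⊢
        exact ⟨e.2.1, e.1, e.2.2⟩)
  have c4 : S.hc A' (Sys.pr X (Sys.pr J C)) ≤ S.hc A' (Sys.pr X C) :=
    hc_mono_right hA' (Eventually.of_forall fun _ _ _ _ _ e => by
      simp only [pr_apply, Prod.mk.injEq] at e ⊢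
      exact ⟨e.1, e.2.2⟩)
  linarith

/-- **strict submodularity of the penalised value** : `A'` is a copy of `A` given `(B, C)` -/
theorem sub_vall {lam : ℝ} (hl : 0 ≤ lam ∧ lam ≤ 1) (hB : BxA B) (hA : SubA B A) (hA' : SubA B A') (C : S.RV γ)
    (hsh : S.Ae fun i ω => (A' i).k ω = (A i).k ω ∧ (A' i).j ω = (A i).j ω)
    (hi : S.hc A'.lab (Sys.pr A.lab (Sys.pr B.lab C)) = S.hc A'.lab (Sys.pr B.lab C)) :
    ∃ (M J : S.BX) (s : S.RV ℕ), BxA M ∧ BxA J ∧ SubA B M ∧ SubA B J ∧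
      (S.Ae fun i ω => s i ω ≤ (A i).j ω - (A i).k ω ∧
        |Real.sin ((A' i).θ ω - (A i).θ ω)| ≤ (1 / 2 : ℝ) ^ s i ω ∧
        (s i ω = (A i).j ω - (A i).k ω ∨ (1 / 2 : ℝ) ^ (s i ω + 1) < |Real.sin ((A' i).θ ω - (A i).θ ω)|)) ∧
      S.vall lam B A C + S.vall lam B A' C +
        2 * lam * S.av (fun i ω => ((A i).j ω : ℝ) - (A i).k ω - s i ω) ≤
        S.vall lam B M C + S.vall lam B J C := by
  obtain ⟨M, J, s, hM, hJ, sM, sJ, z1, z2, z3, hs, c, hc⟩ := exists_mj hB hA hA' hsh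
  refine ⟨M, J, s, hM, hJ, sM, sJ, hs, ?_⟩
  have bA := bxA_of_sub hB hA
  have bA' := bxA_of_sub hB hA'
  have h1 := sub_hc hB.tame bA'.tame hM.tame hJ.tame (z1 γ C) (z2 γ C) (z3 γ C) hi
  -- the sizes
  have ols : OL (S := S) fun i ω => ((A i).j ω : ℝ) - (A i).k ω - s i ω := by
    obtain ⟨d, hd⟩ := bA.2
    refine ⟨d, ?_⟩
    filter_upwards [hd, hs, bA.1] with i g1 g2 g3 ω hω
    have k1 := (g2 ω hω).1
    have k2 := (g3 ω hω).2.2
    have k3 : (s i ω : ℝ) ≤ (A i).j ω - (A i).k ω := by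
      have : s i ω + (A i).k ω ≤ (A i).j ω := by omega
      have : (s i ω : ℝ) + (A i).k ω ≤ (A i).j ω := by exact_mod_cast this
      linarith
    have k4 := g1 ω hω
    have k5 : (0:ℝ) ≤ (A i).k ω := Nat.cast_nonneg _
    have k6 : (0:ℝ) ≤ s i ω := Nat.cast_nonneg _
    rw [abs_of_nonneg (by linarith)]
    linarith
  have e1 : ∀ {U : S.BX}, BxA U → S.av (fun i ω => B.szl lam i ω - U.szl lam i ω) =
      S.av (BX.szl lam B) - S.av (BX.szl lam U) := fun hU => av_sub (Lam.ol_szl hl hB) (Lam.ol_szl hl hU)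
  have e2 : S.av (BX.szl lam M) + S.av (BX.szl lam J) = S.av (BX.szl lam A) + S.av (BX.szl lam A') +
      2 * lam * S.av (fun i ω => ((A i).j ω : ℝ) - (A i).k ω - s i ω) := by
    have a1 : S.av (fun i ω => (2 * lam) * (((A i).j ω : ℝ) - (A i).k ω - s i ω)) =
        2 * lam * S.av (fun i ω => ((A i).j ω : ℝ) - (A i).k ω - s i ω) := by
      unfold Sys.av
      rw [← ulim_const_mul _ (UB.av ols)]
      refine ulim_congr (Eventually.of_forall fun i => ?_)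
      simp only
      rw [(S.P i).ex_const_mul, mul_div_assoc]
    have olm : OL (S := S) fun i ω => (2 * lam) * (((A i).j ω : ℝ) - (A i).k ω - s i ω) := by
      obtain ⟨d, hd⟩ := ols
      refine ⟨2 * lam * d, ?_⟩
      filter_upwards [hd] with i g ω hω
      have h2l : (0:ℝ) ≤ 2 * lam := by linarith [hl.1]
      rw [abs_mul, abs_of_nonneg h2l, mul_assoc (2 * lam) d]
      exact mul_le_mul_of_nonneg_left (g ω hω) h2l
    rw [← a1, ← av_add (Lam.ol_szl hl hM) (Lam.ol_szl hl hJ), ← av_add (Lam.ol_szl hl bA) (Lam.ol_szl hl bA'),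
      ← av_add ((Lam.ol_szl hl bA).add (Lam.ol_szl hl bA')) olm]
    have e3 : S.av (fun i ω => (BX.szl lam M i ω + BX.szl lam J i ω) -
        (BX.szl lam A i ω + BX.szl lam A' i ω + (2 * lam) * (((A i).j ω : ℝ) - (A i).k ω - s i ω))) = 0 := by
      refine av_zero_of_le (2 * c) ?_
      filter_upwards [hc, hsh, hs, bA.1] with i g1 g2 g3 g4 ω hω
      obtain ⟨b1, b2, b3, b4, b5⟩ := g1 ω hω
      obtain ⟨d1, d2⟩ := g2 ω hω
      obtain ⟨f1, -, -⟩ := g3 ω hω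
      have f2 := (g4 ω hω).2.2
      show |(((1 + lam) * ((M i).k ω : ℝ) + (1 - lam) * ((M i).j ω : ℝ)) +
        ((1 + lam) * ((J i).k ω : ℝ) + (1 - lam) * ((J i).j ω : ℝ))) -
        (((1 + lam) * ((A i).k ω : ℝ) + (1 - lam) * ((A i).j ω : ℝ)) +
        ((1 + lam) * ((A' i).k ω : ℝ) + (1 - lam) * ((A' i).j ω : ℝ)) +
        (2 * lam) * (((A i).j ω : ℝ) - (A i).k ω - s i ω))| ≤ 2 * c
      rw [b1, b2, b3, d1, d2]
      have f3 : s i ω ≤ (A i).j ω := by omega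
      have f4 : ((M i).k ω : ℝ) ≤ (A i).j ω - s i ω := by
        have : (((M i).k ω : ℕ) : ℝ) ≤ (((A i).j ω - s i ω : ℕ) : ℝ) := by exact_mod_cast b4
        rwa [Nat.cast_sub f3] at this
      have f5 : ((A i).j ω : ℝ) - s i ω ≤ (M i).k ω + c := by
        have : (((A i).j ω - s i ω : ℕ) : ℝ) ≤ (((M i).k ω + c : ℕ) : ℝ) := by exact_mod_cast b5
        rw [Nat.cast_sub f3] at this
        push_cast at this
        exact this
      push_cast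
      have f6 : ((1 + lam) * ((M i).k ω : ℝ) + (1 - lam) * ((A i).j ω : ℝ)) +
        ((1 + lam) * ((A i).k ω : ℝ) + (1 - lam) * (((A i).k ω : ℝ) + s i ω)) -
        (((1 + lam) * ((A i).k ω : ℝ) + (1 - lam) * ((A i).j ω : ℝ)) +
        ((1 + lam) * ((A i).k ω : ℝ) + (1 - lam) * ((A i).j ω : ℝ)) +
        (2 * lam) * (((A i).j ω : ℝ) - (A i).k ω - s i ω)) = (1 + lam) * ((M i).k ω - ((A i).j ω - s i ω)) := by ring
      rw [f6, abs_mul, abs_of_nonneg (by linarith [hl.1] : (0:ℝ) ≤ 1 + lam)]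
      have f7 : |((M i).k ω : ℝ) - ((A i).j ω - s i ω)| ≤ c := by
        rw [abs_le]
        constructor <;> linarith
      have f8 : (0:ℝ) ≤ c := Nat.cast_nonneg _
      calc (1 + lam) * |((M i).k ω : ℝ) - ((A i).j ω - s i ω)| ≤ (1 + lam) * c :=
            mul_le_mul_of_nonneg_left f7 (by linarith [hl.1])
        _ ≤ 2 * c := mul_le_mul_of_nonneg_right (by linarith [hl.2]) f8
    rw [av_sub ((Lam.ol_szl hl hM).add (Lam.ol_szl hl hJ))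
      (((Lam.ol_szl hl bA).add (Lam.ol_szl hl bA')).add olm)] at e3
    linarith
  unfold Sys.vall
  rw [e1 bA, e1 bA', e1 hM, e1 hJ]
  linarith

end systems

end Vale.Agent.P127.U.MJ
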