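import Vale.Agent.P127.U.Defs

/-!
# P127 / U : the finite excess of a mixture (helper205)
-/

set_option autoImplicit false

namespace Vale.Agent.P127.U

open Finset Vale.Agent.P127 Vale.Agent.P127.Stk

section finite

variable {Ω Ω' Ω₁ Ω₂ : Type} [Fintype Ω] [Fintype Ω'] [Fintype Ω₁] [Fintype Ω₂] {γ : Type*}

/-- the mixture `a π_* Q + (1 - a) R` -/
noncomputable def mixW (Q : Law Ω') (π : Ω' → Ω) (R : Law Ω) (a : ℝ) (h0 : 0 ≤ a) (h1 : a ≤ 1) :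
    Law Ω where
  w ω := a * Q.pr π ω + (1 - a) * R.w ω
  nn ω := add_nonneg (mul_nonneg h0 (Q.pr_nonneg _ _)) (mul_nonneg (by linarith) (R.nn _))
  sum_one := by
    rw [Finset.sum_add_distrib, ← Finset.mul_sum, ← Finset.mul_sum, sum_pr_aux, R.sum_one]
    ring

/-- expectation of a mixture -/
theorem ex_mix {P R : Law Ω} {Q : Law Ω'} {π : Ω' → Ω} {a : ℝ}
    (h : ∀ ω, P.w ω = a * Q.pr π ω + (1 - a) * R.w ω) (f : Ω → ℝ) :
    P.ex f = a * Q.ex (f ∘ π) + (1 - a) * R.ex f := by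
  rw [← push_ex]
  unfold Law.ex
  rw [Finset.mul_sum, Finset.mul_sum, ← Finset.sum_add_distrib]
  refine Finset.sum_congr rfl fun ω _ => ?_
  rw [h ω, push_w]
  ring

theorem pr_mix {S : Type*} {P R : Law Ω} {Q : Law Ω'} {π : Ω' → Ω} {a : ℝ}
    (h : ∀ ω, P.w ω = a * Q.pr π ω + (1 - a) * R.w ω) (X : Ω → S) (x : S) :
    P.pr X x = a * Q.pr (X ∘ π) x + (1 - a) * R.pr X x := by
  rw [Law.pr_eq_ex, Law.pr_eq_ex, Law.pr_eq_ex]
  exact ex_mix h _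

open Classical in
/-- the law on an extension of `P` whose projection is `Q` -/
noncomputable def rwt (P P0 : Law Ω) (P' : Law Ω') (π : Ω' → Ω) (hπ : ∀ ω, P'.pr π ω = P.w ω)
    (hac : ∀ ω, P.w ω = 0 → P0.w ω = 0) : Law Ω' where
  w ω := P'.w ω * (P0.w (π ω) / P.w (π ω))
  nn ω := mul_nonneg (P'.nn _) (div_nonneg (P0.nn _) (P.nn _))
  sum_one := by
    have h1 : ∑ ω, P'.w ω * (P0.w (π ω) / P.w (π ω)) = P'.ex ((fun ω => P0.w ω / P.w ω) ∘ π) :=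
      rfl
    rw [h1, ← push_ex]
    unfold Law.ex
    rw [← P0.sum_one]
    refine Finset.sum_congr rfl fun ω _ => ?_
    rw [push_w, hπ]
    by_cases h0 : P.w ω = 0
    · rw [h0, zero_mul, hac ω h0]
    · field_simp

theorem rwt_pr (P P0 : Law Ω) (P' : Law Ω') (π : Ω' → Ω) (hπ : ∀ ω, P'.pr π ω = P.w ω)
    (hac : ∀ ω, P.w ω = 0 → P0.w ω = 0) (ω : Ω) : (rwt P P0 P' π hπ hac).pr π ω = P0.w ω := by
  classical
  have h1 : (rwt P P0 P' π hπ hac).pr π ω = P'.pr π ω * (P0.w ω / P.w ω) := by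
    unfold Law.pr
    rw [Finset.sum_mul]
    refine Finset.sum_congr rfl fun ω' hω' => ?_
    have : π ω' = ω := by simpa using hω'
    show P'.w ω' * (P0.w (π ω') / P.w (π ω')) = _
    rw [this]
  rw [h1, hπ]
  by_cases h0 : P.w ω = 0
  · rw [h0, zero_mul, hac ω h0]
  · field_simp

theorem rwt_pos {P P0 : Law Ω} {P' : Law Ω'} {π : Ω' → Ω} {hπ : ∀ ω, P'.pr π ω = P.w ω}
    {hac : ∀ ω, P.w ω = 0 → P0.w ω = 0} {ω : Ω'} (h : 0 < (rwt P P0 P' π hπ hac).w ω) :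
    0 < P'.w ω := by
  rcases (P'.nn ω).eq_or_lt with h0 | h0
  · have : (rwt P P0 P' π hπ hac).w ω = P'.w ω * (P0.w (π ω) / P.w (π ω)) := rfl
    rw [this, ← h0, zero_mul] at h
    exact absurd h (lt_irrefl _)
  · exact h0

/-! ### basic properties of the finite excess -/

theorem exSet_le (P : Law Ω) (B : Bx Ω) (C : Ω → γ) {v : ℝ} (hv : v ∈ exSet P B C) :
    v ≤ P.H B.lab := by
  obtain ⟨Ω', _, P', π, W, h1, h2, rfl⟩ := hv
  unfold exV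
  have h3 : Stk.hc P' (B.comp π).lab (fun ω => (W.lab ω, C (π ω))) ≤ P'.H (B.comp π).lab :=
    hc_le_H _ _ _
  have h4 : P'.H (B.comp π).lab = P.H B.lab := H_law_aux P' P π h1 B.lab
  have h5 : 0 ≤ P'.ex fun ω => (B.comp π).sz ω - W.sz ω := by
    refine P'.ex_nonneg fun ω hω => ?_
    obtain ⟨-, -, -, g1, g2, -⟩ := h2 ω hω
    unfold Bx.sz
    have e1 : (W.k ω : ℝ) ≤ (B.comp π).k ω := by exact_mod_cast g1
    have e2 : (W.j ω : ℝ) ≤ (B.comp π).j ω := by exact_mod_cast g2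
    linarith
  have h6 : 0 ≤ Real.log 2 := Real.log_nonneg (by norm_num)
  have h7 := mul_nonneg h6 h5
  linarith

theorem exSet_bdd (P : Law Ω) (B : Bx Ω) (C : Ω → γ) : BddAbove (exSet P B C) :=
  ⟨_, fun _ hv => exSet_le P B C hv⟩

theorem zero_mem_exSetM (P : Law Ω) (B : Bx Ω) (C : Ω → γ)
    (h : ∀ ω, 0 < P.w ω → |B.θ ω| ≤ 4 ∧ B.k ω ≤ B.j ω) : (0 : ℝ) ∈ exSet P B C := by
  refine ⟨Ω, inferInstance, P, id, B, pr_id P, fun ω hω => ?_, ?_⟩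
  · obtain ⟨h1, h2⟩ := h ω hω
    refine ⟨rfl, h1, h2, le_rfl, le_rfl, ?_⟩
    show |Real.sin (B.θ ω - B.θ ω)| * (1 / 2 : ℝ) ^ B.k ω ≤ 1 * (1 / 2 : ℝ) ^ B.j ω
    rw [sub_self, Real.sin_zero, abs_zero, zero_mul]
    positivity
  · unfold exV
    have h1 : Stk.hc P (B.comp id).lab (fun ω => (B.lab ω, C (id ω))) = 0 :=
      hc_zero P fun ω ω' _ _ e => congrArg Prod.fst e
    have h2 : (P.ex fun ω => (B.comp id).sz ω - B.sz ω) = 0 := by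
      have : (fun ω => (B.comp id).sz ω - B.sz ω) = fun _ => (0 : ℝ) := by
        funext ω
        exact sub_self _
      rw [this, P.ex_const]
    rw [h1, h2, mul_zero, sub_zero]

theorem excF_nonnegM (P : Law Ω) (B : Bx Ω) (C : Ω → γ)
    (h : ∀ ω, 0 < P.w ω → |B.θ ω| ≤ 4 ∧ B.k ω ≤ B.j ω) : 0 ≤ excF P B C :=
  le_csSup (exSet_bdd P B C) (zero_mem_exSetM P B C h)

theorem excF_le_HM (P : Law Ω) (B : Bx Ω) (C : Ω → γ)
    (h : ∀ ω, 0 < P.w ω → |B.θ ω| ≤ 4 ∧ B.k ω ≤ B.j ω) : excF P B C ≤ P.H B.lab :=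
  csSup_le ⟨_, zero_mem_exSetM P B C h⟩ fun _ hv => exSet_le P B C hv

/-! ### mixtures -/

/-- lower bound: extensions of the two parts give an extension of the mixture -/
theorem mix_lower {P R : Law Ω} {Q : Law Ω'} {π : Ω' → Ω} {a : ℝ} (h0 : 0 ≤ a) (h1 : a ≤ 1)
    (h : ∀ ω, P.w ω = a * Q.pr π ω + (1 - a) * R.w ω) (B : Bx Ω) (C : Ω → γ) {v v' : ℝ}
    (hv : v ∈ exSet Q (B.comp π) (fun ω => C (π ω))) (hv' : v' ∈ exSet R B C) :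
    ∃ v'' ∈ exSet P B C, a * v + (1 - a) * v' ≤ v'' := by
  classical
  obtain ⟨Ω₁, _, P₁, π₁, W₁, g1, g2, rfl⟩ := hv
  obtain ⟨Ω₂, _, P₂, π₂, W₂, k1, k2, rfl⟩ := hv'
  let M : Law (Ω₁ ⊕ Ω₂) := mixW P₁ Sum.inl (push P₂ Sum.inr) a h0 h1
  have hM : ∀ ω, M.w ω = a * P₁.pr Sum.inl ω + (1 - a) * (push P₂ Sum.inr).w ω := fun _ => rfl
  let ρ : Ω₁ ⊕ Ω₂ → Ω := Sum.elim (fun ω => π (π₁ ω)) π₂
  let W : Bx (Ω₁ ⊕ Ω₂) := ⟨Sum.elim W₁.l W₂.l, Sum.elim W₁.θ W₂.θ, Sum.elim W₁.k W₂.k,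
    Sum.elim W₁.j W₂.j⟩
  have hw1 : ∀ x, P₁.pr (Sum.inl : Ω₁ → Ω₁ ⊕ Ω₂) (Sum.inl x) = P₁.w x := by
    intro x
    have := pr_id P₁ x
    rw [← this]
    unfold Law.pr
    refine Finset.sum_congr ?_ fun _ _ => rfl
    ext y
    simp
  have hw2 : ∀ x, (push P₂ (Sum.inr : Ω₂ → Ω₁ ⊕ Ω₂)).w (Sum.inr x) = P₂.w x := by
    intro x
    have := pr_id P₂ x
    rw [← this, push_w]
    unfold Law.pr
    refine Finset.sum_congr ?_ fun _ _ => rfl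
    ext y
    simp
  have hw3 : ∀ x, P₁.pr (Sum.inl : Ω₁ → Ω₁ ⊕ Ω₂) (Sum.inr x) = 0 := by
    intro x
    unfold Law.pr
    refine Finset.sum_eq_zero fun y hy => ?_
    simp at hy
  have hw4 : ∀ x, (push P₂ (Sum.inr : Ω₂ → Ω₁ ⊕ Ω₂)).w (Sum.inl x) = 0 := by
    intro x
    rw [push_w]
    unfold Law.pr
    refine Finset.sum_eq_zero fun y hy => ?_
    simp at hy
  refine ⟨_, ⟨Ω₁ ⊕ Ω₂, inferInstance, M, ρ, W, ?_, ?_, rfl⟩, ?_⟩
  · intro ω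
    rw [pr_mix hM ρ ω, push_pr]
    have e1 : (ρ ∘ (Sum.inl : Ω₁ → Ω₁ ⊕ Ω₂)) = π ∘ π₁ := rfl
    have e2 : (ρ ∘ (Sum.inr : Ω₂ → Ω₁ ⊕ Ω₂)) = π₂ := rfl
    rw [e1, e2, k1, pr_law_aux P₁ Q π₁ g1 π ω, h ω]
  · rintro (x | x) hx
    · rw [hM, hw1, hw4, mul_zero, add_zero] at hx
      have : 0 < P₁.w x := by
        rcases (P₁.nn x).eq_or_lt with h2 | h2
        · rw [← h2, mul_zero] at hx
          exact absurd hx (lt_irrefl _)
        · exact h2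
      exact g2 x this
    · rw [hM, hw2, hw3, mul_zero, zero_add] at hx
      have : 0 < P₂.w x := by
        rcases (P₂.nn x).eq_or_lt with h2 | h2
        · rw [← h2, mul_zero] at hx
          exact absurd hx (lt_irrefl _)
        · exact h2
      exact k2 x this
  · unfold exV
    have m1 := (mix_hc h0 h1 hM (B.comp ρ).lab (fun ω => (W.lab ω, C (ρ ω)))).1
    have m2 := ex_mix hM (fun ω => (B.comp ρ).sz ω - W.sz ω)
    rw [push_hc] at m1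
    rw [push_ex] at m2
    have e1 : ((B.comp ρ).lab ∘ (Sum.inl : Ω₁ → Ω₁ ⊕ Ω₂)) = ((B.comp π).comp π₁).lab := rfl
    have e2 : ((fun ω => (W.lab ω, C (ρ ω))) ∘ (Sum.inl : Ω₁ → Ω₁ ⊕ Ω₂)) =
      fun ω => (W₁.lab ω, C (π (π₁ ω))) := rfl
    have e3 : ((B.comp ρ).lab ∘ (Sum.inr : Ω₂ → Ω₁ ⊕ Ω₂)) = (B.comp π₂).lab := rfl
    have e4 : ((fun ω => (W.lab ω, C (ρ ω))) ∘ (Sum.inr : Ω₂ → Ω₁ ⊕ Ω₂)) =
      fun ω => (W₂.lab ω, C (π₂ ω)) := rfl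
    have e5 : ((fun ω => (B.comp ρ).sz ω - W.sz ω) ∘ (Sum.inl : Ω₁ → Ω₁ ⊕ Ω₂)) =
      fun ω => ((B.comp π).comp π₁).sz ω - W₁.sz ω := rfl
    have e6 : ((fun ω => (B.comp ρ).sz ω - W.sz ω) ∘ (Sum.inr : Ω₂ → Ω₁ ⊕ Ω₂)) =
      fun ω => (B.comp π₂).sz ω - W₂.sz ω := rfl
    rw [e1, e2, e3, e4] at m1
    rw [e5, e6] at m2
    rw [m2]
    linarith

/-- upper bound: an extension of the mixture gives extensions of the two parts -/
theorem mix_upper {P R : Law Ω} {Q : Law Ω'} {π : Ω' → Ω} {a : ℝ} (h0 : 0 < a) (h1 : a < 1)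
    (h : ∀ ω, P.w ω = a * Q.pr π ω + (1 - a) * R.w ω) (B : Bx Ω) (C : Ω → γ) {v : ℝ}
    (hv : v ∈ exSet P B C) :
    ∃ v' ∈ exSet Q (B.comp π) (fun ω => C (π ω)), ∃ v'' ∈ exSet R B C,
      v ≤ a * v' + (1 - a) * v'' + Real.log 2 := by
  classical
  obtain ⟨Ω₁, _, P₁, π₁, W, g1, g2, rfl⟩ := hv
  have hacQ : ∀ ω, P.w ω = 0 → (push Q π).w ω = 0 := by
    intro ω hω
    rw [h ω] at hω
    have n1 : 0 ≤ a * Q.pr π ω := mul_nonneg h0.le (Q.pr_nonneg _ _)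
    have n2 : 0 ≤ (1 - a) * R.w ω := mul_nonneg (by linarith) (R.nn _)
    have n3 : a * Q.pr π ω = 0 := by linarith
    rcases mul_eq_zero.1 n3 with n4 | n4
    · linarith
    · exact n4
  have hacR : ∀ ω, P.w ω = 0 → R.w ω = 0 := by
    intro ω hω
    rw [h ω] at hω
    have n1 : 0 ≤ a * Q.pr π ω := mul_nonneg h0.le (Q.pr_nonneg _ _)
    have n2 : 0 ≤ (1 - a) * R.w ω := mul_nonneg (by linarith) (R.nn _)
    have n3 : (1 - a) * R.w ω = 0 := by linarith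
    rcases mul_eq_zero.1 n3 with n4 | n4
    · linarith
    · exact n4
  let Q₁ : Law Ω₁ := rwt P (push Q π) P₁ π₁ g1 hacQ
  let R₁ : Law Ω₁ := rwt P R P₁ π₁ g1 hacR
  have hQ₁ : ∀ ω, Q₁.pr π₁ ω = Q.pr π ω := rwt_pr P (push Q π) P₁ π₁ g1 hacQ
  have hR₁ : ∀ ω, R₁.pr π₁ ω = R.w ω := rwt_pr P R P₁ π₁ g1 hacR
  obtain ⟨Ω₃, _, Q₃, ρ₁, ρ₂, s1, s2, s3, -⟩ := Stk.glue_exists Q Q₁ π π₁ (fun ω => (hQ₁ ω).symm)
  -- the mixture on `Ω₁`
  have hM : ∀ ω, P₁.w ω = a * Q₁.pr id ω + (1 - a) * R₁.w ω := by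
    intro ω
    rw [pr_id]
    show P₁.w ω = a * (P₁.w ω * ((push Q π).w (π₁ ω) / P.w (π₁ ω))) +
      (1 - a) * (P₁.w ω * (R.w (π₁ ω) / P.w (π₁ ω)))
    by_cases hp : P₁.w ω = 0
    · rw [hp]; ring
    · have hpos : 0 < P₁.w ω := lt_of_le_of_ne (P₁.nn ω) (Ne.symm hp)
      have h2 : 0 < P.w (π₁ ω) := by
        rw [← g1]
        exact P₁.pr_pos π₁ hpos
      have h3 := h (π₁ ω)
      rw [push_w]
      have e : a * (P₁.w ω * (Q.pr π (π₁ ω) / P.w (π₁ ω))) +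
          (1 - a) * (P₁.w ω * (R.w (π₁ ω) / P.w (π₁ ω))) =
          P₁.w ω * ((a * Q.pr π (π₁ ω) + (1 - a) * R.w (π₁ ω)) / P.w (π₁ ω)) := by ring
      rw [e, ← h3, div_self h2.ne', mul_one]
  refine ⟨exV Q₃ ((B.comp π).comp ρ₁) ⟨fun ω => W.l (ρ₂ ω), fun ω => W.θ (ρ₂ ω),
    fun ω => W.k (ρ₂ ω), fun ω => W.j (ρ₂ ω)⟩ (fun ω => C (π (ρ₁ ω))),
    ⟨Ω₃, inferInstance, Q₃, ρ₁, _, s2, ?_, rfl⟩, exV R₁ (B.comp π₁) W (fun ω => C (π₁ ω)),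
    ⟨Ω₁, inferInstance, R₁, π₁, W, hR₁, fun ω hω => g2 ω (rwt_pos hω), rfl⟩, ?_⟩
  · intro ω hω
    have k1 : 0 < Q₁.w (ρ₂ ω) := by
      rw [← s3]
      exact Q₃.pr_pos ρ₂ hω
    have k2 := g2 (ρ₂ ω) (rwt_pos k1)
    unfold Sub at k2 ⊢
    have k3 : ((B.comp π).comp ρ₁).l ω = (B.comp π₁).l (ρ₂ ω) := congrArg B.l (s1 ω)
    have k4 : ((B.comp π).comp ρ₁).θ ω = (B.comp π₁).θ (ρ₂ ω) := congrArg B.θ (s1 ω)
    have k5 : ((B.comp π).comp ρ₁).k ω = (B.comp π₁).k (ρ₂ ω) := congrArg B.k (s1 ω)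
    have k6 : ((B.comp π).comp ρ₁).j ω = (B.comp π₁).j (ρ₂ ω) := congrArg B.j (s1 ω)
    rw [k3, k4, k5, k6]
    exact k2
  · have eB : ((B.comp π).comp ρ₁) = (B.comp π₁).comp ρ₂ := by
      unfold Bx.comp
      simp only [s1]
    have eC : (fun ω => C (π (ρ₁ ω))) = fun ω => C (π₁ (ρ₂ ω)) := by
      funext ω
      rw [s1]
    have e3 : exV Q₃ ((B.comp π).comp ρ₁) ⟨fun ω => W.l (ρ₂ ω), fun ω => W.θ (ρ₂ ω),
        fun ω => W.k (ρ₂ ω), fun ω => W.j (ρ₂ ω)⟩ (fun ω => C (π (ρ₁ ω))) =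
        exV Q₁ (B.comp π₁) W (fun ω => C (π₁ ω)) := by
      rw [eB, eC]
      unfold exV
      have i1 := hc_of_law Q₃ Q₁ ρ₂ s3 (B.comp π₁).lab (fun ω => (W.lab ω, C (π₁ ω)))
      have i2 := ex_law_aux Q₃ Q₁ ρ₂ s3 (fun ω => (B.comp π₁).sz ω - W.sz ω)
      rw [← i1, ← i2]
      rfl
    rw [e3]
    unfold exV
    have m1 := (mix_hc h0.le h1.le hM (B.comp π₁).lab (fun ω => (W.lab ω, C (π₁ ω)))).2
    have m2 := ex_mix hM (fun ω => (B.comp π₁).sz ω - W.sz ω)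
    simp only [Function.comp_id] at m1 m2
    rw [m2]
    linarith

/-- the excess of a mixture -/
theorem excF_mix {P R : Law Ω} {Q : Law Ω'} {π : Ω' → Ω} {a : ℝ} (h0 : 0 < a) (h1 : a < 1)
    (h : ∀ ω, P.w ω = a * Q.pr π ω + (1 - a) * R.w ω) (B : Bx Ω) (C : Ω → γ)
    (hB : ∀ ω, 0 < P.w ω → |B.θ ω| ≤ 4 ∧ B.k ω ≤ B.j ω) :
    a * excF Q (B.comp π) (fun ω => C (π ω)) + (1 - a) * excF R B C ≤ excF P B C ∧
    excF P B C ≤ a * excF Q (B.comp π) (fun ω => C (π ω)) + (1 - a) * excF R B C +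
      Real.log 2 := by
  have hQ : ∀ ω, 0 < Q.w ω → 0 < P.w (π ω) := by
    intro ω hω
    rw [h]
    have n1 : 0 < a * Q.pr π (π ω) := mul_pos h0 (Q.pr_pos π hω)
    have n2 : 0 ≤ (1 - a) * R.w (π ω) := mul_nonneg (by linarith) (R.nn _)
    linarith
  have hR : ∀ ω, 0 < R.w ω → 0 < P.w ω := by
    intro ω hω
    rw [h]
    have n1 : 0 ≤ a * Q.pr π ω := mul_nonneg h0.le (Q.pr_nonneg _ _)
    have n2 : 0 < (1 - a) * R.w ω := mul_pos (by linarith) hω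
    linarith
  have zP := zero_mem_exSetM P B C hB
  have zQ := zero_mem_exSetM Q (B.comp π) (fun ω => C (π ω)) fun ω hω => hB (π ω) (hQ ω hω)
  have zR := zero_mem_exSetM R B C fun ω hω => hB ω (hR ω hω)
  have bP := exSet_bdd P B C
  have bQ := exSet_bdd Q (B.comp π) (fun ω => C (π ω))
  have bR := exSet_bdd R B C
  constructor
  · have key : ∀ v ∈ exSet Q (B.comp π) (fun ω => C (π ω)), ∀ v' ∈ exSet R B C,
        a * v + (1 - a) * v' ≤ excF P B C := by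
      intro v hv v' hv'
      obtain ⟨v'', k1, k2⟩ := mix_lower h0.le h1.le h B C hv hv'
      exact k2.trans (le_csSup bP k1)
    have k1 : ∀ v' ∈ exSet R B C,
        excF Q (B.comp π) (fun ω => C (π ω)) ≤ (excF P B C - (1 - a) * v') / a := by
      intro v' hv'
      refine csSup_le ⟨_, zQ⟩ fun v hv => ?_
      rw [le_div_iff₀ h0]
      have := key v hv v' hv'
      linarith
    have k2 : excF R B C ≤
        (excF P B C - a * excF Q (B.comp π) (fun ω => C (π ω))) / (1 - a) := by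
      refine csSup_le ⟨_, zR⟩ fun v' hv' => ?_
      rw [le_div_iff₀ (by linarith)]
      have := k1 v' hv'
      rw [le_div_iff₀ h0] at this
      linarith
    rw [le_div_iff₀ (by linarith)] at k2
    linarith
  · refine csSup_le ⟨_, zP⟩ fun v hv => ?_
    obtain ⟨v', k1, v'', k2, k3⟩ := mix_upper h0 h1 h B C hv
    have k4 : a * v' ≤ a * excF Q (B.comp π) (fun ω => C (π ω)) :=
      mul_le_mul_of_nonneg_left (le_csSup bQ k1) h0.le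
    have k5 : (1 - a) * v'' ≤ (1 - a) * excF R B C :=
      mul_le_mul_of_nonneg_left (le_csSup bR k2) (by linarith)
    linarith

end finite

end Vale.Agent.P127.U
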