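import Vale.Agent.P127.U.PathA

/-!
# P127 / U : the pattern of the path (helper823)

Exploration of nested variables `tt a` (time, `a` blocks) and `vv r` (slope, `r` blocks) given a
variable `Lv` (the line).  Words are lists of booleans, newest letter first: `true` is an `r`-step,
`false` an `a`-step.  The next step is an `r`-step if the surprisal of the true next value of `vv` is
small, or if it is forced (`J` consecutive `a`-steps, or no `a`-step left).
-/

set_option autoImplicit false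

namespace Vale.Agent.P127.U.Path

open Finset Vale.Agent.P127 Vale.Agent.P127.Stk

/-- number of `a`-steps -/
def na (w : List Bool) : ℕ := w.count false

/-- number of `r`-steps -/
def nr (w : List Bool) : ℕ := w.count true

@[simp] lemma na_nil : na [] = 0 := rfl
@[simp] lemma nr_nil : nr [] = 0 := rfl
@[simp] lemma na_false (w : List Bool) : na (false :: w) = na w + 1 := by simp [na]
@[simp] lemma na_true (w : List Bool) : na (true :: w) = na w := by simp [na]
@[simp] lemma nr_false (w : List Bool) : nr (false :: w) = nr w := by simp [nr]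
@[simp] lemma nr_true (w : List Bool) : nr (true :: w) = nr w + 1 := by simp [nr]

lemma na_add_nr (w : List Bool) : na w + nr w = w.length := by
  induction w with
  | nil => rfl
  | cons b w ih => cases b <;> simp <;> omega

/-- data of the exploration -/
structure Expl (Ω α β γ : Type*) where
  Lv : Ω → α
  tt : ℕ → Ω → β
  vv : ℕ → Ω → γ
  A : ℕ
  R : ℕ
  J : ℕ
  thr : ℝ
  hT : ∀ a ω ω', tt (a + 1) ω = tt (a + 1) ω' → tt a ω = tt a ω'
  hV : ∀ r ω ω', vv (r + 1) ω = vv (r + 1) ω' → vv r ω = vv r ω'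

namespace Expl

variable {Ω : Type} [Fintype Ω] {α β γ : Type*} (e : Expl Ω α β γ)

/-- the line, `a` blocks of the time, `r` blocks of the slope -/
def K (a r : ℕ) (ω : Ω) : α × β × γ := (e.Lv ω, e.tt a ω, e.vv r ω)

/-- the next step is forced to be an `r`-step -/
def forced (w : List Bool) : Prop :=
  e.A ≤ na w ∨ (e.J ≤ w.length ∧ ∀ b ∈ w.take e.J, b = false)

/-- what is known after a random word -/
def kk (p : Ω → List Bool) (ω : Ω) : List Bool × α × β × γ :=
  (p ω, e.K (na (p ω)) (nr (p ω)) ω)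

/-- the next value of the slope -/
def nx (p : Ω → List Bool) (ω : Ω) : γ := e.vv (min (nr (p ω) + 1) e.R) ω

open Classical in
/-- the rule -/
noncomputable def stp (P : Law Ω) (p : Ω → List Bool) (ω : Ω) : Bool :=
  decide (nr (p ω) < e.R ∧ (e.forced (p ω) ∨ e.thr ≤ cp P (e.nx p) (e.kk p) ω))

/-- the pattern after `i` steps -/
noncomputable def pat (P : Law Ω) : ℕ → Ω → List Bool
  | 0 => fun _ => []
  | i + 1 => fun ω => e.stp P (pat P i) ω :: pat P i ω

variable {e} {P : Law Ω}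

@[simp] lemma pat_zero (ω : Ω) : e.pat P 0 ω = [] := rfl

lemma pat_succ (i : ℕ) (ω : Ω) :
    e.pat P (i + 1) ω = e.stp P (e.pat P i) ω :: e.pat P i ω := rfl

lemma pat_length (i : ℕ) (ω : Ω) : (e.pat P i ω).length = i := by
  induction i with
  | zero => rfl
  | succ i ih => rw [pat_succ, List.length_cons, ih]

lemma pat_drop (i k : ℕ) (ω : Ω) : (e.pat P (i + k) ω).drop k = e.pat P i ω := by
  induction k with
  | zero => simp
  | succ k ih => rw [← Nat.add_assoc, pat_succ, List.drop_succ_cons, ih]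

lemma stp_eq_true {p : Ω → List Bool} {ω : Ω} :
    e.stp P p ω = true ↔
      nr (p ω) < e.R ∧ (e.forced (p ω) ∨ e.thr ≤ cp P (e.nx p) (e.kk p) ω) := by
  unfold stp
  simp

lemma stp_eq_false {p : Ω → List Bool} {ω : Ω} :
    e.stp P p ω = false ↔
      ¬ (nr (p ω) < e.R ∧ (e.forced (p ω) ∨ e.thr ≤ cp P (e.nx p) (e.kk p) ω)) := by
  rw [← stp_eq_true]
  simp

lemma nr_le (i : ℕ) (ω : Ω) : nr (e.pat P i ω) ≤ e.R := by
  induction i with
  | zero => simp
  | succ i ih =>
    rw [pat_succ]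
    cases h : e.stp P (e.pat P i) ω with
    | false => rw [nr_false]; exact ih
    | true =>
      rw [nr_true]
      exact (stp_eq_true.1 h).1

lemma na_le (i : ℕ) (hi : i ≤ e.A + e.R) (ω : Ω) : na (e.pat P i ω) ≤ e.A := by
  induction i with
  | zero => simp
  | succ i ih =>
    have ih' := ih (by omega)
    rw [pat_succ]
    cases h : e.stp P (e.pat P i) ω with
    | true => rw [na_true]; exact ih'
    | false =>
      rw [na_false]
      by_contra hcon
      have h1 : na (e.pat P i ω) = e.A := by omega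
      have h2 := na_add_nr (e.pat P i ω)
      rw [pat_length] at h2
      exact stp_eq_false.1 h ⟨by omega, Or.inl (Or.inl h1.ge)⟩

lemma na_top (ω : Ω) : na (e.pat P (e.A + e.R) ω) = e.A := by
  have h1 := na_le (e := e) (P := P) (e.A + e.R) le_rfl ω
  have h2 := nr_le (e := e) (P := P) (e.A + e.R) ω
  have h3 := na_add_nr (e.pat P (e.A + e.R) ω)
  rw [pat_length] at h3
  omega

lemma nr_top (ω : Ω) : nr (e.pat P (e.A + e.R) ω) = e.R := by
  have h1 := na_top (e := e) (P := P) ω
  have h3 := na_add_nr (e.pat P (e.A + e.R) ω)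
  rw [pat_length] at h3
  omega

lemma nr_mono (i k : ℕ) (ω : Ω) : nr (e.pat P i ω) ≤ nr (e.pat P (i + k) ω) := by
  induction k with
  | zero => exact le_rfl
  | succ k ih =>
    rw [← Nat.add_assoc, pat_succ]
    cases e.stp P (e.pat P (i + k)) ω with
    | false => rw [nr_false]; exact ih
    | true => rw [nr_true]; omega

lemma na_mono (i k : ℕ) (ω : Ω) : na (e.pat P i ω) ≤ na (e.pat P (i + k) ω) := by
  induction k with
  | zero => exact le_rfl
  | succ k ih =>
    rw [← Nat.add_assoc, pat_succ]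
    cases e.stp P (e.pat P (i + k)) ω with
    | true => rw [na_true]; exact ih
    | false => rw [na_false]; omega

/-- if the number of `r`-steps does not change, the last letters are `false` -/
lemma take_false (i k : ℕ) (ω : Ω) (h : nr (e.pat P (i + k) ω) = nr (e.pat P i ω)) :
    ∀ b ∈ (e.pat P (i + k) ω).take k, b = false := by
  induction k with
  | zero => simp
  | succ k ih =>
    have h1 := nr_mono (e := e) (P := P) i k ω
    rw [← Nat.add_assoc, pat_succ] at h ⊢
    cases hs : e.stp P (e.pat P (i + k)) ω with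
    | true =>
      rw [hs, nr_true] at h
      omega
    | false =>
      rw [hs, nr_false] at h
      intro b hb
      rw [List.take_succ_cons, List.mem_cons] at hb
      rcases hb with hb | hb
      · exact hb
      · exact ih h b hb

/-- there is an `r`-step among `J + 1` consecutive steps -/
lemma nr_step (i : ℕ) (ω : Ω) (h : nr (e.pat P i ω) < e.R) :
    nr (e.pat P i ω) < nr (e.pat P (i + (e.J + 1)) ω) := by
  by_contra hcon
  push Not at hcon
  have h1 := nr_mono (e := e) (P := P) i e.J ω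
  have h2 := nr_mono (e := e) (P := P) (i + e.J) 1 ω
  have e1 : i + e.J + 1 = i + (e.J + 1) := by ring
  rw [e1] at h2
  have h3 : nr (e.pat P (i + e.J) ω) = nr (e.pat P i ω) := by omega
  have h4 := take_false i e.J ω h3
  have h5 : e.stp P (e.pat P (i + e.J)) ω = true := by
    rw [stp_eq_true]
    refine ⟨by omega, Or.inl (Or.inr ⟨?_, h4⟩)⟩
    rw [pat_length]
    omega
  have h6 : nr (e.pat P (i + (e.J + 1)) ω) = nr (e.pat P (i + e.J) ω) + 1 := by
    rw [← e1, pat_succ, h5, nr_true]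
  omega

omit [Fintype Ω] in
lemma tt_mono {a a' : ℕ} (h : a ≤ a') {ω ω' : Ω} (h' : e.tt a' ω = e.tt a' ω') :
    e.tt a ω = e.tt a ω' := by
  induction a', h using Nat.le_induction with
  | base => exact h'
  | succ k _ ih => exact ih (e.hT k ω ω' h')

omit [Fintype Ω] in
lemma vv_mono {r r' : ℕ} (h : r ≤ r') {ω ω' : Ω} (h' : e.vv r' ω = e.vv r' ω') :
    e.vv r ω = e.vv r ω' := by
  induction r', h using Nat.le_induction with
  | base => exact h'
  | succ k _ ih => exact ih (e.hV k ω ω' h')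

lemma kk_mono (i k : ℕ) {ω ω' : Ω}
    (h : e.kk (e.pat P (i + k)) ω = e.kk (e.pat P (i + k)) ω') :
    e.kk (e.pat P i) ω = e.kk (e.pat P i) ω' := by
  simp only [kk, K, Prod.mk.injEq] at h ⊢
  obtain ⟨h1, h2, h3, h4⟩ := h
  have h5 : e.pat P i ω = e.pat P i ω' := by
    rw [← pat_drop i k ω, ← pat_drop i k ω', h1]
  rw [← h5]
  refine ⟨rfl, h2, ?_, ?_⟩
  · rw [← h1] at h3
    exact tt_mono (na_mono i k ω) h3
  · rw [← h1] at h4
    exact vv_mono (nr_mono i k ω) h4

/-- the next value of the slope is known `J + 1` steps later -/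
lemma nx_fn (i k : ℕ) {ω ω' : Ω}
    (hk : nr (e.pat P i ω) < e.R → nr (e.pat P i ω) < nr (e.pat P (i + k) ω))
    (h : e.kk (e.pat P (i + k)) ω = e.kk (e.pat P (i + k)) ω') :
    e.nx (e.pat P i) ω = e.nx (e.pat P i) ω' := by
  have h0 := kk_mono i k h
  simp only [kk, K, Prod.mk.injEq] at h h0
  obtain ⟨h1, h2, h3, h4⟩ := h
  unfold nx
  rw [← h0.1]
  rw [← h1] at h4
  refine vv_mono ?_ h4
  have hR := nr_le (e := e) (P := P) i ω
  rcases hR.lt_or_eq with hlt | heq
  · have := hk hlt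
    omega
  · have := nr_mono (e := e) (P := P) i k ω
    omega

/-! ### Divergence along the path -/

/-- telescoping with overlapping windows -/
lemma sum_overlap (f : ℕ → ℝ) (B : ℝ) (h0 : ∀ i, 0 ≤ f i) (hB : ∀ i, f i ≤ B) (n J : ℕ) :
    ∑ i ∈ Finset.range n, (f (i + (J + 1)) - f i) ≤ (J + 1) * B := by
  induction J with
  | zero =>
    have : ∑ i ∈ Finset.range n, (f (i + (0 + 1)) - f i) = f n - f 0 := by
      simp only [Nat.zero_add]
      exact Finset.sum_range_sub f n
    rw [this]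
    have := hB n
    have := h0 0
    push_cast
    linarith
  | succ J ih =>
    have e1 : ∑ i ∈ Finset.range n, (f (i + (J + 1 + 1)) - f i) =
        ∑ i ∈ Finset.range n, (f (i + (J + 1)) - f i) +
        ∑ i ∈ Finset.range n, (f (i + 1 + (J + 1)) - f (i + (J + 1))) := by
      rw [← Finset.sum_add_distrib]
      refine Finset.sum_congr rfl fun i _ => ?_
      have : i + (J + 1 + 1) = i + 1 + (J + 1) := by ring
      rw [this]
      ring
    have e2 : ∑ i ∈ Finset.range n, (f (i + 1 + (J + 1)) - f (i + (J + 1))) =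
        f (n + (J + 1)) - f (0 + (J + 1)) :=
      Finset.sum_range_sub (fun i => f (i + (J + 1))) n
    rw [e1, e2]
    have := hB (n + (J + 1))
    have := h0 (0 + (J + 1))
    push_cast
    linarith

variable (e P) in
/-- information of the next value of the slope with the pattern -/
noncomputable def kap (Q : Law Ω) (i : ℕ) : ℝ :=
  Q.ex (fun ω => Real.log (cp Q (e.nx (e.pat P i)) (e.kk (e.pat P i)) ω) -
    Real.log (cp P (e.nx (e.pat P i)) (e.kk (e.pat P i)) ω))

lemma kap_nonneg {Q : Law Ω} (hac : Ac Q P) (i : ℕ) : 0 ≤ e.kap P Q i :=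
  ex_log_cp_nonneg Q P hac _ _

lemma kap_le {Q : Law Ω} (hac : Ac Q P) (i : ℕ) (hi : i < e.A + e.R) :
    e.kap P Q i ≤ kl Q P (e.kk (e.pat P (min (i + (e.J + 1)) (e.A + e.R)))) -
      kl Q P (e.kk (e.pat P i)) := by
  set j := min (i + (e.J + 1)) (e.A + e.R) with hj
  obtain ⟨k, hk⟩ : ∃ k, j = i + k := ⟨j - i, by omega⟩
  have h1 := kl_pair Q P hac (e.nx (e.pat P i)) (e.kk (e.pat P i))
  have h2 : kl Q P (fun ω => (e.nx (e.pat P i) ω, e.kk (e.pat P i) ω)) ≤
      kl Q P (e.kk (e.pat P j)) := by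
    refine kl_mono Q P hac fun ω ω' _ _ h => ?_
    rw [hk] at h
    refine Prod.ext (nx_fn i k ?_ h) (kk_mono i k h)
    intro hlt
    rcases le_total (i + (e.J + 1)) (e.A + e.R) with hc | hc
    · have : k = e.J + 1 := by omega
      rw [this]
      exact nr_step i ω hlt
    · have : i + k = e.A + e.R := by omega
      rw [this, nr_top]
      exact hlt
  unfold kap
  linarith

theorem sum_kap_le {Q : Law Ω} {p : ℝ} (hp : 0 < p) (hQ : ∀ ω, Q.w ω ≤ P.w ω / p)
    (hac : Ac Q P) :
    ∑ i ∈ Finset.range (e.A + e.R), e.kap P Q i ≤ (e.J + 1) * Real.log (1 / p) := by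
  set n := e.A + e.R with hn
  set f : ℕ → ℝ := fun i => kl Q P (e.kk (e.pat P (min i n))) with hf
  have h1 : ∑ i ∈ Finset.range n, e.kap P Q i ≤
      ∑ i ∈ Finset.range n, (f (i + (e.J + 1)) - f i) := by
    refine Finset.sum_le_sum fun i hi => ?_
    have hi' : i < n := Finset.mem_range.1 hi
    have := kap_le (e := e) hac i hi'
    simp only [hf]
    rw [min_eq_left hi'.le]
    exact this
  refine h1.trans (sum_overlap f _ (fun i => kl_nonneg Q P hac _)
    (fun i => kl_le_log Q P hp hQ _) n e.J)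

/-! ### The conditioned law -/

section condlaw

variable {E : List Bool} (hE : 0 < P.pr (e.pat P (e.A + e.R)) E)

include hE

lemma cond_supp {ω : Ω} (hω : 0 < (P.cond (e.pat P (e.A + e.R)) E).w ω) :
    e.pat P (e.A + e.R) ω = E ∧ 0 < P.w ω := by
  classical
  rw [P.cond_w _ _ hE] at hω
  split_ifs at hω with h
  · refine ⟨h, ?_⟩
    have := (div_pos_iff_of_pos_right hE).1 hω
    exact this
  · exact absurd hω (lt_irrefl _)

lemma cond_ac : Ac (P.cond (e.pat P (e.A + e.R)) E) P := fun _ hω => (cond_supp hE hω).2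

lemma cond_le (ω : Ω) : (P.cond (e.pat P (e.A + e.R)) E).w ω ≤
    P.w ω / P.pr (e.pat P (e.A + e.R)) E := by
  classical
  rw [P.cond_w _ _ hE]
  split_ifs
  · exact le_rfl
  · exact div_nonneg (P.nn ω) hE.le

lemma pat_eq {ω : Ω} (hω : 0 < (P.cond (e.pat P (e.A + e.R)) E).w ω) {i : ℕ}
    (hi : i ≤ e.A + e.R) : e.pat P i ω = E.drop (e.A + e.R - i) := by
  have h := pat_drop (e := e) (P := P) i (e.A + e.R - i) ω
  rw [Nat.add_sub_of_le hi, (cond_supp hE hω).1] at h
  exact h.symm

end condlaw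

variable (e) in
/-- number of `a`-steps among the first `i` steps of the word `E` -/
def ai (E : List Bool) (i : ℕ) : ℕ := na (E.drop (e.A + e.R - i))

variable (e) in
/-- number of `r`-steps among the first `i` steps of the word `E` -/
def ri (E : List Bool) (i : ℕ) : ℕ := nr (E.drop (e.A + e.R - i))

section main

variable {E : List Bool} (hE : 0 < P.pr (e.pat P (e.A + e.R)) E)

include hE

lemma exists_om : ∃ ω, 0 < (P.cond (e.pat P (e.A + e.R)) E).w ω :=
  exists_pos _

lemma ai_eq {ω : Ω} (hω : 0 < (P.cond (e.pat P (e.A + e.R)) E).w ω) {i : ℕ}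
    (hi : i ≤ e.A + e.R) : na (e.pat P i ω) = e.ai E i := by
  unfold ai
  rw [pat_eq hE hω hi]

lemma ri_eq {ω : Ω} (hω : 0 < (P.cond (e.pat P (e.A + e.R)) E).w ω) {i : ℕ}
    (hi : i ≤ e.A + e.R) : nr (e.pat P i ω) = e.ri E i := by
  unfold ri
  rw [pat_eq hE hω hi]

lemma ai_add_ri {i : ℕ} (hi : i ≤ e.A + e.R) : e.ai E i + e.ri E i = i := by
  obtain ⟨ω, hω⟩ := exists_om hE
  rw [← ai_eq hE hω hi, ← ri_eq hE hω hi, na_add_nr, pat_length]

lemma ai_zero : e.ai E 0 = 0 := by
  have := ai_add_ri hE (Nat.zero_le (e.A + e.R))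
  omega

lemma ri_zero : e.ri E 0 = 0 := by
  have := ai_add_ri hE (Nat.zero_le (e.A + e.R))
  omega

lemma ai_top : e.ai E (e.A + e.R) = e.A := by
  obtain ⟨ω, hω⟩ := exists_om hE
  rw [← ai_eq hE hω le_rfl, na_top]

lemma ri_top : e.ri E (e.A + e.R) = e.R := by
  obtain ⟨ω, hω⟩ := exists_om hE
  rw [← ri_eq hE hω le_rfl, nr_top]

lemma ri_le {i : ℕ} (hi : i ≤ e.A + e.R) : e.ri E i ≤ e.R := by
  obtain ⟨ω, hω⟩ := exists_om hE
  rw [← ri_eq hE hω hi]
  exact nr_le i ω

lemma ai_le {i : ℕ} (hi : i ≤ e.A + e.R) : e.ai E i ≤ e.A := by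
  obtain ⟨ω, hω⟩ := exists_om hE
  rw [← ai_eq hE hω hi]
  exact na_le i hi ω

/-- each step is an `a`-step or an `r`-step -/
lemma step_cases {i : ℕ} (hi : i < e.A + e.R) :
    (e.ai E (i + 1) = e.ai E i + 1 ∧ e.ri E (i + 1) = e.ri E i) ∨
    (e.ai E (i + 1) = e.ai E i ∧ e.ri E (i + 1) = e.ri E i + 1) := by
  obtain ⟨ω, hω⟩ := exists_om hE
  rw [← ai_eq hE hω hi, ← ri_eq hE hω hi, ← ai_eq hE hω hi.le, ← ri_eq hE hω hi.le, pat_succ]
  cases e.stp P (e.pat P i) ω with
  | false => left; simp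
  | true => right; simp

/-- there is an `r`-step among `J + 1` consecutive steps -/
lemma ri_step {i : ℕ} (hi : i + (e.J + 1) ≤ e.A + e.R) (hr : e.ri E i < e.R) :
    e.ri E i < e.ri E (i + (e.J + 1)) := by
  obtain ⟨ω, hω⟩ := exists_om hE
  rw [← ri_eq hE hω hi, ← ri_eq hE hω (by omega)]
  rw [← ri_eq hE hω (by omega)] at hr
  exact nr_step i ω hr

lemma fn_kk {i : ℕ} (hi : i ≤ e.A + e.R) :
    Fn (P.cond (e.pat P (e.A + e.R)) E) (e.kk (e.pat P i)) (e.K (e.ai E i) (e.ri E i)) := by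
  intro ω ω' hω hω' h
  unfold kk
  rw [ai_eq hE hω hi, ai_eq hE hω' hi, ri_eq hE hω hi, ri_eq hE hω' hi, h, pat_eq hE hω hi,
    pat_eq hE hω' hi]

lemma fn_kk' {i : ℕ} (hi : i ≤ e.A + e.R) :
    Fn (P.cond (e.pat P (e.A + e.R)) E) (e.K (e.ai E i) (e.ri E i)) (e.kk (e.pat P i)) := by
  intro ω ω' hω hω' h
  unfold kk at h
  rw [ai_eq hE hω hi, ai_eq hE hω' hi, ri_eq hE hω hi, ri_eq hE hω' hi] at h
  exact congrArg Prod.snd h

lemma nx_eq {i : ℕ} (hi : i ≤ e.A + e.R) (hr : e.ri E i < e.R) {ω : Ω}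
    (hω : 0 < (P.cond (e.pat P (e.A + e.R)) E).w ω) :
    e.nx (e.pat P i) ω = e.vv (e.ri E i + 1) ω := by
  unfold nx
  rw [ri_eq hE hω hi, min_eq_left (by omega)]

lemma cp_eq {i : ℕ} (hi : i ≤ e.A + e.R) (hr : e.ri E i < e.R) {ω : Ω}
    (hω : 0 < (P.cond (e.pat P (e.A + e.R)) E).w ω) :
    cp (P.cond (e.pat P (e.A + e.R)) E) (e.nx (e.pat P i)) (e.kk (e.pat P i)) ω =
    cp (P.cond (e.pat P (e.A + e.R)) E) (e.vv (e.ri E i + 1)) (e.K (e.ai E i) (e.ri E i)) ω := by
  refine cp_congr _ ?_ ?_ (fn_kk hE hi) (fn_kk' hE hi) hω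
  · intro ω ω' p p' h
    simp only [Prod.mk.injEq] at h ⊢
    rw [nx_eq hE hi hr p, nx_eq hE hi hr p']
    exact ⟨h.1, fn_kk hE hi ω ω' p p' h.2⟩
  · intro ω ω' p p' h
    simp only [Prod.mk.injEq] at h ⊢
    rw [nx_eq hE hi hr p, nx_eq hE hi hr p'] at h
    exact ⟨h.1, fn_kk' hE hi ω ω' p p' h.2⟩

/-- **(P1)** at an `a`-step two copies of the next block of the slope collide rarely -/
theorem coll_slope {i : ℕ} (hi : i < e.A + e.R) (hr : e.ri E i < e.R)
    (ha : e.ai E (i + 1) = e.ai E i + 1) (h0 : 0 < e.thr) {ε : ℝ} (hε : e.thr < ε) :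
    coll (P.cond (e.pat P (e.A + e.R)) E) (e.vv (e.ri E i + 1)) (e.K (e.ai E i) (e.ri E i)) ≤
      ε + (e.kap P (P.cond (e.pat P (e.A + e.R)) E) i + 1) / Real.log (ε / e.thr) := by
  set Q := P.cond (e.pat P (e.A + e.R)) E with hQ
  have hac : Ac Q P := cond_ac hE
  have h1 := coll_le Q (e.nx (e.pat P i)) (e.kk (e.pat P i))
    (cp P (e.nx (e.pat P i)) (e.kk (e.pat P i))) (fun ω hω => cp_pos P _ _ (hac ω hω))
    (ex_cp_div' P Q _ _) h0 hε
  have h2 : prE Q (fun ω => e.thr < cp P (e.nx (e.pat P i)) (e.kk (e.pat P i)) ω) = 0 := by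
    classical
    have h20 : prE Q (fun ω => e.thr < cp P (e.nx (e.pat P i)) (e.kk (e.pat P i)) ω) =
        Q.ex (fun _ => 0) := by
      rw [prE_eq_ex]
      refine Q.ex_congr fun ω hω => ?_
      rw [if_neg]
      intro hlt
      have h3 : e.stp P (e.pat P i) ω = true := by
        rw [stp_eq_true, ri_eq hE hω hi.le]
        exact ⟨hr, Or.inr hlt.le⟩
      have h4 := ai_eq hE hω (i := i + 1) hi
      rw [pat_succ, h3, na_true, ai_eq hE hω hi.le] at h4
      omega
    rw [h20, Q.ex_const]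
  have h5 : coll Q (e.nx (e.pat P i)) (e.kk (e.pat P i)) =
      coll Q (e.vv (e.ri E i + 1)) (e.K (e.ai E i) (e.ri E i)) := by
    unfold coll
    exact Q.ex_congr fun ω hω => cp_eq hE hi.le hr hω
  rw [h5, h2] at h1
  unfold kap
  linarith

/-- (P1), total divergence -/
theorem sum_kap : ∑ i ∈ Finset.range (e.A + e.R),
    e.kap P (P.cond (e.pat P (e.A + e.R)) E) i ≤
      (e.J + 1) * Real.log (1 / P.pr (e.pat P (e.A + e.R)) E) :=
  sum_kap_le hE (cond_le hE) (cond_ac hE)

lemma kap_nn (i : ℕ) : 0 ≤ e.kap P (P.cond (e.pat P (e.A + e.R)) E) i :=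
  kap_nonneg (cond_ac hE) i

/-- **(P2)** an unforced `r`-step is cheap -/
theorem cost_unforced {i : ℕ} (hi : i < e.A + e.R)
    (hr : e.ri E (i + 1) = e.ri E i + 1) (hf : ¬ e.forced (E.drop (e.A + e.R - i)))
    (h0 : 0 < e.thr) :
    hc (P.cond (e.pat P (e.A + e.R)) E) (e.vv (e.ri E i + 1)) (e.K (e.ai E i) (e.ri E i)) ≤
      Real.log (1 / e.thr) := by
  set Q := P.cond (e.pat P (e.A + e.R)) E with hQ
  have hac : Ac Q P := cond_ac hE
  have hR : e.ri E i < e.R := by
    have := ri_le hE (i := i + 1) hi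
    omega
  have h5 : hc Q (e.vv (e.ri E i + 1)) (e.K (e.ai E i) (e.ri E i)) =
      hc Q (e.nx (e.pat P i)) (e.kk (e.pat P i)) := by
    rw [hc_eq, hc_eq]
    refine Q.ex_congr fun ω hω => ?_
    rw [cp_eq hE hi.le hR hω]
  rw [h5]
  refine (hc_le_cross Q P hac _ _).trans ?_
  have h6 := Q.ex_mono (f := fun ω => - Real.log (cp P (e.nx (e.pat P i)) (e.kk (e.pat P i)) ω))
    (g := fun _ => Real.log (1 / e.thr)) (fun ω hω => by
      have h3 : e.stp P (e.pat P i) ω = true := by
        by_contra hcon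
        have h7 : e.stp P (e.pat P i) ω = false := by
          simpa using hcon
        have h4 := ri_eq hE hω (i := i + 1) hi
        rw [pat_succ, h7, nr_false, ri_eq hE hω hi.le] at h4
        omega
      rw [stp_eq_true] at h3
      have h8 : e.thr ≤ cp P (e.nx (e.pat P i)) (e.kk (e.pat P i)) ω := by
        rcases h3.2 with h9 | h9
        · rw [pat_eq hE hω hi.le] at h9
          exact absurd h9 hf
        · exact h9
      rw [one_div, Real.log_inv]
      have := Real.log_le_log h0 h8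
      linarith)
  rwa [Q.ex_const] at h6

end main

end Expl

end Vale.Agent.P127.U.Path
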