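import Vale.Agent.P127.U.PathB
import Vale.Agent.P127.Stk.LibEnt

/-!
# P127 / U : costs along the path, total collision bounds, selection of a pattern (helper823)
-/

set_option autoImplicit false

namespace Vale.Agent.P127.U.Path

open Finset Vale.Agent.P127 Vale.Agent.P127.Stk

/-- length of the last run of `a`-steps -/
def tr : List Bool → ℕ
  | [] => 0
  | true :: _ => 0
  | false :: w => tr w + 1

lemma le_tr (J : ℕ) (w : List Bool) (h : J ≤ w.length) (h' : ∀ b ∈ w.take J, b = false) :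
    J ≤ tr w := by
  induction J generalizing w with
  | zero => exact Nat.zero_le _
  | succ J ih =>
    cases w with
    | nil => simp at h
    | cons b w =>
      rw [List.take_succ_cons] at h'
      have hb : b = false := h' b (by simp)
      subst hb
      have := ih w (by simpa using h) (fun b hb => h' b (by simp [hb]))
      simp only [tr]
      omega

namespace Expl

variable {Ω : Type} [Fintype Ω] {α β γ : Type*} {e : Expl Ω α β γ} {P : Law Ω}

section main

variable {E : List Bool} (hE : 0 < P.pr (e.pat P (e.A + e.R)) E)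

include hE

/-- the next letter of the word -/
lemma drop_succ {i : ℕ} (hi : i < e.A + e.R) :
    (E.drop (e.A + e.R - (i + 1)) = false :: E.drop (e.A + e.R - i) ∧
      e.ai E (i + 1) = e.ai E i + 1 ∧ e.ri E (i + 1) = e.ri E i) ∨
    (E.drop (e.A + e.R - (i + 1)) = true :: E.drop (e.A + e.R - i) ∧
      e.ai E (i + 1) = e.ai E i ∧ e.ri E (i + 1) = e.ri E i + 1) := by
  obtain ⟨ω, hω⟩ := exists_om (e := e) hE
  have h1 := pat_eq hE hω (i := i + 1) hi
  have h2 := pat_eq hE hω (i := i) hi.le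
  rw [pat_succ, h2] at h1
  cases hs : e.stp P (e.pat P i) ω with
  | false =>
    rw [hs] at h1
    left
    refine ⟨h1.symm, ?_, ?_⟩
    · unfold ai; rw [← h1]; simp
    · unfold ri; rw [← h1]; simp
  | true =>
    rw [hs] at h1
    right
    refine ⟨h1.symm, ?_, ?_⟩
    · unfold ai; rw [← h1]; simp
    · unfold ri; rw [← h1]; simp

open Classical in
/-- **(P2)** number of `r`-steps forced by `J` consecutive `a`-steps -/
theorem forced_card (i : ℕ) (hi : i ≤ e.A + e.R) :
    e.J * ((Finset.range i).filter (fun j => e.ri E (j + 1) = e.ri E j + 1 ∧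
      e.J ≤ (E.drop (e.A + e.R - j)).length ∧
      ∀ b ∈ (E.drop (e.A + e.R - j)).take e.J, b = false)).card +
      tr (E.drop (e.A + e.R - i)) ≤ e.ai E i := by
  induction i with
  | zero =>
    have h1 : E.drop (e.A + e.R - 0) = [] := by
      obtain ⟨ω, hω⟩ := exists_om (e := e) hE
      have := pat_eq hE hω (i := 0) (Nat.zero_le _)
      rw [pat_zero] at this
      exact this.symm
    rw [h1]
    simp [tr]
  | succ i ih =>
    have hi' : i < e.A + e.R := hi
    have ih' := ih hi'.le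
    rw [Finset.range_add_one, Finset.filter_insert]
    rcases drop_succ hE hi' with ⟨h1, h2, h3⟩ | ⟨h1, h2, h3⟩
    · rw [if_neg (by
        rintro ⟨h4, _⟩
        omega), h1, h2]
      simp only [tr]
      omega
    · rw [h1, h2]
      split_ifs with hc
      · rw [Finset.card_insert_of_notMem (by simp)]
        have := le_tr e.J _ hc.2.1 hc.2.2
        simp only [tr]
        rw [mul_add]
        omega
      · simp only [tr]
        omega

/-- the number of `r`-steps -/
lemma sum_r (i : ℕ) (hi : i ≤ e.A + e.R) (c : ℝ) :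
    ∑ j ∈ Finset.range i, (if e.ri E (j + 1) = e.ri E j + 1 then c else 0) = e.ri E i * c := by
  induction i with
  | zero => rw [ri_zero hE]; simp
  | succ i ih =>
    have hi' : i < e.A + e.R := hi
    rw [Finset.sum_range_succ, ih hi'.le]
    rcases step_cases hE hi' with ⟨h2, h3⟩ | ⟨h2, h3⟩
    · rw [if_neg (by omega), h3, add_zero]
    · rw [if_pos h3, h3]
      push_cast
      ring

/-- entropy of what is known after `i` steps -/
noncomputable def hK (e : Expl Ω α β γ) (Q : Law Ω) (E : List Bool) (i : ℕ) : ℝ :=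
  Q.H (e.K (e.ai E i) (e.ri E i))

omit hE in
lemma hK_a (Q : Law Ω) (a r : ℕ) :
    Q.H (e.K (a + 1) r) = Q.H (e.K a r) + hc Q (e.tt (a + 1)) (e.K a r) := by
  have h : Q.H (fun ω => (e.tt (a + 1) ω, e.K a r ω)) = Q.H (e.K (a + 1) r) := by
    refine Q.H_congr fun ω ω' => ?_
    simp only [K, Prod.mk.injEq]
    constructor
    · rintro ⟨h1, h2, h3, h4⟩
      exact ⟨h2, h1, h4⟩
    · rintro ⟨h1, h2, h3⟩
      exact ⟨h2, h1, e.hT a ω ω' h2, h3⟩
  unfold hc
  rw [h]
  ring

omit hE in
lemma hK_r (Q : Law Ω) (a r : ℕ) :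
    Q.H (e.K a (r + 1)) = Q.H (e.K a r) + hc Q (e.vv (r + 1)) (e.K a r) := by
  have h : Q.H (fun ω => (e.vv (r + 1) ω, e.K a r ω)) = Q.H (e.K a (r + 1)) := by
    refine Q.H_congr fun ω ω' => ?_
    simp only [K, Prod.mk.injEq]
    constructor
    · rintro ⟨h1, h2, h3, h4⟩
      exact ⟨h2, h3, h1⟩
    · rintro ⟨h1, h2, h3⟩
      exact ⟨h3, h1, h2, e.hV r ω ω' h3⟩
  unfold hc
  rw [h]
  ring

omit hE in
lemma hL_a (Q : Law Ω) (a : ℕ) :
    Q.H (fun ω => (e.Lv ω, e.tt (a + 1) ω)) = Q.H (fun ω => (e.Lv ω, e.tt a ω)) +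
      hc Q (e.tt (a + 1)) (fun ω => (e.Lv ω, e.tt a ω)) := by
  have h : Q.H (fun ω => (e.tt (a + 1) ω, (e.Lv ω, e.tt a ω))) =
      Q.H (fun ω => (e.Lv ω, e.tt (a + 1) ω)) := by
    refine Q.H_congr fun ω ω' => ?_
    simp only [Prod.mk.injEq]
    constructor
    · rintro ⟨h1, h2, h3⟩
      exact ⟨h2, h1⟩
    · rintro ⟨h1, h2⟩
      exact ⟨h2, h1, e.hT a ω ω' h2⟩
  unfold hc
  rw [h]
  ring

/-- chain rule along the path (any law) -/
theorem chain_K (Q : Law Ω) (i : ℕ) (hi : i ≤ e.A + e.R) :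
    ∑ j ∈ Finset.range i, ((if e.ai E (j + 1) = e.ai E j + 1 then
        hc Q (e.tt (e.ai E j + 1)) (e.K (e.ai E j) (e.ri E j)) else 0) +
      (if e.ri E (j + 1) = e.ri E j + 1 then
        hc Q (e.vv (e.ri E j + 1)) (e.K (e.ai E j) (e.ri E j)) else 0)) =
      hK e Q E i - hK e Q E 0 := by
  induction i with
  | zero => simp
  | succ i ih =>
    have hi' : i < e.A + e.R := hi
    rw [Finset.sum_range_succ, ih hi'.le]
    rcases step_cases hE hi' with ⟨h2, h3⟩ | ⟨h2, h3⟩
    · rw [if_pos h2, if_neg (by omega)]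
      have h4 : hK e Q E (i + 1) = Q.H (e.K (e.ai E i + 1) (e.ri E i)) := by
        unfold hK
        rw [h2, h3]
      rw [h4, hK_a]
      unfold hK
      ring
    · rw [if_pos h3, if_neg (by omega)]
      have h4 : hK e Q E (i + 1) = Q.H (e.K (e.ai E i) (e.ri E i + 1)) := by
        unfold hK
        rw [h2, h3]
      rw [h4, hK_r]
      unfold hK
      ring

/-- chain rule for the time alone (any law) -/
theorem chain_L (Q : Law Ω) (i : ℕ) (hi : i ≤ e.A + e.R) :
    ∑ j ∈ Finset.range i, (if e.ai E (j + 1) = e.ai E j + 1 then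
        hc Q (e.tt (e.ai E j + 1)) (fun ω => (e.Lv ω, e.tt (e.ai E j) ω)) else 0) =
      Q.H (fun ω => (e.Lv ω, e.tt (e.ai E i) ω)) - Q.H (fun ω => (e.Lv ω, e.tt 0 ω)) := by
  induction i with
  | zero =>
    rw [ai_zero hE]
    simp
  | succ i ih =>
    have hi' : i < e.A + e.R := hi
    rw [Finset.sum_range_succ, ih hi'.le]
    rcases step_cases hE hi' with ⟨h2, h3⟩ | ⟨h2, h3⟩
    · rw [if_pos h2, h2, hL_a]
      ring
    · rw [if_neg (by omega), h2]
      ring

/-- **(P3)** the time entropy lost along the path is at most the cost of the `r`-steps (any law) -/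
theorem time_loss (Q : Law Ω) (i : ℕ) (hi : i ≤ e.A + e.R) :
    ∑ j ∈ Finset.range i, (if e.ai E (j + 1) = e.ai E j + 1 then
        (hc Q (e.tt (e.ai E j + 1)) (fun ω => (e.Lv ω, e.tt (e.ai E j) ω)) -
          hc Q (e.tt (e.ai E j + 1)) (e.K (e.ai E j) (e.ri E j))) else 0) ≤
      ∑ j ∈ Finset.range i, (if e.ri E (j + 1) = e.ri E j + 1 then
        hc Q (e.vv (e.ri E j + 1)) (e.K (e.ai E j) (e.ri E j)) else 0) +
      hc Q (e.vv 0) (fun ω => (e.Lv ω, e.tt 0 ω)) := by
  have h1 := chain_K hE Q i hi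
  have h2 := chain_L hE Q i hi
  rw [Finset.sum_add_distrib] at h1
  have h3 : ∑ j ∈ Finset.range i, (if e.ai E (j + 1) = e.ai E j + 1 then
        (hc Q (e.tt (e.ai E j + 1)) (fun ω => (e.Lv ω, e.tt (e.ai E j) ω)) -
          hc Q (e.tt (e.ai E j + 1)) (e.K (e.ai E j) (e.ri E j))) else 0) =
      ∑ j ∈ Finset.range i, (if e.ai E (j + 1) = e.ai E j + 1 then
        hc Q (e.tt (e.ai E j + 1)) (fun ω => (e.Lv ω, e.tt (e.ai E j) ω)) else 0) -
      ∑ j ∈ Finset.range i, (if e.ai E (j + 1) = e.ai E j + 1 then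
        hc Q (e.tt (e.ai E j + 1)) (e.K (e.ai E j) (e.ri E j)) else 0) := by
    rw [← Finset.sum_sub_distrib]
    refine Finset.sum_congr rfl fun j _ => ?_
    split_ifs <;> ring
  have h4 : Q.H (fun ω => (e.Lv ω, e.tt (e.ai E i) ω)) ≤ hK e Q E i := by
    unfold hK
    refine H_mono' Q fun ω ω' _ _ h => ?_
    simp only [K, Prod.mk.injEq] at h ⊢
    exact ⟨h.1, h.2.1⟩
  have h5 : hK e Q E 0 = Q.H (fun ω => (e.Lv ω, e.tt 0 ω)) +
      hc Q (e.vv 0) (fun ω => (e.Lv ω, e.tt 0 ω)) := by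
    unfold hK hc
    rw [ai_zero hE, ri_zero hE]
    have : Q.H (fun ω => (e.vv 0 ω, e.Lv ω, e.tt 0 ω)) = Q.H (e.K 0 0) := by
      refine Q.H_congr fun ω ω' => ?_
      simp only [K, Prod.mk.injEq]
      tauto
    rw [this]
    ring
  rw [h3, h2]
  linarith

/-- the `r`-steps at the end of the path -/
theorem cost_end (Q : Law Ω) :
    ∑ j ∈ Finset.range (e.A + e.R), (if e.ri E (j + 1) = e.ri E j + 1 ∧ e.ai E j = e.A then
        hc Q (e.vv (e.ri E j + 1)) (e.K (e.ai E j) (e.ri E j)) else 0) ≤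
      hc Q (e.vv e.R) (fun ω => (e.Lv ω, e.tt e.A ω)) := by
  classical
  have h1 : ∑ r ∈ Finset.range e.R, hc Q (e.vv (r + 1)) (e.K e.A r) =
      Q.H (e.K e.A e.R) - Q.H (e.K e.A 0) := by
    rw [← Finset.sum_range_sub (fun r => Q.H (e.K e.A r))]
    refine Finset.sum_congr rfl fun r _ => ?_
    rw [hK_r]
    ring
  have h2 : Q.H (fun ω => (e.Lv ω, e.tt e.A ω)) ≤ Q.H (e.K e.A 0) := by
    refine H_mono' Q fun ω ω' _ _ h => ?_
    simp only [K, Prod.mk.injEq] at h ⊢
    exact ⟨h.1, h.2.1⟩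
  have h3 : hc Q (e.vv e.R) (fun ω => (e.Lv ω, e.tt e.A ω)) =
      Q.H (e.K e.A e.R) - Q.H (fun ω => (e.Lv ω, e.tt e.A ω)) := by
    unfold hc
    have : Q.H (fun ω => (e.vv e.R ω, e.Lv ω, e.tt e.A ω)) = Q.H (e.K e.A e.R) := by
      refine Q.H_congr fun ω ω' => ?_
      simp only [K, Prod.mk.injEq]
      tauto
    rw [this]
  have h4 : ∑ j ∈ Finset.range (e.A + e.R),
      (if e.ri E (j + 1) = e.ri E j + 1 ∧ e.ai E j = e.A then
        hc Q (e.vv (e.ri E j + 1)) (e.K (e.ai E j) (e.ri E j)) else 0) ≤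
      ∑ r ∈ Finset.range e.R, hc Q (e.vv (r + 1)) (e.K e.A r) := by
    rw [← Finset.sum_filter]
    have h5 : ∑ j ∈ (Finset.range (e.A + e.R)).filter
        (fun j => e.ri E (j + 1) = e.ri E j + 1 ∧ e.ai E j = e.A),
        hc Q (e.vv (e.ri E j + 1)) (e.K (e.ai E j) (e.ri E j)) =
        ∑ r ∈ ((Finset.range (e.A + e.R)).filter
          (fun j => e.ri E (j + 1) = e.ri E j + 1 ∧ e.ai E j = e.A)).image (fun j => e.ri E j),
          hc Q (e.vv (r + 1)) (e.K e.A r) := by
      rw [Finset.sum_image]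
      · refine Finset.sum_congr rfl fun j hj => ?_
        rw [((Finset.mem_filter.1 hj).2).2]
      · intro j hj k hk hjk
        simp only [Finset.coe_filter, Finset.mem_range, Set.mem_ofPred_eq] at hj hk
        have a1 := ai_add_ri hE hj.1.le
        have a2 := ai_add_ri hE hk.1.le
        simp only at hjk
        omega
    rw [h5]
    refine Finset.sum_le_sum_of_subset_of_nonneg ?_ fun r _ _ => hc_nonneg Q _ _
    intro r hr
    simp only [Finset.mem_image, Finset.mem_filter, Finset.mem_range] at hr ⊢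
    obtain ⟨j, ⟨hj1, hj2, _⟩, rfl⟩ := hr
    have := ri_le hE (i := j + 1) hj1
    omega
  linarith

/-- **(P2)** total cost of the `r`-steps -/
theorem cost_total (hJ : 0 < e.J) (h0 : 0 < e.thr) (h1 : e.thr ≤ 1) (M : ℝ)
    (hM0 : 0 ≤ M)
    (hM : ∀ a r, hc (P.cond (e.pat P (e.A + e.R)) E) (e.vv (r + 1)) (e.K a r) ≤ M) :
    ∑ j ∈ Finset.range (e.A + e.R), (if e.ri E (j + 1) = e.ri E j + 1 then
        hc (P.cond (e.pat P (e.A + e.R)) E) (e.vv (e.ri E j + 1))
          (e.K (e.ai E j) (e.ri E j)) else 0) ≤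
      e.R * Real.log (1 / e.thr) + (e.A / e.J : ℝ) * M +
        hc (P.cond (e.pat P (e.A + e.R)) E) (e.vv e.R) (fun ω => (e.Lv ω, e.tt e.A ω)) := by
  classical
  set Q := P.cond (e.pat P (e.A + e.R)) E with hQ
  set n := e.A + e.R with hn
  have hlog : 0 ≤ Real.log (1 / e.thr) := Real.log_nonneg (by rw [le_div_iff₀ h0]; linarith)
  set F : ℕ → Prop := fun j => e.ri E (j + 1) = e.ri E j + 1 ∧
      e.J ≤ (E.drop (n - j)).length ∧ ∀ b ∈ (E.drop (n - j)).take e.J, b = false with hF
  have key : ∀ j ∈ Finset.range n, (if e.ri E (j + 1) = e.ri E j + 1 then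
        hc Q (e.vv (e.ri E j + 1)) (e.K (e.ai E j) (e.ri E j)) else 0) ≤
      (if e.ri E (j + 1) = e.ri E j + 1 then Real.log (1 / e.thr) else 0) +
      (if F j then M else 0) +
      (if e.ri E (j + 1) = e.ri E j + 1 ∧ e.ai E j = e.A then
        hc Q (e.vv (e.ri E j + 1)) (e.K (e.ai E j) (e.ri E j)) else 0) := by
    intro j hj
    have hj' : j < n := Finset.mem_range.1 hj
    have hF0 : 0 ≤ (if F j then M else 0) := by
      by_cases hf : F j
      · rw [if_pos hf]; exact hM0
      · rw [if_neg hf]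
    by_cases hr : e.ri E (j + 1) = e.ri E j + 1
    · by_cases hA : e.ai E j = e.A
      · have c1 : (if e.ri E (j + 1) = e.ri E j + 1 ∧ e.ai E j = e.A then
            hc Q (e.vv (e.ri E j + 1)) (e.K (e.ai E j) (e.ri E j)) else 0) =
            hc Q (e.vv (e.ri E j + 1)) (e.K (e.ai E j) (e.ri E j)) := if_pos ⟨hr, hA⟩
        rw [c1]
        simp only [if_pos hr]
        linarith
      · have c1 : (if e.ri E (j + 1) = e.ri E j + 1 ∧ e.ai E j = e.A then
            hc Q (e.vv (e.ri E j + 1)) (e.K (e.ai E j) (e.ri E j)) else 0) = 0 :=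
          if_neg (fun h => hA h.2)
        rw [c1]
        simp only [if_pos hr]
        by_cases hf : F j
        · rw [if_pos hf]
          have := hM (e.ai E j) (e.ri E j)
          linarith
        · rw [if_neg hf]
          have h2 : ¬ e.forced (E.drop (e.A + e.R - j)) := by
            unfold forced
            rintro (h3 | h3)
            · have h4 := ai_le hE hj'.le
              unfold ai at h4 hA
              omega
            · exact hf ⟨hr, h3⟩
          have := cost_unforced hE hj' hr h2 h0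
          linarith
    · have c1 : (if e.ri E (j + 1) = e.ri E j + 1 ∧ e.ai E j = e.A then
            hc Q (e.vv (e.ri E j + 1)) (e.K (e.ai E j) (e.ri E j)) else 0) = 0 :=
          if_neg (fun h => hr h.1)
      rw [c1]
      simp only [if_neg hr]
      linarith
  refine (Finset.sum_le_sum key).trans ?_
  rw [Finset.sum_add_distrib, Finset.sum_add_distrib]
  have s1 := sum_r hE n le_rfl (Real.log (1 / e.thr))
  rw [ri_top hE] at s1
  have s2 : ∑ j ∈ Finset.range n, (if F j then M else 0) ≤ (e.A / e.J : ℝ) * M := by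
    rw [← Finset.sum_filter, Finset.sum_const, nsmul_eq_mul]
    refine mul_le_mul_of_nonneg_right ?_ hM0
    have hJ' : (0 : ℝ) < e.J := by exact_mod_cast hJ
    rw [le_div_iff₀ hJ']
    have h5 := forced_card hE n le_rfl
    rw [ai_top hE] at h5
    have h6 : e.J * ((Finset.range n).filter F).card ≤ e.A := by
      have : (Finset.range n).filter F = (Finset.range n).filter
        (fun j => e.ri E (j + 1) = e.ri E j + 1 ∧
          e.J ≤ (E.drop (e.A + e.R - j)).length ∧
          ∀ b ∈ (E.drop (e.A + e.R - j)).take e.J, b = false) := rfl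
      rw [this]
      omega
    have h7 : ((e.J * ((Finset.range n).filter F).card : ℕ) : ℝ) ≤ e.A := by exact_mod_cast h6
    push_cast at h7
    linarith
  have s3 := cost_end hE Q
  linarith

/-- **(P1)** total collision bound for the slopes at the `a`-steps -/
theorem coll_total (h0 : 0 < e.thr) {ε : ℝ} (hε : e.thr < ε) :
    ∑ i ∈ Finset.range (e.A + e.R), (if e.ai E (i + 1) = e.ai E i + 1 ∧ e.ri E i < e.R then
      coll (P.cond (e.pat P (e.A + e.R)) E) (e.vv (e.ri E i + 1)) (e.K (e.ai E i) (e.ri E i))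
      else 0) ≤
      (e.A + e.R : ℕ) * ε +
        ((e.J + 1) * Real.log (1 / P.pr (e.pat P (e.A + e.R)) E) + (e.A + e.R : ℕ)) /
          Real.log (ε / e.thr) := by
  classical
  set Q := P.cond (e.pat P (e.A + e.R)) E with hQ
  have hε0 : 0 < ε := h0.trans hε
  have hlog : 0 < Real.log (ε / e.thr) := Real.log_pos (by rwa [lt_div_iff₀ h0, one_mul])
  have h1 : ∀ i ∈ Finset.range (e.A + e.R),
      (if e.ai E (i + 1) = e.ai E i + 1 ∧ e.ri E i < e.R then
        coll Q (e.vv (e.ri E i + 1)) (e.K (e.ai E i) (e.ri E i)) else 0) ≤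
      ε + (e.kap P Q i + 1) / Real.log (ε / e.thr) := by
    intro i hi
    have hi' := Finset.mem_range.1 hi
    split_ifs with hc
    · exact coll_slope hE hi' hc.2 hc.1 h0 hε
    · have := kap_nn hE i
      positivity
  refine (Finset.sum_le_sum h1).trans ?_
  rw [Finset.sum_add_distrib, ← Finset.sum_div, Finset.sum_add_distrib]
  simp only [Finset.sum_const, Finset.card_range, nsmul_eq_mul, mul_one]
  have h2 := sum_kap hE
  gcongr

end main

/-! ### Selection of a pattern -/

/-- number of patterns : the entropy of the pattern is at most `n log 2` -/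
theorem pat_H_le (n : ℕ) : P.H (e.pat P n) ≤ n * Real.log 2 := by
  classical
  set Z : Ω → List.Vector Bool n := fun ω => ⟨e.pat P n ω, pat_length n ω⟩ with hZ
  have h1 := P.H_le_log_card Z
  have h2 : P.H Z = P.H (e.pat P n) := by
    refine P.H_congr fun ω ω' => ?_
    constructor
    · intro h
      exact congrArg Subtype.val h
    · intro h
      exact Subtype.ext h
  rw [h2] at h1
  have h3 : (Fintype.card (List.Vector Bool n) : ℝ) = 2 ^ n := by
    rw [card_vector, Fintype.card_bool]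
    push_cast
    rfl
  rw [h3, Real.log_pow] at h1
  exact h1

end Expl

/-- selection of a value : finitely many nonnegative quantities with prescribed averages -/
theorem select {Ω : Type} [Fintype Ω] {S : Type*} {ι : Type*} (P : Law Ω) (Z : Ω → S) (s : Finset ι)
    (F : ι → S → ℝ) (c : ι → ℝ) (h0 : ∀ j ∈ s, ∀ z, 0 < P.pr Z z → 0 ≤ F j z)
    (hc : ∀ j ∈ s, 0 < c j)
    (hF : ∀ j ∈ s, P.ex (fun ω => F j (Z ω)) ≤ c j) (H : ℝ) (hH0 : 0 < H) (hH : P.H Z ≤ H) :
    ∃ ω, 0 < P.w ω ∧ Real.log (1 / P.pr Z (Z ω)) ≤ (s.card + 1) * H ∧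
      ∀ j ∈ s, F j (Z ω) ≤ (s.card + 1) * c j := by
  classical
  by_contra hcon
  push Not at hcon
  -- the normalised sum
  set G : Ω → ℝ := fun ω => Real.log (1 / P.pr Z (Z ω)) / H + ∑ j ∈ s, F j (Z ω) / c j with hG
  have hnn : ∀ ω, 0 < P.w ω → 0 ≤ Real.log (1 / P.pr Z (Z ω)) := by
    intro ω hω
    have h1 := P.pr_pos Z hω
    have h2 := P.pr_le_one Z (Z ω)
    exact Real.log_nonneg (by rw [le_div_iff₀ h1]; linarith)
  have h1 : P.ex G ≤ s.card + 1 := by
    rw [hG, P.ex_add]
    have e1 : P.ex (fun ω => Real.log (1 / P.pr Z (Z ω)) / H) = P.H Z / H := by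
      unfold Law.H
      rw [div_eq_inv_mul, ← P.ex_const_mul]
      refine P.ex_congr fun ω hω => ?_
      rw [one_div, Real.log_inv]
      ring
    have e2 : P.ex (fun ω => ∑ j ∈ s, F j (Z ω) / c j) = ∑ j ∈ s, P.ex (fun ω => F j (Z ω)) / c j := by
      unfold Law.ex
      simp only [Finset.mul_sum]
      rw [Finset.sum_comm]
      refine Finset.sum_congr rfl fun j _ => ?_
      rw [Finset.sum_div]
      refine Finset.sum_congr rfl fun ω _ => ?_
      ring
    rw [e1, e2]
    have h2 : P.H Z / H ≤ 1 := by rw [div_le_one hH0]; exact hH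
    have h3 : ∑ j ∈ s, P.ex (fun ω => F j (Z ω)) / c j ≤ ∑ _j ∈ s, (1 : ℝ) := by
      refine Finset.sum_le_sum fun j hj => ?_
      rw [div_le_one (hc j hj)]
      exact hF j hj
    rw [Finset.sum_const, nsmul_eq_mul, mul_one] at h3
    linarith
  have h2 : ∀ ω, 0 < P.w ω → (s.card + 1 : ℝ) < G ω := by
    intro ω hω
    have hpos := P.pr_pos Z hω
    have t0 : ∀ j ∈ s, 0 ≤ F j (Z ω) / c j := fun j hj =>
      div_nonneg (h0 j hj _ hpos) (hc j hj).le
    simp only [hG]
    rcases lt_or_ge ((s.card + 1 : ℝ) * H) (Real.log (1 / P.pr Z (Z ω))) with h3 | h3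
    · have h4 : (s.card + 1 : ℝ) < Real.log (1 / P.pr Z (Z ω)) / H := by
        rwa [lt_div_iff₀ hH0]
      have := Finset.sum_nonneg t0
      linarith
    · obtain ⟨j, hj, hlt⟩ := hcon ω hω h3
      have h4 : (s.card + 1 : ℝ) < F j (Z ω) / c j := by
        rwa [lt_div_iff₀ (hc j hj)]
      have h5 := Finset.single_le_sum t0 hj
      have h6 : 0 ≤ Real.log (1 / P.pr Z (Z ω)) / H := div_nonneg (hnn ω hω) hH0.le
      linarith
  have h3 : (s.card + 1 : ℝ) < P.ex G := by
    obtain ⟨ω0, hω0⟩ := exists_pos P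
    have h4 : P.ex (fun _ => (s.card + 1 : ℝ)) < P.ex G := by
      unfold Law.ex
      refine Finset.sum_lt_sum (fun ω _ => ?_) ⟨ω0, Finset.mem_univ _, ?_⟩
      · rcases (P.nn ω).eq_or_lt with h5 | h5
        · rw [← h5]; simp
        · exact mul_le_mul_of_nonneg_left (h2 ω h5).le h5.le
      · exact mul_lt_mul_of_pos_left (h2 ω0 hω0) hω0
    rwa [P.ex_const] at h4
  linarith

end Vale.Agent.P127.U.Path
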