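import Vale.Agent.P127.U.PathA

/-!
# P127 / U : the pattern of the path, rule R* (helper823, rule of helper514)

Exploration of nested variables `tt a` (time, `a` blocks) and `vv r` (slope, `r` blocks) given a
variable `Lv` (the line).  Words are lists of letters, newest letter first:
`a` = step of the time; `f` = forced step of the slope; `c`, `g` = step of the slope inside a group
(`g` = last step of the group).

Rule: if for some `j ≥ 1` the true value of the next `j` blocks of the slope has conditional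
probability at least `thr ^ j`, the smallest such `j` gives a group of `j` steps of the slope;
otherwise the step is forced after `J` consecutive `a`-steps (or if no `a`-step is left), and it is an
`a`-step in all other cases.
-/

set_option autoImplicit false

namespace Vale.Agent.P127.U.PathS

open Finset Vale.Agent.P127 Vale.Agent.P127.Stk Vale.Agent.P127.U.Path

/-- letters -/
inductive Lt
  | a | f | c | g
  deriving DecidableEq

/-- step of the slope -/
def isR : Lt → Bool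
  | .a => false
  | _ => true

/-- number of steps of the time -/
def na (w : List Lt) : ℕ := w.countP (fun x => !isR x)

/-- number of steps of the slope -/
def nr (w : List Lt) : ℕ := w.countP isR

@[simp] lemma na_nil : na [] = 0 := rfl
@[simp] lemma nr_nil : nr [] = 0 := rfl
@[simp] lemma na_a (w : List Lt) : na (Lt.a :: w) = na w + 1 := by simp [na, isR]
@[simp] lemma nr_a (w : List Lt) : nr (Lt.a :: w) = nr w := by simp [nr, isR]
@[simp] lemma na_f (w : List Lt) : na (Lt.f :: w) = na w := by simp [na, isR]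
@[simp] lemma nr_f (w : List Lt) : nr (Lt.f :: w) = nr w + 1 :=
  List.countP_cons_of_pos (by rfl)
@[simp] lemma na_c (w : List Lt) : na (Lt.c :: w) = na w := by simp [na, isR]
@[simp] lemma nr_c (w : List Lt) : nr (Lt.c :: w) = nr w + 1 :=
  List.countP_cons_of_pos (by rfl)
@[simp] lemma na_g (w : List Lt) : na (Lt.g :: w) = na w := by simp [na, isR]
@[simp] lemma nr_g (w : List Lt) : nr (Lt.g :: w) = nr w + 1 :=
  List.countP_cons_of_pos (by rfl)

lemma na_add_nr (w : List Lt) : na w + nr w = w.length := by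
  induction w with
  | nil => rfl
  | cons b w ih => cases b <;> simp <;> omega

/-- data of the exploration -/
structure Expl (Ω α β γ : Type*) where
  Lv : Ω → α
  tt : ℕ → Ω → β
  vv : ℕ → Ω → γ
  A : ℕ
  R : ℕ
  J : ℕ
  thr : ℝ
  hT : ∀ a ω ω', tt (a + 1) ω = tt (a + 1) ω' → tt a ω = tt a ω'
  hV : ∀ r ω ω', vv (r + 1) ω = vv (r + 1) ω' → vv r ω = vv r ω'

namespace Expl

variable {Ω : Type} [Fintype Ω] {α β γ : Type*} (e : Expl Ω α β γ)

/-- the line, `a` blocks of the time, `r` blocks of the slope -/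
def K (a r : ℕ) (ω : Ω) : α × β × γ := (e.Lv ω, e.tt a ω, e.vv r ω)

/-- the next step is forced to be a step of the slope -/
def forced (w : List Lt) : Prop :=
  e.A ≤ na w ∨ (e.J ≤ w.length ∧ ∀ b ∈ w.take e.J, b = Lt.a)

/-- what is known after a random word -/
def kk (p : Ω → List Lt) (ω : Ω) : List Lt × α × β × γ :=
  (p ω, e.K (na (p ω)) (nr (p ω)) ω)

/-- the next `j` blocks of the slope -/
def vx (p : Ω → List Lt) (j : ℕ) (ω : Ω) : γ := e.vv (nr (p ω) + j) ω

open Classical in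
/-- length of the next group (zero if there is none) -/
noncomputable def dec (P : Law Ω) (p : Ω → List Lt) (ω : Ω) : ℕ :=
  if h : ∃ j, 1 ≤ j ∧ nr (p ω) + j ≤ e.R ∧ e.thr ^ j ≤ cp P (e.vx p j) (e.kk p) ω
  then Nat.find h else 0

open Classical in
/-- the letter -/
noncomputable def ltr (p : Ω → List Lt) (ω : Ω) (k : ℕ) : Lt :=
  if k = 0 then (if nr (p ω) < e.R ∧ e.forced (p ω) then Lt.f else Lt.a)
  else if k = 1 then Lt.g else Lt.c

/-- the word and the number of pending steps of the current group -/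
noncomputable def st (P : Law Ω) : ℕ → Ω → List Lt × ℕ
  | 0 => fun _ => ([], 0)
  | i + 1 => fun ω =>
      (e.ltr (fun ω => (st P i ω).1) ω
        (if (st P i ω).2 = 0 then e.dec P (fun ω => (st P i ω).1) ω else (st P i ω).2) ::
          (st P i ω).1,
       (if (st P i ω).2 = 0 then e.dec P (fun ω => (st P i ω).1) ω else (st P i ω).2) - 1)

/-- the word after `i` steps -/
noncomputable def pat (P : Law Ω) (i : ℕ) (ω : Ω) : List Lt := (e.st P i ω).1

/-- the number of pending steps of the current group -/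
noncomputable def pnd (P : Law Ω) (i : ℕ) (ω : Ω) : ℕ := (e.st P i ω).2

/-- the length of the rest of the group which contains the next step (zero if there is none) -/
noncomputable def eff (P : Law Ω) (i : ℕ) (ω : Ω) : ℕ :=
  if e.pnd P i ω = 0 then e.dec P (e.pat P i) ω else e.pnd P i ω

variable {e} {P : Law Ω}

@[simp] lemma pat_zero (ω : Ω) : e.pat P 0 ω = [] := rfl

@[simp] lemma pnd_zero (ω : Ω) : e.pnd P 0 ω = 0 := rfl

lemma pat_succ (i : ℕ) (ω : Ω) :
    e.pat P (i + 1) ω = e.ltr (e.pat P i) ω (e.eff P i ω) :: e.pat P i ω := rfl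

lemma pnd_succ (i : ℕ) (ω : Ω) : e.pnd P (i + 1) ω = e.eff P i ω - 1 := rfl

lemma eff_of_pos {i : ℕ} {ω : Ω} (h : e.pnd P i ω ≠ 0) : e.eff P i ω = e.pnd P i ω := if_neg h

lemma eff_of_zero {i : ℕ} {ω : Ω} (h : e.pnd P i ω = 0) :
    e.eff P i ω = e.dec P (e.pat P i) ω := if_pos h

omit [Fintype Ω] in
lemma ltr_zero_or (p : Ω → List Lt) (ω : Ω) :
    (nr (p ω) < e.R ∧ e.forced (p ω) ∧ e.ltr p ω 0 = Lt.f) ∨
    (¬ (nr (p ω) < e.R ∧ e.forced (p ω)) ∧ e.ltr p ω 0 = Lt.a) := by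
  classical
  unfold ltr
  rw [if_pos rfl]
  by_cases h : nr (p ω) < e.R ∧ e.forced (p ω)
  · left; exact ⟨h.1, h.2, if_pos h⟩
  · right; exact ⟨h, if_neg h⟩

omit [Fintype Ω] in
lemma ltr_one (p : Ω → List Lt) (ω : Ω) : e.ltr p ω 1 = Lt.g := by
  unfold ltr
  rw [if_neg (by norm_num), if_pos rfl]

omit [Fintype Ω] in
lemma ltr_ge (p : Ω → List Lt) (ω : Ω) {k : ℕ} (hk : 2 ≤ k) : e.ltr p ω k = Lt.c := by
  unfold ltr
  rw [if_neg (by omega), if_neg (by omega)]

omit [Fintype Ω] in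
lemma isR_ltr (p : Ω → List Lt) (ω : Ω) {k : ℕ} (hk : 1 ≤ k) : isR (e.ltr p ω k) = true := by
  rcases Nat.lt_or_ge k 2 with h | h
  · have : k = 1 := by omega
    rw [this, ltr_one]; rfl
  · rw [ltr_ge p ω h]; rfl

lemma pat_length (i : ℕ) (ω : Ω) : (e.pat P i ω).length = i := by
  induction i with
  | zero => rfl
  | succ i ih => rw [pat_succ, List.length_cons, ih]

lemma pat_drop (i k : ℕ) (ω : Ω) : (e.pat P (i + k) ω).drop k = e.pat P i ω := by
  induction k with
  | zero => simp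
  | succ k ih => rw [← Nat.add_assoc, pat_succ, List.drop_succ_cons, ih]

lemma nr_cons_isR {x : Lt} (h : isR x = true) (w : List Lt) : nr (x :: w) = nr w + 1 := by
  cases x
  · simp [isR] at h
  · exact nr_f w
  · exact nr_c w
  · exact nr_g w

lemma na_cons_isR {x : Lt} (h : isR x = true) (w : List Lt) : na (x :: w) = na w := by
  cases x
  · simp [isR] at h
  · exact na_f w
  · exact na_c w
  · exact na_g w

lemma dec_spec {p : Ω → List Lt} {ω : Ω} (h : e.dec P p ω ≠ 0) :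
    nr (p ω) + e.dec P p ω ≤ e.R ∧
      e.thr ^ (e.dec P p ω) ≤ cp P (e.vx p (e.dec P p ω)) (e.kk p) ω := by
  classical
  unfold dec at h ⊢
  by_cases hx : ∃ j, 1 ≤ j ∧ nr (p ω) + j ≤ e.R ∧ e.thr ^ j ≤ cp P (e.vx p j) (e.kk p) ω
  · rw [dif_pos hx]
    exact (Nat.find_spec hx).2
  · rw [dif_neg hx] at h
    exact absurd rfl h

lemma dec_zero {p : Ω → List Lt} {ω : Ω} (h : e.dec P p ω = 0) {j : ℕ} (hj : 1 ≤ j)
    (hR : nr (p ω) + j ≤ e.R) : cp P (e.vx p j) (e.kk p) ω < e.thr ^ j := by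
  classical
  by_contra hcon
  push Not at hcon
  have hx : ∃ j, 1 ≤ j ∧ nr (p ω) + j ≤ e.R ∧ e.thr ^ j ≤ cp P (e.vx p j) (e.kk p) ω :=
    ⟨j, hj, hR, hcon⟩
  unfold dec at h
  rw [dif_pos hx] at h
  have := (Nat.find_spec hx).1
  omega

lemma nr_add_pnd_le (i : ℕ) (ω : Ω) : nr (e.pat P i ω) + e.pnd P i ω ≤ e.R := by
  induction i with
  | zero => simp
  | succ i ih =>
    rw [pat_succ, pnd_succ]
    have h1 : nr (e.pat P i ω) + e.eff P i ω ≤ e.R := by
      by_cases h : e.pnd P i ω = 0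
      · rw [eff_of_zero h]
        by_cases h2 : e.dec P (e.pat P i) ω = 0
        · omega
        · exact (dec_spec h2).1
      · rw [eff_of_pos h]; exact ih
    rcases Nat.eq_zero_or_pos (e.eff P i ω) with h0 | h0
    · rw [h0]
      rcases ltr_zero_or (e := e) (e.pat P i) ω with ⟨h2, _, h3⟩ | ⟨_, h3⟩
      · rw [h3, nr_f]; omega
      · rw [h3, nr_a]; omega
    · rw [nr_cons_isR (isR_ltr _ _ h0)]
      omega

lemma nr_le (i : ℕ) (ω : Ω) : nr (e.pat P i ω) ≤ e.R := by
  have := nr_add_pnd_le (e := e) (P := P) i ω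
  omega

lemma na_le (i : ℕ) (hi : i ≤ e.A + e.R) (ω : Ω) : na (e.pat P i ω) ≤ e.A := by
  induction i with
  | zero => simp
  | succ i ih =>
    have ih' := ih (by omega)
    rw [pat_succ]
    rcases Nat.eq_zero_or_pos (e.eff P i ω) with h0 | h0
    · rw [h0]
      rcases ltr_zero_or (e := e) (e.pat P i) ω with ⟨_, _, h3⟩ | ⟨h2, h3⟩
      · rw [h3, na_f]; exact ih'
      · rw [h3, na_a]
        by_contra hcon
        have h4 : na (e.pat P i ω) = e.A := by omega
        have h5 := na_add_nr (e.pat P i ω)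
        rw [pat_length] at h5
        exact h2 ⟨by omega, Or.inl h4.ge⟩
    · rw [na_cons_isR (isR_ltr _ _ h0)]
      exact ih'

lemma na_top (ω : Ω) : na (e.pat P (e.A + e.R) ω) = e.A := by
  have h1 := na_le (e := e) (P := P) (e.A + e.R) le_rfl ω
  have h2 := nr_le (e := e) (P := P) (e.A + e.R) ω
  have h3 := na_add_nr (e.pat P (e.A + e.R) ω)
  rw [pat_length] at h3
  omega

lemma nr_top (ω : Ω) : nr (e.pat P (e.A + e.R) ω) = e.R := by
  have h1 := na_top (e := e) (P := P) ω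
  have h3 := na_add_nr (e.pat P (e.A + e.R) ω)
  rw [pat_length] at h3
  omega

lemma nr_mono (i k : ℕ) (ω : Ω) : nr (e.pat P i ω) ≤ nr (e.pat P (i + k) ω) := by
  induction k with
  | zero => exact le_rfl
  | succ k ih =>
    rw [← Nat.add_assoc, pat_succ]
    cases e.ltr (e.pat P (i + k)) ω (e.eff P (i + k) ω) <;> simp <;> omega

lemma na_mono (i k : ℕ) (ω : Ω) : na (e.pat P i ω) ≤ na (e.pat P (i + k) ω) := by
  induction k with
  | zero => exact le_rfl
  | succ k ih =>
    rw [← Nat.add_assoc, pat_succ]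
    cases e.ltr (e.pat P (i + k)) ω (e.eff P (i + k) ω) <;> simp <;> omega

/-- if the number of steps of the slope does not change, the last letters are `a` -/
lemma take_a (i k : ℕ) (ω : Ω) (h : nr (e.pat P (i + k) ω) = nr (e.pat P i ω)) :
    ∀ b ∈ (e.pat P (i + k) ω).take k, b = Lt.a := by
  induction k with
  | zero => simp
  | succ k ih =>
    have h1 := nr_mono (e := e) (P := P) i k ω
    rw [← Nat.add_assoc, pat_succ] at h ⊢
    by_cases hx : isR (e.ltr (e.pat P (i + k)) ω (e.eff P (i + k) ω)) = true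
    · rw [nr_cons_isR hx] at h
      omega
    · have hs : e.ltr (e.pat P (i + k)) ω (e.eff P (i + k) ω) = Lt.a := by
        cases hl : e.ltr (e.pat P (i + k)) ω (e.eff P (i + k) ω) with
        | a => rfl
        | f => rw [hl] at hx; exact absurd rfl hx
        | c => rw [hl] at hx; exact absurd rfl hx
        | g => rw [hl] at hx; exact absurd rfl hx
      rw [hs, nr_a] at h
      intro b hb
      rw [hs, List.take_succ_cons, List.mem_cons] at hb
      rcases hb with hb | hb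
      · exact hb
      · exact ih h b hb

/-- there is a step of the slope among `J + 1` consecutive steps -/
lemma nr_step (i : ℕ) (ω : Ω) (h : nr (e.pat P i ω) < e.R) :
    nr (e.pat P i ω) < nr (e.pat P (i + (e.J + 1)) ω) := by
  by_contra hcon
  push Not at hcon
  have h1 := nr_mono (e := e) (P := P) i e.J ω
  have h2 := nr_mono (e := e) (P := P) (i + e.J) 1 ω
  have e1 : i + e.J + 1 = i + (e.J + 1) := by ring
  rw [e1] at h2
  have h3 : nr (e.pat P (i + e.J) ω) = nr (e.pat P i ω) := by omega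
  have h4 := take_a i e.J ω h3
  have h5 : isR (e.ltr (e.pat P (i + e.J)) ω (e.eff P (i + e.J) ω)) = true := by
    rcases Nat.eq_zero_or_pos (e.eff P (i + e.J) ω) with h0 | h0
    · rw [h0]
      rcases ltr_zero_or (e := e) (e.pat P (i + e.J)) ω with ⟨_, _, h6⟩ | ⟨h6, _⟩
      · rw [h6]; rfl
      · exact absurd ⟨by omega, Or.inr ⟨by rw [pat_length]; omega, h4⟩⟩ h6
    · exact isR_ltr _ _ h0
  have h6 : nr (e.pat P (i + (e.J + 1)) ω) = nr (e.pat P (i + e.J) ω) + 1 := by
    rw [← e1, pat_succ, nr_cons_isR h5]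
  omega

omit [Fintype Ω] in
lemma tt_mono {a a' : ℕ} (h : a ≤ a') {ω ω' : Ω} (h' : e.tt a' ω = e.tt a' ω') :
    e.tt a ω = e.tt a ω' := by
  induction a', h using Nat.le_induction with
  | base => exact h'
  | succ k _ ih => exact ih (e.hT k ω ω' h')

omit [Fintype Ω] in
lemma vv_mono {r r' : ℕ} (h : r ≤ r') {ω ω' : Ω} (h' : e.vv r' ω = e.vv r' ω') :
    e.vv r ω = e.vv r ω' := by
  induction r', h using Nat.le_induction with
  | base => exact h'
  | succ k _ ih => exact ih (e.hV k ω ω' h')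

lemma kk_mono (i k : ℕ) {ω ω' : Ω}
    (h : e.kk (e.pat P (i + k)) ω = e.kk (e.pat P (i + k)) ω') :
    e.kk (e.pat P i) ω = e.kk (e.pat P i) ω' := by
  simp only [kk, K, Prod.mk.injEq] at h ⊢
  obtain ⟨h1, h2, h3, h4⟩ := h
  have h5 : e.pat P i ω = e.pat P i ω' := by
    rw [← pat_drop i k ω, ← pat_drop i k ω', h1]
  rw [← h5]
  refine ⟨rfl, h2, ?_, ?_⟩
  · rw [← h1] at h3
    exact tt_mono (na_mono i k ω) h3
  · rw [← h1] at h4
    exact vv_mono (nr_mono i k ω) h4

/-- inside a group -/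
lemma run (i : ℕ) (ω : Ω) (t : ℕ) (ht : t < e.eff P i ω) :
    e.eff P (i + t) ω = e.eff P i ω - t ∧ nr (e.pat P (i + t) ω) = nr (e.pat P i ω) + t ∧
      na (e.pat P (i + t) ω) = na (e.pat P i ω) := by
  induction t with
  | zero => simp
  | succ t ih =>
    obtain ⟨h1, h2, h3⟩ := ih (by omega)
    have h4 : e.pnd P (i + (t + 1)) ω = e.eff P i ω - (t + 1) := by
      rw [← Nat.add_assoc, pnd_succ, h1]
      omega
    have hR := isR_ltr (e := e) (e.pat P (i + t)) ω (k := e.eff P (i + t) ω) (by omega)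
    refine ⟨?_, ?_, ?_⟩
    · rw [eff_of_pos (by omega), h4]
    · rw [← Nat.add_assoc, pat_succ, nr_cons_isR hR, h2]
      omega
    · rw [← Nat.add_assoc, pat_succ, na_cons_isR hR, h3]

/-- the end of a group -/
lemma run_end (i : ℕ) (ω : Ω) (h0 : 0 < e.eff P i ω) :
    e.pnd P (i + e.eff P i ω) ω = 0 ∧
      nr (e.pat P (i + e.eff P i ω) ω) = nr (e.pat P i ω) + e.eff P i ω ∧
      na (e.pat P (i + e.eff P i ω) ω) = na (e.pat P i ω) := by
  obtain ⟨h1, h2, h3⟩ := run (e := e) (P := P) i ω (e.eff P i ω - 1) (by omega)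
  have e1 : i + e.eff P i ω = i + (e.eff P i ω - 1) + 1 := by omega
  have h4 : e.eff P (i + (e.eff P i ω - 1)) ω = 1 := by omega
  have hR := isR_ltr (e := e) (e.pat P (i + (e.eff P i ω - 1))) ω (k := 1) le_rfl
  refine ⟨?_, ?_, ?_⟩
  · rw [e1, pnd_succ, h4]
  · rw [e1, pat_succ, h4, nr_cons_isR hR, h2]
    omega
  · rw [e1, pat_succ, h4, na_cons_isR hR, h3]

/-- two outcomes with the same final word have the same groups -/
lemma eff_unique {ω ω' : Ω} (h : e.pat P (e.A + e.R) ω = e.pat P (e.A + e.R) ω') {i : ℕ}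
    (hi : i < e.A + e.R) : e.eff P i ω = e.eff P i ω' := by
  -- letters agree
  have hpat : ∀ j, j ≤ e.A + e.R → e.pat P j ω = e.pat P j ω' := by
    intro j hj
    have h1 := pat_drop (e := e) (P := P) j (e.A + e.R - j) ω
    have h2 := pat_drop (e := e) (P := P) j (e.A + e.R - j) ω'
    rw [Nat.add_sub_of_le hj] at h1 h2
    rw [← h1, ← h2, h]
  have hlt : ∀ j, j < e.A + e.R → e.ltr (e.pat P j) ω (e.eff P j ω) =
      e.ltr (e.pat P j) ω' (e.eff P j ω') := by
    intro j hj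
    have h1 := hpat (j + 1) hj
    rw [pat_succ, pat_succ] at h1
    exact (List.cons.inj h1).1
  -- the group ends in time
  have hend : ∀ (ω : Ω) (t : ℕ), t < e.eff P i ω → i + t < e.A + e.R := by
    intro ω t ht
    have h0 : 0 < e.eff P i ω := by omega
    obtain ⟨_, h2, h3⟩ := run_end (e := e) (P := P) i ω h0
    have h4 := nr_le (e := e) (P := P) (i + e.eff P i ω) ω
    have h5 := na_le (e := e) (P := P) i hi.le ω
    have h6 := na_add_nr (e.pat P (i + e.eff P i ω) ω)
    rw [pat_length] at h6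
    omega
  by_contra hne
  -- the symmetric claim
  have key : ∀ ω ω' : Ω, (∀ j, j < e.A + e.R → e.ltr (e.pat P j) ω (e.eff P j ω) =
      e.ltr (e.pat P j) ω' (e.eff P j ω')) → e.eff P i ω < e.eff P i ω' → False := by
    intro ω ω' hlt hl
    rcases Nat.eq_zero_or_pos (e.eff P i ω) with h0 | h0
    · have h1 := hlt i hi
      rw [h0] at h1
      rcases Nat.lt_or_ge (e.eff P i ω') 2 with h2 | h2
      · have h3 : e.eff P i ω' = 1 := by omega
        rw [h3, ltr_one] at h1
        rcases ltr_zero_or (e := e) (e.pat P i) ω with ⟨_, _, h4⟩ | ⟨_, h4⟩ <;>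
          · rw [h4] at h1; exact absurd h1 (by decide)
      · rw [ltr_ge _ _ h2] at h1
        rcases ltr_zero_or (e := e) (e.pat P i) ω with ⟨_, _, h4⟩ | ⟨_, h4⟩ <;>
          · rw [h4] at h1; exact absurd h1 (by decide)
    · obtain ⟨h1, _, _⟩ := run (e := e) (P := P) i ω (e.eff P i ω - 1) (by omega)
      obtain ⟨h2, _, _⟩ := run (e := e) (P := P) i ω' (e.eff P i ω - 1) (by omega)
      have h3 := hlt (i + (e.eff P i ω - 1)) (hend ω _ (by omega))
      have h4 : e.eff P (i + (e.eff P i ω - 1)) ω = 1 := by omega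
      have h5 : 2 ≤ e.eff P (i + (e.eff P i ω - 1)) ω' := by omega
      rw [h4, ltr_one, ltr_ge _ _ h5] at h3
      exact absurd h3 (by decide)
  rcases Nat.lt_or_gt_of_ne hne with hl | hl
  · exact key ω ω' hlt hl
  · exact key ω' ω (fun j hj => (hlt j hj).symm) hl

end Expl

/-! ### The conditioned law -/

variable {Ω : Type} [Fintype Ω] {α β γ : Type*}

/-- `Q` is a conditioned law with deterministic pattern `E` -/
structure Cnd (e : Expl Ω α β γ) (P Q : Law Ω) (E : List Lt) (p : ℝ) : Prop where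
  hp : 0 < p
  hw : ∀ ω, Q.w ω ≤ P.w ω / p
  hE : ∀ ω, 0 < Q.w ω → e.pat P (e.A + e.R) ω = E

/-- number of steps of the time among the first `i` steps of the word `E` -/
def Expl.ai (e : Expl Ω α β γ) (E : List Lt) (i : ℕ) : ℕ := na (E.drop (e.A + e.R - i))

/-- number of steps of the slope among the first `i` steps of the word `E` -/
def Expl.ri (e : Expl Ω α β γ) (E : List Lt) (i : ℕ) : ℕ := nr (E.drop (e.A + e.R - i))

/-- the `i`-th step is an `a`-step or a forced step -/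
def Expl.thin (e : Expl Ω α β γ) (E : List Lt) (i : ℕ) : Prop :=
  ∃ x, (x = Lt.a ∨ x = Lt.f) ∧ E.drop (e.A + e.R - (i + 1)) = x :: E.drop (e.A + e.R - i)

theorem cnd_of (e : Expl Ω α β γ) (P : Law Ω) {δ : Type*} (X : Ω → δ) (E : List Lt) (x : δ)
    (h : 0 < P.pr (fun ω => (e.pat P (e.A + e.R) ω, X ω)) (E, x)) :
    Cnd e P (P.cond (fun ω => (e.pat P (e.A + e.R) ω, X ω)) (E, x)) E
      (P.pr (fun ω => (e.pat P (e.A + e.R) ω, X ω)) (E, x)) := by
  classical
  refine ⟨h, fun ω => ?_, fun ω hω => ?_⟩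
  · rw [P.cond_w _ _ h]
    split_ifs
    · exact le_rfl
    · exact div_nonneg (P.nn ω) h.le
  · rw [P.cond_w _ _ h] at hω
    split_ifs at hω with hc
    · exact (Prod.mk.inj hc).1
    · exact absurd hω (lt_irrefl _)

namespace Cnd

open Expl

variable {e : Expl Ω α β γ} {P Q : Law Ω} {E : List Lt} {p : ℝ} (h : Cnd e P Q E p)

include h

lemma ac : Ac Q P := by
  intro ω hω
  have h1 := h.hw ω
  by_contra hcon
  push Not at hcon
  have h2 : P.w ω / p ≤ 0 := div_nonpos_of_nonpos_of_nonneg hcon h.hp.le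
  linarith

lemma p_le_one : p ≤ 1 := by
  have h1 : ∑ ω, Q.w ω ≤ ∑ ω, P.w ω / p := Finset.sum_le_sum fun ω _ => h.hw ω
  rw [Q.sum_one, ← Finset.sum_div, P.sum_one, le_div_iff₀ h.hp] at h1
  linarith

lemma pat_eq {ω : Ω} (hω : 0 < Q.w ω) {i : ℕ} (hi : i ≤ e.A + e.R) :
    e.pat P i ω = E.drop (e.A + e.R - i) := by
  have h1 := pat_drop (e := e) (P := P) i (e.A + e.R - i) ω
  rw [Nat.add_sub_of_le hi, h.hE ω hω] at h1
  exact h1.symm

lemma ai_eq {ω : Ω} (hω : 0 < Q.w ω) {i : ℕ} (hi : i ≤ e.A + e.R) :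
    na (e.pat P i ω) = e.ai E i := by
  unfold Expl.ai
  rw [h.pat_eq hω hi]

lemma ri_eq {ω : Ω} (hω : 0 < Q.w ω) {i : ℕ} (hi : i ≤ e.A + e.R) :
    nr (e.pat P i ω) = e.ri E i := by
  unfold Expl.ri
  rw [h.pat_eq hω hi]

lemma ai_add_ri {i : ℕ} (hi : i ≤ e.A + e.R) : e.ai E i + e.ri E i = i := by
  obtain ⟨ω, hω⟩ := exists_pos Q
  rw [← h.ai_eq hω hi, ← h.ri_eq hω hi, na_add_nr, pat_length]

lemma ai_zero : e.ai E 0 = 0 := by
  have := h.ai_add_ri (Nat.zero_le (e.A + e.R))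
  omega

lemma ri_zero : e.ri E 0 = 0 := by
  have := h.ai_add_ri (Nat.zero_le (e.A + e.R))
  omega

lemma ai_top : e.ai E (e.A + e.R) = e.A := by
  obtain ⟨ω, hω⟩ := exists_pos Q
  rw [← h.ai_eq hω le_rfl, na_top]

lemma ri_top : e.ri E (e.A + e.R) = e.R := by
  obtain ⟨ω, hω⟩ := exists_pos Q
  rw [← h.ri_eq hω le_rfl, nr_top]

lemma ri_le {i : ℕ} (hi : i ≤ e.A + e.R) : e.ri E i ≤ e.R := by
  obtain ⟨ω, hω⟩ := exists_pos Q
  rw [← h.ri_eq hω hi]
  exact nr_le i ω

lemma ai_le {i : ℕ} (hi : i ≤ e.A + e.R) : e.ai E i ≤ e.A := by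
  obtain ⟨ω, hω⟩ := exists_pos Q
  rw [← h.ai_eq hω hi]
  exact na_le i hi ω

lemma ri_mono {i i' : ℕ} (hi : i ≤ i') (hi' : i' ≤ e.A + e.R) : e.ri E i ≤ e.ri E i' := by
  obtain ⟨ω, hω⟩ := exists_pos Q
  rw [← h.ri_eq hω (hi.trans hi'), ← h.ri_eq hω hi']
  have := nr_mono (e := e) (P := P) i (i' - i) ω
  rwa [Nat.add_sub_of_le hi] at this

lemma ai_mono {i i' : ℕ} (hi : i ≤ i') (hi' : i' ≤ e.A + e.R) : e.ai E i ≤ e.ai E i' := by
  obtain ⟨ω, hω⟩ := exists_pos Q
  rw [← h.ai_eq hω (hi.trans hi'), ← h.ai_eq hω hi']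
  have := na_mono (e := e) (P := P) i (i' - i) ω
  rwa [Nat.add_sub_of_le hi] at this

/-- the letters of the word -/
lemma letters {i : ℕ} (hi : i < e.A + e.R) :
    ∃ x, E.drop (e.A + e.R - (i + 1)) = x :: E.drop (e.A + e.R - i) ∧
      (∀ ω, 0 < Q.w ω → e.ltr (e.pat P i) ω (e.eff P i ω) = x) ∧
      (x = Lt.a → e.ai E (i + 1) = e.ai E i + 1 ∧ e.ri E (i + 1) = e.ri E i) ∧
      (x ≠ Lt.a → e.ai E (i + 1) = e.ai E i ∧ e.ri E (i + 1) = e.ri E i + 1) := by
  obtain ⟨ω, hω⟩ := exists_pos Q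
  have h1 := h.pat_eq hω (i := i + 1) hi
  have h2 := h.pat_eq hω (i := i) hi.le
  rw [pat_succ, h2] at h1
  refine ⟨_, h1.symm, ?_, ?_, ?_⟩
  · intro ω' hω'
    have h3 := h.pat_eq hω' (i := i + 1) hi
    have h4 := h.pat_eq hω' (i := i) hi.le
    rw [pat_succ, h4, ← h1] at h3
    exact (List.cons.inj h3).1
  · intro hx
    rw [hx] at h1
    unfold Expl.ai Expl.ri
    rw [← h1]
    simp
  · intro hx
    have hR : isR (e.ltr (e.pat P i) ω (e.eff P i ω)) = true := by
      cases hl : e.ltr (e.pat P i) ω (e.eff P i ω) with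
      | a => exact absurd hl hx
      | f => rfl
      | c => rfl
      | g => rfl
    unfold Expl.ai Expl.ri
    rw [← h1, nr_cons_isR hR, na_cons_isR hR]
    exact ⟨rfl, rfl⟩

/-- each step is a step of the time or a step of the slope -/
lemma step_cases {i : ℕ} (hi : i < e.A + e.R) :
    (e.ai E (i + 1) = e.ai E i + 1 ∧ e.ri E (i + 1) = e.ri E i) ∨
    (e.ai E (i + 1) = e.ai E i ∧ e.ri E (i + 1) = e.ri E i + 1) := by
  obtain ⟨x, _, _, h3, h4⟩ := h.letters hi
  by_cases hx : x = Lt.a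
  · exact Or.inl (h3 hx)
  · exact Or.inr (h4 hx)

/-- an `a`-step is thin -/
lemma thin_of_a {i : ℕ} (hi : i < e.A + e.R) (ha : e.ai E (i + 1) = e.ai E i + 1) :
    e.thin E i := by
  obtain ⟨x, h1, _, _, h4⟩ := h.letters hi
  refine ⟨x, ?_, h1⟩
  left
  by_contra hx
  have := (h4 hx).1
  omega

/-- there is a step of the slope among `J + 1` consecutive steps -/
lemma ri_step {i : ℕ} (hi : i + (e.J + 1) ≤ e.A + e.R) (hr : e.ri E i < e.R) :
    e.ri E i < e.ri E (i + (e.J + 1)) := by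
  obtain ⟨ω, hω⟩ := exists_pos Q
  rw [← h.ri_eq hω hi, ← h.ri_eq hω (by omega)]
  rw [← h.ri_eq hω (by omega)] at hr
  exact nr_step i ω hr

lemma fn_kk {i : ℕ} (hi : i ≤ e.A + e.R) :
    Fn Q (e.kk (e.pat P i)) (e.K (e.ai E i) (e.ri E i)) := by
  intro ω ω' hω hω' h'
  unfold kk
  rw [h.ai_eq hω hi, h.ai_eq hω' hi, h.ri_eq hω hi, h.ri_eq hω' hi, h', h.pat_eq hω hi,
    h.pat_eq hω' hi]

lemma fn_kk' {i : ℕ} (hi : i ≤ e.A + e.R) :
    Fn Q (e.K (e.ai E i) (e.ri E i)) (e.kk (e.pat P i)) := by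
  intro ω ω' hω hω' h'
  unfold kk at h'
  rw [h.ai_eq hω hi, h.ai_eq hω' hi, h.ri_eq hω hi, h.ri_eq hω' hi] at h'
  exact congrArg Prod.snd h'

/-- at a thin step the next `j` blocks of the slope have small probability -/
lemma thin_lt {i : ℕ} (hi : i < e.A + e.R) (ht : e.thin E i) {j : ℕ} (hj : 1 ≤ j)
    (hR : e.ri E i + j ≤ e.R) {ω : Ω} (hω : 0 < Q.w ω) :
    cp P (e.vx (e.pat P i) j) (e.kk (e.pat P i)) ω < e.thr ^ j := by
  obtain ⟨x, hx, hx'⟩ := ht
  obtain ⟨y, hy, hy', _, _⟩ := h.letters hi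
  have hxy : x = y := by
    rw [hx'] at hy
    exact (List.cons.inj hy).1
  have h1 := hy' ω hω
  have h2 : e.eff P i ω = 0 := by
    by_contra hne
    have h3 := isR_ltr (e := e) (e.pat P i) ω (k := e.eff P i ω) (by omega)
    rcases Nat.lt_or_ge (e.eff P i ω) 2 with h4 | h4
    · have h5 : e.eff P i ω = 1 := by omega
      rw [h5, ltr_one] at h1
      rcases hx with hx | hx <;> · rw [← hxy, hx] at h1; exact absurd h1 (by decide)
    · rw [ltr_ge _ _ h4] at h1
      rcases hx with hx | hx <;> · rw [← hxy, hx] at h1; exact absurd h1 (by decide)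
  have h3 : e.pnd P i ω = 0 := by
    by_contra hne
    rw [eff_of_pos hne] at h2
    exact hne h2
  rw [eff_of_zero h3] at h2
  refine dec_zero h2 hj ?_
  rw [h.ri_eq hω hi.le]
  exact hR

end Cnd

end Vale.Agent.P127.U.PathS
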