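import Vale.Agent.P127.U.PathS

/-!
# P127 / U : divergence, collisions and costs along the path of rule R* (helper823)
-/

set_option autoImplicit false

namespace Vale.Agent.P127.U.PathS

open Finset Vale.Agent.P127 Vale.Agent.P127.Stk Vale.Agent.P127.U.Path

/-! ### General lemmas -/

lemma cp_congr2 {Ω : Type} [Fintype Ω] {S S' T T' : Type*} (P : Law Ω) {X : Ω → S} {X' : Ω → S'}
    {Y : Ω → T} {Y' : Ω → T'}
    (hX : Fn P (fun ω => (X ω, Y ω)) (fun ω => (X' ω, Y' ω)))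
    (hX' : Fn P (fun ω => (X' ω, Y' ω)) (fun ω => (X ω, Y ω)))
    (hY : Fn P Y Y') (hY' : Fn P Y' Y) {ω : Ω} (hω : 0 < P.w ω) :
    cp P X Y ω = cp P X' Y' ω := by
  unfold cp
  rw [pr_eq_of_fn P hX hX' hω, pr_eq_of_fn P hY hY' hω]

/-- a subprobability kernel is a reference density -/
theorem ref_le_one {Ω : Type} [Fintype Ω] {S T : Type*} (Q : Law Ω) (X : Ω → S) (Y : Ω → T)
    (φ : S → T → ℝ) (h0 : ∀ x y, 0 ≤ φ x y) (h1 : ∀ y, ∀ F : Finset S, ∑ x ∈ F, φ x y ≤ 1)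
    (g : Ω → ℝ) (hg : ∀ ω, 0 < Q.w ω → g ω = φ (X ω) (Y ω)) :
    Q.ex (fun ω => g ω / cp Q X Y ω) ≤ 1 := by
  classical
  have e1 : Q.ex (fun ω => g ω / cp Q X Y ω) = Q.ex (fun ω => φ (X ω) (Y ω) / cp Q X Y ω) :=
    Q.ex_congr fun ω hω => by rw [hg ω hω]
  rw [e1]
  refine (ex_div_cp Q X Y φ h0).trans ?_
  have h3 : ∑ x ∈ img X, Q.ex (fun ω => φ x (Y ω)) = Q.ex (fun ω => ∑ x ∈ img X, φ x (Y ω)) := by
    unfold Law.ex
    rw [Finset.sum_comm]
    exact Finset.sum_congr rfl fun ω _ => by rw [Finset.mul_sum]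
  rw [h3]
  have h4 := Q.ex_mono (f := fun ω => ∑ x ∈ img X, φ x (Y ω)) (g := fun _ => 1)
    (fun ω _ => h1 _ _)
  rwa [Q.ex_const] at h4

/-- collisions above `1/2` have a price proportional to the surprisal -/
theorem price {Ω : Type} [Fintype Ω] {S T : Type*} (Q : Law Ω) (X : Ω → S) (C : Ω → T)
    (g : Ω → ℝ) (hg : ∀ ω, 0 < Q.w ω → 0 < g ω)
    (h1 : Q.ex (fun ω => g ω / cp Q X C ω) ≤ 1) {θ : ℝ} (hθ : 0 < θ)
    (hθ' : ∀ ω, 0 < Q.w ω → g ω ≤ θ) (h2 : 1 / 2 < coll Q X C) :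
    Real.log (1 / θ) ≤ 4 * Q.ex (fun ω => Real.log (cp Q X C ω) - Real.log (g ω)) + 8 := by
  classical
  -- the divergence is at least `-1`; in fact it is nonnegative
  have hD : 0 ≤ Q.ex (fun ω => Real.log (cp Q X C ω) - Real.log (g ω)) := by
    have h3 : Q.ex (fun ω => 1 - g ω / cp Q X C ω) ≤
        Q.ex (fun ω => Real.log (cp Q X C ω) - Real.log (g ω)) := by
      refine Q.ex_mono fun ω hω => ?_
      have hf := cp_pos Q X C hω
      have := Real.log_le_sub_one_of_pos (div_pos (hg ω hω) hf)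
      rw [Real.log_div (hg ω hω).ne' hf.ne'] at this
      linarith
    rw [Q.ex_sub, Q.ex_const] at h3
    linarith
  have h4 : Real.log 4 ≤ 2 := by
    have := Real.log_two_lt_d9
    have e4 : Real.log 4 = 2 * Real.log 2 := by
      rw [show (4 : ℝ) = 2 ^ 2 by norm_num, Real.log_pow]
      push_cast
      ring
    linarith
  rcases lt_or_ge θ (1 / 4) with hq | hq
  · have h5 := tilt Q X C g hg h1 hθ hq
    have h6 : 1 / 4 ≤ prE Q (fun ω => 1 / 4 ≤ cp Q X C ω ∧ g ω ≤ θ) := by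
      have h7 : coll Q X C ≤ 1 / 4 + prE Q (fun ω => 1 / 4 ≤ cp Q X C ω ∧ g ω ≤ θ) := by
        unfold coll
        rw [prE_eq_ex]
        have e2 : (1 / 4 : ℝ) + Q.ex (fun ω => if 1 / 4 ≤ cp Q X C ω ∧ g ω ≤ θ then (1 : ℝ) else 0) =
            Q.ex (fun ω => 1 / 4 + (if 1 / 4 ≤ cp Q X C ω ∧ g ω ≤ θ then (1 : ℝ) else 0)) := by
          rw [Q.ex_add, Q.ex_const]
        rw [e2]
        refine Q.ex_mono fun ω hω => ?_
        have h8 := cp_le_one Q X C ω
        by_cases hb : 1 / 4 ≤ cp Q X C ω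
        · rw [if_pos ⟨hb, hθ' ω hω⟩]
          linarith
        · rw [if_neg (fun h => hb h.1)]
          push Not at hb
          linarith
      linarith
    have h9 : 0 ≤ Real.log (1 / 4 / θ) := Real.log_nonneg (by rw [le_div_iff₀ hθ]; linarith)
    have h10 : 1 / 4 * Real.log (1 / 4 / θ) ≤
        Q.ex (fun ω => Real.log (cp Q X C ω) - Real.log (g ω)) + 1 :=
      (mul_le_mul_of_nonneg_right h6 h9).trans h5
    have h11 : Real.log (1 / 4 / θ) = Real.log (1 / θ) - Real.log 4 := by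
      rw [show (1 / 4 / θ : ℝ) = (1 / θ) / 4 by ring,
        Real.log_div (by positivity) (by norm_num)]
    rw [h11] at h10
    linarith
  · have h5 : Real.log (1 / θ) ≤ Real.log 4 := by
      refine Real.log_le_log (by positivity) ?_
      rw [div_le_iff₀ hθ]
      linarith
    linarith

/-- telescoping with overlapping windows -/
lemma sum_overlap (f : ℕ → ℝ) (B : ℝ) (h0 : ∀ i, 0 ≤ f i) (hB : ∀ i, f i ≤ B) (n J : ℕ) :
    ∑ i ∈ Finset.range n, (f (i + (J + 1)) - f i) ≤ (J + 1) * B := by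
  induction J with
  | zero =>
    have : ∑ i ∈ Finset.range n, (f (i + (0 + 1)) - f i) = f n - f 0 := by
      simp only [Nat.zero_add]
      exact Finset.sum_range_sub f n
    rw [this]
    have := hB n
    have := h0 0
    push_cast
    linarith
  | succ J ih =>
    have e1 : ∑ i ∈ Finset.range n, (f (i + (J + 1 + 1)) - f i) =
        ∑ i ∈ Finset.range n, (f (i + (J + 1)) - f i) +
        ∑ i ∈ Finset.range n, (f (i + 1 + (J + 1)) - f (i + (J + 1))) := by
      rw [← Finset.sum_add_distrib]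
      refine Finset.sum_congr rfl fun i _ => ?_
      have : i + (J + 1 + 1) = i + 1 + (J + 1) := by ring
      rw [this]
      ring
    have e2 : ∑ i ∈ Finset.range n, (f (i + 1 + (J + 1)) - f (i + (J + 1))) =
        f (n + (J + 1)) - f (0 + (J + 1)) :=
      Finset.sum_range_sub (fun i => f (i + (J + 1))) n
    rw [e1, e2]
    have := hB (n + (J + 1))
    have := h0 (0 + (J + 1))
    push_cast
    linarith

variable {Ω : Type} [Fintype Ω] {α β γ : Type*}

namespace Cnd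

open Expl

variable {e : Expl Ω α β γ} {P Q : Law Ω} {E : List Lt} {p : ℝ} (h : Cnd e P Q E p)

/-- divergence of what is known after `i` steps -/
noncomputable def klk (e : Expl Ω α β γ) (P Q : Law Ω) (i : ℕ) : ℝ :=
  kl Q P (e.kk (e.pat P i))

/-- reference density of the next `j` blocks of the slope -/
noncomputable def gr (e : Expl Ω α β γ) (P : Law Ω) (i j : ℕ) (ω : Ω) : ℝ :=
  cp P (e.vx (e.pat P i) j) (e.kk (e.pat P i)) ω

/-- divergence of the next `j` blocks of the slope -/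
noncomputable def kap (e : Expl Ω α β γ) (P Q : Law Ω) (E : List Lt) (i j : ℕ) : ℝ :=
  Q.ex (fun ω => Real.log (cp Q (e.vv (e.ri E i + j)) (e.K (e.ai E i) (e.ri E i)) ω) -
    Real.log (gr e P i j ω))

include h

lemma vx_eq {i : ℕ} (hi : i ≤ e.A + e.R) (j : ℕ) {ω : Ω} (hω : 0 < Q.w ω) :
    e.vx (e.pat P i) j ω = e.vv (e.ri E i + j) ω := by
  unfold vx
  rw [h.ri_eq hω hi]

lemma cp_eq {i : ℕ} (hi : i ≤ e.A + e.R) (j : ℕ) {ω : Ω} (hω : 0 < Q.w ω) :
    cp Q (e.vx (e.pat P i) j) (e.kk (e.pat P i)) ω =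
    cp Q (e.vv (e.ri E i + j)) (e.K (e.ai E i) (e.ri E i)) ω := by
  refine cp_congr2 _ ?_ ?_ (h.fn_kk hi) (h.fn_kk' hi) hω
  · intro ω ω' q q' h'
    simp only [Prod.mk.injEq] at h' ⊢
    rw [h.vx_eq hi j q, h.vx_eq hi j q']
    exact ⟨h'.1, h.fn_kk hi ω ω' q q' h'.2⟩
  · intro ω ω' q q' h'
    simp only [Prod.mk.injEq] at h' ⊢
    rw [h.vx_eq hi j q, h.vx_eq hi j q'] at h'
    exact ⟨h'.1, h.fn_kk' hi ω ω' q q' h'.2⟩

lemma gr_pos {i j : ℕ} {ω : Ω} (hω : 0 < Q.w ω) : 0 < gr e P i j ω :=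
  cp_pos P _ _ (h.ac ω hω)

lemma kap_nonneg {i : ℕ} (hi : i ≤ e.A + e.R) (j : ℕ) : 0 ≤ kap e P Q E i j := by
  have h1 := ex_log_cp_nonneg Q P h.ac (e.vx (e.pat P i) j) (e.kk (e.pat P i))
  refine h1.trans (le_of_eq ?_)
  unfold kap
  refine Q.ex_congr fun ω hω => ?_
  rw [h.cp_eq hi j hω]
  rfl

lemma klk_nonneg (i : ℕ) : 0 ≤ klk e P Q i := kl_nonneg Q P h.ac _

lemma klk_le (i : ℕ) : klk e P Q i ≤ Real.log (1 / p) := kl_le_log Q P h.hp h.hw _

lemma klk_mono {i i' : ℕ} (hi : i ≤ i') : klk e P Q i ≤ klk e P Q i' := by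
  refine kl_mono Q P h.ac fun ω ω' _ _ h' => ?_
  obtain ⟨k, rfl⟩ := Nat.exists_eq_add_of_le hi
  exact kk_mono i k h'

/-- **(P1*)** the divergence of the next `j` blocks of the slope is paid before these blocks are
known -/
theorem kap_le {i i' : ℕ} (hi : i ≤ i') (hi' : i' ≤ e.A + e.R) {j : ℕ}
    (hj : e.ri E i + j ≤ e.ri E i') : kap e P Q E i j ≤ klk e P Q i' - klk e P Q i := by
  classical
  set f : Ω → Option γ := fun ω =>
    if e.pat P i' ω = E.drop (e.A + e.R - i') then some (e.vx (e.pat P i) j ω) else none with hf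
  have h1 := kl_pair Q P h.ac f (e.kk (e.pat P i))
  have h2 : kl Q P (fun ω => (f ω, e.kk (e.pat P i) ω)) ≤ klk e P Q i' := by
    refine kl_mono Q P h.ac fun ω ω' q q' h' => ?_
    obtain ⟨k, hk⟩ := Nat.exists_eq_add_of_le hi
    have h3 : e.kk (e.pat P i) ω = e.kk (e.pat P i) ω' := by
      rw [hk] at h'
      exact kk_mono i k h'
    refine Prod.ext ?_ h3
    have h4 : e.pat P i' ω = e.pat P i' ω' := by
      simp only [kk, Prod.mk.injEq] at h'
      exact h'.1
    simp only [hf]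
    rw [← h4]
    split_ifs with hc
    · congr 1
      simp only [kk, K, Prod.mk.injEq] at h' h3
      unfold vx
      rw [← h3.1]
      have h5 : nr (e.pat P i' ω) = e.ri E i' := by
        unfold Expl.ri
        rw [hc]
      have h6 : nr (e.pat P i ω) = e.ri E i := by
        have h7 : e.pat P i ω = E.drop (e.A + e.R - i) := by
          have h8 := pat_drop (e := e) (P := P) i k ω
          rw [← hk, hc, List.drop_drop] at h8
          rw [← h8]
          congr 1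
          omega
        unfold Expl.ri
        rw [h7]
      have h9 := h'.2.2.2
      rw [← h4] at h9
      refine vv_mono ?_ h9
      rw [h5, h6]
      exact hj
    · rfl
  have h3 : kap e P Q E i j ≤
      Q.ex (fun ω => Real.log (cp Q f (e.kk (e.pat P i)) ω) -
        Real.log (cp P f (e.kk (e.pat P i)) ω)) := by
    unfold kap
    refine Q.ex_mono fun ω hω => ?_
    have hfω : ∀ ω, 0 < Q.w ω → f ω = some (e.vx (e.pat P i) j ω) := by
      intro ω hω
      simp only [hf]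
      rw [if_pos (h.pat_eq hω hi')]
    have h4 : cp Q f (e.kk (e.pat P i)) ω =
        cp Q (e.vv (e.ri E i + j)) (e.K (e.ai E i) (e.ri E i)) ω := by
      rw [← h.cp_eq (hi.trans hi') j hω]
      refine cp_congr2 _ ?_ ?_ (fun ω ω' _ _ h' => h') (fun ω ω' _ _ h' => h') hω
      · intro ω ω' q q' h'
        simp only [Prod.mk.injEq] at h' ⊢
        rw [hfω ω q, hfω ω' q', h'.1]
        exact ⟨rfl, h'.2⟩
      · intro ω ω' q q' h'
        simp only [Prod.mk.injEq] at h' ⊢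
        rw [hfω ω q, hfω ω' q'] at h'
        exact ⟨Option.some.inj h'.1, h'.2⟩
    have h5 : cp P f (e.kk (e.pat P i)) ω ≤ gr e P i j ω := by
      unfold gr cp
      refine div_le_div_of_nonneg_right ?_ (P.pr_nonneg _ _)
      unfold Law.pr
      refine Finset.sum_le_sum_of_subset_of_nonneg ?_ fun _ _ _ => P.nn _
      intro ω' hω'
      simp only [Finset.mem_filter, Finset.mem_univ, true_and] at hω' ⊢
      have h6 := hω'
      simp only [Prod.mk.injEq] at h6 ⊢
      refine ⟨?_, h6.2⟩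
      have h7 := h6.1
      rw [hfω ω hω] at h7
      simp only [hf] at h7
      split_ifs at h7 with hc
      exact Option.some.inj h7
    have h6 : 0 < cp P f (e.kk (e.pat P i)) ω := cp_pos P _ _ (h.ac ω hω)
    have h7 := Real.log_le_log h6 h5
    rw [h4]
    linarith
  unfold klk at h2 ⊢
  linarith

/-! ### Collisions -/

omit h in
/-- extension of a law -/
lemma ext_ex {Ω' : Type} [Fintype Ω'] {Q' : Law Ω'} {π : Ω' → Ω} (hπ : ∀ ω, Q'.pr π ω = Q.w ω)
    (f : Ω → ℝ) : Q'.ex (fun ω => f (π ω)) = Q.ex f := by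
  have h1 : push Q' π = Q := law_ext fun ω => by rw [push_w, hπ]
  rw [← h1, push_ex]
  rfl

omit h in
lemma ext_hc {Ω' : Type} [Fintype Ω'] {Q' : Law Ω'} {π : Ω' → Ω} (hπ : ∀ ω, Q'.pr π ω = Q.w ω)
    {S T : Type*} (X : Ω → S) (Y : Ω → T) :
    hc Q' (fun ω => X (π ω)) (fun ω => Y (π ω)) = hc Q X Y := by
  have h1 : push Q' π = Q := law_ext fun ω => by rw [push_w, hπ]
  rw [← h1, push_hc]
  rfl

omit h in
lemma ext_pos {Ω' : Type} [Fintype Ω'] {Q' : Law Ω'} {π : Ω' → Ω} (hπ : ∀ ω, Q'.pr π ω = Q.w ω)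
    {ω : Ω'} (hω : 0 < Q'.w ω) : 0 < Q.w (π ω) := by
  rw [← hπ]
  exact Q'.pr_pos π hω

/-- the reference density is admissible on every extension and with every side information -/
theorem gr_ref {Ω' : Type} [Fintype Ω'] {Q' : Law Ω'} {π : Ω' → Ω}
    (hπ : ∀ ω, Q'.pr π ω = Q.w ω) {δ : Type*} (σ : Ω' → δ) {i : ℕ} (hi : i ≤ e.A + e.R) (j : ℕ) :
    Q'.ex (fun ω => gr e P i j (π ω) / cp Q' (fun ω => e.vv (e.ri E i + j) (π ω))
      (fun ω => (e.K (e.ai E i) (e.ri E i) (π ω), σ ω)) ω) ≤ 1 := by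
  classical
  refine ref_le_one Q' _ _ (fun x k =>
    P.pr (fun ω => (e.vx (e.pat P i) j ω, e.kk (e.pat P i) ω)) (x, (E.drop (e.A + e.R - i), k.1)) /
      P.pr (e.kk (e.pat P i)) (E.drop (e.A + e.R - i), k.1))
    (fun x y => div_nonneg (P.pr_nonneg _ _) (P.pr_nonneg _ _)) (fun y F => ?_) _
    (fun ω hω => ?_)
  · rw [← Finset.sum_div]
    exact div_le_one_of_le₀ (P.sum_pr_pair_le _ _ _ _) (P.pr_nonneg _ _)
  · have hω' := ext_pos hπ hω
    have h1 : e.kk (e.pat P i) (π ω) =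
        (E.drop (e.A + e.R - i), e.K (e.ai E i) (e.ri E i) (π ω)) := by
      unfold kk
      rw [h.ai_eq hω' hi, h.ri_eq hω' hi, h.pat_eq hω' hi]
    unfold gr cp
    rw [h1, h.vx_eq hi j hω']

omit h in
/-- the divergence with side information on an extension -/
theorem kap_ext {Ω' : Type} [Fintype Ω'] {Q' : Law Ω'} {π : Ω' → Ω}
    (hπ : ∀ ω, Q'.pr π ω = Q.w ω) {δ : Type*} (σ : Ω' → δ) (i j : ℕ) :
    Q'.ex (fun ω => Real.log (cp Q' (fun ω => e.vv (e.ri E i + j) (π ω))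
      (fun ω => (e.K (e.ai E i) (e.ri E i) (π ω), σ ω)) ω) - Real.log (gr e P i j (π ω))) =
    kap e P Q E i j + mi Q' (fun ω => e.vv (e.ri E i + j) (π ω)) σ
      (fun ω => e.K (e.ai E i) (e.ri E i) (π ω)) := by
  have h1 := hc_eq Q' (fun ω => e.vv (e.ri E i + j) (π ω))
    (fun ω => (e.K (e.ai E i) (e.ri E i) (π ω), σ ω))
  have h2 := ext_hc hπ (e.vv (e.ri E i + j)) (e.K (e.ai E i) (e.ri E i))
  have h3 := hc_eq Q (e.vv (e.ri E i + j)) (e.K (e.ai E i) (e.ri E i))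
  have h4 := ext_ex hπ (fun ω => Real.log (gr e P i j ω))
  have h5 : hc Q' (fun ω => e.vv (e.ri E i + j) (π ω))
      (fun ω => (σ ω, e.K (e.ai E i) (e.ri E i) (π ω))) =
      hc Q' (fun ω => e.vv (e.ri E i + j) (π ω))
      (fun ω => (e.K (e.ai E i) (e.ri E i) (π ω), σ ω)) := by
    refine hc_congr Q' (fun _ _ _ _ h' => congrArg Prod.fst h')
      (fun _ _ _ _ h' => congrArg Prod.fst h') (fun ω ω' _ _ h' => ?_) (fun ω ω' _ _ h' => ?_)
    · simp only [Prod.mk.injEq] at h' ⊢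
      exact ⟨h'.2, h'.1⟩
    · simp only [Prod.mk.injEq] at h' ⊢
      exact ⟨h'.2, h'.1⟩
  unfold mi kap
  rw [Q'.ex_sub, Q.ex_sub, h5, h2, h4]
  rw [Q'.ex_neg] at h1
  rw [Q.ex_neg] at h3
  linarith

/-- **collisions at a thin step**, with side information on an extension -/
theorem coll_thin {Ω' : Type} [Fintype Ω'] {Q' : Law Ω'} {π : Ω' → Ω}
    (hπ : ∀ ω, Q'.pr π ω = Q.w ω) {δ : Type*} (σ : Ω' → δ) {i : ℕ} (hi : i < e.A + e.R)
    (ht : e.thin E i) {j : ℕ} (hj : 1 ≤ j) (hR : e.ri E i + j ≤ e.R) (h0 : 0 < e.thr)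
    {ε : ℝ} (hε : e.thr ^ j < ε) :
    coll Q' (fun ω => e.vv (e.ri E i + j) (π ω))
      (fun ω => (e.K (e.ai E i) (e.ri E i) (π ω), σ ω)) ≤
      ε + (kap e P Q E i j + mi Q' (fun ω => e.vv (e.ri E i + j) (π ω)) σ
        (fun ω => e.K (e.ai E i) (e.ri E i) (π ω)) + 1) / Real.log (ε / e.thr ^ j) := by
  classical
  have h1 := coll_le Q' (fun ω => e.vv (e.ri E i + j) (π ω))
    (fun ω => (e.K (e.ai E i) (e.ri E i) (π ω), σ ω)) (fun ω => gr e P i j (π ω))
    (fun ω hω => h.gr_pos (ext_pos hπ hω)) (h.gr_ref hπ σ hi.le j) (pow_pos h0 j) hε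
  have h2 : prE Q' (fun ω => e.thr ^ j < gr e P i j (π ω)) = 0 := by
    have h20 : prE Q' (fun ω => e.thr ^ j < gr e P i j (π ω)) = Q'.ex (fun _ => 0) := by
      rw [prE_eq_ex]
      refine Q'.ex_congr fun ω hω => ?_
      rw [if_neg]
      intro hlt
      have := h.thin_lt hi ht hj hR (ext_pos hπ hω)
      unfold gr at hlt
      linarith
    rw [h20, Q'.ex_const]
  rw [h2, kap_ext hπ σ i j] at h1
  linarith

/-- **price of a collision at a thin step**, with side information on an extension -/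
theorem price_thin {Ω' : Type} [Fintype Ω'] {Q' : Law Ω'} {π : Ω' → Ω}
    (hπ : ∀ ω, Q'.pr π ω = Q.w ω) {δ : Type*} (σ : Ω' → δ) {i : ℕ} (hi : i < e.A + e.R)
    (ht : e.thin E i) {j : ℕ} (hj : 1 ≤ j) (hR : e.ri E i + j ≤ e.R) (h0 : 0 < e.thr)
    (hc : 1 / 2 < coll Q' (fun ω => e.vv (e.ri E i + j) (π ω))
      (fun ω => (e.K (e.ai E i) (e.ri E i) (π ω), σ ω))) :
    j * Real.log (1 / e.thr) ≤ 4 * (kap e P Q E i j +
      mi Q' (fun ω => e.vv (e.ri E i + j) (π ω)) σ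
        (fun ω => e.K (e.ai E i) (e.ri E i) (π ω))) + 8 := by
  have h1 := price Q' (fun ω => e.vv (e.ri E i + j) (π ω))
    (fun ω => (e.K (e.ai E i) (e.ri E i) (π ω), σ ω)) (fun ω => gr e P i j (π ω))
    (fun ω hω => h.gr_pos (ext_pos hπ hω)) (h.gr_ref hπ σ hi.le j) (pow_pos h0 j)
    (fun ω hω => (h.thin_lt hi ht hj hR (ext_pos hπ hω)).le) hc
  rw [kap_ext hπ σ i j] at h1
  have h2 : Real.log (1 / e.thr ^ j) = j * Real.log (1 / e.thr) := by
    rw [← Real.log_pow, one_div_pow]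
  rw [h2] at h1
  exact h1

/-- collisions at a thin step, without side information -/
theorem coll_thin' {i : ℕ} (hi : i < e.A + e.R)
    (ht : e.thin E i) {j : ℕ} (hj : 1 ≤ j) (hR : e.ri E i + j ≤ e.R) (h0 : 0 < e.thr)
    {ε : ℝ} (hε : e.thr ^ j < ε) :
    coll Q (e.vv (e.ri E i + j)) (e.K (e.ai E i) (e.ri E i)) ≤
      ε + (kap e P Q E i j + 1) / Real.log (ε / e.thr ^ j) := by
  have hπ : ∀ ω, Q.pr id ω = Q.w ω := fun ω => pr_id Q ω
  have h1 := h.coll_thin hπ (fun _ => ()) hi ht hj hR h0 hε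
  have h2 : mi Q (fun ω => e.vv (e.ri E i + j) (id ω)) (fun _ => ())
      (fun ω => e.K (e.ai E i) (e.ri E i) (id ω)) = 0 := by
    have h3 := mi_le_hc' Q (fun ω => e.vv (e.ri E i + j) (id ω)) (fun _ => ())
      (fun ω => e.K (e.ai E i) (e.ri E i) (id ω))
    have h4 := mi_nonneg Q (fun ω => e.vv (e.ri E i + j) (id ω)) (fun _ => ())
      (fun ω => e.K (e.ai E i) (e.ri E i) (id ω))
    have h5 : hc Q (fun _ => ()) (fun ω => e.K (e.ai E i) (e.ri E i) (id ω)) = 0 :=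
      hc_zero Q (fun _ _ _ _ _ => rfl)
    linarith
  rw [h2, add_zero] at h1
  refine le_trans (coll_mono Q _ ?_) h1
  intro ω ω' _ _ h'
  exact congrArg Prod.fst h'

/-- price of a collision at a thin step, without side information -/
theorem price_thin' {i : ℕ} (hi : i < e.A + e.R)
    (ht : e.thin E i) {j : ℕ} (hj : 1 ≤ j) (hR : e.ri E i + j ≤ e.R) (h0 : 0 < e.thr)
    (hc : 1 / 2 < coll Q (e.vv (e.ri E i + j)) (e.K (e.ai E i) (e.ri E i))) :
    j * Real.log (1 / e.thr) ≤ 4 * kap e P Q E i j + 8 := by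
  have hπ : ∀ ω, Q.pr id ω = Q.w ω := fun ω => pr_id Q ω
  have hc' : 1 / 2 < coll Q (fun ω => e.vv (e.ri E i + j) (id ω))
      (fun ω => (e.K (e.ai E i) (e.ri E i) (id ω), ())) := by
    refine lt_of_lt_of_le hc (coll_mono Q _ ?_)
    intro ω ω' _ _ h'
    exact congrArg Prod.fst h'
  have h1 := h.price_thin hπ (fun _ => ()) hi ht hj hR h0 hc'
  have h2 : mi Q (fun ω => e.vv (e.ri E i + j) (id ω)) (fun _ => ())
      (fun ω => e.K (e.ai E i) (e.ri E i) (id ω)) = 0 := by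
    have h3 := mi_le_hc' Q (fun ω => e.vv (e.ri E i + j) (id ω)) (fun _ => ())
      (fun ω => e.K (e.ai E i) (e.ri E i) (id ω))
    have h4 := mi_nonneg Q (fun ω => e.vv (e.ri E i + j) (id ω)) (fun _ => ())
      (fun ω => e.K (e.ai E i) (e.ri E i) (id ω))
    have h5 : Stk.hc Q (fun _ => ()) (fun ω => e.K (e.ai E i) (e.ri E i) (id ω)) = 0 :=
      hc_zero Q (fun _ _ _ _ _ => rfl)
    linarith
  rw [h2, add_zero] at h1
  exact h1

/-- total divergence of one block : overlapping windows of length `J + 1` -/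
theorem sum_kap :
    ∑ i ∈ Finset.range (e.A + e.R), (if e.ri E i < e.R then kap e P Q E i 1 else 0) ≤
      (e.J + 1) * Real.log (1 / p) := by
  classical
  set n := e.A + e.R with hn
  set f : ℕ → ℝ := fun i => klk e P Q (min i n) with hf
  have h1 : ∑ i ∈ Finset.range n, (if e.ri E i < e.R then kap e P Q E i 1 else 0) ≤
      ∑ i ∈ Finset.range n, (f (i + (e.J + 1)) - f i) := by
    refine Finset.sum_le_sum fun i hi => ?_
    have hi' : i < n := Finset.mem_range.1 hi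
    have e1 : f i = klk e P Q i := by simp only [hf]; rw [min_eq_left hi'.le]
    rw [e1]
    split_ifs with hr
    · refine h.kap_le (by omega) (min_le_right _ _) ?_
      rcases le_total (i + (e.J + 1)) n with hc | hc
      · rw [min_eq_left hc]
        have := h.ri_step hc hr
        omega
      · rw [min_eq_right hc, hn, h.ri_top]
        omega
    · have := h.klk_mono (i := i) (i' := min (i + (e.J + 1)) n) (by omega)
      simp only [hf]
      linarith
  refine h1.trans (sum_overlap f _ (fun i => h.klk_nonneg _)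
    (fun i => h.klk_le _) n e.J)

end Cnd

end Vale.Agent.P127.U.PathS
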