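import Vale.Agent.P127.U.PlaneD

/-!
# P127 / U : block PLANE (helper611)

`pPlane : PTotal → PFace → PPlane`.
-/

set_option autoImplicit false

namespace Vale.Agent.P127.U

open Filter Topology Vale.Agent.P127 Vale.Agent.P127.Stk Sys Vale.Agent.P127.U.Tri

namespace Plane

/-- the probability of a macroscopic wedge tends to zero -/
theorem wedge_small (hTot : PTotal) (hFace : PFace) {N β : ℝ} (hN : 2 ≤ N) (hβ : 0 < β)
    (hJS : JS N β) {S : Sys} {l : S.RV Ln} {t : S.RV ℝ} (hX : Xtr N β S l t) {r : ℝ} (hr : 0 < r)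
    (hr1 : r < 1) (hrβ : r ≤ β / 8) {g : ℝ} (hg : g = (β / 132) ^ 2)
    (Q : ∀ i, Law (Fin (2 + 1) → S.Ω i))
    (hQ : ∀ i w, (Q i).w w = cw (S.P i) (S.pqs (S.sc (1 - r)) (pt l t) i) 2 w) :
    Tendsto (fun i => prE (Q i) fun w => ((2 : ℝ) ^ (-(g / 2 * S.L i))) ^ 2 <
      |dt (fun j => (l i (w j)).2)|) (uf : Filter ℕ) (𝓝 0) := by
  set c := 1 - r with hc
  have hc0 : 0 < c := by rw [hc]; linarith
  have hc1 : c ≤ 1 := by rw [hc]; linarith
  have hg0 : 0 ≤ g := by rw [hg]; positivity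
  set E : ∀ i, (Fin (2 + 1) → S.Ω i) → Prop := fun i w =>
    ((2 : ℝ) ^ (-(g / 2 * S.L i))) ^ 2 < |dt (fun j => (l i (w j)).2)| with hE
  have hub : UB fun i => prE (Q i) (E i) :=
    UB.of_le (C := 1) (Eventually.of_forall fun i => prE_nonneg _ _)
      (Eventually.of_forall fun i => prE_le_one _ _)
  have ht := hub.tendsto
  have he0 : 0 ≤ ulim fun i => prE (Q i) (E i) :=
    const_le_ulim hub (Eventually.of_forall fun i => prE_nonneg _ _)
  rcases he0.eq_or_lt with h0 | h0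
  · rw [← h0] at ht
    exact ht
  exfalso
  set e := ulim fun i => prE (Q i) (E i) with hedef
  have hbig : ∀ᶠ i in (uf : Filter ℕ), e / 2 ≤ prE (Q i) (E i) := by
    filter_upwards [lt_ulim_eventually hub (half_lt_self h0)] with i hi
    exact hi.le
  have he2 : 0 < e / 2 := by linarith
  -- the conditioned system
  let S' : Sys := ⟨fun i => Fin (2 + 1) → S.Ω i, fun _ => inferInstance,
    fun i => on (Q i) (E i), S.L, S.Ltop⟩
  let d : Fin (2 + 1) → Dmn S' S := fun j => ⟨fun i w => w j, rfl, 1 / (e / 2) * 1, by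
    filter_upwards [hbig] with i hi
    have h1 : Dom (on (Q i) (E i)) id (Q i) (1 / (e / 2)) := Dom.on he2 hi
    have h2 : Dom (Q i) (fun w : Fin (2 + 1) → S.Ω i => w j) (S.P i) 1 := by
      intro ω
      rw [cw_marg (hQ i) j ω, one_mul]
    exact h1.comp h2⟩
  have hXj : ∀ j, Xtr N β S' ((d j).pull l) ((d j).pull t) := fun j =>
    hFace N β hJS S S' (d j) l t hX
  have hsupp : ∀ᶠ i in (uf : Filter ℕ), ∀ w, 0 < (S'.P i).w w →
      E i w ∧ ∀ j, S.pqs (S.sc c) (pt l t) i (w j) = S.pqs (S.sc c) (pt l t) i (w 0) := by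
    filter_upwards [hbig] with i hi w hw
    have h1 := on_pos (he2.trans_le hi) hw
    exact ⟨h1.1, (cw_supp (hQ i) h1.2).1⟩
  have hp : ∀ j, S'.Ae fun i w =>
      S'.pqs (S'.sc c) (pt ((d j).pull l) ((d j).pull t)) i w =
        S'.pqs (S'.sc c) (pt ((d 0).pull l) ((d 0).pull t)) i w := by
    intro j
    filter_upwards [hsupp] with i hi w hw
    exact (hi w hw).2 j
  have hw : S'.Ae fun i w => (2 : ℝ) ^ (-(g * S'.L i)) ≤
      |dt (fun j => ((d j).pull l i w).2)| := by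
    filter_upwards [hsupp] with i hi w hw
    have h1 := (hi w hw).1
    refine le_trans (le_of_eq ?_) h1.le
    rw [← Real.rpow_natCast, ← Real.rpow_mul (by norm_num)]
    congr 1
    push_cast
    show -(g * (S.L i : ℝ)) = _
    ring
  have hthree := three S' (fun j => (d j).pull l) (fun j => (d j).pull t)
    (fun j => (hXj j).ln) (fun j => (hXj j).t01) hc0 hc1 hg0 hp hw
  have hn := sc_le S' hc1
  have hco := fun j => coarse_h (hXj j).ln (hXj j).t01 hn
  have htt := fun j => hTot N β (by linarith) hJS S' _ _ (hXj j)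
  have hD1 := fun j => Df_mono (l := (d j).pull l) (hXj j).t01 hc0.le hc1
  have hD0 := fun j => Df_nonneg (l := (d j).pull l) (hXj j).t01
  have hh : ∀ j, S'.h (S'.pqs (S'.sc c) (pt ((d j).pull l) ((d j).pull t))) =
      S'.h (S'.pqs (S'.sc c) (pt ((d 0).pull l) ((d 0).pull t))) := by
    intro j
    refine hc_congr ?_ ?_ (Eventually.of_forall fun _ _ _ _ _ e => e)
      (Eventually.of_forall fun _ _ _ _ _ e => e)
    · filter_upwards [hp j] with i hi w w' hw hw' e
      rw [hi w hw, hi w' hw']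
      exact congrArg Prod.fst e
    · filter_upwards [hp j] with i hi w w' hw hw' e
      have := congrArg Prod.fst e
      simp only [pr_apply] at this
      rw [hi w hw, hi w' hw'] at this
      exact this
  have hDc : ∀ j, S'.hc (S'.dg (S'.sc c) ((d j).pull t)) (S'.tbs S'.L ((d j).pull l)) =
      c - Df ((d j).pull l) ((d j).pull t) (S'.sc c) := by
    intro j
    unfold Df
    rw [nu_sc S' hc0.le]
    ring
  have hDL : ∀ j, S'.hc (S'.dg S'.L ((d j).pull t)) (S'.tbs S'.L ((d j).pull l)) =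
      1 - Df ((d j).pull l) ((d j).pull t) S'.L := by
    intro j
    unfold Df
    rw [nu_L]
    ring
  have hsq : √(c * g) ≤ β / 132 := by
    have h1 : c * g ≤ (β / 132) ^ 2 := by
      rw [← hg]
      nlinarith
    calc √(c * g) ≤ √((β / 132) ^ 2) := Real.sqrt_le_sqrt h1
      _ = β / 132 := Real.sqrt_sq (by positivity)
  rw [Fin.sum_univ_three] at hthree
  simp only [hDc] at hthree
  have hND : ∀ j, 2 * Df ((d j).pull l) ((d j).pull t) S'.L ≤
      N * Df ((d j).pull l) ((d j).pull t) S'.L := fun j =>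
    mul_le_mul_of_nonneg_right hN (hD0 j)
  have key : ∀ j, S'.h (S'.pqs (S'.sc c) (pt ((d 0).pull l) ((d 0).pull t))) ≤
      2 + c - β - N * Df ((d j).pull l) ((d j).pull t) S'.L -
        Df ((d j).pull l) ((d j).pull t) (S'.sc c) := by
    intro j
    have h1 := hco j
    rw [hDc j, hDL j, hh j] at h1
    have h2 := htt j
    linarith
  have k0 := key 0
  have k1 := key 1
  have k2 := key 2
  have m0 := hND 0
  have m1 := hND 1
  have m2 := hND 2
  have n0 := hD1 0
  have n1 := hD1 1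
  have n2 := hD1 2
  linarith

end Plane

open Plane in
/-- **block PLANE** -/
theorem pPlane (hTot : PTotal) (hFace : PFace) : PPlane := by
  intro N β hN hβ hJS S l t hX
  set g : ℝ := (β / 132) ^ 2 with hg
  have hg0 : 0 < g := by positivity
  refine ⟨min (1 / 2) (min (β / 8) (g / 2)), by positivity,
    (min_le_left _ _).trans_lt (by norm_num), fun r hr hr0 => ?_⟩
  have hr1 : r ≤ 1 / 2 := hr0.trans (min_le_left _ _)
  have hrβ : r ≤ β / 8 := hr0.trans ((min_le_right _ _).trans (min_le_left _ _))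
  have hrg : r ≤ g / 2 := hr0.trans ((min_le_right _ _).trans (min_le_right _ _))
  choose Q hQ using fun i => Stk.cw_exists (S.P i) (S.pqs (S.sc (1 - r)) (pt l t) i) 2
  have hsmall := wedge_small hTot hFace hN hβ hJS hX hr (by linarith) hrβ hg Q hQ
  set κ : ℕ → ℝ := fun i => (2 : ℝ) ^ (-(g / 2 * S.L i)) with hκ
  have hκ0 : ∀ i, 0 < κ i := fun i => Real.rpow_pos_of_pos (by norm_num) _
  set e : ℕ → ℝ := fun i => prE (Q i) fun w => (κ i) ^ 2 < |dt (fun j => (l i (w j)).2)| with he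
  have he0 : ∀ i, 0 ≤ e i := fun i => prE_nonneg _ _
  set a : ℕ → ℝ := fun i => √(e i) + 1 / ((S.L i : ℝ) + 1) with ha
  have ha0 : ∀ i, 0 < a i := fun i => by
    have : (0 : ℝ) ≤ S.L i := Nat.cast_nonneg _
    have h1 : 0 < 1 / ((S.L i : ℝ) + 1) := by positivity
    have := Real.sqrt_nonneg (e i)
    show 0 < √(e i) + 1 / ((S.L i : ℝ) + 1)
    linarith
  have hkey : ∀ i, ∃ (θ : ℤ × (Fin 2 → ℤ) → ℝ) (s : ℤ × (Fin 2 → ℤ) → Fin 2 → ℝ),
      (∀ b, |θ b| ≤ 4) ∧ (∀ b k, |s b k| ≤ 1) ∧ ((∀ ω, 0 < (S.P i).w ω → LnOk (l i ω)) →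
        prE (S.P i) (fun ω => κ i < |co (θ (S.pqs (S.sc (1 - r)) (pt l t) i ω))
          (fun k => (l i ω).2 k - s (S.pqs (S.sc (1 - r)) (pt l t) i ω) k) 1|) ≤
            a i + e i / a i) := by
    intro i
    by_cases h : ∀ ω, 0 < (S.P i).w ω → LnOk (l i ω)
    · obtain ⟨θ, s, h1, h2, h3⟩ := strip (S.P i) (S.pqs (S.sc (1 - r)) (pt l t) i)
        (fun ω => (l i ω).2) (hQ i) (fun ω hω k => (h ω hω).2 k) (hκ0 i) (ha0 i)
      exact ⟨θ, s, h1, h2, fun _ => h3⟩
    · exact ⟨fun _ => 0, fun _ _ => 0, fun _ => by norm_num, fun _ _ => by norm_num,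
        fun h' => absurd h' h⟩
  choose θ s h1 h2 h3 using hkey
  refine ⟨fun i ω => θ i (S.pqs (S.sc (1 - r)) (pt l t) i ω),
    Eventually.of_forall fun i ω _ => h1 i _, ?_⟩
  -- the error terms
  have hLtop := Lr_top S
  have t1 : Tendsto (fun i => 2 * √(e i) + 1 / ((S.L i : ℝ) + 1)) (uf : Filter ℕ) (𝓝 0) := by
    have g1 : Tendsto (fun i => √(e i)) (uf : Filter ℕ) (𝓝 0) := by
      have := hsmall.sqrt
      rwa [Real.sqrt_zero] at this
    have g2 : Tendsto (fun i => 1 / ((S.L i : ℝ) + 1)) (uf : Filter ℕ) (𝓝 0) :=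
      (tendsto_atTop_add_const_right _ 1 hLtop).const_div_atTop 1
    have := (g1.const_mul 2).add g2
    simpa using this
  have t2 : Tendsto (fun i => (Real.log 2 + Real.log 13) / S.nm i +
      10 * (2 * √(e i) + 1 / ((S.L i : ℝ) + 1))) (uf : Filter ℕ) (𝓝 0) := by
    have := (S.const_div_nm (Real.log 2 + Real.log 13)).add (t1.const_mul 10)
    simpa using this
  refine ulim_eq (squeeze_zero' ?_ ?_ t2)
  · filter_upwards [S.nm_pos] with i hi
    exact div_nonneg (Stk.hc_nonneg _ _ _) hi.le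
  · filter_upwards [S.nm_pos, S.L_pos, hX.ln] with i hi hL hl
    have hLr : (1 : ℝ) ≤ S.L i := by exact_mod_cast hL
    have hm : S.sc r i ≤ S.L i := sc_le S (by linarith) i
    have hmr : (S.sc r i : ℝ) ≤ r * S.L i := Nat.floor_le (by positivity)
    have hκm : κ i ≤ (1 / 2 : ℝ) ^ (S.sc r i) := by
      have e1 : (1 / 2 : ℝ) ^ (S.sc r i) = (2 : ℝ) ^ (-(S.sc r i : ℝ)) := by
        rw [Real.rpow_neg (by norm_num), Real.rpow_natCast, one_div, inv_pow]
      rw [e1, hκ]
      refine Real.rpow_le_rpow_of_exponent_le (by norm_num) ?_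
      have : r * S.L i ≤ g / 2 * S.L i := mul_le_mul_of_nonneg_right hrg (by positivity)
      linarith
    have hy : ∀ ω, 0 < (S.P i).w ω → ∀ k, |(l i ω).2 k| ≤ 1 := fun ω hω k => (hl ω hω).2 k
    have hfin := strip_hc (S.P i) (S.pqs (S.sc (1 - r)) (pt l t) i) (fun ω => (l i ω).2) hy
      (S.sc r i) hκm (θ i) (s i) (h1 i) (h2 i)
    have hbad := h3 i hl
    set B := prE (S.P i) (fun ω => κ i < |co (θ i (S.pqs (S.sc (1 - r)) (pt l t) i ω))
          (fun k => (l i ω).2 k - s i (S.pqs (S.sc (1 - r)) (pt l t) i ω) k) 1|) with hB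
    have hB0 : 0 ≤ B := prE_nonneg _ _
    have hB1 : B ≤ 2 * √(e i) + 1 / ((S.L i : ℝ) + 1) := by
      refine hbad.trans ?_
      have g1 : e i / a i ≤ √(e i) := by
        rw [div_le_iff₀ (ha0 i)]
        have g2 : √(e i) * √(e i) = e i := Real.mul_self_sqrt (he0 i)
        have g3 : √(e i) ≤ a i := by
          have : 0 ≤ 1 / ((S.L i : ℝ) + 1) := by positivity
          show √(e i) ≤ √(e i) + 1 / ((S.L i : ℝ) + 1)
          linarith
        nlinarith [Real.sqrt_nonneg (e i)]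
      have g4 : a i = √(e i) + 1 / ((S.L i : ℝ) + 1) := rfl
      linarith
    have hlog : 0 < Real.log 2 := Real.log_pos (by norm_num)
    have hnm : S.nm i = (S.L i : ℝ) * Real.log 2 := rfl
    rw [div_le_iff₀ hi, add_mul, div_mul_cancel₀ _ hi.ne']
    refine hfin.trans ?_
    have g5 : B * (2 * ((S.sc r i : ℝ) + 4) * Real.log 2) ≤
        (2 * √(e i) + 1 / ((S.L i : ℝ) + 1)) * (10 * (S.L i : ℝ) * Real.log 2) := by
      have g6 : (S.sc r i : ℝ) ≤ S.L i := by exact_mod_cast hm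
      have g7 : 2 * ((S.sc r i : ℝ) + 4) * Real.log 2 ≤ 10 * (S.L i : ℝ) * Real.log 2 := by
        refine mul_le_mul_of_nonneg_right ?_ hlog.le
        linarith
      exact mul_le_mul hB1 g7 (by positivity) (hB0.trans hB1)
    rw [hnm]
    linarith [g5, (by ring : (2 * √(e i) + 1 / ((S.L i : ℝ) + 1)) *
      (10 * (S.L i : ℝ) * Real.log 2) = 10 * (2 * √(e i) + 1 / ((S.L i : ℝ) + 1)) *
      ((S.L i : ℝ) * Real.log 2))]

end Vale.Agent.P127.U
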