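import Vale.Agent.P127.Stk.LibFloors
import Vale.Agent.P127.Stk.BaseA

/-!
# P127 / U : the trilinear inequality in finite Shannon form (helper611)

Three lines `x j + t y j` through the point `p` (at precision `2^{-L}`), the wedge of the three
directions is at least `2^{-γ}`.  Then
`H(p_L, t_L) ≥ ∑_j H(t_L | l_j) - C (w + n (E γ + 1))` for every window length `w`, `n w ≤ L`.
-/

set_option autoImplicit false

namespace Vale.Agent.P127.U.Tri

open Finset Vale.Agent.P127 Vale.Agent.P127.Stk Vale.Agent.P127.Stk.Bs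

section algebra

/-- cross product of plane vectors -/
def cross (z w : Fin 2 → ℝ) : ℝ := z 0 * w 1 - z 1 * w 0

/-- `det (1 y_0; 1 y_1; 1 y_2)` -/
def dt (y : Fin 3 → Fin 2 → ℝ) : ℝ :=
  cross (fun i => y 1 i - y 0 i) (fun i => y 2 i - y 0 i)

/-- numerator of the `i`-th coordinate computed from the projection along `y j` -/
def nm (y : Fin 3 → Fin 2 → ℝ) (j k : Fin 3) (z : Fin 2 → ℝ) : ℝ :=
  cross (fun i => y k i - y j i) z

theorem coord_sum_t (y : Fin 3 → Fin 2 → ℝ) (u : Fin 2 → ℝ) (s : ℝ) :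
    nm y 1 2 (fun i => u i - s * y 1 i) + nm y 2 0 (fun i => u i - s * y 2 i) +
      nm y 0 1 (fun i => u i - s * y 0 i) = s * dt y := by
  simp only [nm, dt, cross]
  ring

theorem coord_sum_u (y : Fin 3 → Fin 2 → ℝ) (u : Fin 2 → ℝ) (s : ℝ) (i : Fin 2) :
    nm y 1 2 (fun i => u i - s * y 1 i) * y 0 i + nm y 2 0 (fun i => u i - s * y 2 i) * y 1 i +
      nm y 0 1 (fun i => u i - s * y 0 i) * y 2 i = u i * dt y := by
  fin_cases i <;> simp only [nm, dt, cross] <;> simp <;> ring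

theorem nm_swap (y : Fin 3 → Fin 2 → ℝ) (j k : Fin 3) (u : Fin 2 → ℝ) (s : ℝ) :
    nm y j k (fun i => u i - s * y k i) = nm y j k (fun i => u i - s * y j i) := by
  simp only [nm, cross]
  ring

theorem cross_le {z w : Fin 2 → ℝ} {A B : ℝ} (hz : ∀ i, |z i| ≤ A) (hw : ∀ i, |w i| ≤ B) :
    |cross z w| ≤ 2 * (A * B) := by
  have hA : 0 ≤ A := (abs_nonneg _).trans (hz 0)
  unfold cross
  have h1 : |z 0 * w 1| ≤ A * B := by
    rw [abs_mul]
    exact mul_le_mul (hz 0) (hw 1) (abs_nonneg _) hA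
  have h2 : |z 1 * w 0| ≤ A * B := by
    rw [abs_mul]
    exact mul_le_mul (hz 1) (hw 0) (abs_nonneg _) hA
  have := abs_sub (z 0 * w 1) (z 1 * w 0)
  linarith

theorem cross_sub_left (z z' w : Fin 2 → ℝ) :
    cross (fun i => z i - z' i) w = cross z w - cross z' w := by
  simp only [cross]
  ring

theorem cross_sub_right (z w w' : Fin 2 → ℝ) :
    cross z (fun i => w i - w' i) = cross z w - cross z w' := by
  simp only [cross]
  ring

theorem dt_close {y y' : Fin 3 → Fin 2 → ℝ} {ε : ℝ} (hy : ∀ j i, |y j i| ≤ 1)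
    (hy' : ∀ j i, |y' j i| ≤ 1) (h : ∀ j i, |y j i - y' j i| ≤ ε) :
    |dt y - dt y'| ≤ 16 * ε := by
  have h1 : dt y - dt y' =
      cross (fun i => (y 1 i - y 0 i) - (y' 1 i - y' 0 i)) (fun i => y 2 i - y 0 i) +
      cross (fun i => y' 1 i - y' 0 i) (fun i => (y 2 i - y 0 i) - (y' 2 i - y' 0 i)) := by
    simp only [dt, cross]
    ring
  have a1 : ∀ j i, |y j i - y 0 i| ≤ 2 := by
    intro j i
    have := abs_sub (y j i) (y 0 i)
    linarith [hy j i, hy 0 i]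
  have a2 : ∀ j i, |y' j i - y' 0 i| ≤ 2 := by
    intro j i
    have := abs_sub (y' j i) (y' 0 i)
    linarith [hy' j i, hy' 0 i]
  have a3 : ∀ j i, |(y j i - y 0 i) - (y' j i - y' 0 i)| ≤ 2 * ε := by
    intro j i
    have e : (y j i - y 0 i) - (y' j i - y' 0 i) = (y j i - y' j i) - (y 0 i - y' 0 i) := by ring
    rw [e]
    have := abs_sub (y j i - y' j i) (y 0 i - y' 0 i)
    linarith [h j i, h 0 i]
  rw [h1]
  have b1 := cross_le (a3 1) (a1 2)
  have b2 := cross_le (a2 1) (a3 2)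
  have := abs_add_le
    (cross (fun i => (y 1 i - y 0 i) - (y' 1 i - y' 0 i)) (fun i => y 2 i - y 0 i))
    (cross (fun i => y' 1 i - y' 0 i) (fun i => (y 2 i - y 0 i) - (y' 2 i - y' 0 i)))
  linarith

theorem dt_le {y : Fin 3 → Fin 2 → ℝ} (hy : ∀ j i, |y j i| ≤ 1) : |dt y| ≤ 8 := by
  have a1 : ∀ j i, |y j i - y 0 i| ≤ 2 := by
    intro j i
    have := abs_sub (y j i) (y 0 i)
    linarith [hy j i, hy 0 i]
  have := cross_le (a1 1) (a1 2)
  unfold dt
  linarith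

end algebra

section ent

variable {Ω : Type} [Fintype Ω] {T : Type*} (P : Law Ω)

/-- approximate determination, on the support -/
theorem hc_det {m : ℕ} (Z : Ω → Fin m → ℤ) (Y : Ω → T) (g : T → Fin m → ℝ)
    (R : Ω → ℝ) (hR : ∀ ω, 0 < P.w ω → ∀ c, |(Z ω c : ℝ) - g (Y ω) c| ≤ R ω) :
    hc P Z Y ≤ m * (Real.log 4 + 2 * P.ex (fun ω => Real.log (2 + R ω))) := by
  classical
  set R' : Ω → ℝ := fun ω => if 0 < P.w ω then R ω else ∑ c, |(Z ω c : ℝ) - g (Y ω) c| with hR'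
  have h := P.H_det Z Y g R' (by
    intro ω c
    rw [hR']
    simp only
    split_ifs with h0
    · exact hR ω h0 c
    · exact Finset.single_le_sum (f := fun c => |(Z ω c : ℝ) - g (Y ω) c|)
        (fun c _ => abs_nonneg _) (Finset.mem_univ c))
  have e : P.ex (fun ω => Real.log (2 + R' ω)) = P.ex (fun ω => Real.log (2 + R ω)) := by
    refine P.ex_congr fun ω hω => ?_
    rw [hR']
    simp only [if_pos hω]
  rw [e] at h
  exact h

/-- Shearer -/
theorem shearer {α β γ : Type*} (X : Ω → α) (Y : Ω → β) (Z : Ω → γ) (B : Ω → T) :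
    2 * hc P (fun ω => (X ω, Y ω, Z ω)) B ≤
      hc P (fun ω => (Y ω, Z ω)) B + hc P (fun ω => (Z ω, X ω)) B +
        hc P (fun ω => (X ω, Y ω)) B := by
  have h1 := submod' P (X := fun ω => ((Y ω, Z ω), B ω)) (Y := fun ω => ((X ω, Y ω), B ω))
    (Z := fun ω => ((X ω, Y ω, Z ω), B ω)) (D := fun ω => (Y ω, B ω))
    (fun ω ω' _ _ e => by
      simp only [Prod.mk.injEq] at e ⊢
      exact ⟨e.1.1, e.2⟩)
    (fun ω ω' _ _ e => by
      simp only [Prod.mk.injEq] at e ⊢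
      exact ⟨e.1.2, e.2⟩)
    (fun ω ω' _ _ e => by
      simp only [Prod.mk.injEq] at e ⊢
      exact ⟨⟨e.2.1.1, e.2.1.2, e.1.1.2⟩, e.1.2⟩)
  have h2 := submod' P (X := fun ω => ((Z ω, X ω), B ω)) (Y := fun ω => (Y ω, B ω))
    (Z := fun ω => ((X ω, Y ω, Z ω), B ω)) (D := B)
    (fun ω ω' _ _ e => by
      simp only [Prod.mk.injEq] at e
      exact e.2)
    (fun ω ω' _ _ e => by
      simp only [Prod.mk.injEq] at e
      exact e.2)
    (fun ω ω' _ _ e => by
      simp only [Prod.mk.injEq] at e ⊢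
      exact ⟨⟨e.1.1.2, e.2.1, e.1.1.1⟩, e.1.2⟩)
  unfold hc
  linarith

end ent

/-! ### the configuration -/

/-- three lines through the point `(p, t)` -/
structure Cfg {Ω : Type} [Fintype Ω] (P : Law Ω) (L K : ℕ) (S : Type) where
  p : Ω → Fin 2 → ℝ
  t : Ω → ℝ
  x : Fin 3 → Ω → Fin 2 → ℝ
  y : Fin 3 → Ω → Fin 2 → ℝ
  l : Fin 3 → Ω → S
  t0 : ∀ ω, 0 < P.w ω → 0 ≤ t ω
  t1 : ∀ ω, 0 < P.w ω → t ω < 1
  y1 : ∀ j ω, 0 < P.w ω → ∀ i, |y j ω i| ≤ 1
  hp : ∀ j ω, 0 < P.w ω → ∀ i, |p ω i - (x j ω i + t ω * y j ω i)| ≤ K * (1 / 2 : ℝ) ^ L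
  hx : ∀ j ω ω', 0 < P.w ω → 0 < P.w ω' → l j ω = l j ω' → ∀ i,
    |x j ω i - x j ω' i| ≤ K * (1 / 2 : ℝ) ^ L
  hy : ∀ j ω ω', 0 < P.w ω → 0 < P.w ω' → l j ω = l j ω' → ∀ i,
    |y j ω i - y j ω' i| ≤ K * (1 / 2 : ℝ) ^ L

namespace Cfg

variable {Ω : Type} [Fintype Ω] {P : Law Ω} {L K : ℕ} {S : Type} (c : Cfg P L K S)

/-- the caps -/
noncomputable def D (w : ℕ) (ω : Ω) : Fin 3 → Fin 2 → ℤ := fun j => fl w (c.y j ω)

/-- the point at precision `a` -/
noncomputable def q (a : ℕ) (ω : Ω) : (Fin 2 → ℤ) × ℤ := (fl a (c.p ω), fl1 a (c.t ω))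

end Cfg

/-- the directions of the caps -/
noncomputable def yh (w : ℕ) (D : Fin 3 → Fin 2 → ℤ) (j : Fin 3) (i : Fin 2) : ℝ :=
  (D j i : ℝ) * (1 / 2) ^ w

/-- lower left corner -/
noncomputable def low (a : ℕ) (k : ℤ) : ℝ := (k : ℝ) * (1 / 2) ^ a

theorem low_le (a : ℕ) (v : ℝ) : low a ⌊(2 : ℝ) ^ a * v⌋ ≤ v := by
  unfold low
  have h := Int.floor_le ((2 : ℝ) ^ a * v)
  have h2 : (0 : ℝ) < (1 / 2) ^ a := by positivity
  calc (⌊(2 : ℝ) ^ a * v⌋ : ℝ) * (1 / 2) ^ a ≤ (2 : ℝ) ^ a * v * (1 / 2) ^ a :=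
        mul_le_mul_of_nonneg_right h h2.le
    _ = v := by
        rw [one_div, inv_pow]
        field_simp

theorem lt_low (a : ℕ) (v : ℝ) : v ≤ low a ⌊(2 : ℝ) ^ a * v⌋ + (1 / 2) ^ a := by
  unfold low
  have h := (Int.lt_floor_add_one ((2 : ℝ) ^ a * v)).le
  have h2 : (0 : ℝ) < (1 / 2) ^ a := by positivity
  calc v = (2 : ℝ) ^ a * v * (1 / 2) ^ a := by
        rw [one_div, inv_pow]
        field_simp
    _ ≤ (⌊(2 : ℝ) ^ a * v⌋ + 1 : ℝ) * (1 / 2) ^ a := mul_le_mul_of_nonneg_right h h2.le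
    _ = _ := by ring

theorem abs_low (a : ℕ) (v : ℝ) : |v - low a ⌊(2 : ℝ) ^ a * v⌋| ≤ (1 / 2) ^ a := by
  have h1 := low_le a v
  have h2 := lt_low a v
  rw [abs_of_nonneg (by linarith)]
  linarith

theorem yh_abs {w : ℕ} {y : Fin 3 → Fin 2 → ℝ} (hy : ∀ j i, |y j i| ≤ 1) (j : Fin 3) (i : Fin 2) :
    |yh w (fun j => fl w (y j)) j i| ≤ 1 := by
  unfold yh fl
  have h1 := abs_le.1 (hy j i)
  have h2 : (0 : ℝ) < (2 : ℝ) ^ w := by positivity
  have h3 : (0 : ℝ) < (1 / 2 : ℝ) ^ w := by positivity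
  have e : (2 : ℝ) ^ w * (1 / 2) ^ w = 1 := by
    rw [← mul_pow]
    norm_num
  rw [abs_le]
  constructor
  · have h4 : (-(2 : ℤ) ^ w) ≤ ⌊(2 : ℝ) ^ w * y j i⌋ := by
      rw [Int.le_floor]
      push_cast
      nlinarith
    have h5 : (-(2 : ℝ) ^ w) ≤ (⌊(2 : ℝ) ^ w * y j i⌋ : ℝ) := by exact_mod_cast h4
    nlinarith
  · have h4 := Int.floor_le ((2 : ℝ) ^ w * y j i)
    have h5 : (⌊(2 : ℝ) ^ w * y j i⌋ : ℝ) ≤ 2 ^ w := by nlinarith
    nlinarith

theorem yh_close {w : ℕ} (y : Fin 3 → Fin 2 → ℝ) (j : Fin 3) (i : Fin 2) :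
    |y j i - yh w (fun j => fl w (y j)) j i| ≤ (1 / 2) ^ w := abs_low w (y j i)

theorem half_mono {a b : ℕ} (h : a ≤ b) : (1 / 2 : ℝ) ^ b ≤ (1 / 2) ^ a :=
  pow_le_pow_of_le_one (by norm_num) (by norm_num) h

namespace Cfg

variable {Ω : Type} [Fintype Ω] {P : Law Ω} {L K : ℕ} {S : Type} (c : Cfg P L K S)

/-- the position relative to the corner of the cell, projected along the cap `j` -/
noncomputable def pj (w a : ℕ) (j : Fin 3) (ω : Ω) : Fin 2 → ℝ := fun i =>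
  (c.p ω i - low a (fl a (c.p ω) i)) -
    (c.t ω - low a (fl1 a (c.t ω))) * yh w (c.D w ω) j i

/-- its digits at precision `a + w` -/
noncomputable def X (w a : ℕ) (j : Fin 3) (ω : Ω) : Fin 2 → ℤ := fl (a + w) (c.pj w a j ω)

/-- coarse information -/
noncomputable def B (w a : ℕ) (ω : Ω) : ((Fin 2 → ℤ) × ℤ) × (Fin 3 → Fin 2 → ℤ) :=
  (c.q a ω, c.D w ω)

theorem yh_abs (w : ℕ) {ω : Ω} (hω : 0 < P.w ω) (j : Fin 3) (i : Fin 2) :
    |yh w (c.D w ω) j i| ≤ 1 := Tri.yh_abs (fun j i => c.y1 j ω hω i) j i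

theorem yh_close (w : ℕ) (ω : Ω) (j : Fin 3) (i : Fin 2) :
    |c.y j ω i - yh w (c.D w ω) j i| ≤ (1 / 2) ^ w := Tri.yh_close (fun j => c.y j ω) j i

theorem X_of_q (w a : ℕ) (j : Fin 3) :
    hc P (c.X w a j) (fun ω => (c.q (a + w) ω, c.B w a ω)) ≤ 2 * Real.log 7 := by
  have h := hc_fl_diam P (a + w) 2 (c.pj w a j) (fun ω => (c.q (a + w) ω, c.B w a ω)) (by
    intro ω ω' hω hω' e i
    have e1 := congrArg Prod.fst e
    have e2 := congrArg Prod.snd e
    simp only [q, B, Prod.mk.injEq] at e1 e2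
    have g1 := fl_close e1.1 i
    have g2 := fl1_close e1.2
    unfold pj
    rw [e2.1.1, e2.1.2, e2.2]
    have g3 := c.yh_abs w hω' j i
    have e3 : (c.p ω i - low a (fl a (c.p ω') i)) -
        (c.t ω - low a (fl1 a (c.t ω'))) * yh w (c.D w ω') j i -
        ((c.p ω' i - low a (fl a (c.p ω') i)) -
        (c.t ω' - low a (fl1 a (c.t ω'))) * yh w (c.D w ω') j i) =
        (c.p ω i - c.p ω' i) - (c.t ω - c.t ω') * yh w (c.D w ω') j i := by ring
    rw [e3]
    have g4 : |(c.t ω - c.t ω') * yh w (c.D w ω') j i| ≤ (1 / 2) ^ (a + w) := by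
      rw [abs_mul]
      calc |c.t ω - c.t ω'| * |yh w (c.D w ω') j i| ≤ (1 / 2) ^ (a + w) * 1 :=
            mul_le_mul g2 g3 (abs_nonneg _) (by positivity)
        _ = _ := mul_one _
    have g5 := abs_sub (c.p ω i - c.p ω' i) ((c.t ω - c.t ω') * yh w (c.D w ω') j i)
    push_cast
    linarith)
  simp only [Fintype.card_fin] at h
  norm_num at h ⊢
  exact h

theorem X_of_l (w a : ℕ) (ha : a + w ≤ L) (j : Fin 3) :
    hc P (c.X w a j) (fun ω => (c.B w a ω, c.l j ω)) ≤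
      2 * Real.log (2 * (4 * K + 2 : ℕ) + 3) := by
  have h := hc_fl_diam P (a + w) (4 * K + 2) (c.pj w a j) (fun ω => (c.B w a ω, c.l j ω)) (by
    intro ω ω' hω hω' e i
    simp only [B, q, Prod.mk.injEq] at e
    obtain ⟨⟨⟨e1, e2⟩, e3⟩, e4⟩ := e
    have g1 := c.hp j ω hω i
    have g1' := c.hp j ω' hω' i
    have g2 := c.hx j ω ω' hω hω' e4 i
    have g3 := c.hy j ω ω' hω hω' e4 i
    have hL := half_mono ha
    have hs : |c.t ω - low a (fl1 a (c.t ω))| ≤ (1 / 2) ^ a := abs_low a (c.t ω)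
    have hs' : |c.t ω' - low a (fl1 a (c.t ω'))| ≤ (1 / 2) ^ a := abs_low a (c.t ω')
    have hy := c.yh_close w ω j i
    have hy' := c.yh_close w ω' j i
    have ht : |low a (fl1 a (c.t ω'))| ≤ 1 := by
      have h0 : (0 : ℝ) ≤ low a (fl1 a (c.t ω')) := by
        unfold low fl1
        have h00 : (0 : ℤ) ≤ ⌊(2 : ℝ) ^ a * c.t ω'⌋ :=
          Int.floor_nonneg.2 (mul_nonneg (by positivity) (c.t0 ω' hω'))
        have h01 : (0 : ℝ) ≤ (⌊(2 : ℝ) ^ a * c.t ω'⌋ : ℝ) := by exact_mod_cast h00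
        positivity
      rw [abs_of_nonneg h0]
      exact (low_le a (c.t ω')).trans (c.t1 ω' hω').le
    unfold pj
    rw [e1, e2, e3] at *
    set yy := yh w (c.D w ω') j i with hyy
    set tt := low a (fl1 a (c.t ω')) with htt
    set pp := low a (fl a (c.p ω') i) with hpp
    have e5 : c.p ω i - pp - (c.t ω - tt) * yy - (c.p ω' i - pp - (c.t ω' - tt) * yy) =
        (c.p ω i - (c.x j ω i + c.t ω * c.y j ω i)) -
        (c.p ω' i - (c.x j ω' i + c.t ω' * c.y j ω' i)) +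
        (c.x j ω i - c.x j ω' i) + tt * (c.y j ω i - c.y j ω' i) +
        (c.t ω - tt) * (c.y j ω i - yy) - (c.t ω' - tt) * (c.y j ω' i - yy) := by ring
    rw [e5]
    have b1 : |tt * (c.y j ω i - c.y j ω' i)| ≤ K * (1 / 2) ^ (a + w) := by
      rw [abs_mul]
      calc |tt| * |c.y j ω i - c.y j ω' i| ≤ 1 * (K * (1 / 2) ^ L) :=
            mul_le_mul ht g3 (abs_nonneg _) (by norm_num)
        _ ≤ K * (1 / 2) ^ (a + w) := by
            rw [one_mul]
            exact mul_le_mul_of_nonneg_left hL (Nat.cast_nonneg _)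
    have b2 : |(c.t ω - tt) * (c.y j ω i - yy)| ≤ (1 / 2) ^ (a + w) := by
      rw [abs_mul, pow_add]
      exact mul_le_mul hs hy (abs_nonneg _) (by positivity)
    have b3 : |(c.t ω' - tt) * (c.y j ω' i - yy)| ≤ (1 / 2) ^ (a + w) := by
      rw [abs_mul, pow_add]
      exact mul_le_mul hs' hy' (abs_nonneg _) (by positivity)
    have b4 : (K : ℝ) * (1 / 2) ^ L ≤ K * (1 / 2) ^ (a + w) :=
      mul_le_mul_of_nonneg_left hL (Nat.cast_nonneg _)
    have h1 := abs_sub (c.p ω i - (c.x j ω i + c.t ω * c.y j ω i))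
        (c.p ω' i - (c.x j ω' i + c.t ω' * c.y j ω' i))
    have h2 := abs_add_le ((c.p ω i - (c.x j ω i + c.t ω * c.y j ω i)) -
        (c.p ω' i - (c.x j ω' i + c.t ω' * c.y j ω' i))) (c.x j ω i - c.x j ω' i)
    have h3 := abs_add_le ((c.p ω i - (c.x j ω i + c.t ω * c.y j ω i)) -
        (c.p ω' i - (c.x j ω' i + c.t ω' * c.y j ω' i)) + (c.x j ω i - c.x j ω' i))
        (tt * (c.y j ω i - c.y j ω' i))
    have h4 := abs_add_le ((c.p ω i - (c.x j ω i + c.t ω * c.y j ω i)) -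
        (c.p ω' i - (c.x j ω' i + c.t ω' * c.y j ω' i)) + (c.x j ω i - c.x j ω' i) +
        tt * (c.y j ω i - c.y j ω' i)) ((c.t ω - tt) * (c.y j ω i - yy))
    have h5 := abs_sub ((c.p ω i - (c.x j ω i + c.t ω * c.y j ω i)) -
        (c.p ω' i - (c.x j ω' i + c.t ω' * c.y j ω' i)) + (c.x j ω i - c.x j ω' i) +
        tt * (c.y j ω i - c.y j ω' i) + (c.t ω - tt) * (c.y j ω i - yy))
        ((c.t ω' - tt) * (c.y j ω' i - yy))
    push_cast
    linarith)
  simp only [Fintype.card_fin, Nat.cast_ofNat] at h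
  exact h

theorem p_of_l (w a : ℕ) (ha : a ≤ L) (j : Fin 3) :
    hc P (fun ω => fl a (c.p ω)) (fun ω => (fl1 a (c.t ω), c.D w ω, c.l j ω)) ≤
      2 * Real.log (2 * (4 * K + 2 : ℕ) + 3) := by
  have h := hc_fl_diam P a (4 * K + 2) c.p (fun ω => (fl1 a (c.t ω), c.D w ω, c.l j ω)) (by
    intro ω ω' hω hω' e i
    simp only [Prod.mk.injEq] at e
    obtain ⟨e1, -, e4⟩ := e
    have g1 := c.hp j ω hω i
    have g1' := c.hp j ω' hω' i
    have g2 := c.hx j ω ω' hω hω' e4 i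
    have g3 := c.hy j ω ω' hω hω' e4 i
    have hL := half_mono ha
    have hs := fl1_close e1
    have ht : |c.t ω| ≤ 1 := by
      rw [abs_of_nonneg (c.t0 ω hω)]
      exact (c.t1 ω hω).le
    have hy := c.y1 j ω' hω' i
    have e5 : c.p ω i - c.p ω' i =
        (c.p ω i - (c.x j ω i + c.t ω * c.y j ω i)) -
        (c.p ω' i - (c.x j ω' i + c.t ω' * c.y j ω' i)) +
        (c.x j ω i - c.x j ω' i) + c.t ω * (c.y j ω i - c.y j ω' i) +
        (c.t ω - c.t ω') * c.y j ω' i := by ring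
    rw [e5]
    have b1 : |c.t ω * (c.y j ω i - c.y j ω' i)| ≤ K * (1 / 2) ^ a := by
      rw [abs_mul]
      calc |c.t ω| * |c.y j ω i - c.y j ω' i| ≤ 1 * (K * (1 / 2) ^ L) :=
            mul_le_mul ht g3 (abs_nonneg _) (by norm_num)
        _ ≤ K * (1 / 2) ^ a := by
            rw [one_mul]
            exact mul_le_mul_of_nonneg_left hL (Nat.cast_nonneg _)
    have b2 : |(c.t ω - c.t ω') * c.y j ω' i| ≤ (1 / 2) ^ a := by
      rw [abs_mul]
      calc |c.t ω - c.t ω'| * |c.y j ω' i| ≤ (1 / 2) ^ a * 1 :=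
            mul_le_mul hs hy (abs_nonneg _) (by positivity)
        _ = _ := mul_one _
    have b4 : (K : ℝ) * (1 / 2) ^ L ≤ K * (1 / 2) ^ a :=
      mul_le_mul_of_nonneg_left hL (Nat.cast_nonneg _)
    have h1 := abs_sub (c.p ω i - (c.x j ω i + c.t ω * c.y j ω i))
        (c.p ω' i - (c.x j ω' i + c.t ω' * c.y j ω' i))
    have h2 := abs_add_le ((c.p ω i - (c.x j ω i + c.t ω * c.y j ω i)) -
        (c.p ω' i - (c.x j ω' i + c.t ω' * c.y j ω' i))) (c.x j ω i - c.x j ω' i)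
    have h3 := abs_add_le ((c.p ω i - (c.x j ω i + c.t ω * c.y j ω i)) -
        (c.p ω' i - (c.x j ω' i + c.t ω' * c.y j ω' i)) + (c.x j ω i - c.x j ω' i))
        (c.t ω * (c.y j ω i - c.y j ω' i))
    have h4 := abs_add_le ((c.p ω i - (c.x j ω i + c.t ω * c.y j ω i)) -
        (c.p ω' i - (c.x j ω' i + c.t ω' * c.y j ω' i)) + (c.x j ω i - c.x j ω' i) +
        c.t ω * (c.y j ω i - c.y j ω' i)) ((c.t ω - c.t ω') * c.y j ω' i)
    push_cast
    have h6 : (0 : ℝ) < (1 / 2) ^ a := by positivity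
    linarith)
  simpa only [Fintype.card_fin, Nat.cast_ofNat] using h

/-- **lower bound** for the entropy of a window, one line -/
theorem window_lower (w a : ℕ) (ha : a + w ≤ L) (j : Fin 3) :
    hc P (c.X w a j) (c.B w a) +
      hc P (fun ω => fl1 (a + w) (c.t ω)) (fun ω => (fl1 a (c.t ω), c.D w ω, c.l j ω)) ≤
      hc P (c.q (a + w)) (c.B w a) + 6 * Real.log (2 * (4 * K + 2 : ℕ) + 3) := by
  -- H(X | B) + H(q' | X, B) = H(q' | B) + H(X | q', B)
  have h1 := hc_pair P (c.X w a j) (c.q (a + w)) (c.B w a)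
  have h2 := hc_pair P (c.q (a + w)) (c.X w a j) (c.B w a)
  have h3 : hc P (fun ω => (c.X w a j ω, c.q (a + w) ω)) (c.B w a) =
      hc P (fun ω => (c.q (a + w) ω, c.X w a j ω)) (c.B w a) :=
    hc_congr P (fun ω ω' _ _ e => by
        simp only [Prod.mk.injEq] at e ⊢
        exact ⟨e.1.2, e.1.1⟩)
      (fun ω ω' _ _ e => by
        simp only [Prod.mk.injEq] at e ⊢
        exact ⟨e.1.2, e.1.1⟩)
      (fun ω ω' _ _ e => e) (fun ω ω' _ _ e => e)
  have h4 := c.X_of_q w a j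
  -- H(q' | X, B) ≥ H(t' | X, B) ≥ H(t' | X, B, l)
  have h5 : hc P (fun ω => fl1 (a + w) (c.t ω)) (fun ω => (c.X w a j ω, c.B w a ω)) ≤
      hc P (c.q (a + w)) (fun ω => (c.X w a j ω, c.B w a ω)) :=
    hc_mono_left P (fun ω ω' _ _ e => by
      simp only [q, Prod.mk.injEq] at e
      exact e.1.2)
  have h6 : hc P (fun ω => fl1 (a + w) (c.t ω)) (fun ω => (c.X w a j ω, c.B w a ω, c.l j ω)) ≤
      hc P (fun ω => fl1 (a + w) (c.t ω)) (fun ω => (c.X w a j ω, c.B w a ω)) :=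
    hc_mono_right P _ (fun ω ω' _ _ e => by
      simp only [Prod.mk.injEq] at e ⊢
      exact ⟨e.1, e.2.1⟩)
  have h7 := hc_le_add' P (fun ω => fl1 (a + w) (c.t ω)) (c.X w a j)
    (fun ω => (c.B w a ω, c.l j ω))
  have h8 := c.X_of_l w a ha j
  -- H(t' | B, l) ≥ H(t' | t, D, l) - H(p | t, D, l)
  have h9 := hc_le_add' P (fun ω => fl1 (a + w) (c.t ω)) (fun ω => fl a (c.p ω))
    (fun ω => (fl1 a (c.t ω), c.D w ω, c.l j ω))
  have h10 := c.p_of_l w a (by omega) j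
  have h11 : hc P (fun ω => fl1 (a + w) (c.t ω)) (fun ω => (c.B w a ω, c.l j ω)) =
      hc P (fun ω => fl1 (a + w) (c.t ω))
        (fun ω => (fl a (c.p ω), fl1 a (c.t ω), c.D w ω, c.l j ω)) :=
    hc_congr P (fun ω ω' _ _ e => by
        simp only [Prod.mk.injEq] at e ⊢
        exact e.1)
      (fun ω ω' _ _ e => by
        simp only [Prod.mk.injEq] at e ⊢
        exact e.1)
      (fun ω ω' _ _ e => by
        simp only [B, q, Prod.mk.injEq] at e ⊢
        exact ⟨⟨⟨e.1, e.2.1⟩, e.2.2.1⟩, e.2.2.2⟩)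
      (fun ω ω' _ _ e => by
        simp only [B, q, Prod.mk.injEq] at e ⊢
        exact ⟨e.1.1.1, e.1.1.2, e.1.2, e.2⟩)
  have h12 : Real.log 7 ≤ Real.log (2 * (4 * K + 2 : ℕ) + 3) := by
    apply Real.log_le_log (by norm_num)
    push_cast
    have : (0 : ℝ) ≤ K := Nat.cast_nonneg _
    linarith
  rw [h11] at h7
  linarith

/-- the coordinates of the relative position in the basis of the three caps
(the standard basis if the caps are degenerate) -/
noncomputable def co (w a : ℕ) (ω : Ω) : Fin 3 → ℝ :=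
  if (1 / 2 : ℝ) ^ w ≤ |dt (yh w (c.D w ω))| then
    ![nm (yh w (c.D w ω)) 1 2 (c.pj w a 1 ω) / dt (yh w (c.D w ω)),
      nm (yh w (c.D w ω)) 2 0 (c.pj w a 2 ω) / dt (yh w (c.D w ω)),
      nm (yh w (c.D w ω)) 0 1 (c.pj w a 0 ω) / dt (yh w (c.D w ω))]
  else ![c.p ω 0 - low a (fl a (c.p ω) 0), c.p ω 1 - low a (fl a (c.p ω) 1),
      c.t ω - low a (fl1 a (c.t ω))]

theorem co_good {w a : ℕ} {ω : Ω} (h : (1 / 2 : ℝ) ^ w ≤ |dt (yh w (c.D w ω))|) :
    (∀ i, c.p ω i = low a (fl a (c.p ω) i) + (c.co w a ω 0 * yh w (c.D w ω) 0 i +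
      c.co w a ω 1 * yh w (c.D w ω) 1 i + c.co w a ω 2 * yh w (c.D w ω) 2 i)) ∧
    c.t ω = low a (fl1 a (c.t ω)) + (c.co w a ω 0 + c.co w a ω 1 + c.co w a ω 2) := by
  have hd : dt (yh w (c.D w ω)) ≠ 0 := by
    intro h0
    rw [h0, abs_zero] at h
    have : (0 : ℝ) < (1 / 2) ^ w := by positivity
    linarith
  have e0 : c.co w a ω 0 = nm (yh w (c.D w ω)) 1 2 (c.pj w a 1 ω) / dt (yh w (c.D w ω)) := by
    unfold co
    rw [if_pos h]
    rfl
  have e1 : c.co w a ω 1 = nm (yh w (c.D w ω)) 2 0 (c.pj w a 2 ω) / dt (yh w (c.D w ω)) := by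
    unfold co
    rw [if_pos h]
    rfl
  have e2 : c.co w a ω 2 = nm (yh w (c.D w ω)) 0 1 (c.pj w a 0 ω) / dt (yh w (c.D w ω)) := by
    unfold co
    rw [if_pos h]
    rfl
  rw [e0, e1, e2]
  constructor
  · intro i
    have h1 := coord_sum_u (yh w (c.D w ω)) (fun i => c.p ω i - low a (fl a (c.p ω) i))
      (c.t ω - low a (fl1 a (c.t ω))) i
    have h2 : nm (yh w (c.D w ω)) 1 2 (c.pj w a 1 ω) * yh w (c.D w ω) 0 i +
        nm (yh w (c.D w ω)) 2 0 (c.pj w a 2 ω) * yh w (c.D w ω) 1 i +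
        nm (yh w (c.D w ω)) 0 1 (c.pj w a 0 ω) * yh w (c.D w ω) 2 i =
        (c.p ω i - low a (fl a (c.p ω) i)) * dt (yh w (c.D w ω)) := h1
    have h3 : nm (yh w (c.D w ω)) 1 2 (c.pj w a 1 ω) / dt (yh w (c.D w ω)) *
          yh w (c.D w ω) 0 i +
        nm (yh w (c.D w ω)) 2 0 (c.pj w a 2 ω) / dt (yh w (c.D w ω)) * yh w (c.D w ω) 1 i +
        nm (yh w (c.D w ω)) 0 1 (c.pj w a 0 ω) / dt (yh w (c.D w ω)) * yh w (c.D w ω) 2 i =
        (nm (yh w (c.D w ω)) 1 2 (c.pj w a 1 ω) * yh w (c.D w ω) 0 i +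
        nm (yh w (c.D w ω)) 2 0 (c.pj w a 2 ω) * yh w (c.D w ω) 1 i +
        nm (yh w (c.D w ω)) 0 1 (c.pj w a 0 ω) * yh w (c.D w ω) 2 i) /
          dt (yh w (c.D w ω)) := by ring
    rw [h3, h2, mul_div_cancel_right₀ _ hd]
    ring
  · have h1 := coord_sum_t (yh w (c.D w ω)) (fun i => c.p ω i - low a (fl a (c.p ω) i))
      (c.t ω - low a (fl1 a (c.t ω)))
    have h2 : nm (yh w (c.D w ω)) 1 2 (c.pj w a 1 ω) + nm (yh w (c.D w ω)) 2 0 (c.pj w a 2 ω) +
        nm (yh w (c.D w ω)) 0 1 (c.pj w a 0 ω) =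
        (c.t ω - low a (fl1 a (c.t ω))) * dt (yh w (c.D w ω)) := h1
    rw [← add_div, ← add_div, h2, mul_div_cancel_right₀ _ hd]
    ring

theorem co_bad {w a : ℕ} {ω : Ω} (h : ¬ (1 / 2 : ℝ) ^ w ≤ |dt (yh w (c.D w ω))|) :
    c.p ω 0 = low a (fl a (c.p ω) 0) + c.co w a ω 0 ∧
    c.p ω 1 = low a (fl a (c.p ω) 1) + c.co w a ω 1 ∧
    c.t ω = low a (fl1 a (c.t ω)) + c.co w a ω 2 := by
  have e0 : c.co w a ω 0 = c.p ω 0 - low a (fl a (c.p ω) 0) := by
    unfold co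
    rw [if_neg h]
    rfl
  have e1 : c.co w a ω 1 = c.p ω 1 - low a (fl a (c.p ω) 1) := by
    unfold co
    rw [if_neg h]
    rfl
  have e2 : c.co w a ω 2 = c.t ω - low a (fl1 a (c.t ω)) := by
    unfold co
    rw [if_neg h]
    rfl
  rw [e0, e1, e2]
  refine ⟨by ring, by ring, by ring⟩

/-- the position is determined by the coordinates -/
theorem diam_co (w a : ℕ) {ω ω' : Ω} (_hω : 0 < P.w ω) (hω' : 0 < P.w ω')
    (e : fl (a + w) (c.co w a ω) = fl (a + w) (c.co w a ω'))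
    (eB : c.B w a ω = c.B w a ω') :
    (∀ i, |c.p ω i - c.p ω' i| ≤ 3 * (1 / 2) ^ (a + w)) ∧
      |c.t ω - c.t ω'| ≤ 3 * (1 / 2) ^ (a + w) := by
  simp only [B, q, Prod.mk.injEq] at eB
  obtain ⟨⟨e1, e2⟩, e3⟩ := eB
  have hc0 := fl_close e 0
  have hc1 := fl_close e 1
  have hc2 := fl_close e 2
  have hpos : (0 : ℝ) < (1 / 2) ^ (a + w) := by positivity
  by_cases hg : (1 / 2 : ℝ) ^ w ≤ |dt (yh w (c.D w ω'))|
  · have hg' : (1 / 2 : ℝ) ^ w ≤ |dt (yh w (c.D w ω))| := by rw [e3]; exact hg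
    obtain ⟨a1, a2⟩ := c.co_good (a := a) hg
    obtain ⟨b1, b2⟩ := c.co_good (a := a) hg'
    rw [e1, e2, e3] at *
    constructor
    · intro i
      have y0 := c.yh_abs w hω' 0 i
      have y1 := c.yh_abs w hω' 1 i
      have y2 := c.yh_abs w hω' 2 i
      have k0 : |(c.co w a ω 0 - c.co w a ω' 0) * yh w (c.D w ω') 0 i| ≤ (1 / 2) ^ (a + w) := by
        rw [abs_mul]
        calc _ ≤ (1 / 2 : ℝ) ^ (a + w) * 1 := mul_le_mul hc0 y0 (abs_nonneg _) hpos.le
          _ = _ := mul_one _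
      have k1 : |(c.co w a ω 1 - c.co w a ω' 1) * yh w (c.D w ω') 1 i| ≤ (1 / 2) ^ (a + w) := by
        rw [abs_mul]
        calc _ ≤ (1 / 2 : ℝ) ^ (a + w) * 1 := mul_le_mul hc1 y1 (abs_nonneg _) hpos.le
          _ = _ := mul_one _
      have k2 : |(c.co w a ω 2 - c.co w a ω' 2) * yh w (c.D w ω') 2 i| ≤ (1 / 2) ^ (a + w) := by
        rw [abs_mul]
        calc _ ≤ (1 / 2 : ℝ) ^ (a + w) * 1 := mul_le_mul hc2 y2 (abs_nonneg _) hpos.le
          _ = _ := mul_one _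
      have e6 : c.p ω i - c.p ω' i =
          (c.co w a ω 0 - c.co w a ω' 0) * yh w (c.D w ω') 0 i +
          (c.co w a ω 1 - c.co w a ω' 1) * yh w (c.D w ω') 1 i +
          (c.co w a ω 2 - c.co w a ω' 2) * yh w (c.D w ω') 2 i := by
        have f1 := a1 i
        have f2 := b1 i
        linear_combination f2 - f1
      rw [e6]
      have := abs_add_three ((c.co w a ω 0 - c.co w a ω' 0) * yh w (c.D w ω') 0 i)
        ((c.co w a ω 1 - c.co w a ω' 1) * yh w (c.D w ω') 1 i)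
        ((c.co w a ω 2 - c.co w a ω' 2) * yh w (c.D w ω') 2 i)
      linarith
    · have e6 : c.t ω - c.t ω' =
          (c.co w a ω 0 - c.co w a ω' 0) + (c.co w a ω 1 - c.co w a ω' 1) +
          (c.co w a ω 2 - c.co w a ω' 2) := by
        linear_combination b2 - a2
      rw [e6]
      have := abs_add_three (c.co w a ω 0 - c.co w a ω' 0) (c.co w a ω 1 - c.co w a ω' 1)
        (c.co w a ω 2 - c.co w a ω' 2)
      linarith
  · have hg' : ¬ (1 / 2 : ℝ) ^ w ≤ |dt (yh w (c.D w ω))| := by rw [e3]; exact hg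
    obtain ⟨a1, a2, a3⟩ := c.co_bad (a := a) hg
    obtain ⟨b1, b2, b3⟩ := c.co_bad (a := a) hg'
    rw [e1, e2] at *
    have e7 : c.p ω 0 - c.p ω' 0 = c.co w a ω 0 - c.co w a ω' 0 := by
      linear_combination b1 - a1
    have e8 : c.p ω 1 - c.p ω' 1 = c.co w a ω 1 - c.co w a ω' 1 := by
      linear_combination b2 - a2
    have e9 : c.t ω - c.t ω' = c.co w a ω 2 - c.co w a ω' 2 := by
      linear_combination b3 - a3
    constructor
    · intro i
      fin_cases i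
      · show |c.p ω 0 - c.p ω' 0| ≤ _
        rw [e7]
        linarith
      · show |c.p ω 1 - c.p ω' 1| ≤ _
        rw [e8]
        linarith
    · rw [e9]
      linarith

theorem q_of_co (w a : ℕ) :
    hc P (c.q (a + w)) (fun ω => (fl (a + w) (c.co w a ω), c.B w a ω)) ≤ 3 * Real.log 9 := by
  have h1 := hc_fl_diam P (a + w) 3 c.p (fun ω => (fl (a + w) (c.co w a ω), c.B w a ω)) (by
    intro ω ω' hω hω' e i
    have := (c.diam_co w a hω hω' (congrArg Prod.fst e) (congrArg Prod.snd e)).1 i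
    push_cast
    exact this)
  have h2 := hc_fl_diam P (a + w) 3 (fun ω (_ : Unit) => c.t ω)
    (fun ω => (fl (a + w) (c.co w a ω), c.B w a ω)) (by
    intro ω ω' hω hω' e i
    have := (c.diam_co w a hω hω' (congrArg Prod.fst e) (congrArg Prod.snd e)).2
    push_cast
    exact this)
  have h3 := hc_pair P (fun ω => fl (a + w) (c.p ω)) (fun ω => fl1 (a + w) (c.t ω))
    (fun ω => (fl (a + w) (c.co w a ω), c.B w a ω))
  have h4 : hc P (fun ω => fl1 (a + w) (c.t ω))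
      (fun ω => (fl (a + w) (c.p ω), fl (a + w) (c.co w a ω), c.B w a ω)) ≤
      hc P (fun ω => fl (a + w) (fun (_ : Unit) => c.t ω))
        (fun ω => (fl (a + w) (c.co w a ω), c.B w a ω)) := by
    refine (hc_mono_right P _ (Y := fun ω => (fl (a + w) (c.co w a ω), c.B w a ω)) ?_).trans
      (hc_mono_left P ?_)
    · intro ω ω' _ _ e
      exact congrArg Prod.snd e
    · intro ω ω' _ _ e
      simp only [Prod.mk.injEq] at e
      exact congrFun e.1 ()
  have h5 : hc P (c.q (a + w)) (fun ω => (fl (a + w) (c.co w a ω), c.B w a ω)) =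
      hc P (fun ω => (fl (a + w) (c.p ω), fl1 (a + w) (c.t ω)))
        (fun ω => (fl (a + w) (c.co w a ω), c.B w a ω)) := rfl
  rw [h5, h3]
  norm_num at h1 h2
  linarith

/-- the wedge hypothesis -/
def Wedge (γ : Ω → ℝ) : Prop :=
  ∀ ω, 0 < P.w ω → (2 : ℝ) ^ (-γ ω) ≤ |dt (fun j => c.y j ω)|

variable {c} {γ : Ω → ℝ}

theorem Wedge.ge (h : c.Wedge γ) {ω : Ω} (hω : 0 < P.w ω) : 1 ≤ 8 * (2 : ℝ) ^ γ ω := by
  have h1 := h ω hω
  have h2 := dt_le (fun j i => c.y1 j ω hω i)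
  have h3 : (2 : ℝ) ^ (-γ ω) ≤ 8 := h1.trans h2
  have h4 : (0 : ℝ) < 2 ^ γ ω := by positivity
  have h5 : (2 : ℝ) ^ (-γ ω) * 2 ^ γ ω = 1 := by
    rw [← Real.rpow_add (by norm_num)]
    simp
  nlinarith

theorem Wedge.close (_h : c.Wedge γ) (w : ℕ) {ω : Ω} (hω : 0 < P.w ω) :
    |dt (fun j => c.y j ω)| ≤ |dt (yh w (c.D w ω))| + 16 * (1 / 2) ^ w := by
  have h1 := dt_close (y := fun j => c.y j ω) (y' := yh w (c.D w ω)) (ε := (1 / 2) ^ w)
    (fun j i => c.y1 j ω hω i) (fun j i => c.yh_abs w hω j i) (fun j i => c.yh_close w ω j i)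
  have h2 := abs_sub_abs_le_abs_sub (dt (fun j => c.y j ω)) (dt (yh w (c.D w ω)))
  linarith

theorem Wedge.good (h : c.Wedge γ) {w : ℕ} {ω : Ω} (hω : 0 < P.w ω)
    (hg : (1 / 2 : ℝ) ^ w ≤ |dt (yh w (c.D w ω))|) :
    1 / |dt (yh w (c.D w ω))| ≤ 17 * 2 ^ γ ω := by
  have h1 := h ω hω
  have h2 := h.close w hω
  have h3 : (2 : ℝ) ^ (-γ ω) ≤ 17 * |dt (yh w (c.D w ω))| := by linarith
  have h5 : (2 : ℝ) ^ (-γ ω) * 2 ^ γ ω = 1 := by
    rw [← Real.rpow_add (by norm_num)]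
    simp
  have h6 : 0 < |dt (yh w (c.D w ω))| := lt_of_lt_of_le (by positivity) hg
  rw [div_le_iff₀ h6]
  have h7 := mul_le_mul_of_nonneg_right h3 (by positivity : (0 : ℝ) ≤ 2 ^ γ ω)
  linarith

theorem Wedge.bad (h : c.Wedge γ) {w : ℕ} {ω : Ω} (hω : 0 < P.w ω)
    (hg : ¬ (1 / 2 : ℝ) ^ w ≤ |dt (yh w (c.D w ω))|) : (2 : ℝ) ^ w ≤ 17 * 2 ^ γ ω := by
  have h1 := h ω hω
  have h2 := h.close w hω
  have h3 : (2 : ℝ) ^ (-γ ω) ≤ 17 * (1 / 2) ^ w := by
    push Not at hg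
    linarith
  have h5 : (2 : ℝ) ^ (-γ ω) * 2 ^ γ ω = 1 := by
    rw [← Real.rpow_add (by norm_num)]
    simp
  have h6 : (2 : ℝ) ^ w * (1 / 2) ^ w = 1 := by
    rw [← mul_pow]
    norm_num
  have h7 := mul_le_mul_of_nonneg_right h3 (by positivity : (0 : ℝ) ≤ 2 ^ γ ω)
  have h8 := mul_le_mul_of_nonneg_left h7 (by positivity : (0 : ℝ) ≤ 2 ^ w)
  calc (2 : ℝ) ^ w = 2 ^ w * ((2 : ℝ) ^ (-γ ω) * 2 ^ γ ω) := by rw [h5, mul_one]
    _ ≤ 2 ^ w * (17 * (1 / 2) ^ w * 2 ^ γ ω) := h8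
    _ = 17 * ((2 : ℝ) ^ w * (1 / 2) ^ w) * 2 ^ γ ω := by ring
    _ = 17 * 2 ^ γ ω := by rw [h6, mul_one]

theorem ex_log_le (h : c.Wedge γ) :
    P.ex (fun ω => Real.log (2 + 76 * 2 ^ γ ω)) ≤ Real.log 92 + Real.log 2 * P.ex γ := by
  have e : Real.log 92 + Real.log 2 * P.ex γ =
      P.ex (fun ω => Real.log 92 + Real.log 2 * γ ω) := by
    rw [P.ex_add, P.ex_const, P.ex_const_mul]
  rw [e]
  refine P.ex_mono fun ω hω => ?_
  have h1 := h.ge hω
  have h2 : Real.log 92 + Real.log 2 * γ ω = Real.log (92 * 2 ^ γ ω) := by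
    rw [Real.log_mul (by norm_num) (by positivity), Real.log_rpow (by norm_num)]
    ring
  rw [h2]
  apply Real.log_le_log (by positivity)
  linarith

theorem nm_smul (y : Fin 3 → Fin 2 → ℝ) (j k : Fin 3) (r : ℝ) (z : Fin 2 → ℝ) :
    nm y j k (fun i => r * z i) = r * nm y j k z := by
  simp only [nm, cross]
  ring

theorem nm_sub (y : Fin 3 → Fin 2 → ℝ) (j k : Fin 3) (z z' : Fin 2 → ℝ) :
    nm y j k (fun i => z i - z' i) = nm y j k z - nm y j k z' := by
  simp only [nm, cross]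
  ring

theorem floor_dist (x : ℝ) : |(⌊x⌋ : ℝ) - x| ≤ 1 := by
  have h1 := Int.floor_le x
  have h2 := Int.lt_floor_add_one x
  rw [abs_le]
  constructor <;> linarith

/-- two coordinates are determined by one projection, up to the wedge -/
theorem pair_of_X (h : c.Wedge γ) (w a : ℕ) (j : Fin 3) (f : Ω → Fin 2 → ℝ)
    (s : Fin 2 → Fin 3 × Fin 3)
    (hf1 : ∀ ω, (1 / 2 : ℝ) ^ w ≤ |dt (yh w (c.D w ω))| → ∀ i, f ω i =
      nm (yh w (c.D w ω)) (s i).1 (s i).2 (c.pj w a j ω) / dt (yh w (c.D w ω)))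
    (hf2 : ∀ ω, ¬ (1 / 2 : ℝ) ^ w ≤ |dt (yh w (c.D w ω))| → ∀ i, |f ω i| ≤ (1 / 2) ^ a) :
    hc P (fun ω => fl (a + w) (f ω)) (fun ω => (c.X w a j ω, c.B w a ω)) ≤
      2 * (Real.log 4 + 2 * (Real.log 92 + Real.log 2 * P.ex γ)) := by
  have h1 := hc_det P (fun ω => fl (a + w) (f ω)) (fun ω => (c.X w a j ω, c.B w a ω))
    (fun Y i => if (1 / 2 : ℝ) ^ w ≤ |dt (yh w Y.2.2)| then
      nm (yh w Y.2.2) (s i).1 (s i).2 (fun i => (Y.1 i : ℝ)) / dt (yh w Y.2.2) else 0)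
    (fun ω => 76 * 2 ^ γ ω) (by
      intro ω hω i
      have k0 := h.ge hω
      have eB : (c.B w a ω).2 = c.D w ω := rfl
      simp only [eB]
      have k1 := floor_dist ((2 : ℝ) ^ (a + w) * f ω i)
      have k2 : (fl (a + w) (f ω) i : ℝ) = (⌊(2 : ℝ) ^ (a + w) * f ω i⌋ : ℝ) := rfl
      rw [k2]
      by_cases hg : (1 / 2 : ℝ) ^ w ≤ |dt (yh w (c.D w ω))|
      · rw [if_pos hg]
        have k3 := h.good hω hg
        have hd : dt (yh w (c.D w ω)) ≠ 0 := by
          intro h0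
          rw [h0, abs_zero] at hg
          have : (0 : ℝ) < (1 / 2) ^ w := by positivity
          linarith
        have k4 : |(2 : ℝ) ^ (a + w) * f ω i -
            nm (yh w (c.D w ω)) (s i).1 (s i).2 (fun i => (c.X w a j ω i : ℝ)) /
              dt (yh w (c.D w ω))| ≤ 4 * (1 / |dt (yh w (c.D w ω))|) := by
          rw [hf1 ω hg i]
          have e1 : (2 : ℝ) ^ (a + w) * (nm (yh w (c.D w ω)) (s i).1 (s i).2 (c.pj w a j ω) /
              dt (yh w (c.D w ω))) -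
              nm (yh w (c.D w ω)) (s i).1 (s i).2 (fun i => (c.X w a j ω i : ℝ)) /
              dt (yh w (c.D w ω)) =
              nm (yh w (c.D w ω)) (s i).1 (s i).2
                (fun i => (2 : ℝ) ^ (a + w) * c.pj w a j ω i - (c.X w a j ω i : ℝ)) /
                dt (yh w (c.D w ω)) := by
            rw [nm_sub (yh w (c.D w ω)) (s i).1 (s i).2
              (fun i => (2 : ℝ) ^ (a + w) * c.pj w a j ω i), nm_smul]
            ring
          rw [e1, abs_div, div_eq_mul_one_div]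
          refine mul_le_mul_of_nonneg_right ?_ (by positivity)
          have m1 : ∀ i', |yh w (c.D w ω) (s i).2 i' - yh w (c.D w ω) (s i).1 i'| ≤ 2 := by
            intro i'
            have n1 := c.yh_abs w hω (s i).2 i'
            have n2 := c.yh_abs w hω (s i).1 i'
            have := abs_sub (yh w (c.D w ω) (s i).2 i') (yh w (c.D w ω) (s i).1 i')
            linarith
          have m2 : ∀ i', |(2 : ℝ) ^ (a + w) * c.pj w a j ω i' - (c.X w a j ω i' : ℝ)| ≤ 1 := by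
            intro i'
            rw [abs_sub_comm]
            exact floor_dist _
          have := cross_le m1 m2
          unfold nm
          linarith
        have k5 := abs_add_le ((⌊(2 : ℝ) ^ (a + w) * f ω i⌋ : ℝ) - (2 : ℝ) ^ (a + w) * f ω i)
          ((2 : ℝ) ^ (a + w) * f ω i -
            nm (yh w (c.D w ω)) (s i).1 (s i).2 (fun i => (c.X w a j ω i : ℝ)) /
              dt (yh w (c.D w ω)))
        have e2 : (⌊(2 : ℝ) ^ (a + w) * f ω i⌋ : ℝ) - (2 : ℝ) ^ (a + w) * f ω i +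
            ((2 : ℝ) ^ (a + w) * f ω i -
            nm (yh w (c.D w ω)) (s i).1 (s i).2 (fun i => (c.X w a j ω i : ℝ)) /
              dt (yh w (c.D w ω))) = (⌊(2 : ℝ) ^ (a + w) * f ω i⌋ : ℝ) -
            nm (yh w (c.D w ω)) (s i).1 (s i).2 (fun i => (c.X w a j ω i : ℝ)) /
              dt (yh w (c.D w ω)) := by ring
        rw [e2] at k5
        linarith
      · rw [if_neg hg, sub_zero]
        have k3 := h.bad hω hg
        have k4 : |(2 : ℝ) ^ (a + w) * f ω i| ≤ 2 ^ w := by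
          rw [abs_mul, abs_of_pos (by positivity : (0 : ℝ) < 2 ^ (a + w))]
          calc (2 : ℝ) ^ (a + w) * |f ω i| ≤ 2 ^ (a + w) * (1 / 2) ^ a :=
                mul_le_mul_of_nonneg_left (hf2 ω hg i) (by positivity)
            _ = 2 ^ w * (2 ^ a * (1 / 2) ^ a) := by rw [pow_add]; ring
            _ = 2 ^ w := by
                rw [← mul_pow]
                norm_num
        have k5 := abs_add_le ((⌊(2 : ℝ) ^ (a + w) * f ω i⌋ : ℝ) - (2 : ℝ) ^ (a + w) * f ω i)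
          ((2 : ℝ) ^ (a + w) * f ω i)
        rw [sub_add_cancel] at k5
        linarith)
  have h2 := c.ex_log_le h
  push_cast at h1
  linarith

variable (c) in
/-- formula for the coordinates in the good case, from the first projection -/
theorem co_eq {w a : ℕ} {ω : Ω} (hg : (1 / 2 : ℝ) ^ w ≤ |dt (yh w (c.D w ω))|) (k : Fin 3) :
    c.co w a ω k = nm (yh w (c.D w ω)) (k + 1) (k + 2) (c.pj w a (k + 1) ω) /
      dt (yh w (c.D w ω)) := by
  unfold co
  rw [if_pos hg]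
  fin_cases k <;> rfl

variable (c) in
/-- formula for the coordinates in the good case, from the second projection -/
theorem co_eq' {w a : ℕ} {ω : Ω} (hg : (1 / 2 : ℝ) ^ w ≤ |dt (yh w (c.D w ω))|) (k : Fin 3) :
    c.co w a ω k = nm (yh w (c.D w ω)) (k + 1) (k + 2) (c.pj w a (k + 2) ω) /
      dt (yh w (c.D w ω)) := by
  rw [c.co_eq hg k]
  congr 1
  exact (nm_swap (yh w (c.D w ω)) (k + 1) (k + 2) _ _).symm

variable (c) in
theorem co_small {w a : ℕ} {ω : Ω} (hg : ¬ (1 / 2 : ℝ) ^ w ≤ |dt (yh w (c.D w ω))|) (k : Fin 3) :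
    |c.co w a ω k| ≤ (1 / 2) ^ a := by
  unfold co
  rw [if_neg hg]
  fin_cases k
  · exact abs_low a _
  · exact abs_low a _
  · exact abs_low a _

/-- the pair of coordinates seen by the projection `j` -/
theorem pair_le (h : c.Wedge γ) (w a : ℕ) (j : Fin 3) :
    hc P (fun ω => (fl (a + w) (c.co w a ω) (j + 1), fl (a + w) (c.co w a ω) (j + 2)))
      (c.B w a) ≤ hc P (c.X w a j) (c.B w a) +
      2 * (Real.log 4 + 2 * (Real.log 92 + Real.log 2 * P.ex γ)) := by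
  have h1 := pair_of_X h w a j (fun ω i => c.co w a ω (if i = 0 then j + 1 else j + 2))
    (fun i => if i = 0 then (j + 1 + 1, j + 1 + 2) else (j + 2 + 1, j + 2 + 2))
    (by
      intro ω hg i
      have e1 : j + 1 + 2 = j := by
        fin_cases j <;> rfl
      have e2 : j + 2 + 1 = j := by
        fin_cases j <;> rfl
      by_cases hi : i = 0
      · simp only [if_pos hi]
        rw [c.co_eq' hg (j + 1), e1]
      · simp only [if_neg hi]
        rw [c.co_eq hg (j + 2), e2])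
    (by
      intro ω hg i
      exact c.co_small hg _)
  have h2 := hc_le_add' P
    (fun ω => (fl (a + w) (c.co w a ω) (j + 1), fl (a + w) (c.co w a ω) (j + 2)))
    (c.X w a j) (c.B w a)
  have h3 : hc P (fun ω => (fl (a + w) (c.co w a ω) (j + 1), fl (a + w) (c.co w a ω) (j + 2)))
      (fun ω => (c.X w a j ω, c.B w a ω)) ≤
      hc P (fun ω => fl (a + w) (fun i => c.co w a ω (if i = (0 : Fin 2) then j + 1 else j + 2)))
        (fun ω => (c.X w a j ω, c.B w a ω)) := by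
    refine hc_mono_left P fun ω ω' _ _ e => ?_
    simp only [Prod.mk.injEq] at e ⊢
    have e0 := congrFun e.1 0
    have e1 := congrFun e.1 1
    exact ⟨e0, e1⟩
  linarith

/-- **upper bound** for the entropy of a window (Loomis-Whitney) -/
theorem window_upper (h : c.Wedge γ) (w a : ℕ) :
    2 * hc P (c.q (a + w)) (c.B w a) ≤ hc P (c.X w a 0) (c.B w a) +
      hc P (c.X w a 1) (c.B w a) + hc P (c.X w a 2) (c.B w a) +
      (6 * Real.log 9 + 6 * (Real.log 4 + 2 * (Real.log 92 + Real.log 2 * P.ex γ))) := by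
  have h1 := pair_le h w a 0
  have h2 := pair_le h w a 1
  have h3 := pair_le h w a 2
  have h4 := shearer P (fun ω => fl (a + w) (c.co w a ω) 0) (fun ω => fl (a + w) (c.co w a ω) 1)
    (fun ω => fl (a + w) (c.co w a ω) 2) (c.B w a)
  have h5 : hc P (fun ω => fl (a + w) (c.co w a ω)) (c.B w a) =
      hc P (fun ω => (fl (a + w) (c.co w a ω) 0, fl (a + w) (c.co w a ω) 1,
        fl (a + w) (c.co w a ω) 2)) (c.B w a) :=
    hc_congr P (fun ω ω' _ _ e => by
        simp only [Prod.mk.injEq] at e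
        funext i
        fin_cases i
        · exact e.1.1
        · exact e.1.2.1
        · exact e.1.2.2)
      (fun ω ω' _ _ e => by
        simp only [Prod.mk.injEq] at e ⊢
        exact ⟨congrFun e.1 0, congrFun e.1 1, congrFun e.1 2⟩)
      (fun ω ω' _ _ e => e) (fun ω ω' _ _ e => e)
  have h6 := hc_le_add' P (c.q (a + w)) (fun ω => fl (a + w) (c.co w a ω)) (c.B w a)
  have h7 := c.q_of_co w a
  have e1 : hc P (fun ω => (fl (a + w) (c.co w a ω) (0 + 1), fl (a + w) (c.co w a ω) (0 + 2)))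
      (c.B w a) = hc P (fun ω => (fl (a + w) (c.co w a ω) 1, fl (a + w) (c.co w a ω) 2))
      (c.B w a) := rfl
  have e2 : hc P (fun ω => (fl (a + w) (c.co w a ω) (1 + 1), fl (a + w) (c.co w a ω) (1 + 2)))
      (c.B w a) = hc P (fun ω => (fl (a + w) (c.co w a ω) 2, fl (a + w) (c.co w a ω) 0))
      (c.B w a) := rfl
  have e3 : hc P (fun ω => (fl (a + w) (c.co w a ω) (2 + 1), fl (a + w) (c.co w a ω) (2 + 2)))
      (c.B w a) = hc P (fun ω => (fl (a + w) (c.co w a ω) 0, fl (a + w) (c.co w a ω) 1))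
      (c.B w a) := rfl
  rw [e1] at h1
  rw [e2] at h2
  rw [e3] at h3
  linarith

/-- the constant of one window -/
noncomputable def cst (K : ℕ) (g : ℝ) : ℝ :=
  18 * Real.log (2 * (4 * K + 2 : ℕ) + 3) +
    (6 * Real.log 9 + 6 * (Real.log 4 + 2 * (Real.log 92 + Real.log 2 * g)))

/-- one window -/
theorem window (h : c.Wedge γ) (w a : ℕ) (ha : a + w ≤ L) :
    ∑ j, hc P (fun ω => fl1 (a + w) (c.t ω)) (fun ω => (fl1 a (c.t ω), c.D w ω, c.l j ω)) ≤
      hc P (c.q (a + w)) (c.B w a) + cst K (P.ex γ) := by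
  have h1 := c.window_lower w a ha 0
  have h2 := c.window_lower w a ha 1
  have h3 := c.window_lower w a ha 2
  have h4 := window_upper h w a
  rw [Fin.sum_univ_three]
  unfold cst
  linarith

variable (c) in
/-- telescoping of the positions -/
theorem sum_q (w n : ℕ) :
    ∑ k ∈ range n, hc P (c.q (k * w + w)) (c.B w (k * w)) ≤
      hc P (c.q (n * w)) (fun ω => c.D w ω) := by
  induction n with
  | zero =>
    simp only [range_zero, sum_empty]
    exact hc_nonneg P _ _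
  | succ n ih =>
    rw [sum_range_succ]
    have e : (n + 1) * w = n * w + w := by ring
    rw [e]
    have h1 := hc_pair P (c.q (n * w)) (c.q (n * w + w)) (fun ω => c.D w ω)
    have h2 : hc P (fun ω => (c.q (n * w) ω, c.q (n * w + w) ω)) (fun ω => c.D w ω) =
        hc P (c.q (n * w + w)) (fun ω => c.D w ω) :=
      hc_congr P (fun ω ω' _ _ e => by
          simp only [q, Prod.mk.injEq] at e ⊢
          refine ⟨⟨fl_of_fl (Nat.le_add_right _ _) _ _ e.1.1, ?_⟩, e.1⟩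
          exact congrFun (fl_of_fl (ι := Unit) (Nat.le_add_right (n * w) w)
            (fun _ => c.t ω) (fun _ => c.t ω') (funext fun _ => e.1.2)) ())
        (fun ω ω' _ _ e => by
          simp only [Prod.mk.injEq] at e
          exact e.1.2)
        (fun ω ω' _ _ e => e) (fun ω ω' _ _ e => e)
    have h3 : hc P (c.q (n * w + w)) (c.B w (n * w)) =
        hc P (c.q (n * w + w)) (fun ω => (c.q (n * w) ω, c.D w ω)) := rfl
    linarith

variable (c) in
/-- telescoping of the times -/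
theorem sum_t (w n : ℕ) (j : Fin 3) :
    hc P (fun ω => fl1 (n * w) (c.t ω)) (fun ω => (c.D w ω, c.l j ω)) ≤
    ∑ k ∈ range n, hc P (fun ω => fl1 (k * w + w) (c.t ω))
      (fun ω => (fl1 (k * w) (c.t ω), c.D w ω, c.l j ω)) := by
  induction n with
  | zero =>
    simp only [range_zero, sum_empty]
    have h0 : ∀ ω, 0 < P.w ω → fl1 (0 * w) (c.t ω) = 0 := by
      intro ω hω
      unfold fl1
      rw [Int.floor_eq_iff]
      have := c.t0 ω hω
      have := c.t1 ω hω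
      simp only [zero_mul, pow_zero, one_mul]
      constructor
      · push_cast
        linarith
      · push_cast
        linarith
    refine (hc_zero P fun ω ω' hω hω' _ => ?_).le
    rw [h0 ω hω, h0 ω' hω']
  | succ n ih =>
    rw [sum_range_succ]
    have e : (n + 1) * w = n * w + w := by ring
    rw [e]
    have h1 := hc_le_add' P (fun ω => fl1 (n * w + w) (c.t ω)) (fun ω => fl1 (n * w) (c.t ω))
      (fun ω => (c.D w ω, c.l j ω))
    linarith

variable (c) in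
/-- the caps have few values -/
theorem hc_D_le {T : Type*} (w : ℕ) (Y : Ω → T) :
    hc P (c.D w) Y ≤ 6 * Real.log (2 * 2 ^ w + 1) := by
  have h1 := hc_sub_le P (fun ω (r : Fin 3 × Fin 2) => c.D w ω r.1 r.2) (fun _ _ => (0 : ℤ)) Y
    (2 ^ w) (by
      intro ω hω r
      have h2 := c.yh_abs w hω r.1 r.2
      unfold yh at h2
      have h3 : (0 : ℝ) < (1 / 2) ^ w := by positivity
      rw [abs_mul, abs_of_pos h3] at h2
      have e : (2 : ℝ) ^ w * (1 / 2) ^ w = 1 := by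
        rw [← mul_pow]
        norm_num
      have h4 : |(c.D w ω r.1 r.2 : ℝ)| ≤ 2 ^ w := by
        have h5 := mul_le_mul_of_nonneg_right h2 (by positivity : (0 : ℝ) ≤ 2 ^ w)
        calc |(c.D w ω r.1 r.2 : ℝ)| = |(c.D w ω r.1 r.2 : ℝ)| * ((2 : ℝ) ^ w * (1 / 2) ^ w) := by
              rw [e, mul_one]
          _ = |(c.D w ω r.1 r.2 : ℝ)| * (1 / 2) ^ w * 2 ^ w := by ring
          _ ≤ 1 * 2 ^ w := h5
          _ = _ := one_mul _
      rw [sub_zero]
      exact_mod_cast h4)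
  have h2 : hc P (c.D w) Y ≤ hc P (fun ω (r : Fin 3 × Fin 2) => c.D w ω r.1 r.2) Y :=
    hc_mono_left P fun ω ω' _ _ e => by
      simp only [Prod.mk.injEq] at e
      funext j i
      exact congrFun e.1 (j, i)
  have h3 : hc P (fun _ _ => (0 : ℤ) : Ω → Fin 3 × Fin 2 → ℤ) Y = 0 :=
    hc_zero P fun _ _ _ _ _ => rfl
  rw [h3, zero_add] at h1
  have h4 : (Fintype.card (Fin 3 × Fin 2) : ℝ) = 6 := by
    rw [Fintype.card_prod, Fintype.card_fin, Fintype.card_fin]
    norm_num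
  rw [h4] at h1
  push_cast at h1
  linarith

/-- **the trilinear inequality**, finite form, arbitrary shading -/
theorem tri (h : c.Wedge γ) (w n : ℕ) (hn : n * w ≤ L) :
    ∑ j, hc P (fun ω => fl1 (n * w) (c.t ω)) (c.l j) ≤
      P.H (c.q (n * w)) + n * cst K (P.ex γ) + 18 * Real.log (2 * 2 ^ w + 1) := by
  have h1 : ∀ j, hc P (fun ω => fl1 (n * w) (c.t ω)) (c.l j) ≤
      ∑ k ∈ range n, hc P (fun ω => fl1 (k * w + w) (c.t ω))
      (fun ω => (fl1 (k * w) (c.t ω), c.D w ω, c.l j ω)) + 6 * Real.log (2 * 2 ^ w + 1) := by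
    intro j
    have g1 := hc_le_add' P (fun ω => fl1 (n * w) (c.t ω)) (c.D w) (c.l j)
    have g2 := c.sum_t w n j
    have g3 := c.hc_D_le w (c.l j)
    linarith
  have h2 : ∑ j, ∑ k ∈ range n, hc P (fun ω => fl1 (k * w + w) (c.t ω))
      (fun ω => (fl1 (k * w) (c.t ω), c.D w ω, c.l j ω)) ≤
      ∑ k ∈ range n, (hc P (c.q (k * w + w)) (c.B w (k * w)) + cst K (P.ex γ)) := by
    rw [sum_comm]
    refine sum_le_sum fun k hk => window h w (k * w) ?_
    have hk' : k + 1 ≤ n := by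
      rw [mem_range] at hk
      omega
    calc k * w + w = (k + 1) * w := by ring
      _ ≤ n * w := Nat.mul_le_mul_right _ hk'
      _ ≤ L := hn
  rw [sum_add_distrib, sum_const, card_range, nsmul_eq_mul] at h2
  have h3 := c.sum_q w n
  have h4 := hc_le_H P (c.q (n * w)) (fun ω => c.D w ω)
  have h5 := sum_le_sum fun j (_ : j ∈ (univ : Finset (Fin 3))) => h1 j
  rw [sum_add_distrib, sum_const, card_univ, Fintype.card_fin, nsmul_eq_mul] at h5
  push_cast at h5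
  linarith

end Cfg

end Vale.Agent.P127.U.Tri
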