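import Vale.Agent.P127.U.Defs
import Vale.Agent.P127.U.Tri

/-!
# P127 / U : strips from small wedges (helper611)

If three conditionally independent directions (given `W`) have a small wedge with high probability,
then all directions lie in a thin strip which is a function of `W`, with high probability.
-/

set_option autoImplicit false

namespace Vale.Agent.P127.U.Plane

open Finset Vale.Agent.P127 Vale.Agent.P127.Stk Vale.Agent.P127.U.Tri

variable {Ω : Type} [Fintype Ω] {S : Type*}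

theorem co_one (θ : ℝ) (v : Fin 2 → ℝ) : co θ v 1 = -Real.sin θ * v 0 + Real.cos θ * v 1 := rfl

theorem co_sub (θ : ℝ) (v w : Fin 2 → ℝ) : co θ (fun i => v i - w i) 1 = co θ v 1 - co θ w 1 := by
  rw [co_one, co_one, co_one]
  ring

/-- the frame of `z` -/
theorem exists_frame (z : Fin 2 → ℝ) {κ : ℝ} (hκ : 0 < κ) (hz : κ ≤ √(z 0 ^ 2 + z 1 ^ 2)) :
    ∃ θ : ℝ, |θ| ≤ 4 ∧ ∀ v, κ < |co θ v 1| → κ ^ 2 < |cross z v| := by
  set r := √(z 0 ^ 2 + z 1 ^ 2) with hr
  have hr0 : 0 < r := hκ.trans_le hz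
  set c : ℂ := ⟨z 0, z 1⟩ with hc
  have hn : ‖c‖ = r := by
    rw [Complex.norm_def, Complex.normSq_mk, hr]
    congr 1
    ring
  have hc0 : c ≠ 0 := by
    intro h
    rw [h, norm_zero] at hn
    linarith
  refine ⟨Complex.arg c, ?_, fun v hv => ?_⟩
  · have := Complex.abs_arg_le_pi c
    have := Real.pi_le_four
    linarith
  · rw [co_one, Complex.sin_arg, Complex.cos_arg hc0, hn] at hv
    have h1 : -(c.im / r) * v 0 + c.re / r * v 1 = cross z v / r := by
      unfold cross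
      show -(z 1 / r) * v 0 + z 0 / r * v 1 = _
      field_simp
      ring
    rw [h1, abs_div, abs_of_pos hr0, lt_div_iff₀ hr0] at hv
    nlinarith

open Classical in
theorem prE_eq_sum (P : Law Ω) (E : Ω → Prop) : prE P E = ∑ ω, P.w ω * (if E ω then 1 else 0) := by
  unfold prE
  rw [Finset.sum_filter]
  exact Finset.sum_congr rfl fun ω _ => by split_ifs <;> simp

theorem prE_mono {P : Law Ω} {E F : Ω → Prop} (h : ∀ ω, 0 < P.w ω → E ω → F ω) :
    prE P E ≤ prE P F := by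
  classical
  rw [prE_eq_sum, prE_eq_sum]
  refine Finset.sum_le_sum fun ω _ => ?_
  rcases (P.nn ω).eq_or_lt with h0 | h0
  · rw [← h0, zero_mul, zero_mul]
  · refine mul_le_mul_of_nonneg_left ?_ h0.le
    by_cases hE : E ω
    · rw [if_pos hE, if_pos (h ω h0 hE)]
    · rw [if_neg hE]
      split_ifs <;> norm_num

open Classical in
/-- one law -/
theorem strip1 (μ : Law Ω) (y : Ω → Fin 2 → ℝ) {κ a ε : ℝ} (hκ : 0 < κ) (ha : 0 < a)
    (hε : ∑ ω₀, μ.w ω₀ * ∑ ω₁, μ.w ω₁ * ∑ ω₂, μ.w ω₂ *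
      (if κ ^ 2 < |cross (fun i => y ω₁ i - y ω₀ i) (fun i => y ω₂ i - y ω₀ i)| then 1 else 0) ≤ ε) :
    ∃ (θ : ℝ) (ω₀ : Ω), 0 < μ.w ω₀ ∧ |θ| ≤ 4 ∧
      prE μ (fun ω => κ < |co θ (fun i => y ω i - y ω₀ i) 1|) ≤ a + ε / a := by
  set R : Ω → Ω → ℝ := fun ω₀ ω₁ => ∑ ω₂, μ.w ω₂ *
      (if κ ^ 2 < |cross (fun i => y ω₁ i - y ω₀ i) (fun i => y ω₂ i - y ω₀ i)| then 1 else 0)
    with hR
  have hR0 : ∀ ω₀ ω₁, 0 ≤ R ω₀ ω₁ := fun ω₀ ω₁ =>
    Finset.sum_nonneg fun ω₂ _ => mul_nonneg (μ.nn _) (by split_ifs <;> norm_num)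
  set G : Ω → ℝ := fun ω₀ => ∑ ω₁, μ.w ω₁ * R ω₀ ω₁ with hG
  have hG0 : ∀ ω₀, 0 ≤ G ω₀ := fun ω₀ =>
    Finset.sum_nonneg fun ω₁ _ => mul_nonneg (μ.nn _) (hR0 _ _)
  have hε' : ∑ ω₀, μ.w ω₀ * G ω₀ ≤ ε := hε
  have hε0 : 0 ≤ ε := (Finset.sum_nonneg fun ω₀ _ => mul_nonneg (μ.nn _) (hG0 _)).trans hε'
  obtain ⟨ω₀, hω₀, hGω⟩ : ∃ ω₀, 0 < μ.w ω₀ ∧ G ω₀ ≤ ε := by
    by_contra hcon
    push Not at hcon
    obtain ⟨ω', hω'⟩ : ∃ ω, 0 < μ.w ω := by
      by_contra h
      push Not at h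
      have : ∑ ω, μ.w ω ≤ 0 := Finset.sum_nonpos fun ω _ => h ω
      rw [μ.sum_one] at this
      linarith
    have h1 : ∑ ω, μ.w ω * ε < ∑ ω₀, μ.w ω₀ * G ω₀ := by
      refine Finset.sum_lt_sum (fun ω _ => ?_) ⟨ω', Finset.mem_univ _, ?_⟩
      · rcases (μ.nn ω).eq_or_lt with h0 | h0
        · rw [← h0, zero_mul, zero_mul]
        · exact mul_le_mul_of_nonneg_left (hcon ω h0).le h0.le
      · exact mul_lt_mul_of_pos_left (hcon ω' hω') hω'
    rw [← Finset.sum_mul, μ.sum_one, one_mul] at h1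
    linarith
  set nz : Ω → ℝ := fun ω => √((y ω 0 - y ω₀ 0) ^ 2 + (y ω 1 - y ω₀ 1) ^ 2) with hnz
  by_cases hA : prE μ (fun ω => κ ≤ nz ω) ≤ a
  · refine ⟨0, ω₀, hω₀, by norm_num, ?_⟩
    have h1 : prE μ (fun ω => κ < |co 0 (fun i => y ω i - y ω₀ i) 1|) ≤
        prE μ (fun ω => κ ≤ nz ω) := by
      refine prE_mono fun ω _ h => ?_
      rw [co_one] at h
      simp only [Real.sin_zero, neg_zero, zero_mul, Real.cos_zero, one_mul, zero_add] at h
      refine h.le.trans (Real.abs_le_sqrt ?_)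
      have := sq_nonneg (y ω 0 - y ω₀ 0)
      linarith
    have h2 : 0 ≤ ε / a := div_nonneg hε0 ha.le
    linarith
  · push Not at hA
    obtain ⟨ω₁, hω₁, hRω⟩ : ∃ ω₁, κ ≤ nz ω₁ ∧ R ω₀ ω₁ ≤ ε / a := by
      by_contra hcon
      push Not at hcon
      have h1 : ε / a * prE μ (fun ω => κ ≤ nz ω) < G ω₀ := by
        rw [prE_eq_sum, Finset.mul_sum]
        obtain ⟨ω', hω', hω''⟩ : ∃ ω, 0 < μ.w ω ∧ κ ≤ nz ω := by
          by_contra h
          push Not at h
          have : prE μ (fun ω => κ ≤ nz ω) ≤ prE μ (fun _ => False) :=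
            prE_mono fun ω hω hE => absurd hE (not_le.2 (h ω hω))
          have h0 : prE μ (fun _ => False) = 0 := by
            unfold prE
            simp
          linarith
        refine Finset.sum_lt_sum (fun ω _ => ?_) ⟨ω', Finset.mem_univ _, ?_⟩
        · by_cases h : κ ≤ nz ω
          · rw [if_pos h, mul_one, mul_comm]
            exact mul_le_mul_of_nonneg_left (hcon ω h).le (μ.nn _)
          · rw [if_neg h, mul_zero, mul_zero]
            exact mul_nonneg (μ.nn _) (hR0 _ _)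
        · rw [if_pos hω'', mul_one, mul_comm]
          exact mul_lt_mul_of_pos_left (hcon ω' hω'') hω'
      have h2 : ε / a * a ≤ ε / a * prE μ (fun ω => κ ≤ nz ω) :=
        mul_le_mul_of_nonneg_left hA.le (div_nonneg hε0 ha.le)
      rw [div_mul_cancel₀ _ ha.ne'] at h2
      linarith
    obtain ⟨θ, hθ, hθ'⟩ := exists_frame (fun i => y ω₁ i - y ω₀ i) hκ hω₁
    refine ⟨θ, ω₀, hω₀, hθ, ?_⟩
    have h1 : prE μ (fun ω => κ < |co θ (fun i => y ω i - y ω₀ i) 1|) ≤ R ω₀ ω₁ := by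
      rw [prE_eq_sum]
      refine Finset.sum_le_sum fun ω _ => mul_le_mul_of_nonneg_left ?_ (μ.nn _)
      by_cases h : κ < |co θ (fun i => y ω i - y ω₀ i) 1|
      · rw [if_pos h, if_pos (hθ' _ h)]
      · rw [if_neg h]
        split_ifs <;> norm_num
    linarith

theorem cond_mul {P : Law Ω} {W : Ω → S} {s : S} (hs : 0 < P.pr W s) (ω : Ω) :
    P.pr W s * (P.cond W s).w ω = pw_aux P W s ω := by
  classical
  rw [P.cond_w W s hs]
  unfold pw_aux
  split_ifs with h1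
  · rw [mul_div_cancel₀ _ hs.ne']
  · rw [mul_zero]

open Classical in
/-- **strips**: `y` lies in a strip which is a function of `W`, with probability close to `1` -/
theorem strip (P : Law Ω) (W : Ω → S) (y : Ω → Fin 2 → ℝ) {Q : Law (Fin (2 + 1) → Ω)}
    (hQ : ∀ w, Q.w w = cw P W 2 w) (hy : ∀ ω, 0 < P.w ω → ∀ i, |y ω i| ≤ 1) {κ a : ℝ}
    (hκ : 0 < κ) (ha : 0 < a) :
    ∃ (θ : S → ℝ) (s : S → Fin 2 → ℝ), (∀ b, |θ b| ≤ 4) ∧ (∀ b i, |s b i| ≤ 1) ∧
      prE P (fun ω => κ < |co (θ (W ω)) (fun i => y ω i - s (W ω) i) 1|) ≤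
        a + prE Q (fun w => κ ^ 2 < |dt (fun j => y (w j))|) / a := by
  set ε : S → ℝ := fun s => ∑ ω₀, (P.cond W s).w ω₀ * ∑ ω₁, (P.cond W s).w ω₁ *
    ∑ ω₂, (P.cond W s).w ω₂ *
      (if κ ^ 2 < |cross (fun i => y ω₁ i - y ω₀ i) (fun i => y ω₂ i - y ω₀ i)| then 1 else 0)
    with hε
  have key : ∀ b, ∃ (θ : ℝ) (s : Fin 2 → ℝ), |θ| ≤ 4 ∧ (∀ i, |s i| ≤ 1) ∧ (0 < P.pr W b →
      prE (P.cond W b) (fun ω => κ < |co θ (fun i => y ω i - s i) 1|) ≤ a + ε b / a) := by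
    intro b
    by_cases hb : 0 < P.pr W b
    · obtain ⟨θ, ω₀, h0, h1, h2⟩ := strip1 (P.cond W b) y hκ ha (le_refl (ε b))
      refine ⟨θ, y ω₀, h1, fun i => hy ω₀ ?_ i, fun _ => h2⟩
      have h3 := cond_mul hb ω₀
      have h4 : 0 < pw_aux P W b ω₀ := by
        rw [← h3]
        exact mul_pos hb h0
      unfold pw_aux at h4
      split_ifs at h4 with h5
      · exact h4
      · exact absurd h4 (lt_irrefl _)
    · exact ⟨0, 0, by norm_num, fun i => by simp, fun h => absurd h hb⟩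
  choose θ s h1 h2 h3 using key
  refine ⟨θ, s, h1, h2, ?_⟩
  -- the left side
  have e1 : prE P (fun ω => κ < |co (θ (W ω)) (fun i => y ω i - s (W ω) i) 1|) =
      ∑ b ∈ img W, ∑ ω, pw_aux P W b ω *
        (if κ < |co (θ b) (fun i => y ω i - s b i) 1| then 1 else 0) := by
    rw [prE_eq_sum, Finset.sum_comm]
    refine Finset.sum_congr rfl fun ω _ => ?_
    rw [Finset.sum_eq_single (W ω)]
    · unfold pw_aux
      rw [if_pos rfl]
    · intro b _ hb
      unfold pw_aux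
      rw [if_neg (Ne.symm hb), zero_mul]
    · intro h
      exact absurd (mem_img.2 ⟨ω, rfl⟩) h
  have e2 : ∀ b ∈ img W, ∑ ω, pw_aux P W b ω *
        (if κ < |co (θ b) (fun i => y ω i - s b i) 1| then (1:ℝ) else 0) ≤
      P.pr W b * a + P.pr W b * ε b / a := by
    intro b _
    rcases (P.pr_nonneg W b).eq_or_lt with h0 | h0
    · rw [← h0, zero_mul, zero_mul, zero_div, add_zero]
      refine Finset.sum_nonpos fun ω _ => ?_
      have : pw_aux P W b ω = 0 :=
        le_antisymm ((pw_le_aux P W b ω).trans h0.symm.le) (pw_nn_aux P W b ω)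
      rw [this, zero_mul]
    · have h4 := mul_le_mul_of_nonneg_left (h3 b h0) h0.le
      rw [prE_eq_sum, Finset.mul_sum] at h4
      have h5 : ∑ ω, pw_aux P W b ω *
          (if κ < |co (θ b) (fun i => y ω i - s b i) 1| then (1:ℝ) else 0) =
          ∑ i, P.pr W b * ((P.cond W b).w i *
            if κ < |co (θ b) (fun i_1 => y i i_1 - s b i_1) 1| then 1 else 0) := by
        refine Finset.sum_congr rfl fun ω _ => ?_
        rw [← cond_mul h0 ω, mul_assoc]
      rw [h5]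
      refine h4.trans (le_of_eq ?_)
      ring
  -- the right side
  have e3 : ∑ b ∈ img W, P.pr W b * ε b =
      prE Q (fun w => κ ^ 2 < |dt (fun j => y (w j))|) := by
    rw [prE_eq_sum]
    have g1 : ∀ w : Fin (2 + 1) → Ω, Q.w w =
        ∑ b ∈ img W, P.pr W b * ((P.cond W b).w (w 0) * (P.cond W b).w (w 1) *
          (P.cond W b).w (w 2)) := by
      intro w
      rw [hQ w, cw_eq_aux]
      refine Finset.sum_congr rfl fun b _ => ?_
      rcases (P.pr_nonneg W b).eq_or_lt with h0 | h0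
      · rw [← h0, zero_mul]
        have h7 : pw_aux P W b (w 0) = 0 :=
          le_antisymm ((pw_le_aux P W b _).trans h0.symm.le) (pw_nn_aux P W b _)
        have h8 : ∏ i, pw_aux P W b (w i) = 0 :=
          Finset.prod_eq_zero (i := (0 : Fin (2 + 1))) (Finset.mem_univ _) h7
        rw [h8, zero_div]
      · have h6 : ∏ i, pw_aux P W b (w i) =
            pw_aux P W b (w 0) * pw_aux P W b (w 1) * pw_aux P W b (w 2) :=
          Fin.prod_univ_three _
        rw [h6, ← cond_mul h0, ← cond_mul h0, ← cond_mul h0]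
        field_simp
    have g2 : ∀ F : (Fin (2 + 1) → Ω) → ℝ, ∑ w, F w = ∑ ω₀, ∑ ω₁, ∑ ω₂, F ![ω₀, ω₁, ω₂] := by
      intro F
      rw [← (Fin.consEquiv fun _ : Fin (2 + 1) => Ω).sum_comp, Fintype.sum_prod_type]
      refine Finset.sum_congr rfl fun ω₀ _ => ?_
      rw [← (Fin.consEquiv fun _ : Fin 2 => Ω).sum_comp, Fintype.sum_prod_type]
      refine Finset.sum_congr rfl fun ω₁ _ => ?_
      rw [← (Fin.consEquiv fun _ : Fin 1 => Ω).sum_comp, Fintype.sum_prod_type]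
      refine Finset.sum_congr rfl fun ω₂ _ => ?_
      rw [Fintype.sum_unique]
      rfl
    have g3 : ∀ w : Fin (2 + 1) → Ω, Q.w w *
        (if κ ^ 2 < |dt (fun j => y (w j))| then (1:ℝ) else 0) =
        ∑ b ∈ img W, P.pr W b * ((P.cond W b).w (w 0) * ((P.cond W b).w (w 1) *
          ((P.cond W b).w (w 2) * (if κ ^ 2 < |dt (fun j => y (w j))| then (1:ℝ) else 0)))) := by
      intro w
      rw [g1 w, Finset.sum_mul]
      refine Finset.sum_congr rfl fun b _ => ?_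
      ring
    rw [Finset.sum_congr rfl fun w _ => g3 w, Finset.sum_comm]
    refine Finset.sum_congr rfl fun b _ => ?_
    rw [← Finset.mul_sum, g2]
    congr 1
    rw [hε]
    refine Finset.sum_congr rfl fun ω₀ _ => ?_
    rw [Finset.mul_sum]
    refine Finset.sum_congr rfl fun ω₁ _ => ?_
    rw [Finset.mul_sum, Finset.mul_sum]
    rfl
  rw [e1]
  refine (Finset.sum_le_sum e2).trans ?_
  rw [Finset.sum_add_distrib, ← Finset.sum_mul, P.sum_pr_image, one_mul, ← Finset.sum_div, e3]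

end Vale.Agent.P127.U.Plane
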