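import Vale.Agent.P127.U.PlaneA

/-!
# P127 / U : strips, entropy form (helper611)
-/

set_option autoImplicit false

namespace Vale.Agent.P127.U.Plane

open Finset Vale.Agent.P127 Vale.Agent.P127.Stk Vale.Agent.P127.U.Tri

variable {Ω : Type} [Fintype Ω] {S : Type*}

theorem fl1_mem (k J c : ℕ) (x : ℝ) (hx : |x| ≤ c) (hk : k ≤ J) :
    fl1 k x ∈ Finset.Icc (-((c : ℤ) * 2 ^ J)) ((c : ℤ) * 2 ^ J) := by
  have h1 := abs_le.1 hx
  have h2 : (2 : ℝ) ^ k ≤ 2 ^ J := pow_le_pow_right₀ (by norm_num) hk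
  have h3 : (0 : ℝ) < 2 ^ k := by positivity
  have hc : (0 : ℝ) ≤ c := Nat.cast_nonneg _
  have h4 : (2 : ℝ) ^ k * c ≤ c * 2 ^ J := by nlinarith
  rw [Finset.mem_Icc]
  constructor
  · show _ ≤ ⌊(2 : ℝ) ^ k * x⌋
    rw [Int.le_floor]
    push_cast
    nlinarith
  · have h5 : (⌊(2 : ℝ) ^ k * x⌋ : ℝ) ≤ ((c : ℤ) * 2 ^ J : ℤ) := by
      refine (Int.floor_le _).trans ?_
      push_cast
      nlinarith
    have h6 : ⌊(2 : ℝ) ^ k * x⌋ ≤ (c : ℤ) * 2 ^ J := by exact_mod_cast h5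
    exact h6

theorem card_Icc_aux (m : ℤ) (hm : 0 ≤ m) (N : ℕ) (h : 2 * m + 1 ≤ N) :
    (Finset.Icc (-m) m).card ≤ N := by
  rw [Int.card_Icc]
  omega

theorem co_le (θ : ℝ) (v : Fin 2 → ℝ) {M : ℝ} (hv : ∀ i, |v i| ≤ M) : |co θ v 1| ≤ 2 * M := by
  have hc := Real.abs_cos_le_one θ
  have hs := Real.abs_sin_le_one θ
  rw [co_one]
  have := abs_add_le (-Real.sin θ * v 0) (Real.cos θ * v 1)
  rw [abs_mul, abs_mul, abs_neg] at this
  have h1 : |Real.sin θ| * |v 0| ≤ 1 * M := mul_le_mul hs (hv 0) (abs_nonneg _) (by norm_num)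
  have h2 : |Real.cos θ| * |v 1| ≤ 1 * M := mul_le_mul hc (hv 1) (abs_nonneg _) (by norm_num)
  linarith

theorem H_le_log_finset {T : Type*} (P : Law Ω) (X : Ω → T) (N : ℕ) (F : Finset T)
    (hF : F.card ≤ N) (h : ∀ ω, 0 < P.w ω → X ω ∈ F) : P.H X ≤ Real.log N := by
  have h1 := hc_le_log P X (fun _ => ()) N fun ω _ => ⟨F, hF, fun ω' hω' _ => h ω' hω'⟩
  have h2 : hc P X (fun _ => ()) = P.H X := by
    refine le_antisymm (hc_le_H P _ _) ?_
    unfold hc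
    have g1 : P.H (fun _ : Ω => ()) ≤ Real.log (Fintype.card Unit) := P.H_le_log_card _
    simp only [Fintype.card_unit, Nat.cast_one, Real.log_one] at g1
    have g2 : P.H X ≤ P.H (fun ω => (X ω, ())) := H_mono' _ fun ω ω' _ _ e => congrArg Prod.fst e
    linarith
  rw [← h2]
  exact h1

theorem qa_close (m : ℕ) (θ : ℝ) : |θ - qa m θ| ≤ (1 / 2 : ℝ) ^ m := by
  have h := abs_low m θ
  have e : low m ⌊(2 : ℝ) ^ m * θ⌋ = qa m θ := by
    unfold low qa fl1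
    rw [one_div, inv_pow, div_eq_mul_inv]
  rwa [e] at h

theorem co_close (θ θ' : ℝ) (v : Fin 2 → ℝ) {M : ℝ} (hv : ∀ i, |v i| ≤ M) :
    |co θ v 1 - co θ' v 1| ≤ 2 * M * |θ - θ'| := by
  have hM : 0 ≤ M := (abs_nonneg _).trans (hv 0)
  rw [co_one, co_one]
  have e : -Real.sin θ * v 0 + Real.cos θ * v 1 - (-Real.sin θ' * v 0 + Real.cos θ' * v 1) =
      (Real.cos θ - Real.cos θ') * v 1 - (Real.sin θ - Real.sin θ') * v 0 := by ring
  rw [e]
  have h1 := Real.abs_sin_sub_sin_le θ θ'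
  have h2 := Real.abs_cos_sub_cos_le θ θ'
  have h3 : |(Real.cos θ - Real.cos θ') * v 1| ≤ |θ - θ'| * M := by
    rw [abs_mul]
    exact mul_le_mul h2 (hv 1) (abs_nonneg _) (abs_nonneg _)
  have h4 : |(Real.sin θ - Real.sin θ') * v 0| ≤ |θ - θ'| * M := by
    rw [abs_mul]
    exact mul_le_mul h1 (hv 0) (abs_nonneg _) (abs_nonneg _)
  have := abs_sub ((Real.cos θ - Real.cos θ') * v 1) ((Real.sin θ - Real.sin θ') * v 0)
  linarith

/-- the strip contains the direction: digits of the normal coordinate in the rounded frame -/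
theorem digit_close (m : ℕ) {κ θ : ℝ} (hκ : κ ≤ (1 / 2 : ℝ) ^ m) {y s : Fin 2 → ℝ}
    (hy : ∀ i, |y i| ≤ 1) (hs : ∀ i, |s i| ≤ 1) (h : |co θ (fun i => y i - s i) 1| ≤ κ) :
    |fl1 m (co (qa m θ) y 1) - fl1 m (co (qa m θ) s 1)| ≤ 6 := by
  have hv : ∀ i, |y i - s i| ≤ 2 := fun i => by
    have := abs_sub (y i) (s i)
    have := hy i
    have := hs i
    linarith
  have h1 := co_close (qa m θ) θ (fun i => y i - s i) hv
  have h2 := qa_close m θ
  rw [abs_sub_comm (qa m θ) θ] at h1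
  have h3 : |co (qa m θ) (fun i => y i - s i) 1| ≤ 5 * (1 / 2 : ℝ) ^ m := by
    have h4 : co (qa m θ) (fun i => y i - s i) 1 =
      (co (qa m θ) (fun i => y i - s i) 1 - co θ (fun i => y i - s i) 1) +
        co θ (fun i => y i - s i) 1 := by ring
    rw [h4]
    refine (abs_add_le _ _).trans ?_
    linarith
  rw [co_sub] at h3
  have h5 := floor_close_aux (x := (2 : ℝ) ^ m * co (qa m θ) y 1)
    (y := (2 : ℝ) ^ m * co (qa m θ) s 1) (N := 5) (by
      rw [← mul_sub, abs_mul, abs_of_pos (by positivity : (0 : ℝ) < 2 ^ m)]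
      calc (2 : ℝ) ^ m * |co (qa m θ) y 1 - co (qa m θ) s 1| ≤ 2 ^ m * (5 * (1 / 2 : ℝ) ^ m) :=
            mul_le_mul_of_nonneg_left h3 (by positivity)
        _ = ((5 : ℕ) : ℝ) := by
            rw [one_div, inv_pow]
            field_simp
            norm_num)
  exact h5

theorem strip_hc (P : Law Ω) (W : Ω → S) (y : Ω → Fin 2 → ℝ)
    (hy : ∀ ω, 0 < P.w ω → ∀ i, |y ω i| ≤ 1) {κ : ℝ} (m : ℕ) (hκ : κ ≤ (1 / 2 : ℝ) ^ m)
    (θ : S → ℝ) (s : S → Fin 2 → ℝ) (hθ : ∀ b, |θ b| ≤ 4) (hs : ∀ b i, |s b i| ≤ 1) :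
    hc P (fun ω => (fl1 m (θ (W ω)), fl1 m (co (qa m (θ (W ω))) (y ω) 1))) W ≤
      Real.log 2 + Real.log 13 +
        prE P (fun ω => κ < |co (θ (W ω)) (fun i => y ω i - s (W ω) i) 1|) *
          (2 * ((m : ℝ) + 4) * Real.log 2) := by
  classical
  have h8 : (1 : ℤ) ≤ 2 ^ m := by exact_mod_cast Nat.one_le_two_pow
  have c4 : (Finset.Icc (-(((4 : ℕ) : ℤ) * 2 ^ m)) (((4 : ℕ) : ℤ) * 2 ^ m)).card ≤ 2 ^ (m + 4) := by
    refine card_Icc_aux _ (by positivity) _ ?_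
    rw [pow_add]
    push_cast
    linarith
  have h := hc_le_exc P (fun ω => κ < |co (θ (W ω)) (fun i => y ω i - s (W ω) i) 1|)
    (fun ω => (fl1 m (θ (W ω)), fl1 m (co (qa m (θ (W ω))) (y ω) 1))) W ((2 ^ (m + 4)) ^ 2) 13
    (by norm_num) (by
      refine ⟨Finset.Icc (-(((4 : ℕ) : ℤ) * 2 ^ m)) (((4 : ℕ) : ℤ) * 2 ^ m) ×ˢ
        Finset.Icc (-(((4 : ℕ) : ℤ) * 2 ^ m)) (((4 : ℕ) : ℤ) * 2 ^ m), ?_, fun ω hω => ?_⟩
      · rw [Finset.card_product, pow_two]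
        exact Nat.mul_le_mul c4 c4
      · rw [Finset.mem_product]
        refine ⟨fl1_mem m m 4 _ (by push_cast; exact hθ _) le_rfl,
          fl1_mem m m 4 _ ?_ le_rfl⟩
        have := co_le (qa m (θ (W ω))) (y ω) (hy ω hω)
        push_cast
        linarith)
    (by
      intro ω hω _
      refine ⟨({fl1 m (θ (W ω))} : Finset ℤ) ×ˢ Finset.Icc
        (fl1 m (co (qa m (θ (W ω))) (s (W ω)) 1) - 6)
        (fl1 m (co (qa m (θ (W ω))) (s (W ω)) 1) + 6), ?_, ?_⟩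
      · rw [Finset.card_product, Finset.card_singleton, one_mul, Int.card_Icc]
        omega
      · intro ω' hω' hE' e
        rw [Finset.mem_product, e]
        refine ⟨Finset.mem_singleton_self _, ?_⟩
        rw [e, not_lt] at hE'
        have := abs_le.1 (digit_close m hκ (hy ω' hω') (hs (W ω)) hE')
        rw [Finset.mem_Icc]
        constructor <;> linarith [this.1, this.2])
  refine h.trans (le_of_eq ?_)
  push_cast
  rw [← pow_mul, Real.log_pow]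
  push_cast
  ring

end Vale.Agent.P127.U.Plane
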