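import Vale.Agent.P127.U.Tri
import Vale.Agent.P127.U.Ent

/-!
# P127 / U : the trilinear inequality for systems (helper611)
-/

set_option autoImplicit false

namespace Vale.Agent.P127.U.Tri

open Filter Topology Finset Vale.Agent.P127 Vale.Agent.P127.Stk Vale.Agent.P127.Stk.Bs

/-- the hypotheses of the trilinear inequality at one scale: three lines `x j + t y j` through the
point `(p, t)` at precision `2^{-L}`, known to precision `2^{-L}` from `l j`, wedge at least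
`2^{-γ}` -/
structure Ok {Ω : Type} [Fintype Ω] (P : Law Ω) (L K : ℕ) {S : Type} (p : Ω → Fin 2 → ℝ)
    (t : Ω → ℝ) (x y : Fin 3 → Ω → Fin 2 → ℝ) (l : Fin 3 → Ω → S) (γ : Ω → ℝ) : Prop where
  t0 : ∀ ω, 0 < P.w ω → 0 ≤ t ω
  t1 : ∀ ω, 0 < P.w ω → t ω < 1
  y1 : ∀ j ω, 0 < P.w ω → ∀ i, |y j ω i| ≤ 1
  hp : ∀ j ω, 0 < P.w ω → ∀ i, |p ω i - (x j ω i + t ω * y j ω i)| ≤ K * (1 / 2 : ℝ) ^ L
  hx : ∀ j ω ω', 0 < P.w ω → 0 < P.w ω' → l j ω = l j ω' → ∀ i,
    |x j ω i - x j ω' i| ≤ K * (1 / 2 : ℝ) ^ L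
  hy : ∀ j ω ω', 0 < P.w ω → 0 < P.w ω' → l j ω = l j ω' → ∀ i,
    |y j ω i - y j ω' i| ≤ K * (1 / 2 : ℝ) ^ L
  wedge : ∀ ω, 0 < P.w ω → (2 : ℝ) ^ (-γ ω) ≤ |dt (fun j => y j ω)|

/-- the constant -/
noncomputable def c1 (K : ℕ) : ℝ :=
  18 * Real.log (2 * (4 * K + 2 : ℕ) + 3) + 6 * Real.log 9 + 6 * Real.log 4 + 12 * Real.log 92

theorem c1_nonneg (K : ℕ) : 0 ≤ c1 K := by
  unfold c1
  have h1 : 0 ≤ Real.log (2 * (4 * K + 2 : ℕ) + 3) := Real.log_nonneg (by
    have : (0 : ℝ) ≤ (4 * K + 2 : ℕ) := Nat.cast_nonneg _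
    linarith)
  have h2 : 0 ≤ Real.log 9 := Real.log_nonneg (by norm_num)
  have h3 : 0 ≤ Real.log 4 := Real.log_nonneg (by norm_num)
  have h4 : 0 ≤ Real.log 92 := Real.log_nonneg (by norm_num)
  positivity

/-- finite form, all digits -/
theorem tri_fin {Ω : Type} [Fintype Ω] {P : Law Ω} {L K : ℕ} {S : Type} {p : Ω → Fin 2 → ℝ}
    {t : Ω → ℝ} {x y : Fin 3 → Ω → Fin 2 → ℝ} {l : Fin 3 → Ω → S} {γ : Ω → ℝ}
    (h : Ok P L K p t x y l γ) (w n : ℕ) (hn : n * w ≤ L) (hn' : L ≤ n * w + w) :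
    ∑ j, hc P (fun ω => fl1 L (t ω)) (l j) ≤
      P.H (fun ω => (fl L (p ω), fl1 L (t ω))) + n * (c1 K + 12 * (Real.log 2 * P.ex γ)) +
        21 * (w * Real.log 2) + 18 * Real.log 3 := by
  let c : Cfg P L K S := ⟨p, t, x, y, l, h.t0, h.t1, h.y1, h.hp, h.hx, h.hy⟩
  have hw : c.Wedge γ := h.wedge
  have h1 := Cfg.tri hw w n hn
  have h2 : ∀ j, hc P (fun ω => fl1 L (t ω)) (l j) ≤
      hc P (fun ω => fl1 (n * w) (c.t ω)) (c.l j) + w * Real.log 2 := by
    intro j
    have g1 := hc_le_add' P (fun ω => fl1 L (t ω)) (fun ω => fl1 (n * w) (t ω)) (l j)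
    have g2 := hc_fl1_digits_le P hn t (l j)
    have g3 : ((L - n * w : ℕ) : ℝ) ≤ w := by
      have : L - n * w ≤ w := by omega
      exact_mod_cast this
    have g4 := mul_le_mul_of_nonneg_right g3 (Real.log_nonneg (by norm_num : (1 : ℝ) ≤ 2))
    show _ ≤ hc P (fun ω => fl1 (n * w) (t ω)) (l j) + _
    linarith
  have h3 := Finset.sum_le_sum fun j (_ : j ∈ (univ : Finset (Fin 3))) => h2 j
  rw [Finset.sum_add_distrib, Finset.sum_const, Finset.card_univ, Fintype.card_fin,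
    nsmul_eq_mul] at h3
  have h4 : P.H (c.q (n * w)) ≤ P.H (fun ω => (fl L (p ω), fl1 L (t ω))) := by
    refine H_mono' P fun ω ω' _ _ e => ?_
    simp only [Prod.mk.injEq] at e
    have e1 : fl (n * w) (p ω) = fl (n * w) (p ω') := fl_of_fl hn _ _ e.1
    have e2 : fl1 (n * w) (t ω) = fl1 (n * w) (t ω') :=
      congrFun (fl_of_fl (ι := Unit) hn (fun _ => t ω) (fun _ => t ω')
        (funext fun _ => e.2)) ()
    show (fl (n * w) (p ω), fl1 (n * w) (t ω)) = (fl (n * w) (p ω'), fl1 (n * w) (t ω'))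
    rw [e1, e2]
  have h5 : Real.log (2 * 2 ^ w + 1) ≤ Real.log 3 + w * Real.log 2 := by
    rw [← Real.log_pow, ← Real.log_mul (by norm_num) (by positivity)]
    apply Real.log_le_log (by positivity)
    have : (1 : ℝ) ≤ 2 ^ w := one_le_pow₀ (by norm_num)
    linarith
  have h6 : Cfg.cst K (P.ex γ) = c1 K + 12 * (Real.log 2 * P.ex γ) := by
    unfold Cfg.cst c1
    ring
  rw [h6] at h1
  push_cast at h3
  linarith

/-- **the trilinear inequality** for systems, with a free parameter -/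
theorem tri_theta (S : Sys) (K : ℕ) {α : Type} {p : S.RV (Fin 2 → ℝ)} {t : S.RV ℝ}
    {x y : Fin 3 → S.RV (Fin 2 → ℝ)} {l : Fin 3 → S.RV α} {γ : S.RV ℝ}
    (hq : Sys.Tame (S := S) (fun i ω => (fl (S.L i) (p i ω), fl1 (S.L i) (t i ω))))
    (hγ : Sys.OL γ)
    (h : ∀ᶠ i in (uf : Filter ℕ), Ok (S.P i) (S.L i) K (p i) (t i) (fun j => x j i)
      (fun j => y j i) (fun j => l j i) (γ i)) {θ : ℝ} (h0 : 0 < θ) (h1 : θ ≤ 1) :
    ∑ j, S.hc (fun i ω => fl1 (S.L i) (t i ω)) (l j) ≤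
      S.h (fun i ω => (fl (S.L i) (p i ω), fl1 (S.L i) (t i ω))) +
        (21 * θ + 12 / θ * S.av γ) := by
  have hlog : 0 < Real.log 2 := Real.log_pos (by norm_num)
  have htt : Sys.Tame (S := S) (fun i ω => fl1 (S.L i) (t i ω)) :=
    hq.mono (Eventually.of_forall fun i ω ω' _ _ e => (Prod.mk.injEq _ _ _ _ ▸ e).2)
  have key : ∀ᶠ i in (uf : Filter ℕ),
      ∑ j, Stk.hc (S.P i) (fun ω => fl1 (S.L i) (t i ω)) (l j i) / S.nm i ≤
        (Stk.hc (S.P i) (fun ω => (fl (S.L i) (p i ω), fl1 (S.L i) (t i ω))) (Sys.one i) /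
          S.nm i + (21 * θ + 12 / θ * ((S.P i).ex (γ i) / S.L i))) +
        (c1 K / θ + 36 * Real.log 2 / θ + 21 * Real.log 2 + 18 * Real.log 3) / S.nm i := by
    have hL : ∀ᶠ i in (uf : Filter ℕ), (2 : ℝ) / θ ≤ S.L i :=
      (tendsto_natCast_atTop_atTop.comp S.Ltop).eventually_ge_atTop (2 / θ)
    filter_upwards [h, S.L_pos, S.nm_pos, hL] with i hi hLp hn hLi
    set L := S.L i with hLdef
    have hLr : (0 : ℝ) < L := by exact_mod_cast hLp
    set w : ℕ := ⌈θ * L⌉₊ with hwdef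
    have hw1 : θ * L ≤ w := Nat.le_ceil _
    have hw2 : (w : ℝ) < θ * L + 1 := Nat.ceil_lt_add_one (by positivity)
    have hw0 : 0 < w := by
      rw [hwdef, Nat.ceil_pos]
      positivity
    have hwL : w ≤ L := by
      rw [hwdef, Nat.ceil_le]
      nlinarith
    set n : ℕ := L / w with hndef
    have hn1 : n * w ≤ L := Nat.div_mul_le_self _ _
    have hn2 : L ≤ n * w + w := by
      have := Nat.lt_div_mul_add (a := L) hw0
      exact this.le
    have hn3 : (n : ℝ) ≤ 1 / θ := by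
      rw [le_div_iff₀ h0]
      have g1 : (n : ℝ) * w ≤ L := by exact_mod_cast hn1
      have g2 : (n : ℝ) * (θ * L) ≤ n * w := mul_le_mul_of_nonneg_left hw1 (Nat.cast_nonneg _)
      have g3 : (n : ℝ) * θ * L ≤ 1 * L := by nlinarith
      exact le_of_mul_le_mul_right g3 hLr
    have hfin := tri_fin hi w n hn1 hn2
    have hEγ : (0 : ℝ) ≤ (S.P i).ex (γ i) + 3 := by
      have : (S.P i).ex (fun _ => (-3 : ℝ)) ≤ (S.P i).ex (γ i) := by
        refine (S.P i).ex_mono fun ω hω => ?_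
        have g1 := hi.wedge ω hω
        have g2 := dt_le (fun j i' => hi.y1 j ω hω i')
        have g3 : (2 : ℝ) ^ (-γ i ω) ≤ 2 ^ (3 : ℝ) := by
          refine (g1.trans g2).trans ?_
          norm_num
        have g4 := (Real.rpow_le_rpow_left_iff (by norm_num : (1 : ℝ) < 2)).1 g3
        linarith
      rw [(S.P i).ex_const] at this
      linarith
    have e1 : Stk.hc (S.P i) (fun ω => (fl L (p i ω), fl1 L (t i ω))) (Sys.one i) =
        (S.P i).H (fun ω => (fl L (p i ω), fl1 L (t i ω))) := by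
      refine le_antisymm (Stk.hc_le_H _ _ _) ?_
      unfold Stk.hc
      have g1 : (S.P i).H (Sys.one (S := S) i) ≤ Real.log (Fintype.card Unit) :=
        (S.P i).H_le_log_card _
      simp only [Fintype.card_unit, Nat.cast_one, Real.log_one] at g1
      have g2 : (S.P i).H (fun ω => (fl L (p i ω), fl1 L (t i ω))) ≤
          (S.P i).H (fun ω => ((fl L (p i ω), fl1 L (t i ω)), Sys.one (S := S) i ω)) :=
        Stk.H_mono' _ fun ω ω' _ _ e => congrArg Prod.fst e
      linarith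
    rw [e1, ← Finset.sum_div]
    have hnm : S.nm i = L * Real.log 2 := rfl
    rw [div_le_iff₀ hn]
    have hx : (n : ℝ) * (c1 K + 12 * (Real.log 2 * (S.P i).ex (γ i))) ≤
        1 / θ * (c1 K + 12 * (Real.log 2 * (S.P i).ex (γ i))) + 36 * (1 / θ) * Real.log 2 := by
      have g1 : 0 ≤ c1 K + 12 * (Real.log 2 * ((S.P i).ex (γ i) + 3)) := by
        have := c1_nonneg K
        positivity
      have g2 := mul_le_mul_of_nonneg_right hn3 g1
      have g3 : 0 ≤ (n : ℝ) * (36 * Real.log 2) := by positivity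
      nlinarith
    have hy : 21 * ((w : ℝ) * Real.log 2) ≤ 21 * (θ * L * Real.log 2) + 21 * Real.log 2 := by
      nlinarith
    have hz : (((S.P i).H (fun ω => (fl L (p i ω), fl1 L (t i ω))) / S.nm i +
        (21 * θ + 12 / θ * ((S.P i).ex (γ i) / L))) +
        (c1 K / θ + 36 * Real.log 2 / θ + 21 * Real.log 2 + 18 * Real.log 3) / S.nm i) * S.nm i =
        (S.P i).H (fun ω => (fl L (p i ω), fl1 L (t i ω))) + 21 * (θ * L * Real.log 2) +
          1 / θ * (12 * (Real.log 2 * (S.P i).ex (γ i))) +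
        (1 / θ * c1 K + 36 * (1 / θ) * Real.log 2 + 21 * Real.log 2 + 18 * Real.log 3) := by
      rw [hnm]
      field_simp
      ring
    rw [hz]
    linarith
  have u1 : ∀ j, UB fun i => Stk.hc (S.P i) (fun ω => fl1 (S.L i) (t i ω)) (l j i) / S.nm i :=
    fun j => Sys.UB.hc htt (l j)
  have u2 : UB fun i => Stk.hc (S.P i) (fun ω => (fl (S.L i) (p i ω), fl1 (S.L i) (t i ω)))
      (Sys.one i) / S.nm i := Sys.UB.hc hq Sys.one
  have u3 : UB fun i => (S.P i).ex (γ i) / S.L i := Sys.UB.av hγ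
  have e1 : ∑ j, S.hc (fun i ω => fl1 (S.L i) (t i ω)) (l j) =
      ulim fun i => ∑ j, Stk.hc (S.P i) (fun ω => fl1 (S.L i) (t i ω)) (l j i) / S.nm i := by
    symm
    refine ulim_eq ?_
    exact tendsto_finsetSum _ fun j _ => (u1 j).tendsto
  have e2 : S.h (fun i ω => (fl (S.L i) (p i ω), fl1 (S.L i) (t i ω))) +
        (21 * θ + 12 / θ * S.av γ) = ulim fun i =>
        Stk.hc (S.P i) (fun ω => (fl (S.L i) (p i ω), fl1 (S.L i) (t i ω))) (Sys.one i) /
          S.nm i + (21 * θ + 12 / θ * ((S.P i).ex (γ i) / S.L i)) := by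
    symm
    refine ulim_eq ?_
    exact u2.tendsto.add (tendsto_const_nhds.add (u3.tendsto.const_mul _))
  rw [e1, e2]
  refine ulim_le_of_sub (UB.of_tendsto (tendsto_finsetSum _ fun j _ => (u1 j).tendsto))
    (UB.of_tendsto (u2.tendsto.add (tendsto_const_nhds.add (u3.tendsto.const_mul _))))
    (S.const_div_nm _) key

/-- **the trilinear inequality** for systems: three lines through a point with average wedge
`av γ` (bits per digit): `h(p,t) ≥ ∑ h(t | l_j) - 33 √(av γ)` -/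
theorem tri_sys (S : Sys) (K : ℕ) {α : Type} {p : S.RV (Fin 2 → ℝ)} {t : S.RV ℝ}
    {x y : Fin 3 → S.RV (Fin 2 → ℝ)} {l : Fin 3 → S.RV α} {γ : S.RV ℝ}
    (hq : Sys.Tame (S := S) (fun i ω => (fl (S.L i) (p i ω), fl1 (S.L i) (t i ω))))
    (hγ : Sys.OL γ)
    (h : ∀ᶠ i in (uf : Filter ℕ), Ok (S.P i) (S.L i) K (p i) (t i) (fun j => x j i)
      (fun j => y j i) (fun j => l j i) (γ i)) :
    ∑ j, S.hc (fun i ω => fl1 (S.L i) (t i ω)) (l j) ≤
      S.h (fun i ω => (fl (S.L i) (p i ω), fl1 (S.L i) (t i ω))) + 33 * √(S.av γ) := by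
  have hav : 0 ≤ S.av γ := by
    have u3 : UB fun i => (S.P i).ex (γ i) / S.L i := Sys.UB.av hγ
    have hc3 : Tendsto (fun i => (-3 : ℝ) / S.L i) (uf : Filter ℕ) (𝓝 0) :=
      (tendsto_natCast_atTop_atTop.comp S.Ltop).const_div_atTop (-3)
    rw [← ulim_eq hc3]
    refine ulim_le (UB.of_tendsto hc3) u3 ?_
    filter_upwards [h, S.L_pos] with i hi hL
    have hLr : (0 : ℝ) < S.L i := by exact_mod_cast hL
    refine div_le_div_of_nonneg_right ?_ hLr.le
    have : (S.P i).ex (fun _ => (-3 : ℝ)) ≤ (S.P i).ex (γ i) := by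
      refine (S.P i).ex_mono fun ω hω => ?_
      have g1 := hi.wedge ω hω
      have g2 := dt_le (fun j i' => hi.y1 j ω hω i')
      have g3 : (2 : ℝ) ^ (-γ i ω) ≤ 2 ^ (3 : ℝ) := by
        refine (g1.trans g2).trans ?_
        norm_num
      have g4 := (Real.rpow_le_rpow_left_iff (by norm_num : (1 : ℝ) < 2)).1 g3
      linarith
    rwa [(S.P i).ex_const] at this
  have htt : Sys.Tame (S := S) (fun i ω => fl1 (S.L i) (t i ω)) :=
    hq.mono (Eventually.of_forall fun i ω ω' _ _ e => (Prod.mk.injEq _ _ _ _ ▸ e).2)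
  rcases le_or_gt (S.av γ) 1 with hle | hgt
  · rcases hav.eq_or_lt with h0 | h0
    · -- average wedge zero
      rw [← h0, Real.sqrt_zero, mul_zero, add_zero]
      refine le_of_forall_pos_le_add fun ε hε => ?_
      have h2 := tri_theta S K hq hγ h (θ := min 1 (ε / 21)) (by positivity) (min_le_left _ _)
      rw [← h0, mul_zero, add_zero] at h2
      have h3 : 21 * min 1 (ε / 21) ≤ ε := by
        have := min_le_right (1 : ℝ) (ε / 21)
        linarith
      linarith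
    · have hs : 0 < √(S.av γ) := Real.sqrt_pos.2 h0
      have hs1 : √(S.av γ) ≤ 1 := Real.sqrt_le_one.2 hle
      have h2 := tri_theta S K hq hγ h (θ := √(S.av γ)) hs hs1
      have h3 : 12 / √(S.av γ) * S.av γ = 12 * √(S.av γ) := by
        have h4 : √(S.av γ) * √(S.av γ) = S.av γ := Real.mul_self_sqrt hav
        field_simp
        linarith
      rw [h3] at h2
      linarith
  · -- trivial bound
    have h3 : ∀ j, S.hc (fun i ω => fl1 (S.L i) (t i ω)) (l j) ≤ 1 := by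
      intro j
      refine ulim_le_const (Sys.UB.hc htt (l j)) ?_
      filter_upwards [h, S.nm_pos] with i hi hn
      rw [div_le_one hn]
      exact Stk.hc_fl1_le (S.P i) (S.L i) (t i) (l j i) fun ω hω => ⟨hi.t0 ω hω, hi.t1 ω hω⟩
    have h4 : 1 ≤ √(S.av γ) := Real.one_le_sqrt.2 hgt.le
    have h5 : 0 ≤ S.h (fun i ω => (fl (S.L i) (p i ω), fl1 (S.L i) (t i ω))) :=
      Sys.hc_nonneg hq _
    have h6 := Finset.sum_le_sum fun j (_ : j ∈ (univ : Finset (Fin 3))) => h3 j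
    rw [Finset.sum_const, Finset.card_univ, Fintype.card_fin, nsmul_eq_mul] at h6
    push_cast at h6
    linarith

end Vale.Agent.P127.U.Tri
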