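import Vale.Agent.P127.U.PlaneB
import Vale.Agent.P127.U.Blocks1
import Vale.Agent.P127.U.TriS

/-!
# P127 / U : tools for PLANE on systems (helper611)
-/

set_option autoImplicit false

namespace Vale.Agent.P127.U.Plane

open Filter Topology Vale.Agent.P127 Vale.Agent.P127.Stk Sys Vale.Agent.P127.U.Tri

variable {S : Sys} {α γ δ : Type*}

theorem nu_L (S : Sys) : S.nu S.L = 1 := by
  refine ulim_eq (Tendsto.congr' ?_ tendsto_const_nhds)
  filter_upwards [S.L_pos] with i hi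
  have : (0 : ℝ) < S.L i := by exact_mod_cast hi
  exact (div_self this.ne').symm

theorem Lr_top (S : Sys) : Tendsto (fun i => (S.L i : ℝ)) (uf : Filter ℕ) atTop :=
  tendsto_natCast_atTop_atTop.comp S.Ltop

theorem tendsto_sc (S : Sys) {s : ℝ} (hs : 0 ≤ s) :
    Tendsto (fun i => (S.sc s i : ℝ) / S.L i) (uf : Filter ℕ) (𝓝 s) := by
  have h1 : Tendsto (fun i => s - 1 / (S.L i : ℝ)) (uf : Filter ℕ) (𝓝 s) := by
    have := (Lr_top S).const_div_atTop 1
    simpa using tendsto_const_nhds.sub this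
  refine tendsto_of_tendsto_of_tendsto_of_le_of_le' h1 tendsto_const_nhds ?_ ?_
  · filter_upwards [S.L_pos] with i hi
    have h0 : (0 : ℝ) < S.L i := by exact_mod_cast hi
    rw [le_div_iff₀ h0, sub_mul, div_mul_cancel₀ _ h0.ne']
    have := Nat.lt_floor_add_one (s * S.L i)
    have h2 : S.sc s i = ⌊s * S.L i⌋₊ := rfl
    rw [h2]
    linarith
  · filter_upwards [S.L_pos] with i hi
    have h0 : (0 : ℝ) < S.L i := by exact_mod_cast hi
    rw [div_le_iff₀ h0]
    exact Nat.floor_le (by positivity)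

theorem nu_sc (S : Sys) {s : ℝ} (hs : 0 ≤ s) : S.nu (S.sc s) = s := ulim_eq (tendsto_sc S hs)

theorem sc_le (S : Sys) {s : ℝ} (hs : s ≤ 1) (i : ℕ) : S.sc s i ≤ S.L i := by
  refine Nat.floor_le_of_le ?_
  have : (0 : ℝ) ≤ S.L i := Nat.cast_nonneg _
  nlinarith

theorem sc_top (S : Sys) {s : ℝ} (hs : 0 < s) : Tendsto (S.sc s) (uf : Filter ℕ) atTop :=
  tendsto_nat_floor_atTop.comp ((Lr_top S).const_mul_atTop hs)

/-! ### tame variables -/

theorem tame_of_log {X : S.RV α} (a b : ℝ) (ha : 0 ≤ a)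
    (h : ∀ᶠ i in (uf : Filter ℕ), (S.P i).H (X i) ≤ a + b * S.nm i) : Tame X := by
  refine ⟨a + b, ?_⟩
  filter_upwards [h, S.nm_tendsto.eventually_ge_atTop 1] with i h1 h2
  nlinarith

theorem tame_fl {ι : Type} [Fintype ι] (v : S.RV (ι → ℝ)) {n : ℕ → ℕ} (c : ℕ)
    (hn : ∀ i, n i ≤ S.L i) (h : S.Ae fun i ω => ∀ k, |v i ω k| ≤ c) :
    Tame (S := S) (fun i ω => fl (n i) (v i ω)) := by
  classical
  refine tame_of_log (Fintype.card ι * Real.log (2 * c + 1)) (Fintype.card ι) ?_ ?_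
  · have : (0 : ℝ) ≤ c := Nat.cast_nonneg _
    have := Real.log_nonneg (by linarith : (1 : ℝ) ≤ 2 * c + 1)
    positivity
  · filter_upwards [h] with i hi
    have h8 : (1 : ℤ) ≤ 2 ^ (S.L i) := by exact_mod_cast Nat.one_le_two_pow
    have c4 : (Finset.Icc (-((c : ℤ) * 2 ^ (S.L i))) ((c : ℤ) * 2 ^ (S.L i))).card ≤
        (2 * c + 1) * 2 ^ (S.L i) := by
      refine card_Icc_aux _ (by positivity) _ ?_
      push_cast
      linarith
    have h1 := H_le_log_finset (S.P i) (fun ω => fl (n i) (v i ω))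
      (((2 * c + 1) * 2 ^ (S.L i)) ^ Fintype.card ι)
      (Fintype.piFinset fun _ : ι =>
        Finset.Icc (-((c : ℤ) * 2 ^ (S.L i))) ((c : ℤ) * 2 ^ (S.L i))) (by
        rw [Fintype.card_piFinset, Finset.prod_const, Finset.card_univ]
        exact Nat.pow_le_pow_left c4 _) (fun ω hω => by
        rw [Fintype.mem_piFinset]
        intro k
        exact fl1_mem (n i) (S.L i) c (v i ω k) (hi ω hω k) (hn i))
    refine h1.trans (le_of_eq ?_)
    push_cast
    rw [Real.log_pow, Real.log_mul (by positivity) (by positivity), Real.log_pow]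
    unfold Sys.nm
    ring

theorem tame_fl1 (v : S.RV ℝ) {n : ℕ → ℕ} (c : ℕ)
    (hn : ∀ i, n i ≤ S.L i) (h : S.Ae fun i ω => |v i ω| ≤ c) :
    Tame (S := S) (fun i ω => fl1 (n i) (v i ω)) := by
  have h1 : Tame (S := S) (fun i ω => fl (n i) (fun _ : Unit => v i ω)) :=
    tame_fl (fun i ω => fun _ : Unit => v i ω) c hn (by
      filter_upwards [h] with i hi ω hω k
      exact hi ω hω)
  exact h1.mono (Eventually.of_forall fun i ω ω' _ _ e => congrFun e ())

theorem ae_and {p q : ∀ i, S.Ω i → Prop} (h : S.Ae p) (h' : S.Ae q) :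
    S.Ae fun i ω => p i ω ∧ q i ω := by
  filter_upwards [h, h'] with i h1 h2 ω hω
  exact ⟨h1 ω hω, h2 ω hω⟩

theorem tame_dg {t : S.RV ℝ} (ht : T01 t) {n : ℕ → ℕ} (hn : ∀ i, n i ≤ S.L i) :
    Tame (S.dg n t) :=
  tame_fl1 t 1 hn (by
    filter_upwards [ht] with i hi ω hω
    have := hi ω hω
    rw [abs_of_nonneg this.1]
    exact_mod_cast this.2)

theorem tame_tbs {l : S.RV Ln} (hl : LnA l) {n : ℕ → ℕ} (hn : ∀ i, n i ≤ S.L i) :
    Tame (S.tbs n l) := by
  have h1 : Tame (S := S) (fun i ω => fl (n i) (l i ω).1) := tame_fl (fun i ω => (l i ω).1) 1 hn (by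
      filter_upwards [hl] with i hi ω hω k
      push_cast
      exact (hi ω hω).1 k)
  have h2 : Tame (S := S) (fun i ω => fl (n i) (l i ω).2) := tame_fl (fun i ω => (l i ω).2) 1 hn (by
      filter_upwards [hl] with i hi ω hω k
      push_cast
      exact (hi ω hω).2 k)
  exact h1.pr h2

theorem pos_le {l : Ln} (hl : LnOk l) {t : ℝ} (h0 : 0 ≤ t) (h1 : t ≤ 1) (i : Fin 2) :
    |pos l t i| ≤ 2 := by
  unfold pos
  have h2 := abs_add_le (l.1 i) (t * l.2 i)
  rw [abs_mul, abs_of_nonneg h0] at h2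
  have h3 : t * |l.2 i| ≤ 1 * 1 := mul_le_mul h1 (hl.2 i) (abs_nonneg _) (by norm_num)
  have h4 := hl.1 i
  linarith

theorem tame_pos {l : S.RV Ln} {t : S.RV ℝ} (hl : LnA l) (ht : T01 t) {n : ℕ → ℕ}
    (hn : ∀ i, n i ≤ S.L i) : Tame (S := S) (fun i ω => fl (n i) (pos (l i ω) (t i ω))) :=
  tame_fl (fun i ω => pos (l i ω) (t i ω)) 2 hn (by
      filter_upwards [hl, ht] with i h1 h2 ω hω k
      push_cast
      exact pos_le (h1 ω hω) (h2 ω hω).1 (h2 ω hω).2 k)

theorem tame_pqs {l : S.RV Ln} {t : S.RV ℝ} (hl : LnA l) (ht : T01 t) {n : ℕ → ℕ}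
    (hn : ∀ i, n i ≤ S.L i) : Tame (S.pqs n (pt l t)) :=
  (tame_dg ht hn).pr (tame_pos hl ht hn)

/-! ### the coarse points -/

theorem pos_given (P : ∀ i, Law (S.Ω i)) (i : ℕ) (l : S.Ω i → Ln) (t : S.Ω i → ℝ) {n L : ℕ}
    (hn : n ≤ L) (hl : ∀ ω, 0 < (P i).w ω → LnOk (l ω))
    (ht : ∀ ω, 0 < (P i).w ω → 0 ≤ t ω ∧ t ω ≤ 1) :
    Stk.hc (P i) (fun ω => fl n (pos (l ω) (t ω))) (fun ω => (fl1 n (t ω), tb L (l ω))) ≤
      2 * Real.log (2 * (3 : ℕ) + 3) := by
  have h := Stk.Bs.hc_fl_diam (P i) n 3 (fun ω => pos (l ω) (t ω))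
    (fun ω => (fl1 n (t ω), tb L (l ω))) (by
    intro ω ω' hω hω' e k
    simp only [tb, Prod.mk.injEq] at e
    obtain ⟨e1, e2, e3⟩ := e
    have g1 := Stk.Bs.fl1_close e1
    have g2 := Stk.Bs.fl_close e2 k
    have g3 := Stk.Bs.fl_close e3 k
    have g4 := half_mono hn
    have g5 := (hl ω hω).2 k
    have g6 := (ht ω' hω').1
    have g7 := (ht ω' hω').2
    have e4 : pos (l ω) (t ω) k - pos (l ω') (t ω') k =
      ((l ω).1 k - (l ω').1 k) + ((t ω - t ω') * (l ω).2 k + t ω' * ((l ω).2 k - (l ω').2 k)) := by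
      unfold pos
      ring
    rw [e4]
    have a1 := abs_add_le ((l ω).1 k - (l ω').1 k)
      ((t ω - t ω') * (l ω).2 k + t ω' * ((l ω).2 k - (l ω').2 k))
    have a2 := abs_add_le ((t ω - t ω') * (l ω).2 k) (t ω' * ((l ω).2 k - (l ω').2 k))
    rw [abs_mul, abs_mul, abs_of_nonneg g6] at a2
    have a3 : |t ω - t ω'| * |(l ω).2 k| ≤ (1 / 2) ^ n * 1 :=
      mul_le_mul g1 g5 (abs_nonneg _) (by positivity)
    have a4 : t ω' * |(l ω).2 k - (l ω').2 k| ≤ 1 * (1 / 2) ^ L :=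
      mul_le_mul g7 g3 (abs_nonneg _) (by norm_num)
    push_cast
    linarith)
  rw [Fintype.card_fin] at h
  exact_mod_cast h

theorem hc_pos_zero {l : S.RV Ln} {t : S.RV ℝ} (hl : LnA l) (ht : T01 t) {n : ℕ → ℕ}
    (hn : ∀ i, n i ≤ S.L i) :
    S.hc (S.pqs n (pt l t)) (Sys.pr (S.dg n t) (S.tbs S.L l)) = 0 := by
  refine hc_zero_of_le (2 * Real.log (2 * (3 : ℕ) + 3)) ?_
  filter_upwards [hl, ht] with i h1 h2
  have h3 := pos_given S.P i (l i) (t i) (hn i) h1 h2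
  refine le_trans ?_ h3
  refine Stk.hc_mono_left _ fun ω ω' _ _ e => ?_
  simp only [Prod.mk.injEq, Sys.pr_apply] at e
  show (fl1 (n i) (t i ω), fl (n i) (pos (l i ω) (t i ω))) =
    (fl1 (n i) (t i ω'), fl (n i) (pos (l i ω') (t i ω')))
  rw [e.1]
  have := e.2.1
  unfold Sys.dg at this
  rw [this]

theorem coarse_h {l : S.RV Ln} {t : S.RV ℝ} (hl : LnA l) (ht : T01 t) {n : ℕ → ℕ}
    (hn : ∀ i, n i ≤ S.L i) :
    S.h (S.pqs n (pt l t)) + S.hc (S.dg S.L t) (S.tbs S.L l) ≤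
      S.h (S.pqs S.L (pt l t)) + S.hc (S.dg n t) (S.tbs S.L l) := by
  have hLL : ∀ i, S.L i ≤ S.L i := fun _ => le_rfl
  have tA := tame_pqs hl ht hLL
  have tB := tame_pqs hl ht hn
  have tT := tame_dg ht hLL
  have tT' := tame_dg ht hn
  set A := S.pqs S.L (pt l t) with hA
  set B := S.pqs n (pt l t) with hB
  set T := S.dg S.L t with hT
  set T' := S.dg n t with hT'
  set Y := S.tbs S.L l with hY
  have fBA : Fn B A := Eventually.of_forall fun i ω ω' _ _ e => by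
    have e1 : fl1 (S.L i) (t i ω) = fl1 (S.L i) (t i ω') := congrArg Prod.fst e
    have e2 : fl (S.L i) (pos (l i ω) (t i ω)) = fl (S.L i) (pos (l i ω') (t i ω')) :=
      congrArg Prod.snd e
    show (fl1 (n i) (t i ω), fl (n i) (pos (l i ω) (t i ω))) =
      (fl1 (n i) (t i ω'), fl (n i) (pos (l i ω') (t i ω')))
    rw [fl_of_fl (hn i) _ _ e2]
    have e3 : fl1 (n i) (t i ω) = fl1 (n i) (t i ω') :=
      congrFun (fl_of_fl (ι := Unit) (hn i) (fun _ => t i ω) (fun _ => t i ω')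
        (funext fun _ => e1)) ()
    rw [e3]
  have fTA : Fn T A := Eventually.of_forall fun i ω ω' _ _ e => congrArg Prod.fst e
  -- `h A = h B + h(A | B)`
  have h1 := hc_pair tB tA (one (S := S))
  have h2 : S.hc (Sys.pr B A) one ≤ S.hc A one := by
    refine hc_mono_left tA (tB.pr tA) ?_
    filter_upwards [fBA] with i hi ω ω' hω hω' e
    have e1 : A i ω = A i ω' := congrArg Prod.fst e
    show (B i ω, A i ω) = (B i ω', A i ω')
    rw [e1, hi ω ω' hω hω' e1]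
  have h3 : S.hc A (Sys.pr Y (Sys.pr B one)) ≤ S.hc A (Sys.pr B one) := hc_le_cond tA _ _
  have h4 : S.hc T (Sys.pr Y (Sys.pr B one)) ≤ S.hc A (Sys.pr Y (Sys.pr B one)) := by
    refine hc_mono_left tA tT ?_
    filter_upwards [fTA] with i hi ω ω' hω hω' e
    exact hi ω ω' hω hω' (congrArg Prod.fst e)
  have h5 : S.hc T (Sys.pr Y (Sys.pr B one)) = S.hc T (Sys.pr B Y) :=
    hc_congr (Eventually.of_forall fun _ _ _ _ _ e => congrArg Prod.fst e)
      (Eventually.of_forall fun _ _ _ _ _ e => congrArg Prod.fst e)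
      (Eventually.of_forall fun _ _ _ _ _ e => by
        simp only [pr_apply, Prod.mk.injEq] at e ⊢
        exact ⟨e.2, e.1, trivial⟩)
      (Eventually.of_forall fun _ _ _ _ _ e => by
        simp only [pr_apply, Prod.mk.injEq] at e ⊢
        exact ⟨e.2.1, e.1⟩)
  have h6 := hc_le_add tT tB Y
  have h7 := hc_le_add tB tT' Y
  have h8 : S.hc B (Sys.pr T' Y) = 0 := hc_pos_zero hl ht hn
  have h9 : S.hc A one = S.h A := rfl
  have h10 : S.hc B one = S.h B := rfl
  linarith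

theorem Df_mono {l : S.RV Ln} {t : S.RV ℝ} (ht : T01 t) {c : ℝ} (hc0 : 0 ≤ c)
    (hc : c ≤ 1) : Df l t (S.sc c) ≤ Df l t S.L := by
  have hLL : ∀ i, S.L i ≤ S.L i := fun _ => le_rfl
  have hn := sc_le S hc
  unfold Df
  rw [nu_L, nu_sc S hc0]
  have h1 := hc_le_add (tame_dg ht hLL) (tame_dg ht hn) (S.tbs S.L l)
  have h2 : S.hc (S.dg S.L t) (Sys.pr (S.dg (S.sc c) t) (S.tbs S.L l)) ≤ 1 - c := by
    have h3 : Tendsto (fun i => ((S.L i : ℝ) - S.sc c i) / S.L i) (uf : Filter ℕ)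
        (𝓝 (1 - c)) := by
      have := (tendsto_const_nhds (x := (1 : ℝ)) (f := (uf : Filter ℕ))).sub (tendsto_sc S hc0)
      refine this.congr' ?_
      filter_upwards [S.L_pos] with i hi
      have : (0 : ℝ) < S.L i := by exact_mod_cast hi
      field_simp
    rw [← ulim_eq h3]
    refine ulim_le (UB.hc (tame_dg ht hLL) _) (UB.of_tendsto h3) ?_
    filter_upwards [S.nm_pos, S.L_pos] with i hi hL
    have h4 := hc_fl_digits_le (ι := Unit) (S.P i) (hn i) (fun ω _ => t i ω) (S.tbs S.L l i)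
    have h5 : Stk.hc (S.P i) (S.dg S.L t i) (Sys.pr (S.dg (S.sc c) t) (S.tbs S.L l) i) ≤
        Stk.hc (S.P i) (fun ω => fl (S.L i) fun _ : Unit => t i ω)
          (fun ω => (fl (S.sc c i) (fun _ : Unit => t i ω), S.tbs S.L l i ω)) := by
      refine le_of_eq (Stk.hc_congr _ ?_ ?_ ?_ ?_)
      · intro ω ω' _ _ e
        exact congrFun (congrArg Prod.fst e) ()
      · intro ω ω' _ _ e
        funext _
        exact congrArg Prod.fst e
      · intro ω ω' _ _ e
        simp only [Prod.mk.injEq] at e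
        show (fl1 (S.sc c i) (t i ω), _) = (fl1 (S.sc c i) (t i ω'), _)
        have : fl1 (S.sc c i) (t i ω) = fl1 (S.sc c i) (t i ω') := congrFun e.1 ()
        rw [this, e.2]
      · intro ω ω' _ _ e
        have e1 : fl1 (S.sc c i) (t i ω) = fl1 (S.sc c i) (t i ω') := congrArg Prod.fst e
        have e2 : S.tbs S.L l i ω = S.tbs S.L l i ω' := congrArg Prod.snd e
        simp only [Prod.mk.injEq]
        refine ⟨funext fun _ => e1, e2⟩
    rw [div_le_iff₀ hi]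
    refine (h5.trans h4).trans (le_of_eq ?_)
    have hLr : (0 : ℝ) < S.L i := by exact_mod_cast hL
    rw [Fintype.card_unit, Nat.cast_sub (hn i)]
    unfold Sys.nm
    push_cast
    field_simp
  linarith

theorem Df_nonneg {l : S.RV Ln} {t : S.RV ℝ} (ht : T01 t) : 0 ≤ Df l t S.L := by
  have h := Df_mono (l := l) ht (le_refl (0 : ℝ)) (by norm_num)
  refine le_trans ?_ h
  unfold Df
  rw [nu_sc S le_rfl]
  have h1 : S.hc (S.dg (S.sc 0) t) (S.tbs S.L l) = 0 := by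
    refine hc_zero_of_le (Real.log 2) ?_
    filter_upwards [ht] with i hi
    have := hc_le_log (S.P i) (S.dg (S.sc 0) t i) (S.tbs S.L l i) 2 (fun ω _ => by
      refine ⟨Finset.Icc 0 1, by simp, fun ω' hω' _ => ?_⟩
      have h0 : S.sc 0 i = 0 := by
        unfold Sys.sc
        simp
      rw [Finset.mem_Icc]
      show 0 ≤ ⌊(2 : ℝ) ^ (S.sc 0 i) * t i ω'⌋ ∧ ⌊(2 : ℝ) ^ (S.sc 0 i) * t i ω'⌋ ≤ 1
      rw [h0, pow_zero, one_mul]
      have h2 := hi ω' hω'
      refine ⟨Int.floor_nonneg.2 h2.1, ?_⟩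
      have h3 := Int.floor_le (t i ω')
      have h4 : (⌊t i ω'⌋ : ℝ) ≤ ((1 : ℤ) : ℝ) := by
        push_cast
        linarith
      exact_mod_cast h4)
    exact_mod_cast this
  rw [h1]
  simp

end Vale.Agent.P127.U.Plane
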