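import Vale.Agent.P127.U.PlaneC

/-!
# P127 / U : the trilinear inequality at a coarse scale (helper611)
-/

set_option autoImplicit false

namespace Vale.Agent.P127.U.Plane

open Filter Topology Vale.Agent.P127 Vale.Agent.P127.Stk Sys Vale.Agent.P127.U.Tri

variable {S : Sys} {α γ δ : Type*}

/-- the same laws with another scale -/
abbrev resc (S : Sys) (n : ℕ → ℕ) (hn : Tendsto n (uf : Filter ℕ) atTop) : Sys :=
  ⟨S.Ω, S.fin, S.P, n, hn⟩

theorem resc_hc (S : Sys) {n : ℕ → ℕ} (hn : Tendsto n (uf : Filter ℕ) atTop) {c : ℝ}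
    (hc : 0 < c) (h : Tendsto (fun i => (n i : ℝ) / S.L i) (uf : Filter ℕ) (𝓝 c))
    {X : S.RV α} (hX : Tame X) (Y : S.RV γ) :
    Sys.hc (S := resc S n hn) X Y = S.hc X Y / c := by
  refine ulim_eq ?_
  have h1 := (UB.hc hX Y).tendsto
  have h2 := h1.div h hc.ne'
  refine h2.congr' ?_
  filter_upwards [S.L_pos, hn.eventually_gt_atTop 0] with i hi hni
  have hLr : (0 : ℝ) < S.L i := by exact_mod_cast hi
  have hnr : (0 : ℝ) < n i := by exact_mod_cast hni
  have hlog : 0 < Real.log 2 := Real.log_pos (by norm_num)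
  show Stk.hc (S.P i) (X i) (Y i) / ((S.L i : ℝ) * Real.log 2) / ((n i : ℝ) / S.L i) =
    Stk.hc (S.P i) (X i) (Y i) / ((n i : ℝ) * Real.log 2)
  field_simp

theorem resc_tame (S : Sys) {n : ℕ → ℕ} (hn : Tendsto n (uf : Filter ℕ) atTop) {c : ℝ}
    (hc : 0 < c) (h : Tendsto (fun i => (n i : ℝ) / S.L i) (uf : Filter ℕ) (𝓝 c))
    {X : S.RV α} (hX : Tame X) : Tame (S := resc S n hn) X := by
  obtain ⟨C, hC⟩ := hX
  refine ⟨|C| * (2 / c), ?_⟩
  filter_upwards [hC, S.L_pos, h.eventually (lt_mem_nhds (half_lt_self hc))] with i h1 hi h2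
  have hLr : (0 : ℝ) < S.L i := by exact_mod_cast hi
  have hlog : 0 < Real.log 2 := Real.log_pos (by norm_num)
  rw [lt_div_iff₀ hLr] at h2
  have h3 : (S.L i : ℝ) ≤ 2 / c * n i := by
    rw [div_mul_eq_mul_div, le_div_iff₀ hc]
    linarith
  show (S.P i).H (X i) ≤ |C| * (2 / c) * ((n i : ℝ) * Real.log 2)
  have h4 : (S.P i).H (X i) ≤ |C| * ((S.L i : ℝ) * Real.log 2) := by
    refine h1.trans ?_
    exact mul_le_mul_of_nonneg_right (le_abs_self C) (by unfold Sys.nm; positivity)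
  have h5 : |C| * ((S.L i : ℝ) * Real.log 2) ≤ |C| * (2 / c * n i * Real.log 2) := by
    gcongr
  linarith [h4, h5, (by ring : |C| * (2 / c * (n i : ℝ) * Real.log 2) =
    |C| * (2 / c) * ((n i : ℝ) * Real.log 2))]

/-- time clamped below `1` -/
noncomputable def cl (n : ℕ) (t : ℝ) : ℝ := min t (1 - (1 / 2) ^ n)

theorem cl_nonneg {n : ℕ} {t : ℝ} (h : 0 ≤ t) : 0 ≤ cl n t := by
  refine le_min h ?_
  have : (1 / 2 : ℝ) ^ n ≤ 1 := pow_le_one₀ (by norm_num) (by norm_num)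
  linarith

theorem cl_lt (n : ℕ) (t : ℝ) : cl n t < 1 := by
  refine (min_le_right _ _).trans_lt ?_
  have : (0 : ℝ) < (1 / 2 : ℝ) ^ n := by positivity
  linarith

theorem cl_close {n : ℕ} {t : ℝ} (h : t ≤ 1) : |t - cl n t| ≤ (1 / 2) ^ n := by
  unfold cl
  have h0 : (0 : ℝ) < (1 / 2 : ℝ) ^ n := by positivity
  rcases le_total t (1 - (1 / 2) ^ n) with h1 | h1
  · rw [min_eq_left h1, sub_self, abs_zero]
    exact h0.le
  · rw [min_eq_right h1, abs_le]
    constructor <;> linarith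

theorem fl1_cl {n : ℕ} {t : ℝ} (h : t ≤ 1) : |fl1 n t - fl1 n (cl n t)| ≤ 2 := by
  have := Stk.floor_close_aux (x := (2 : ℝ) ^ n * t) (y := (2 : ℝ) ^ n * cl n t) (N := 1) (by
    rw [← mul_sub, abs_mul, abs_of_pos (by positivity : (0 : ℝ) < 2 ^ n)]
    calc (2 : ℝ) ^ n * |t - cl n t| ≤ 2 ^ n * (1 / 2 : ℝ) ^ n :=
          mul_le_mul_of_nonneg_left (cl_close h) (by positivity)
      _ = ((1 : ℕ) : ℝ) := by
          rw [one_div, inv_pow]
          field_simp
          norm_num)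
  exact this

/-- the trilinear inequality at the scale `c L` -/
theorem three (S : Sys) (l : Fin 3 → S.RV Ln) (t : Fin 3 → S.RV ℝ) (hl : ∀ j, LnA (l j))
    (ht : ∀ j, T01 (t j)) {c g : ℝ} (hc0 : 0 < c) (hc1 : c ≤ 1) (hg : 0 ≤ g)
    (hp : ∀ j, S.Ae fun i ω => S.pqs (S.sc c) (pt (l j) (t j)) i ω =
      S.pqs (S.sc c) (pt (l 0) (t 0)) i ω)
    (hw : S.Ae fun i ω => (2 : ℝ) ^ (-(g * S.L i)) ≤ |dt (fun j => (l j i ω).2)|) :
    ∑ j, S.hc (S.dg (S.sc c) (t j)) (S.tbs S.L (l j)) ≤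
      S.h (S.pqs (S.sc c) (pt (l 0) (t 0))) + 33 * √(c * g) := by
  set n := S.sc c with hn
  have hnL : ∀ i, n i ≤ S.L i := sc_le S hc1
  have htop : Tendsto n (uf : Filter ℕ) atTop := sc_top S hc0
  have hlim := tendsto_sc S hc0.le
  have hLL : ∀ i, S.L i ≤ S.L i := fun _ => le_rfl
  let R : Sys := resc S n htop
  -- the variables
  let p : R.RV (Fin 2 → ℝ) := fun i ω => pos (l 0 i ω) (t 0 i ω)
  let τ : R.RV ℝ := fun i ω => cl (n i) (t 0 i ω)
  let x : Fin 3 → R.RV (Fin 2 → ℝ) := fun j i ω => (l j i ω).1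
  let y : Fin 3 → R.RV (Fin 2 → ℝ) := fun j i ω => (l j i ω).2
  let lb : Fin 3 → R.RV ((Fin 2 → ℤ) × (Fin 2 → ℤ)) := fun j => S.tbs S.L (l j)
  let γ : R.RV ℝ := fun i _ => g * S.L i
  have tτ : Tame (S := S) (fun i ω => fl1 (n i) (cl (n i) (t 0 i ω))) :=
    tame_fl1 (fun i ω => cl (n i) (t 0 i ω)) 1 hnL (by
      filter_upwards [ht 0] with i hi ω hω
      have h1 := cl_nonneg (n := n i) (hi ω hω).1
      have h2 := cl_lt (n i) (t 0 i ω)
      rw [abs_of_nonneg h1]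
      push_cast
      exact h2.le)
  have tp : Tame (S := S) (fun i ω => fl (n i) (pos (l 0 i ω) (t 0 i ω))) :=
    tame_pos (hl 0) (ht 0) hnL
  have tq : Tame (S := S) (fun i ω => (fl (n i) (pos (l 0 i ω) (t 0 i ω)),
      fl1 (n i) (cl (n i) (t 0 i ω)))) := tp.pr tτ
  have hq : Sys.Tame (S := R) (fun i ω => (fl (R.L i) (p i ω), fl1 (R.L i) (τ i ω))) :=
    resc_tame S htop hc0 hlim tq
  have hLn : Tendsto (fun i => g * (S.L i : ℝ) / n i) (uf : Filter ℕ) (𝓝 (g / c)) := by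
    have h1 := (tendsto_const_nhds (x := g) (f := (uf : Filter ℕ))).div hlim hc0.ne'
    refine h1.congr' ?_
    filter_upwards [S.L_pos, htop.eventually_gt_atTop 0] with i hi hni
    have hLr : (0 : ℝ) < S.L i := by exact_mod_cast hi
    have hnr : (0 : ℝ) < n i := by exact_mod_cast hni
    show g / ((n i : ℝ) / S.L i) = _
    field_simp
  have hav : R.av γ = g / c := by
    refine ulim_eq (hLn.congr' ?_)
    refine Eventually.of_forall fun i => ?_
    show g * (S.L i : ℝ) / n i = (S.P i).ex (fun _ => g * S.L i) / n i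
    rw [(S.P i).ex_const]
  have hγ : Sys.OL γ := by
    refine ⟨g / c + 1, ?_⟩
    filter_upwards [hLn.eventually (gt_mem_nhds (lt_add_one (g / c))),
      htop.eventually_gt_atTop 0] with i hi hni ω _
    have hnr : (0 : ℝ) < n i := by exact_mod_cast hni
    show |g * (S.L i : ℝ)| ≤ (g / c + 1) * n i
    rw [abs_of_nonneg (by positivity)]
    rw [div_lt_iff₀ hnr] at hi
    exact hi.le
  have hok : ∀ᶠ i in (uf : Filter ℕ), Ok (R.P i) (R.L i) 3 (p i) (τ i) (fun j => x j i)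
      (fun j => y j i) (fun j => lb j i) (γ i) := by
    have hp' : ∀ᶠ i in (uf : Filter ℕ), ∀ j ω, 0 < (S.P i).w ω →
        S.pqs n (pt (l j) (t j)) i ω = S.pqs n (pt (l 0) (t 0)) i ω := by
      rw [eventually_all]
      intro j
      exact hp j
    have hl' : ∀ᶠ i in (uf : Filter ℕ), ∀ j ω, 0 < (S.P i).w ω → LnOk (l j i ω) := by
      rw [eventually_all]
      intro j
      exact hl j
    have ht' : ∀ᶠ i in (uf : Filter ℕ), ∀ j ω, 0 < (S.P i).w ω → 0 ≤ t j i ω ∧ t j i ω ≤ 1 := by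
      rw [eventually_all]
      intro j
      exact ht j
    filter_upwards [hp', hl', ht', hw] with i h1 h2 h3 h4
    refine ⟨?_, ?_, ?_, ?_, ?_, ?_, ?_⟩
    · intro ω hω
      exact cl_nonneg (h3 0 ω hω).1
    · intro ω _
      exact cl_lt _ _
    · intro j ω hω k
      exact (h2 j ω hω).2 k
    · intro j ω hω k
      have e := h1 j ω hω
      have e1 : fl1 (n i) (t j i ω) = fl1 (n i) (t 0 i ω) := congrArg Prod.fst e
      have e2 : fl (n i) (pos (l j i ω) (t j i ω)) = fl (n i) (pos (l 0 i ω) (t 0 i ω)) :=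
        congrArg Prod.snd e
      have g1 := Stk.Bs.fl1_close e1
      have g2 := Stk.Bs.fl_close e2 k
      have g3 := cl_close (n := n i) (h3 0 ω hω).2
      have g4 := (h2 j ω hω).2 k
      show |pos (l 0 i ω) (t 0 i ω) k - ((l j i ω).1 k + cl (n i) (t 0 i ω) * (l j i ω).2 k)| ≤ _
      have e3 : pos (l 0 i ω) (t 0 i ω) k -
          ((l j i ω).1 k + cl (n i) (t 0 i ω) * (l j i ω).2 k) =
          -(pos (l j i ω) (t j i ω) k - pos (l 0 i ω) (t 0 i ω) k) +
            ((t j i ω - t 0 i ω) * (l j i ω).2 k +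
              (t 0 i ω - cl (n i) (t 0 i ω)) * (l j i ω).2 k) := by
        unfold pos
        ring
      rw [e3]
      have a1 := abs_add_le (-(pos (l j i ω) (t j i ω) k - pos (l 0 i ω) (t 0 i ω) k))
            ((t j i ω - t 0 i ω) * (l j i ω).2 k +
              (t 0 i ω - cl (n i) (t 0 i ω)) * (l j i ω).2 k)
      have a2 := abs_add_le ((t j i ω - t 0 i ω) * (l j i ω).2 k)
              ((t 0 i ω - cl (n i) (t 0 i ω)) * (l j i ω).2 k)
      rw [abs_neg] at a1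
      rw [abs_mul, abs_mul] at a2
      have a3 : |t j i ω - t 0 i ω| * |(l j i ω).2 k| ≤ (1 / 2) ^ (n i) * 1 :=
        mul_le_mul g1 g4 (abs_nonneg _) (by positivity)
      have a4 : |t 0 i ω - cl (n i) (t 0 i ω)| * |(l j i ω).2 k| ≤ (1 / 2) ^ (n i) * 1 :=
        mul_le_mul g3 g4 (abs_nonneg _) (by positivity)
      show _ ≤ ((3 : ℕ) : ℝ) * (1 / 2) ^ (n i)
      push_cast
      linarith
    · intro j ω ω' _ _ e k
      have e1 : fl (S.L i) (l j i ω).1 = fl (S.L i) (l j i ω').1 := congrArg Prod.fst e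
      have g1 := Stk.Bs.fl_close e1 k
      have g2 := half_mono (hnL i)
      show _ ≤ ((3 : ℕ) : ℝ) * (1 / 2) ^ (n i)
      push_cast
      have : (0 : ℝ) < (1 / 2) ^ (n i) := by positivity
      linarith
    · intro j ω ω' _ _ e k
      have e1 : fl (S.L i) (l j i ω).2 = fl (S.L i) (l j i ω').2 := congrArg Prod.snd e
      have g1 := Stk.Bs.fl_close e1 k
      have g2 := half_mono (hnL i)
      show _ ≤ ((3 : ℕ) : ℝ) * (1 / 2) ^ (n i)
      push_cast
      have : (0 : ℝ) < (1 / 2) ^ (n i) := by positivity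
      linarith
    · intro ω hω
      exact h4 ω hω
  have main := tri_sys R 3 hq hγ hok
  rw [hav] at main
  -- translate back
  have e1 : ∀ j, R.hc (fun i ω => fl1 (R.L i) (τ i ω)) (lb j) =
      S.hc (fun i ω => fl1 (n i) (cl (n i) (t 0 i ω))) (S.tbs S.L (l j)) / c := fun j =>
    resc_hc S htop hc0 hlim tτ _
  have e2 : R.h (fun i ω => (fl (R.L i) (p i ω), fl1 (R.L i) (τ i ω))) =
      S.h (fun i ω => (fl (n i) (pos (l 0 i ω) (t 0 i ω)), fl1 (n i) (cl (n i) (t 0 i ω)))) / c :=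
    resc_hc S htop hc0 hlim tq (one (S := S))
  rw [e2, Finset.sum_congr rfl fun j _ => e1 j, ← Finset.sum_div] at main
  have e3 : 33 * √(g / c) = 33 * √(c * g) / c := by
    have : g / c = c * g / c ^ 2 := by field_simp
    rw [this, Real.sqrt_div' _ (by positivity), Real.sqrt_sq hc0.le]
    ring
  rw [e3, ← add_div, div_le_div_iff_of_pos_right hc0] at main
  have e4 : ∀ j, S.hc (S.dg n (t j)) (S.tbs S.L (l j)) ≤
      S.hc (fun i ω => fl1 (n i) (cl (n i) (t 0 i ω))) (S.tbs S.L (l j)) := by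
    intro j
    refine hc_le_of_le (Real.log (2 * (2 : ℕ) + 1)) (tame_dg (ht j) hnL) tτ ?_
    filter_upwards [hp j, ht 0] with i h1 h2
    have h3 := Stk.hc_sub_le (S.P i) (ι := Unit) (fun ω _ => fl1 (n i) (t j i ω))
      (fun ω _ => fl1 (n i) (cl (n i) (t 0 i ω))) (S.tbs S.L (l j) i) 2 (fun ω hω _ => by
        have e := h1 ω hω
        have e1 : fl1 (n i) (t j i ω) = fl1 (n i) (t 0 i ω) := congrArg Prod.fst e
        rw [e1]
        exact fl1_cl (h2 ω hω).2)
    have h4 : Stk.hc (S.P i) (S.dg n (t j) i) (S.tbs S.L (l j) i) =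
        Stk.hc (S.P i) (fun ω (_ : Unit) => fl1 (n i) (t j i ω)) (S.tbs S.L (l j) i) :=
      Stk.hc_congr _ (fun ω ω' _ _ e => congrFun (congrArg Prod.fst e) ())
        (fun ω ω' _ _ e => funext fun _ => congrArg Prod.fst e)
        (fun ω ω' _ _ e => e) (fun ω ω' _ _ e => e)
    have h5 : Stk.hc (S.P i) (fun ω (_ : Unit) => fl1 (n i) (cl (n i) (t 0 i ω)))
        (S.tbs S.L (l j) i) = Stk.hc (S.P i) (fun ω => fl1 (n i) (cl (n i) (t 0 i ω)))
        (S.tbs S.L (l j) i) :=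
      Stk.hc_congr _ (fun ω ω' _ _ e => funext fun _ => congrArg Prod.fst e)
        (fun ω ω' _ _ e => congrFun (congrArg Prod.fst e) ())
        (fun ω ω' _ _ e => e) (fun ω ω' _ _ e => e)
    rw [h4, ← h5]
    rw [Fintype.card_unit, Nat.cast_one, one_mul] at h3
    linarith
  have e5 : S.h (fun i ω => (fl (n i) (pos (l 0 i ω) (t 0 i ω)),
      fl1 (n i) (cl (n i) (t 0 i ω)))) ≤ S.h (S.pqs n (pt (l 0) (t 0))) := by
    refine hc_le_of_le (Real.log (2 * (2 : ℕ) + 1)) tq (tame_pqs (hl 0) (ht 0) hnL) ?_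
    filter_upwards [ht 0] with i h2
    have h3 := Stk.hc_sub_le (S.P i) (ι := Unit) (fun ω _ => fl1 (n i) (cl (n i) (t 0 i ω)))
      (fun ω _ => fl1 (n i) (t 0 i ω)) (S.pqs n (pt (l 0) (t 0)) i) 2 (fun ω hω _ => by
        rw [abs_sub_comm]
        exact fl1_cl (h2 ω hω).2)
    have h6 : Stk.hc (S.P i) (fun ω (_ : Unit) => fl1 (n i) (t 0 i ω))
        (S.pqs n (pt (l 0) (t 0)) i) = 0 := Stk.hc_zero _ fun ω ω' _ _ e =>
      funext fun _ => congrArg Prod.fst e
    have h4 := Stk.hc_le_add' (S.P i) (fun ω => (fl (n i) (pos (l 0 i ω) (t 0 i ω)),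
      fl1 (n i) (cl (n i) (t 0 i ω)))) (S.pqs n (pt (l 0) (t 0)) i) (one (S := S) i)
    have h5 : Stk.hc (S.P i) (fun ω => (fl (n i) (pos (l 0 i ω) (t 0 i ω)),
      fl1 (n i) (cl (n i) (t 0 i ω)))) (fun ω => (S.pqs n (pt (l 0) (t 0)) i ω, one (S := S) i ω)) ≤
      Stk.hc (S.P i) (fun ω (_ : Unit) => fl1 (n i) (cl (n i) (t 0 i ω)))
        (S.pqs n (pt (l 0) (t 0)) i) := by
      refine (Stk.hc_mono_left _ ?_).trans (Stk.hc_mono_right _ _ ?_)
      · intro ω ω' _ _ e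
        simp only [Prod.mk.injEq] at e
        have e1 : fl1 (n i) (cl (n i) (t 0 i ω)) = fl1 (n i) (cl (n i) (t 0 i ω')) :=
          congrFun e.1 ()
        have e2 : fl (n i) (pos (l 0 i ω) (t 0 i ω)) = fl (n i) (pos (l 0 i ω') (t 0 i ω')) :=
          congrArg Prod.snd e.2.1
        show (_, _) = (_, _)
        rw [e1, e2]
      · intro ω ω' _ _ e
        exact congrArg Prod.fst e
    rw [Fintype.card_unit, Nat.cast_one, one_mul] at h3
    rw [h6] at h3
    linarith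
  have e6 := Finset.sum_le_sum fun j (_ : j ∈ (Finset.univ : Finset (Fin 3))) => e4 j
  linarith

end Vale.Agent.P127.U.Plane
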