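import Vale.Agent.P127.U.TriC
import Vale.Agent.P127.U.Plane

/-!
# P127 / U : planes from a counting bound, with side information (helper611)

`plane_of` : if in every dominated system `h(Z_L | C) ≤ 3 - β - (N + 1) D(L)`, `N ≥ 2`, `β > 0`, then the
directions of the lines through a ball of radius `2^-(1-r) L` lie in a strip of thickness `2^-r L` which is
a function of the ball (and `C`), for all small `r`.
-/

set_option autoImplicit false

namespace Vale.Agent.P127.U.PlaneOf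

open Filter Topology Vale.Agent.P127 Vale.Agent.P127.Stk Sys Vale.Agent.P127.U.Tri
  Vale.Agent.P127.U.Plane

variable {S : Sys} {α γ δ : Type*}

/-- time deficit given the side information -/
noncomputable def Dfc (l : S.RV Ln) (t : S.RV ℝ) (C : S.RV γ) (n : ℕ → ℕ) : ℝ :=
  S.nu n - S.hc (dg n t) (Sys.pr (tbs S.L l) C)

theorem hc_pos_zero_c {l : S.RV Ln} {t : S.RV ℝ} (hl : LnA l) (ht : T01 t) (C : S.RV γ) {n : ℕ → ℕ}
    (hn : ∀ i, n i ≤ S.L i) :
    S.hc (S.pqs n (pt l t)) (Sys.pr (S.dg n t) (Sys.pr (S.tbs S.L l) C)) = 0 := by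
  refine le_antisymm ?_ (hc_nonneg (tame_pqs hl ht hn) _)
  rw [← hc_pos_zero hl ht hn]
  refine hc_mono_right (tame_pqs hl ht hn) (Eventually.of_forall fun i ω ω' _ _ e => ?_)
  simp only [pr_apply, Prod.mk.injEq] at e ⊢
  exact ⟨e.1, e.2.1⟩

theorem coarse_h_c {l : S.RV Ln} {t : S.RV ℝ} (hl : LnA l) (ht : T01 t) (C : S.RV γ) {n : ℕ → ℕ}
    (hn : ∀ i, n i ≤ S.L i) :
    S.hc (S.pqs n (pt l t)) C + S.hc (S.dg S.L t) (Sys.pr (S.tbs S.L l) C) ≤
      S.hc (S.pqs S.L (pt l t)) C + S.hc (S.dg n t) (Sys.pr (S.tbs S.L l) C) := by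
  have hLL : ∀ i, S.L i ≤ S.L i := fun _ => le_rfl
  have tA := tame_pqs hl ht hLL
  have tB := tame_pqs hl ht hn
  have tT := tame_dg ht hLL
  have tT' := tame_dg ht hn
  set A := S.pqs S.L (pt l t) with hA
  set B := S.pqs n (pt l t) with hB
  set T := S.dg S.L t with hT
  set T' := S.dg n t with hT'
  set Y := S.tbs S.L l with hY
  have fBA : Fn B A := Eventually.of_forall fun i ω ω' _ _ e => by
    have e1 : fl1 (S.L i) (t i ω) = fl1 (S.L i) (t i ω') := congrArg Prod.fst e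
    have e2 : fl (S.L i) (pos (l i ω) (t i ω)) = fl (S.L i) (pos (l i ω') (t i ω')) :=
      congrArg Prod.snd e
    show (fl1 (n i) (t i ω), fl (n i) (pos (l i ω) (t i ω))) =
      (fl1 (n i) (t i ω'), fl (n i) (pos (l i ω') (t i ω')))
    rw [fl_of_fl (hn i) _ _ e2]
    have e3 : fl1 (n i) (t i ω) = fl1 (n i) (t i ω') :=
      congrFun (fl_of_fl (ι := Unit) (hn i) (fun _ => t i ω) (fun _ => t i ω')
        (funext fun _ => e1)) ()
    rw [e3]
  have fTA : Fn T A := Eventually.of_forall fun i ω ω' _ _ e => congrArg Prod.fst e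
  have h1 := hc_pair tB tA C
  have h2 : S.hc (Sys.pr B A) C ≤ S.hc A C := by
    refine hc_mono_left tA (tB.pr tA) ?_
    filter_upwards [fBA] with i hi ω ω' hω hω' e
    have e1 : A i ω = A i ω' := congrArg Prod.fst e
    show (B i ω, A i ω) = (B i ω', A i ω')
    rw [e1, hi ω ω' hω hω' e1]
  have h3 : S.hc A (Sys.pr Y (Sys.pr B C)) ≤ S.hc A (Sys.pr B C) := hc_le_cond tA _ _
  have h4 : S.hc T (Sys.pr Y (Sys.pr B C)) ≤ S.hc A (Sys.pr Y (Sys.pr B C)) := by
    refine hc_mono_left tA tT ?_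
    filter_upwards [fTA] with i hi ω ω' hω hω' e
    exact hi ω ω' hω hω' (congrArg Prod.fst e)
  have h5 : S.hc T (Sys.pr Y (Sys.pr B C)) = S.hc T (Sys.pr B (Sys.pr Y C)) :=
    hc_congr (Eventually.of_forall fun _ _ _ _ _ e => congrArg Prod.fst e)
      (Eventually.of_forall fun _ _ _ _ _ e => congrArg Prod.fst e)
      (Eventually.of_forall fun _ _ _ _ _ e => by
        simp only [pr_apply, Prod.mk.injEq] at e ⊢
        exact ⟨e.2.1, e.1, e.2.2⟩)
      (Eventually.of_forall fun _ _ _ _ _ e => by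
        simp only [pr_apply, Prod.mk.injEq] at e ⊢
        exact ⟨e.2.1, e.1, e.2.2⟩)
  have h6 := hc_le_add tT tB (Sys.pr Y C)
  have h7 := hc_le_add tB tT' (Sys.pr Y C)
  have h8 : S.hc B (Sys.pr T' (Sys.pr Y C)) = 0 := hc_pos_zero_c hl ht C hn
  linarith

theorem Dfc_mono {l : S.RV Ln} {t : S.RV ℝ} (ht : T01 t) (C : S.RV γ) {c : ℝ} (hc0 : 0 ≤ c)
    (hc : c ≤ 1) : Dfc l t C (S.sc c) ≤ Dfc l t C S.L := by
  have hLL : ∀ i, S.L i ≤ S.L i := fun _ => le_rfl
  have hn := sc_le S hc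
  unfold Dfc
  rw [Plane.nu_L, nu_sc S hc0]
  have h1 := hc_le_add (tame_dg ht hLL) (tame_dg ht hn) (Sys.pr (S.tbs S.L l) C)
  have h2 : S.hc (S.dg S.L t) (Sys.pr (S.dg (S.sc c) t) (Sys.pr (S.tbs S.L l) C)) ≤ 1 - c := by
    have h3 : Tendsto (fun i => ((S.L i : ℝ) - S.sc c i) / S.L i) (uf : Filter ℕ)
        (𝓝 (1 - c)) := by
      have := (tendsto_const_nhds (x := (1 : ℝ)) (f := (uf : Filter ℕ))).sub (tendsto_sc S hc0)
      refine this.congr' ?_
      filter_upwards [S.L_pos] with i hi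
      have : (0 : ℝ) < S.L i := by exact_mod_cast hi
      field_simp
    rw [← ulim_eq h3]
    refine ulim_le (UB.hc (tame_dg ht hLL) _) (UB.of_tendsto h3) ?_
    filter_upwards [S.nm_pos, S.L_pos] with i hi hL
    have h4 := hc_fl_digits_le (ι := Unit) (S.P i) (hn i) (fun ω _ => t i ω)
      (Sys.pr (S.tbs S.L l) C i)
    have h5 : Stk.hc (S.P i) (S.dg S.L t i)
        (Sys.pr (S.dg (S.sc c) t) (Sys.pr (S.tbs S.L l) C) i) ≤
        Stk.hc (S.P i) (fun ω => fl (S.L i) fun _ : Unit => t i ω)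
          (fun ω => (fl (S.sc c i) (fun _ : Unit => t i ω), Sys.pr (S.tbs S.L l) C i ω)) := by
      refine le_of_eq (Stk.hc_congr _ ?_ ?_ ?_ ?_)
      · intro ω ω' _ _ e
        exact congrFun (congrArg Prod.fst e) ()
      · intro ω ω' _ _ e
        funext _
        exact congrArg Prod.fst e
      · intro ω ω' _ _ e
        have e1 : fl1 (S.sc c i) (t i ω) = fl1 (S.sc c i) (t i ω') :=
          congrFun (congrArg Prod.fst e) ()
        have e2 : Sys.pr (S.tbs S.L l) C i ω = Sys.pr (S.tbs S.L l) C i ω' :=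
          congrArg Prod.snd e
        show (fl1 (S.sc c i) (t i ω), Sys.pr (S.tbs S.L l) C i ω) =
          (fl1 (S.sc c i) (t i ω'), Sys.pr (S.tbs S.L l) C i ω')
        rw [e1, e2]
      · intro ω ω' _ _ e
        have e1 : fl1 (S.sc c i) (t i ω) = fl1 (S.sc c i) (t i ω') := congrArg Prod.fst e
        have e2 : Sys.pr (S.tbs S.L l) C i ω = Sys.pr (S.tbs S.L l) C i ω' :=
          congrArg Prod.snd e
        refine Prod.ext (funext fun _ => e1) e2
    rw [div_le_iff₀ hi]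
    refine (h5.trans h4).trans (le_of_eq ?_)
    have hLr : (0 : ℝ) < S.L i := by exact_mod_cast hL
    rw [Fintype.card_unit, Nat.cast_sub (hn i)]
    unfold Sys.nm
    push_cast
    field_simp
  linarith

theorem Dfc_nonneg {l : S.RV Ln} {t : S.RV ℝ} (ht : T01 t) (C : S.RV γ) :
    0 ≤ Dfc l t C S.L := by
  have h := Dfc_mono (l := l) ht C (le_refl (0 : ℝ)) (by norm_num)
  refine le_trans ?_ h
  unfold Dfc
  rw [nu_sc S le_rfl]
  have h1 : S.hc (S.dg (S.sc 0) t) (Sys.pr (S.tbs S.L l) C) = 0 := by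
    refine hc_zero_of_le (Real.log 2) ?_
    filter_upwards [ht] with i hi
    have := hc_le_log (S.P i) (S.dg (S.sc 0) t i) (Sys.pr (S.tbs S.L l) C i) 2 (fun ω _ => by
      refine ⟨Finset.Icc 0 1, by simp, fun ω' hω' _ => ?_⟩
      have h0 : S.sc 0 i = 0 := by
        unfold Sys.sc
        simp
      rw [Finset.mem_Icc]
      show 0 ≤ ⌊(2 : ℝ) ^ (S.sc 0 i) * t i ω'⌋ ∧ ⌊(2 : ℝ) ^ (S.sc 0 i) * t i ω'⌋ ≤ 1
      rw [h0, pow_zero, one_mul]
      have h2 := hi ω' hω'
      refine ⟨Int.floor_nonneg.2 h2.1, ?_⟩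
      have h3 := Int.floor_le (t i ω')
      have h4 : (⌊t i ω'⌋ : ℝ) ≤ ((1 : ℤ) : ℝ) := by
        push_cast
        linarith
      exact_mod_cast h4)
    exact_mod_cast this
  rw [h1]
  simp

/-- the trilinear inequality at the scale `c L`, with side information -/
theorem three_c (S : Sys) (l : Fin 3 → S.RV Ln) (t : Fin 3 → S.RV ℝ) (C : S.RV γ)
    (hl : ∀ j, LnA (l j)) (ht : ∀ j, T01 (t j)) {c g : ℝ} (hc0 : 0 < c) (hc1 : c ≤ 1) (hg : 0 < g)
    (hgc : g ≤ c)
    (hp : ∀ j, S.Ae fun i ω => S.pqs (S.sc c) (pt (l j) (t j)) i ω =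
      S.pqs (S.sc c) (pt (l 0) (t 0)) i ω)
    (hw : S.Ae fun i ω => (2 : ℝ) ^ (-(g * S.L i)) ≤ |dt (fun j => (l j i ω).2)|) :
    ∑ j, S.hc (S.dg (S.sc c) (t j)) (Sys.pr (S.tbs S.L (l j)) C) ≤
      S.hc (S.pqs (S.sc c) (pt (l 0) (t 0))) C + 33 * √(c * g) := by
  set n := S.sc c with hn
  have hnL : ∀ i, n i ≤ S.L i := sc_le S hc1
  have htop : Tendsto n (uf : Filter ℕ) atTop := sc_top S hc0
  have hlim := tendsto_sc S hc0.le
  have hLL : ∀ i, S.L i ≤ S.L i := fun _ => le_rfl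
  let R : Sys := resc S n htop
  let p : R.RV (Fin 2 → ℝ) := fun i ω => pos (l 0 i ω) (t 0 i ω)
  let τ : R.RV ℝ := fun i ω => cl (n i) (t 0 i ω)
  let x : Fin 3 → R.RV (Fin 2 → ℝ) := fun j i ω => (l j i ω).1
  let y : Fin 3 → R.RV (Fin 2 → ℝ) := fun j i ω => (l j i ω).2
  let lb : Fin 3 → R.RV ((Fin 2 → ℤ) × (Fin 2 → ℤ)) := fun j => S.tbs S.L (l j)
  let C' : R.RV γ := C
  let γ : R.RV ℝ := fun i _ => g * S.L i
  have tτ : Tame (S := S) (fun i ω => fl1 (n i) (cl (n i) (t 0 i ω))) :=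
    tame_fl1 (fun i ω => cl (n i) (t 0 i ω)) 1 hnL (by
      filter_upwards [ht 0] with i hi ω hω
      have h1 := cl_nonneg (n := n i) (hi ω hω).1
      have h2 := cl_lt (n i) (t 0 i ω)
      rw [abs_of_nonneg h1]
      push_cast
      exact h2.le)
  have tp : Tame (S := S) (fun i ω => fl (n i) (pos (l 0 i ω) (t 0 i ω))) :=
    tame_pos (hl 0) (ht 0) hnL
  have tq : Tame (S := S) (fun i ω => (fl (n i) (pos (l 0 i ω) (t 0 i ω)),
      fl1 (n i) (cl (n i) (t 0 i ω)))) := tp.pr tτ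
  have hq : Sys.Tame (S := R) (fun i ω => (fl (R.L i) (p i ω), fl1 (R.L i) (τ i ω))) :=
    resc_tame S htop hc0 hlim tq
  have hLn : Tendsto (fun i => g * (S.L i : ℝ) / n i) (uf : Filter ℕ) (𝓝 (g / c)) := by
    have h1 := (tendsto_const_nhds (x := g) (f := (uf : Filter ℕ))).div hlim hc0.ne'
    refine h1.congr' ?_
    filter_upwards [S.L_pos, htop.eventually_gt_atTop 0] with i hi hni
    have hLr : (0 : ℝ) < S.L i := by exact_mod_cast hi
    have hnr : (0 : ℝ) < n i := by exact_mod_cast hni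
    show g / ((n i : ℝ) / S.L i) = _
    field_simp
  have hav : R.av γ = g / c := by
    refine ulim_eq (hLn.congr' ?_)
    refine Eventually.of_forall fun i => ?_
    show g * (S.L i : ℝ) / n i = (S.P i).ex (fun _ => g * S.L i) / n i
    rw [(S.P i).ex_const]
  have hγ : Sys.OL γ := by
    refine ⟨g / c + 1, ?_⟩
    filter_upwards [hLn.eventually (gt_mem_nhds (lt_add_one (g / c))),
      htop.eventually_gt_atTop 0] with i hi hni ω _
    have hnr : (0 : ℝ) < n i := by exact_mod_cast hni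
    show |g * (S.L i : ℝ)| ≤ (g / c + 1) * n i
    rw [abs_of_nonneg (by positivity)]
    rw [div_lt_iff₀ hnr] at hi
    exact hi.le
  have hok : ∀ᶠ i in (uf : Filter ℕ), Ok (R.P i) (R.L i) 3 (p i) (τ i) (fun j => x j i)
      (fun j => y j i) (fun j => lb j i) (γ i) := by
    have hp' : ∀ᶠ i in (uf : Filter ℕ), ∀ j ω, 0 < (S.P i).w ω →
        S.pqs n (pt (l j) (t j)) i ω = S.pqs n (pt (l 0) (t 0)) i ω := by
      rw [eventually_all]
      intro j
      exact hp j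
    have hl' : ∀ᶠ i in (uf : Filter ℕ), ∀ j ω, 0 < (S.P i).w ω → LnOk (l j i ω) := by
      rw [eventually_all]
      intro j
      exact hl j
    have ht' : ∀ᶠ i in (uf : Filter ℕ), ∀ j ω, 0 < (S.P i).w ω → 0 ≤ t j i ω ∧ t j i ω ≤ 1 := by
      rw [eventually_all]
      intro j
      exact ht j
    filter_upwards [hp', hl', ht', hw] with i h1 h2 h3 h4
    refine ⟨?_, ?_, ?_, ?_, ?_, ?_, ?_⟩
    · intro ω hω
      exact cl_nonneg (h3 0 ω hω).1
    · intro ω _
      exact cl_lt _ _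
    · intro j ω hω k
      exact (h2 j ω hω).2 k
    · intro j ω hω k
      have e := h1 j ω hω
      have e1 : fl1 (n i) (t j i ω) = fl1 (n i) (t 0 i ω) := congrArg Prod.fst e
      have e2 : fl (n i) (pos (l j i ω) (t j i ω)) = fl (n i) (pos (l 0 i ω) (t 0 i ω)) :=
        congrArg Prod.snd e
      have g1 := Stk.Bs.fl1_close e1
      have g2 := Stk.Bs.fl_close e2 k
      have g3 := cl_close (n := n i) (h3 0 ω hω).2
      have g4 := (h2 j ω hω).2 k
      show |pos (l 0 i ω) (t 0 i ω) k - ((l j i ω).1 k + cl (n i) (t 0 i ω) * (l j i ω).2 k)| ≤ _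
      have e3 : pos (l 0 i ω) (t 0 i ω) k -
          ((l j i ω).1 k + cl (n i) (t 0 i ω) * (l j i ω).2 k) =
          -(pos (l j i ω) (t j i ω) k - pos (l 0 i ω) (t 0 i ω) k) +
            ((t j i ω - t 0 i ω) * (l j i ω).2 k +
              (t 0 i ω - cl (n i) (t 0 i ω)) * (l j i ω).2 k) := by
        unfold pos
        ring
      rw [e3]
      have a1 := abs_add_le (-(pos (l j i ω) (t j i ω) k - pos (l 0 i ω) (t 0 i ω) k))
            ((t j i ω - t 0 i ω) * (l j i ω).2 k +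
              (t 0 i ω - cl (n i) (t 0 i ω)) * (l j i ω).2 k)
      have a2 := abs_add_le ((t j i ω - t 0 i ω) * (l j i ω).2 k)
              ((t 0 i ω - cl (n i) (t 0 i ω)) * (l j i ω).2 k)
      rw [abs_neg] at a1
      rw [abs_mul, abs_mul] at a2
      have a3 : |t j i ω - t 0 i ω| * |(l j i ω).2 k| ≤ (1 / 2) ^ (n i) * 1 :=
        mul_le_mul g1 g4 (abs_nonneg _) (by positivity)
      have a4 : |t 0 i ω - cl (n i) (t 0 i ω)| * |(l j i ω).2 k| ≤ (1 / 2) ^ (n i) * 1 :=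
        mul_le_mul g3 g4 (abs_nonneg _) (by positivity)
      show _ ≤ ((3 : ℕ) : ℝ) * (1 / 2) ^ (n i)
      push_cast
      linarith
    · intro j ω ω' _ _ e k
      have e1 : fl (S.L i) (l j i ω).1 = fl (S.L i) (l j i ω').1 := congrArg Prod.fst e
      have g1 := Stk.Bs.fl_close e1 k
      have g2 := half_mono (hnL i)
      show _ ≤ ((3 : ℕ) : ℝ) * (1 / 2) ^ (n i)
      push_cast
      have : (0 : ℝ) < (1 / 2) ^ (n i) := by positivity
      linarith
    · intro j ω ω' _ _ e k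
      have e1 : fl (S.L i) (l j i ω).2 = fl (S.L i) (l j i ω').2 := congrArg Prod.snd e
      have g1 := Stk.Bs.fl_close e1 k
      have g2 := half_mono (hnL i)
      show _ ≤ ((3 : ℕ) : ℝ) * (1 / 2) ^ (n i)
      push_cast
      have : (0 : ℝ) < (1 / 2) ^ (n i) := by positivity
      linarith
    · intro ω hω
      exact h4 ω hω
  have hgc' : g / c ≤ 1 := (div_le_one hc0).2 hgc
  have main := tri_sys_c R 3 C' hq hγ hok (by rw [hav]; positivity) (by rw [hav]; exact hgc')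
  rw [hav] at main
  have e1 : ∀ j, R.hc (fun i ω => fl1 (R.L i) (τ i ω)) (Sys.pr (lb j) C') =
      S.hc (fun i ω => fl1 (n i) (cl (n i) (t 0 i ω))) (Sys.pr (S.tbs S.L (l j)) C) / c :=
    fun j => resc_hc S htop hc0 hlim tτ _
  have e2 : R.hc (fun i ω => (fl (R.L i) (p i ω), fl1 (R.L i) (τ i ω))) C' =
      S.hc (fun i ω => (fl (n i) (pos (l 0 i ω) (t 0 i ω)), fl1 (n i) (cl (n i) (t 0 i ω)))) C / c :=
    resc_hc S htop hc0 hlim tq C
  rw [e2, Finset.sum_congr rfl fun j _ => e1 j, ← Finset.sum_div] at main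
  have e3 : 33 * √(g / c) = 33 * √(c * g) / c := by
    have : g / c = c * g / c ^ 2 := by field_simp
    rw [this, Real.sqrt_div' _ (by positivity), Real.sqrt_sq hc0.le]
    ring
  rw [e3, ← add_div, div_le_div_iff_of_pos_right hc0] at main
  have e4 : ∀ j, S.hc (S.dg n (t j)) (Sys.pr (S.tbs S.L (l j)) C) ≤
      S.hc (fun i ω => fl1 (n i) (cl (n i) (t 0 i ω))) (Sys.pr (S.tbs S.L (l j)) C) := by
    intro j
    refine hc_le_of_le (Real.log (2 * (2 : ℕ) + 1)) (tame_dg (ht j) hnL) tτ ?_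
    filter_upwards [hp j, ht 0] with i h1 h2
    have h3 := Stk.hc_sub_le (S.P i) (ι := Unit) (fun ω _ => fl1 (n i) (t j i ω))
      (fun ω _ => fl1 (n i) (cl (n i) (t 0 i ω))) (Sys.pr (S.tbs S.L (l j)) C i) 2
      (fun ω hω _ => by
        have e := h1 ω hω
        have e1 : fl1 (n i) (t j i ω) = fl1 (n i) (t 0 i ω) := congrArg Prod.fst e
        rw [e1]
        exact fl1_cl (h2 ω hω).2)
    have h4 : Stk.hc (S.P i) (S.dg n (t j) i) (Sys.pr (S.tbs S.L (l j)) C i) =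
        Stk.hc (S.P i) (fun ω (_ : Unit) => fl1 (n i) (t j i ω))
          (Sys.pr (S.tbs S.L (l j)) C i) :=
      Stk.hc_congr _ (fun ω ω' _ _ e => congrFun (congrArg Prod.fst e) ())
        (fun ω ω' _ _ e => funext fun _ => congrArg Prod.fst e)
        (fun ω ω' _ _ e => e) (fun ω ω' _ _ e => e)
    have h5 : Stk.hc (S.P i) (fun ω (_ : Unit) => fl1 (n i) (cl (n i) (t 0 i ω)))
        (Sys.pr (S.tbs S.L (l j)) C i) =
        Stk.hc (S.P i) (fun ω => fl1 (n i) (cl (n i) (t 0 i ω)))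
        (Sys.pr (S.tbs S.L (l j)) C i) :=
      Stk.hc_congr _ (fun ω ω' _ _ e => funext fun _ => congrArg Prod.fst e)
        (fun ω ω' _ _ e => congrFun (congrArg Prod.fst e) ())
        (fun ω ω' _ _ e => e) (fun ω ω' _ _ e => e)
    rw [h4, ← h5]
    rw [Fintype.card_unit, Nat.cast_one, one_mul] at h3
    linarith
  have e5 : S.hc (fun i ω => (fl (n i) (pos (l 0 i ω) (t 0 i ω)),
      fl1 (n i) (cl (n i) (t 0 i ω)))) C ≤ S.hc (S.pqs n (pt (l 0) (t 0))) C := by
    refine hc_le_of_le (Real.log (2 * (2 : ℕ) + 1)) tq (tame_pqs (hl 0) (ht 0) hnL) ?_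
    filter_upwards [ht 0] with i h2
    have h3 := Stk.hc_sub_le (S.P i) (ι := Unit) (fun ω _ => fl1 (n i) (cl (n i) (t 0 i ω)))
      (fun ω _ => fl1 (n i) (t 0 i ω)) (S.pqs n (pt (l 0) (t 0)) i) 2 (fun ω hω _ => by
        rw [abs_sub_comm]
        exact fl1_cl (h2 ω hω).2)
    have h6 : Stk.hc (S.P i) (fun ω (_ : Unit) => fl1 (n i) (t 0 i ω))
        (S.pqs n (pt (l 0) (t 0)) i) = 0 := Stk.hc_zero _ fun ω ω' _ _ e =>
      funext fun _ => congrArg Prod.fst e
    have h4 := Stk.hc_le_add' (S.P i) (fun ω => (fl (n i) (pos (l 0 i ω) (t 0 i ω)),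
      fl1 (n i) (cl (n i) (t 0 i ω)))) (S.pqs n (pt (l 0) (t 0)) i) (C i)
    have h5 : Stk.hc (S.P i) (fun ω => (fl (n i) (pos (l 0 i ω) (t 0 i ω)),
      fl1 (n i) (cl (n i) (t 0 i ω)))) (fun ω => (S.pqs n (pt (l 0) (t 0)) i ω, C i ω)) ≤
      Stk.hc (S.P i) (fun ω (_ : Unit) => fl1 (n i) (cl (n i) (t 0 i ω)))
        (S.pqs n (pt (l 0) (t 0)) i) := by
      refine (Stk.hc_mono_left _ ?_).trans (Stk.hc_mono_right _ _ ?_)
      · intro ω ω' _ _ e
        simp only [Prod.mk.injEq] at e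
        have e1 : fl1 (n i) (cl (n i) (t 0 i ω)) = fl1 (n i) (cl (n i) (t 0 i ω')) :=
          congrFun e.1 ()
        have e2 : fl (n i) (pos (l 0 i ω) (t 0 i ω)) = fl (n i) (pos (l 0 i ω') (t 0 i ω')) :=
          congrArg Prod.snd e.2.1
        show (_, _) = (_, _)
        rw [e1, e2]
      · intro ω ω' _ _ e
        exact congrArg Prod.fst e
    rw [Fintype.card_unit, Nat.cast_one, one_mul] at h3
    rw [h6] at h3
    linarith
  have e6 := Finset.sum_le_sum fun j (_ : j ∈ (Finset.univ : Finset (Fin 3))) => e4 j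
  linarith

/-! ### dominated systems -/

theorem dmn_ae {S S' : Sys} (d : Dmn S' S) {p : ∀ i, S.Ω i → Prop} (h : S.Ae p) :
    S'.Ae fun i ω => p i (d.π i ω) := by
  filter_upwards [h, d.dom] with i hi hd ω hω
  refine hi _ ?_
  have h1 : 0 < (S'.P i).pr (d.π i) (d.π i ω) := (S'.P i).pr_pos (d.π i) hω
  have h2 := hd (d.π i ω)
  rcases ((S.P i).nn (d.π i ω)).eq_or_lt with h0 | h0
  · rw [← h0, mul_zero] at h2
    linarith
  · exact h0

theorem dmn_ln {S S' : Sys} (d : Dmn S' S) {l : S.RV Ln} (h : LnA l) : LnA (d.pull l) :=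
  dmn_ae d h

theorem dmn_t {S S' : Sys} (d : Dmn S' S) {t : S.RV ℝ} (h : T01 t) : T01 (d.pull t) :=
  dmn_ae d h

/-- the counting hypothesis, stable under domination -/
def Cnt (N β : ℝ) (S : Sys) (l : S.RV Ln) (t : S.RV ℝ) (C : S.RV γ) : Prop :=
  ∀ (S' : Sys) (d : Dmn S' S), S'.hc (S'.pqs S'.L (pt (d.pull l) (d.pull t))) (d.pull C) ≤
    3 - β - (N + 1) * Dfc (d.pull l) (d.pull t) (d.pull C) S'.L

/-- the probability of a macroscopic wedge tends to zero -/
theorem wedge_small_c {N β : ℝ} (hN : 2 ≤ N) (hβ : 0 < β) {S : Sys} {l : S.RV Ln} {t : S.RV ℝ}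
    {C : S.RV γ} (hl : LnA l) (ht : T01 t) (hX : Cnt N β S l t C) {r : ℝ} (hr : 0 < r)
    (hr1 : r < 1) (hrβ : r ≤ β / 8) {g : ℝ} (hg : g = (β / 132) ^ 2) (hgr : g ≤ 1 - r)
    (Q : ∀ i, Law (Fin (2 + 1) → S.Ω i))
    (hQ : ∀ i w, (Q i).w w =
      cw (S.P i) (Sys.pr (S.pqs (S.sc (1 - r)) (pt l t)) C i) 2 w) :
    Tendsto (fun i => prE (Q i) fun w => ((2 : ℝ) ^ (-(g / 2 * S.L i))) ^ 2 <
      |dt (fun j => (l i (w j)).2)|) (uf : Filter ℕ) (𝓝 0) := by
  set c := 1 - r with hc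
  have hc0 : 0 < c := by rw [hc]; linarith
  have hc1 : c ≤ 1 := by rw [hc]; linarith
  have hg0 : 0 < g := by rw [hg]; positivity
  set E : ∀ i, (Fin (2 + 1) → S.Ω i) → Prop := fun i w =>
    ((2 : ℝ) ^ (-(g / 2 * S.L i))) ^ 2 < |dt (fun j => (l i (w j)).2)| with hE
  have hub : UB fun i => prE (Q i) (E i) :=
    UB.of_le (C := 1) (Eventually.of_forall fun i => prE_nonneg _ _)
      (Eventually.of_forall fun i => prE_le_one _ _)
  have hten := hub.tendsto
  have he0 : 0 ≤ ulim fun i => prE (Q i) (E i) :=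
    const_le_ulim hub (Eventually.of_forall fun i => prE_nonneg _ _)
  rcases he0.eq_or_lt with h0 | h0
  · rw [← h0] at hten
    exact hten
  exfalso
  set e := ulim fun i => prE (Q i) (E i) with hedef
  have hbig : ∀ᶠ i in (uf : Filter ℕ), e / 2 ≤ prE (Q i) (E i) := by
    filter_upwards [lt_ulim_eventually hub (half_lt_self h0)] with i hi
    exact hi.le
  have he2 : 0 < e / 2 := by linarith
  let S' : Sys := ⟨fun i => Fin (2 + 1) → S.Ω i, fun _ => inferInstance,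
    fun i => on (Q i) (E i), S.L, S.Ltop⟩
  let d : Fin (2 + 1) → Dmn S' S := fun j => ⟨fun i w => w j, rfl, 1 / (e / 2) * 1, by
    filter_upwards [hbig] with i hi
    have h1 : Dom (on (Q i) (E i)) id (Q i) (1 / (e / 2)) := Dom.on he2 hi
    have h2 : Dom (Q i) (fun w : Fin (2 + 1) → S.Ω i => w j) (S.P i) 1 := by
      intro ω
      rw [cw_marg (hQ i) j ω, one_mul]
    exact h1.comp h2⟩
  have hXj : ∀ j, S'.hc (S'.pqs S'.L (pt ((d j).pull l) ((d j).pull t))) ((d j).pull C) ≤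
      3 - β - (N + 1) * Dfc ((d j).pull l) ((d j).pull t) ((d j).pull C) S'.L := fun j =>
    hX S' (d j)
  have hlj := fun j => dmn_ln (d j) hl
  have htj := fun j => dmn_t (d j) ht
  have hsupp : ∀ᶠ i in (uf : Filter ℕ), ∀ w, 0 < (S'.P i).w w →
      E i w ∧ ∀ j, (S.pqs (S.sc c) (pt l t) i (w j) = S.pqs (S.sc c) (pt l t) i (w 0) ∧
        C i (w j) = C i (w 0)) := by
    filter_upwards [hbig] with i hi w hw
    have h1 := on_pos (he2.trans_le hi) hw
    refine ⟨h1.1, fun j => ?_⟩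
    have h2 := (cw_supp (hQ i) h1.2).1 j
    exact ⟨congrArg Prod.fst h2, congrArg Prod.snd h2⟩
  have hp : ∀ j, S'.Ae fun i w =>
      S'.pqs (S'.sc c) (pt ((d j).pull l) ((d j).pull t)) i w =
        S'.pqs (S'.sc c) (pt ((d 0).pull l) ((d 0).pull t)) i w := by
    intro j
    filter_upwards [hsupp] with i hi w hw
    exact ((hi w hw).2 j).1
  have hC : ∀ j, S'.Ae fun i w => (d j).pull C i w = (d 0).pull C i w := by
    intro j
    filter_upwards [hsupp] with i hi w hw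
    exact ((hi w hw).2 j).2
  have hw : S'.Ae fun i w => (2 : ℝ) ^ (-(g * S'.L i)) ≤
      |dt (fun j => ((d j).pull l i w).2)| := by
    filter_upwards [hsupp] with i hi w hw
    have h1 := (hi w hw).1
    refine le_trans (le_of_eq ?_) h1.le
    rw [← Real.rpow_natCast, ← Real.rpow_mul (by norm_num)]
    congr 1
    push_cast
    show -(g * (S.L i : ℝ)) = _
    ring
  have hthree := three_c S' (fun j => (d j).pull l) (fun j => (d j).pull t) ((d 0).pull C)
    hlj htj hc0 hc1 hg0 hgr hp hw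
  have hn := sc_le S' hc1
  have hco := fun j => coarse_h_c (hlj j) (htj j) ((d j).pull C) hn
  have hD1 := fun j => Dfc_mono (l := (d j).pull l) (htj j) ((d j).pull C) hc0.le hc1
  have hD0 := fun j => Dfc_nonneg (l := (d j).pull l) (htj j) ((d j).pull C)
  have hh : ∀ j, S'.hc (S'.pqs (S'.sc c) (pt ((d j).pull l) ((d j).pull t))) ((d j).pull C) =
      S'.hc (S'.pqs (S'.sc c) (pt ((d 0).pull l) ((d 0).pull t))) ((d 0).pull C) := by
    intro j
    refine hc_congr ?_ ?_ ?_ ?_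
    · filter_upwards [hp j] with i hi w w' hw hw' e
      rw [hi w hw, hi w' hw']
      exact congrArg Prod.fst e
    · filter_upwards [hp j] with i hi w w' hw hw' e
      have := congrArg Prod.fst e
      simp only [pr_apply] at this
      rw [hi w hw, hi w' hw'] at this
      exact this
    · filter_upwards [hC j] with i hi w w' hw hw' e
      rw [hi w hw, hi w' hw']
      exact e
    · filter_upwards [hC j] with i hi w w' hw hw' e
      rw [hi w hw, hi w' hw'] at e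
      exact e
  have hCj : ∀ j, S'.hc (S'.dg (S'.sc c) ((d j).pull t))
      (Sys.pr (S'.tbs S'.L ((d j).pull l)) ((d 0).pull C)) =
      S'.hc (S'.dg (S'.sc c) ((d j).pull t))
        (Sys.pr (S'.tbs S'.L ((d j).pull l)) ((d j).pull C)) := by
    intro j
    refine hc_congr (Eventually.of_forall fun _ _ _ _ _ e => congrArg Prod.fst e)
      (Eventually.of_forall fun _ _ _ _ _ e => congrArg Prod.fst e) ?_ ?_
    · filter_upwards [hC j] with i hi w w' hw hw' e
      simp only [pr_apply, Prod.mk.injEq] at e ⊢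
      rw [hi w hw, hi w' hw'] at e
      exact e
    · filter_upwards [hC j] with i hi w w' hw hw' e
      simp only [pr_apply, Prod.mk.injEq] at e ⊢
      rw [hi w hw, hi w' hw']
      exact e
  have hDc : ∀ j, S'.hc (S'.dg (S'.sc c) ((d j).pull t))
      (Sys.pr (S'.tbs S'.L ((d j).pull l)) ((d j).pull C)) =
      c - Dfc ((d j).pull l) ((d j).pull t) ((d j).pull C) (S'.sc c) := by
    intro j
    unfold Dfc
    rw [nu_sc S' hc0.le]
    ring
  have hDL : ∀ j, S'.hc (S'.dg S'.L ((d j).pull t))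
      (Sys.pr (S'.tbs S'.L ((d j).pull l)) ((d j).pull C)) =
      1 - Dfc ((d j).pull l) ((d j).pull t) ((d j).pull C) S'.L := by
    intro j
    unfold Dfc
    rw [Plane.nu_L]
    ring
  have hsq : √(c * g) ≤ β / 132 := by
    have h1 : c * g ≤ (β / 132) ^ 2 := by
      rw [← hg]
      nlinarith
    calc √(c * g) ≤ √((β / 132) ^ 2) := Real.sqrt_le_sqrt h1
      _ = β / 132 := Real.sqrt_sq (by positivity)
  rw [Fin.sum_univ_three] at hthree
  simp only [hCj, hDc] at hthree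
  have hND : ∀ j, 2 * Dfc ((d j).pull l) ((d j).pull t) ((d j).pull C) S'.L ≤
      N * Dfc ((d j).pull l) ((d j).pull t) ((d j).pull C) S'.L := fun j =>
    mul_le_mul_of_nonneg_right hN (hD0 j)
  have key : ∀ j, S'.hc (S'.pqs (S'.sc c) (pt ((d 0).pull l) ((d 0).pull t))) ((d 0).pull C) ≤
      2 + c - β - N * Dfc ((d j).pull l) ((d j).pull t) ((d j).pull C) S'.L -
        Dfc ((d j).pull l) ((d j).pull t) ((d j).pull C) (S'.sc c) := by
    intro j
    have h1 := hco j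
    rw [hDc j, hDL j, hh j] at h1
    have h2 := hXj j
    linarith
  have k0 := key 0
  have k1 := key 1
  have k2 := key 2
  have m0 := hND 0
  have m1 := hND 1
  have m2 := hND 2
  have n0 := hD1 0
  have n1 := hD1 1
  have n2 := hD1 2
  linarith

/-- **planes from a counting bound**, with side information -/
theorem plane_of {N β : ℝ} (hN : 2 ≤ N) (hβ : 0 < β) {S : Sys} {l : S.RV Ln} {t : S.RV ℝ}
    {C : S.RV γ} (hl : LnA l) (ht : T01 t) (hX : Cnt N β S l t C) :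
    ∃ r₀ : ℝ, 0 < r₀ ∧ r₀ < 1 ∧ ∀ r : ℝ, 0 < r → r ≤ r₀ →
    ∃ θ : S.RV ℝ, (S.Ae fun i ω => |θ i ω| ≤ 4) ∧
      (∀ i ω ω', S.pqs (S.sc (1 - r)) (pt l t) i ω = S.pqs (S.sc (1 - r)) (pt l t) i ω' →
        C i ω = C i ω' → θ i ω = θ i ω') ∧
      S.hc (fun i ω => (fl1 (S.sc r i) (θ i ω),
        fl1 (S.sc r i) (co (qa (S.sc r i) (θ i ω)) (dir l i ω) 1)))
        (Sys.pr (S.pqs (S.sc (1 - r)) (pt l t)) C) = 0 := by
  -- reduce `β` to `β ≤ 1`
  wlog hβ1 : β ≤ 1 generalizing β with H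
  · refine H (β := 1) one_pos (fun S' d => (hX S' d).trans ?_) le_rfl
    push Not at hβ1
    linarith
  set g : ℝ := (β / 132) ^ 2 with hg
  have hg0 : 0 < g := by positivity
  have hg1 : g ≤ 1 / 2 := by
    rw [hg]
    nlinarith
  refine ⟨min (1 / 2) (min (β / 8) (g / 2)), by positivity,
    (min_le_left _ _).trans_lt (by norm_num), fun r hr hr0 => ?_⟩
  have hr1 : r ≤ 1 / 2 := hr0.trans (min_le_left _ _)
  have hrβ : r ≤ β / 8 := hr0.trans ((min_le_right _ _).trans (min_le_left _ _))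
  have hrg : r ≤ g / 2 := hr0.trans ((min_le_right _ _).trans (min_le_right _ _))
  choose Q hQ using fun i => Stk.cw_exists (S.P i) (Sys.pr (S.pqs (S.sc (1 - r)) (pt l t)) C i) 2
  have hsmall := wedge_small_c hN hβ hl ht hX hr (by linarith) hrβ hg (by linarith) Q hQ
  set κ : ℕ → ℝ := fun i => (2 : ℝ) ^ (-(g / 2 * S.L i)) with hκ
  have hκ0 : ∀ i, 0 < κ i := fun i => Real.rpow_pos_of_pos (by norm_num) _
  set e : ℕ → ℝ := fun i => prE (Q i) fun w => (κ i) ^ 2 < |dt (fun j => (l i (w j)).2)| with he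
  have he0 : ∀ i, 0 ≤ e i := fun i => prE_nonneg _ _
  set a : ℕ → ℝ := fun i => √(e i) + 1 / ((S.L i : ℝ) + 1) with ha
  have ha0 : ∀ i, 0 < a i := fun i => by
    have : (0 : ℝ) ≤ S.L i := Nat.cast_nonneg _
    have h1 : 0 < 1 / ((S.L i : ℝ) + 1) := by positivity
    have := Real.sqrt_nonneg (e i)
    show 0 < √(e i) + 1 / ((S.L i : ℝ) + 1)
    linarith
  have hkey : ∀ i, ∃ (θ : (ℤ × (Fin 2 → ℤ)) × γ → ℝ) (s : (ℤ × (Fin 2 → ℤ)) × γ → Fin 2 → ℝ),
      (∀ b, |θ b| ≤ 4) ∧ (∀ b k, |s b k| ≤ 1) ∧ ((∀ ω, 0 < (S.P i).w ω → LnOk (l i ω)) →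
        prE (S.P i) (fun ω => κ i < |co (θ (Sys.pr (S.pqs (S.sc (1 - r)) (pt l t)) C i ω))
          (fun k => (l i ω).2 k - s (Sys.pr (S.pqs (S.sc (1 - r)) (pt l t)) C i ω) k) 1|) ≤
            a i + e i / a i) := by
    intro i
    by_cases h : ∀ ω, 0 < (S.P i).w ω → LnOk (l i ω)
    · obtain ⟨θ, s, h1, h2, h3⟩ := strip (S.P i) (Sys.pr (S.pqs (S.sc (1 - r)) (pt l t)) C i)
        (fun ω => (l i ω).2) (hQ i) (fun ω hω k => (h ω hω).2 k) (hκ0 i) (ha0 i)
      exact ⟨θ, s, h1, h2, fun _ => h3⟩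
    · exact ⟨fun _ => 0, fun _ _ => 0, fun _ => by norm_num, fun _ _ => by norm_num,
        fun h' => absurd h' h⟩
  choose θ s h1 h2 h3 using hkey
  refine ⟨fun i ω => θ i (Sys.pr (S.pqs (S.sc (1 - r)) (pt l t)) C i ω),
    Eventually.of_forall fun i ω _ => h1 i _, fun i ω ω' e1 e2 => ?_, ?_⟩
  · show θ i (S.pqs (S.sc (1 - r)) (pt l t) i ω, C i ω) =
      θ i (S.pqs (S.sc (1 - r)) (pt l t) i ω', C i ω')
    rw [e1, e2]
  have hLtop := Lr_top S
  have t1 : Tendsto (fun i => 2 * √(e i) + 1 / ((S.L i : ℝ) + 1)) (uf : Filter ℕ) (𝓝 0) := by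
    have g1 : Tendsto (fun i => √(e i)) (uf : Filter ℕ) (𝓝 0) := by
      have := hsmall.sqrt
      rwa [Real.sqrt_zero] at this
    have g2 : Tendsto (fun i => 1 / ((S.L i : ℝ) + 1)) (uf : Filter ℕ) (𝓝 0) :=
      (tendsto_atTop_add_const_right _ 1 hLtop).const_div_atTop 1
    have := (g1.const_mul 2).add g2
    simpa using this
  have t2 : Tendsto (fun i => (Real.log 2 + Real.log 13) / S.nm i +
      10 * (2 * √(e i) + 1 / ((S.L i : ℝ) + 1))) (uf : Filter ℕ) (𝓝 0) := by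
    have := (S.const_div_nm (Real.log 2 + Real.log 13)).add (t1.const_mul 10)
    simpa using this
  refine ulim_eq (squeeze_zero' ?_ ?_ t2)
  · filter_upwards [S.nm_pos] with i hi
    exact div_nonneg (Stk.hc_nonneg _ _ _) hi.le
  · filter_upwards [S.nm_pos, S.L_pos, hl] with i hi hL hl
    have hLr : (1 : ℝ) ≤ S.L i := by exact_mod_cast hL
    have hm : S.sc r i ≤ S.L i := sc_le S (by linarith) i
    have hmr : (S.sc r i : ℝ) ≤ r * S.L i := Nat.floor_le (by positivity)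
    have hκm : κ i ≤ (1 / 2 : ℝ) ^ (S.sc r i) := by
      have e1 : (1 / 2 : ℝ) ^ (S.sc r i) = (2 : ℝ) ^ (-(S.sc r i : ℝ)) := by
        rw [Real.rpow_neg (by norm_num), Real.rpow_natCast, one_div, inv_pow]
      rw [e1, hκ]
      refine Real.rpow_le_rpow_of_exponent_le (by norm_num) ?_
      have : r * S.L i ≤ g / 2 * S.L i := mul_le_mul_of_nonneg_right hrg (by positivity)
      linarith
    have hy : ∀ ω, 0 < (S.P i).w ω → ∀ k, |(l i ω).2 k| ≤ 1 := fun ω hω k => (hl ω hω).2 k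
    have hfin := strip_hc (S.P i) (Sys.pr (S.pqs (S.sc (1 - r)) (pt l t)) C i)
      (fun ω => (l i ω).2) hy (S.sc r i) hκm (θ i) (s i) (h1 i) (h2 i)
    have hbad := h3 i hl
    set B := prE (S.P i) (fun ω => κ i < |co (θ i (Sys.pr (S.pqs (S.sc (1 - r)) (pt l t)) C i ω))
          (fun k => (l i ω).2 k - s i (Sys.pr (S.pqs (S.sc (1 - r)) (pt l t)) C i ω) k) 1|)
      with hB
    have hB0 : 0 ≤ B := prE_nonneg _ _
    have hB1 : B ≤ 2 * √(e i) + 1 / ((S.L i : ℝ) + 1) := by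
      refine hbad.trans ?_
      have g1 : e i / a i ≤ √(e i) := by
        rw [div_le_iff₀ (ha0 i)]
        have g2 : √(e i) * √(e i) = e i := Real.mul_self_sqrt (he0 i)
        have g3 : √(e i) ≤ a i := by
          have : 0 ≤ 1 / ((S.L i : ℝ) + 1) := by positivity
          show √(e i) ≤ √(e i) + 1 / ((S.L i : ℝ) + 1)
          linarith
        nlinarith [Real.sqrt_nonneg (e i)]
      have g4 : a i = √(e i) + 1 / ((S.L i : ℝ) + 1) := rfl
      linarith
    have hlog : 0 < Real.log 2 := Real.log_pos (by norm_num)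
    have hnm : S.nm i = (S.L i : ℝ) * Real.log 2 := rfl
    rw [div_le_iff₀ hi, add_mul, div_mul_cancel₀ _ hi.ne']
    refine hfin.trans ?_
    have g5 : B * (2 * ((S.sc r i : ℝ) + 4) * Real.log 2) ≤
        (2 * √(e i) + 1 / ((S.L i : ℝ) + 1)) * (10 * (S.L i : ℝ) * Real.log 2) := by
      have g6 : (S.sc r i : ℝ) ≤ S.L i := by exact_mod_cast hm
      have g7 : 2 * ((S.sc r i : ℝ) + 4) * Real.log 2 ≤ 10 * (S.L i : ℝ) * Real.log 2 := by
        refine mul_le_mul_of_nonneg_right ?_ hlog.le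
        linarith
      exact mul_le_mul hB1 g7 (by positivity) (hB0.trans hB1)
    rw [hnm]
    linarith [g5, (by ring : (2 * √(e i) + 1 / ((S.L i : ℝ) + 1)) *
      (10 * (S.L i : ℝ) * Real.log 2) = 10 * (2 * √(e i) + 1 / ((S.L i : ℝ) + 1)) *
      ((S.L i : ℝ) * Real.log 2))]

end Vale.Agent.P127.U.PlaneOf
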