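import Vale.Agent.P127.U.Ent

/-!
# P127 / U / SHIFT, part A (helper172): two independences imply shift invariance

`A`, `B` are discrete approximations (up to `c`) of the positions `X`, `X + f(E)`.  If `E` is nearly
independent of `A` and nearly independent of `B`, then the law of `A` is nearly invariant under the
translations `f e₁ - f e₂` for most pairs of independent values `e₁, e₂` of `E`.
-/

set_option autoImplicit false

namespace Vale.Agent.P127.U.Shift

open Finset Vale.Agent.P127 Vale.Agent.P127.Stk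

variable {Ω : Type} [Fintype Ω] {S T U : Type*}

/-- probability of an event -/
noncomputable def ev (P : Law Ω) (p : Ω → Prop) : ℝ := P.ex fun ω => Law.ind (p ω)

lemma ind_nonneg (p : Prop) : 0 ≤ Law.ind p := by
  unfold Law.ind
  split_ifs <;> norm_num

lemma ind_le_one (p : Prop) : Law.ind p ≤ 1 := by
  unfold Law.ind
  split_ifs <;> norm_num

lemma ind_mono {p q : Prop} (h : p → q) : Law.ind p ≤ Law.ind q := by
  by_cases hp : p
  · rw [Law.ind_of hp, Law.ind_of (h hp)]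
  · rw [Law.ind_not hp]
    exact ind_nonneg q

lemma ev_nonneg (P : Law Ω) (p : Ω → Prop) : 0 ≤ ev P p :=
  P.ex_nonneg fun _ _ => ind_nonneg _

lemma ev_le_one (P : Law Ω) (p : Ω → Prop) : ev P p ≤ 1 := by
  have := P.ex_mono (f := fun ω => Law.ind (p ω)) (g := fun _ => 1) fun ω _ => ind_le_one _
  rwa [P.ex_const] at this

lemma ev_mono (P : Law Ω) {p q : Ω → Prop} (h : ∀ ω, 0 < P.w ω → p ω → q ω) : ev P p ≤ ev P q :=
  P.ex_mono fun ω hω => ind_mono (h ω hω)

lemma ev_congr (P : Law Ω) {p q : Ω → Prop} (h : ∀ ω, 0 < P.w ω → (p ω ↔ q ω)) : ev P p = ev P q :=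
  le_antisymm (ev_mono P fun ω hω => (h ω hω).1) (ev_mono P fun ω hω => (h ω hω).2)

lemma ev_or_le (P : Law Ω) (p q : Ω → Prop) : ev P (fun ω => p ω ∨ q ω) ≤ ev P p + ev P q := by
  unfold ev
  rw [← P.ex_add]
  refine P.ex_mono fun ω _ => ?_
  by_cases hp : p ω
  · rw [Law.ind_of (Or.inl hp : p ω ∨ q ω), Law.ind_of hp]
    linarith [ind_nonneg (q ω)]
  · by_cases hq : q ω
    · rw [Law.ind_of (Or.inr hq : p ω ∨ q ω), Law.ind_of hq]
      linarith [ind_nonneg (p ω)]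
    · rw [Law.ind_not (by tauto : ¬ (p ω ∨ q ω))]
      linarith [ind_nonneg (p ω), ind_nonneg (q ω)]

open Classical in
lemma ev_eq_sum (P : Law Ω) (p : Ω → Prop) : ev P p = ∑ ω with p ω, P.w ω := by
  unfold ev Law.ex Law.ind
  rw [Finset.sum_filter]
  refine Finset.sum_congr rfl fun ω _ => ?_
  beta_reduce
  split_ifs with h
  · rw [mul_one]
  · rw [mul_zero]

lemma pr_eq_ev (P : Law Ω) (X : Ω → S) (x : S) : P.pr X x = ev P fun ω => X ω = x := by
  classical
  rw [ev_eq_sum]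
  unfold Law.pr
  refine Finset.sum_congr ?_ fun _ _ => rfl
  ext ω
  simp

/-- splitting an event according to the value of a variable -/
lemma ev_split (P : Law Ω) (X : Ω → S) (p : Ω → Prop) :
    ev P p = ∑ x ∈ img X, ev P fun ω => p ω ∧ X ω = x := by
  classical
  simp only [ev_eq_sum]
  rw [← Finset.sum_fiberwise_of_maps_to (g := X) (t := img X) (s := univ.filter fun ω => p ω)
    (by simp)]
  refine Finset.sum_congr rfl fun x _ => Finset.sum_congr ?_ fun _ _ => rfl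
  ext ω
  simp

/-- mutual information -/
noncomputable def mi0 (P : Law Ω) (X : Ω → S) (Y : Ω → T) : ℝ :=
  P.H X + P.H Y - P.H fun ω => (X ω, Y ω)

/-- deviation from independence on `{Y = y}`, not normalised -/
noncomputable def dv (P : Law Ω) (X : Ω → S) (Y : Ω → T) (y : T) : ℝ :=
  ∑ x ∈ img X, |P.pr (fun ω => (X ω, Y ω)) (x, y) - P.pr X x * P.pr Y y|

lemma dv_nonneg (P : Law Ω) (X : Ω → S) (Y : Ω → T) (y : T) : 0 ≤ dv P X Y y :=
  Finset.sum_nonneg fun _ _ => abs_nonneg _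

/-- Pinsker's inequality (with a worse constant) -/
theorem sum_dv_le (P : Law Ω) (X : Ω → S) (Y : Ω → T) :
    ∑ y ∈ img Y, dv P X Y y ≤ 2 * Real.sqrt (mi0 P X Y) := by
  classical
  set p : S × T → ℝ := fun z => P.pr (fun ω => (X ω, Y ω)) z with hp
  set q : S × T → ℝ := fun z => P.pr X z.1 * P.pr Y z.2 with hq
  set F : Finset (S × T) := img X ×ˢ img Y with hF
  have hp0 : ∀ z, 0 ≤ p z := fun z => P.pr_nonneg _ _
  have hq0 : ∀ z, 0 ≤ q z := fun z => mul_nonneg (P.pr_nonneg _ _) (P.pr_nonneg _ _)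
  have hsub : img (fun ω => (X ω, Y ω)) ⊆ F := by
    intro z hz
    rw [mem_img] at hz
    obtain ⟨ω, rfl⟩ := hz
    rw [hF, mem_product]
    exact ⟨mem_img.2 ⟨ω, rfl⟩, mem_img.2 ⟨ω, rfl⟩⟩
  have hout : ∀ z, z ∉ img (fun ω => (X ω, Y ω)) → p z = 0 := by
    intro z hz
    rw [hp]
    simp only
    unfold Law.pr
    refine Finset.sum_eq_zero fun ω hω => ?_
    exfalso
    exact hz (mem_img.2 ⟨ω, by simpa using hω⟩)
  have hp1 : ∑ z ∈ F, p z = 1 := by
    rw [← P.sum_pr_image (fun ω => (X ω, Y ω))]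
    exact (Finset.sum_subset hsub fun z _ hz => hout z hz).symm
  have hq1 : ∑ z ∈ F, q z = 1 := by
    rw [hF, Finset.sum_product]
    have : ∀ x ∈ img X, ∑ y ∈ img Y, q (x, y) = P.pr X x := by
      intro x _
      rw [hq]
      simp only
      rw [← Finset.mul_sum, P.sum_pr_image, mul_one]
    rw [Finset.sum_congr rfl this, P.sum_pr_image]
  -- the left side
  have h1 : ∑ y ∈ img Y, dv P X Y y = ∑ z ∈ F, |p z - q z| := by
    rw [hF, Finset.sum_product_right]
    rfl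
  -- Hellinger
  have h2 : 2 - 2 * ∑ z ∈ F, Real.sqrt (p z) * Real.sqrt (q z) ≤ mi0 P X Y := by
    have e1 : ∑ z ∈ F, Real.sqrt (p z) * Real.sqrt (q z) =
        P.ex fun ω => Real.sqrt (q (X ω, Y ω) / p (X ω, Y ω)) := by
      rw [P.ex_comp (fun ω => (X ω, Y ω)) fun z => Real.sqrt (q z / p z)]
      rw [← Finset.sum_subset hsub fun z _ hz => by rw [hout z hz]; simp]
      refine Finset.sum_congr rfl fun z _ => ?_
      rcases (hp0 z).eq_or_lt with h0 | h0
      · have : P.pr (fun ω => (X ω, Y ω)) z = 0 := h0.symm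
        rw [← h0, this]
        simp
      · rw [Real.sqrt_div' _ (hp0 z)]
        have h3 : Real.sqrt (p z) ≠ 0 := (Real.sqrt_pos.2 h0).ne'
        have h4 : P.pr (fun ω => (X ω, Y ω)) z = Real.sqrt (p z) * Real.sqrt (p z) :=
          (Real.mul_self_sqrt (hp0 z)).symm
        rw [h4]
        field_simp
    have e2 : mi0 P X Y = P.ex fun ω => -Real.log (q (X ω, Y ω) / p (X ω, Y ω)) := by
      unfold mi0 Law.H
      rw [← P.ex_add, ← P.ex_sub]
      refine P.ex_congr fun ω hω => ?_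
      have k1 := P.pr_pos X hω
      have k2 := P.pr_pos Y hω
      have k3 := P.pr_pos (fun ω => (X ω, Y ω)) hω
      rw [Real.log_div (by rw [hq]; positivity) (by rw [hp]; exact k3.ne')]
      rw [hq, hp]
      simp only
      rw [Real.log_mul k1.ne' k2.ne']
      ring
    rw [e1, e2]
    have e3 : 2 - 2 * (P.ex fun ω => Real.sqrt (q (X ω, Y ω) / p (X ω, Y ω))) =
        P.ex fun ω => 2 - 2 * Real.sqrt (q (X ω, Y ω) / p (X ω, Y ω)) := by
      rw [P.ex_sub, P.ex_const, P.ex_const_mul]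
    rw [e3]
    refine P.ex_mono fun ω hω => ?_
    have k1 := P.pr_pos X hω
    have k2 := P.pr_pos Y hω
    have k3 := P.pr_pos (fun ω => (X ω, Y ω)) hω
    have k4 : 0 < q (X ω, Y ω) / p (X ω, Y ω) := div_pos (mul_pos k1 k2) k3
    have k5 : Real.log (q (X ω, Y ω) / p (X ω, Y ω)) =
        2 * Real.log (Real.sqrt (q (X ω, Y ω) / p (X ω, Y ω))) := by
      rw [Real.log_sqrt k4.le]
      ring
    rw [k5]
    have k6 := Real.log_le_sub_one_of_pos (Real.sqrt_pos.2 k4)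
    linarith
  have h3 : ∑ z ∈ F, (Real.sqrt (p z) - Real.sqrt (q z)) ^ 2 ≤ mi0 P X Y := by
    refine le_trans (le_of_eq ?_) h2
    have : ∀ z ∈ F, (Real.sqrt (p z) - Real.sqrt (q z)) ^ 2 =
        p z + q z - 2 * (Real.sqrt (p z) * Real.sqrt (q z)) := by
      intro z _
      rw [sub_sq, Real.sq_sqrt (hp0 z), Real.sq_sqrt (hq0 z)]
      ring
    rw [Finset.sum_congr rfl this, Finset.sum_sub_distrib, Finset.sum_add_distrib, hp1, hq1,
      ← Finset.mul_sum]
    ring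
  have h4 : ∑ z ∈ F, (Real.sqrt (p z) + Real.sqrt (q z)) ^ 2 ≤ 4 := by
    have : ∀ z ∈ F, (Real.sqrt (p z) + Real.sqrt (q z)) ^ 2 ≤ 2 * (p z + q z) := by
      intro z _
      have e1 := Real.sq_sqrt (hp0 z)
      have e2 := Real.sq_sqrt (hq0 z)
      nlinarith [sq_nonneg (Real.sqrt (p z) - Real.sqrt (q z))]
    refine (Finset.sum_le_sum this).trans (le_of_eq ?_)
    rw [← Finset.mul_sum, Finset.sum_add_distrib, hp1, hq1]
    norm_num
  have h5 : ∀ z ∈ F, |p z - q z| =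
      |Real.sqrt (p z) - Real.sqrt (q z)| * (Real.sqrt (p z) + Real.sqrt (q z)) := by
    intro z _
    have e : p z - q z = (Real.sqrt (p z) - Real.sqrt (q z)) *
        (Real.sqrt (p z) + Real.sqrt (q z)) := by
      have e1 := Real.mul_self_sqrt (hp0 z)
      have e2 := Real.mul_self_sqrt (hq0 z)
      nlinarith
    rw [e, abs_mul, abs_of_nonneg (a := Real.sqrt (p z) + Real.sqrt (q z)) (by positivity)]
  rw [h1, Finset.sum_congr rfl h5]
  have h6 := Finset.sum_mul_sq_le_sq_mul_sq F (fun z => |Real.sqrt (p z) - Real.sqrt (q z)|)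
    fun z => Real.sqrt (p z) + Real.sqrt (q z)
  have h7 : ∑ z ∈ F, |Real.sqrt (p z) - Real.sqrt (q z)| ^ 2 ≤ mi0 P X Y := by
    simpa only [sq_abs] using h3
  have h8 : 0 ≤ mi0 P X Y := le_trans (Finset.sum_nonneg fun _ _ => sq_nonneg _) h7
  have h9 : (∑ z ∈ F, |Real.sqrt (p z) - Real.sqrt (q z)| *
      (Real.sqrt (p z) + Real.sqrt (q z))) ^ 2 ≤ mi0 P X Y * 4 :=
    h6.trans (mul_le_mul h7 h4 (Finset.sum_nonneg fun _ _ => sq_nonneg _) h8)
  refine Real.le_sqrt_of_sq_le h9 |>.trans (le_of_eq ?_)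
  rw [Real.sqrt_mul h8, show (4 : ℝ) = 2 ^ 2 by norm_num, Real.sqrt_sq (by norm_num)]
  ring

/-- approximate independence of events -/
lemma abs_ev_sub_le (P : Law Ω) (X : Ω → S) (Y : Ω → T) (y : T) (s : Set S) :
    |ev P (fun ω => X ω ∈ s ∧ Y ω = y) - ev P (fun ω => X ω ∈ s) * P.pr Y y| ≤ dv P X Y y := by
  classical
  have h1 : ev P (fun ω => X ω ∈ s ∧ Y ω = y) =
      ∑ x ∈ img X, Law.ind (x ∈ s) * P.pr (fun ω => (X ω, Y ω)) (x, y) := by
    rw [ev_split P X]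
    refine Finset.sum_congr rfl fun x _ => ?_
    by_cases hx : x ∈ s
    · rw [Law.ind_of hx, one_mul, pr_eq_ev]
      refine ev_congr P fun ω _ => ?_
      constructor
      · rintro ⟨⟨_, h2⟩, h3⟩
        rw [h2, h3]
      · intro h
        obtain ⟨h2, h3⟩ := Prod.mk.injEq _ _ _ _ ▸ h
        exact ⟨⟨h2 ▸ hx, h3⟩, h2⟩
    · rw [Law.ind_not hx, zero_mul]
      refine le_antisymm ?_ (ev_nonneg _ _)
      have : ev P (fun ω => (X ω ∈ s ∧ Y ω = y) ∧ X ω = x) ≤ ev P fun _ => False :=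
        ev_mono P fun ω _ h => hx (h.2 ▸ h.1.1)
      refine this.trans (le_of_eq ?_)
      unfold ev
      simp only [Law.ind_not not_false, P.ex_const]
  have h2 : ev P (fun ω => X ω ∈ s) = ∑ x ∈ img X, Law.ind (x ∈ s) * P.pr X x := by
    unfold ev
    rw [P.ex_comp X fun x => Law.ind (x ∈ s)]
    exact Finset.sum_congr rfl fun x _ => mul_comm _ _
  rw [h1, h2, Finset.sum_mul, ← Finset.sum_sub_distrib]
  refine (Finset.abs_sum_le_sum_abs _ _).trans (Finset.sum_le_sum fun x _ => ?_)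
  rw [mul_assoc, ← mul_sub, abs_mul, abs_of_nonneg (ind_nonneg _)]
  calc _ ≤ 1 * |P.pr (fun ω => (X ω, Y ω)) (x, y) - P.pr X x * P.pr Y y| :=
        mul_le_mul_of_nonneg_right (ind_le_one _) (abs_nonneg _)
    _ = _ := one_mul _

/-! ### Two independences -/

section two

variable {W : Type*}

/-- the total error of one value of `E` -/
noncomputable def err (P : Law Ω) (A : Ω → S) (B : Ω → T) (E : Ω → U) (R : S → U → T → Prop)
    (e : U) : ℝ :=
  dv P A E e + dv P B E e + ev P fun ω => ¬ R (A ω) (E ω) (B ω) ∧ E ω = e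

lemma err_nonneg (P : Law Ω) (A : Ω → S) (B : Ω → T) (E : Ω → U) (R : S → U → T → Prop)
    (e : U) : 0 ≤ err P A B E R e :=
  add_nonneg (add_nonneg (dv_nonneg _ _ _ _) (dv_nonneg _ _ _ _)) (ev_nonneg _ _)

lemma sum_err_le (P : Law Ω) (A : Ω → S) (B : Ω → T) (E : Ω → U) (R : S → U → T → Prop) :
    ∑ e ∈ img E, err P A B E R e ≤ 2 * Real.sqrt (mi0 P A E) + 2 * Real.sqrt (mi0 P B E) +
      ev P fun ω => ¬ R (A ω) (E ω) (B ω) := by
  unfold err
  rw [Finset.sum_add_distrib, Finset.sum_add_distrib, ← ev_split]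
  linarith [sum_dv_le P A E, sum_dv_le P B E]

/-- the two independences, for two given values of `E` -/
lemma two_step (P : Law Ω) (A : Ω → S) (B : Ω → T) (E : Ω → U) (R : S → U → T → Prop)
    (e₁ e₂ : U) (I : Set S) :
    P.pr E e₁ * P.pr E e₂ * ev P (fun ω => A ω ∈ I) ≤
      P.pr E e₁ * P.pr E e₂ *
        ev P (fun ω => ∃ a ∈ I, ∃ b, R a e₁ b ∧ R (A ω) e₂ b) +
      (P.pr E e₂ * err P A B E R e₁ + P.pr E e₁ * err P A B E R e₂) := by
  set J : Set T := {b | ∃ a ∈ I, R a e₁ b} with hJ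
  set I' : Set S := {a' | ∃ a ∈ I, ∃ b, R a e₁ b ∧ R a' e₂ b} with hI'
  have k1 := (abs_le.1 (abs_ev_sub_le P A E e₁ I)).1
  have k2 : ev P (fun ω => A ω ∈ I ∧ E ω = e₁) ≤ ev P (fun ω => B ω ∈ J ∧ E ω = e₁) +
      ev P fun ω => ¬ R (A ω) (E ω) (B ω) ∧ E ω = e₁ := by
    refine le_trans (ev_mono P fun ω _ h => ?_) (ev_or_le P _ _)
    by_cases hR : R (A ω) (E ω) (B ω)
    · exact Or.inl ⟨⟨A ω, h.1, h.2 ▸ hR⟩, h.2⟩
    · exact Or.inr ⟨hR, h.2⟩
  have k3 := (abs_le.1 (abs_ev_sub_le P B E e₁ J)).2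
  have k4 := (abs_le.1 (abs_ev_sub_le P B E e₂ J)).1
  have k5 : ev P (fun ω => B ω ∈ J ∧ E ω = e₂) ≤ ev P (fun ω => A ω ∈ I' ∧ E ω = e₂) +
      ev P fun ω => ¬ R (A ω) (E ω) (B ω) ∧ E ω = e₂ := by
    refine le_trans (ev_mono P fun ω _ h => ?_) (ev_or_le P _ _)
    by_cases hR : R (A ω) (E ω) (B ω)
    · obtain ⟨⟨a, ha, hab⟩, h2⟩ := h
      exact Or.inl ⟨⟨a, ha, B ω, hab, h2 ▸ hR⟩, h2⟩
    · exact Or.inr ⟨hR, h.2⟩
  have k6 := (abs_le.1 (abs_ev_sub_le P A E e₂ I')).2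
  have p1 := P.pr_nonneg E e₁
  have p2 := P.pr_nonneg E e₂
  have l1 : ev P (fun ω => A ω ∈ I) * P.pr E e₁ ≤
      ev P (fun ω => B ω ∈ J) * P.pr E e₁ + err P A B E R e₁ := by
    unfold err
    linarith
  have l2 : ev P (fun ω => B ω ∈ J) * P.pr E e₂ ≤
      ev P (fun ω => A ω ∈ I') * P.pr E e₂ + err P A B E R e₂ := by
    unfold err
    linarith
  have l3 := mul_le_mul_of_nonneg_left l1 p2
  have l4 := mul_le_mul_of_nonneg_left l2 p1
  have l5 : ev P (fun ω => A ω ∈ I') =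
      ev P (fun ω => ∃ a ∈ I, ∃ b, R a e₁ b ∧ R (A ω) e₂ b) := rfl
  rw [← l5]
  linarith

/-- **Two independences imply shift invariance**, combinatorial form: `A` and `B` are nearly
independent of `E`, and `R (A, E, B)` holds most of the time. -/
theorem exists_pair (P : Law Ω) (A : Ω → S) (B : Ω → T) (E : Ω → U) (R : S → U → T → Prop)
    (G : U → U → Prop) {c₀ τ : ℝ} (hτ0 : 0 ≤ τ)
    (hG : c₀ ≤ ∑ e₁ ∈ img E, ∑ e₂ ∈ img E, Law.ind (G e₁ e₂) * (P.pr E e₁ * P.pr E e₂))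
    (hτ : 2 * (2 * Real.sqrt (mi0 P A E) + 2 * Real.sqrt (mi0 P B E) +
      ev P fun ω => ¬ R (A ω) (E ω) (B ω)) < τ * c₀) :
    ∃ e₁ e₂, G e₁ e₂ ∧ 0 < P.pr E e₁ ∧ 0 < P.pr E e₂ ∧ ∀ I : Set S,
      ev P (fun ω => A ω ∈ I) ≤
        ev P (fun ω => ∃ a ∈ I, ∃ b, R a e₁ b ∧ R (A ω) e₂ b) + τ ∧
      ev P (fun ω => A ω ∈ I) ≤
        ev P (fun ω => ∃ a ∈ I, ∃ b, R a e₂ b ∧ R (A ω) e₁ b) + τ := by
  classical
  by_contra hcon
  push Not at hcon
  -- the errors are large on good pairs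
  have h1 : ∀ e₁ ∈ img E, ∀ e₂ ∈ img E,
      τ * (Law.ind (G e₁ e₂) * (P.pr E e₁ * P.pr E e₂)) ≤
        P.pr E e₂ * err P A B E R e₁ + P.pr E e₁ * err P A B E R e₂ := by
    intro e₁ _ e₂ _
    have p1 := P.pr_nonneg E e₁
    have p2 := P.pr_nonneg E e₂
    have t1 := err_nonneg P A B E R e₁
    have t2 := err_nonneg P A B E R e₂
    by_cases hg : G e₁ e₂
    · rw [Law.ind_of hg, one_mul]
      rcases p1.eq_or_lt with h0 | h0
      · rw [← h0]
        have := mul_nonneg p2 t1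
        simpa using this
      rcases p2.eq_or_lt with h0' | h0'
      · rw [← h0']
        have := mul_nonneg p1 t2
        simpa using this
      obtain ⟨I, hI⟩ := hcon e₁ e₂ hg h0 h0'
      have m1 := two_step P A B E R e₁ e₂ I
      have m2 := two_step P A B E R e₂ e₁ I
      have hpp := mul_pos h0 h0'
      by_cases hc : ev P (fun ω => A ω ∈ I) ≤
          ev P (fun ω => ∃ a ∈ I, ∃ b, R a e₁ b ∧ R (A ω) e₂ b) + τ
      · have m3 := hI hc
        have m4 := mul_lt_mul_of_pos_left m3 hpp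
        rw [mul_comm (P.pr E e₂) (P.pr E e₁)] at m2
        linarith
      · push Not at hc
        have m4 := mul_lt_mul_of_pos_left hc hpp
        linarith
    · rw [Law.ind_not hg, zero_mul, mul_zero]
      exact add_nonneg (mul_nonneg p2 t1) (mul_nonneg p1 t2)
  have h2 : τ * c₀ ≤ ∑ e₁ ∈ img E, ∑ e₂ ∈ img E,
      (P.pr E e₂ * err P A B E R e₁ + P.pr E e₁ * err P A B E R e₂) := by
    refine (mul_le_mul_of_nonneg_left hG hτ0).trans ?_
    rw [Finset.mul_sum]
    refine Finset.sum_le_sum fun e₁ he₁ => ?_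
    rw [Finset.mul_sum]
    exact Finset.sum_le_sum fun e₂ he₂ => h1 e₁ he₁ e₂ he₂
  have h3 : ∑ e₁ ∈ img E, ∑ e₂ ∈ img E,
      (P.pr E e₂ * err P A B E R e₁ + P.pr E e₁ * err P A B E R e₂) =
      2 * ∑ e ∈ img E, err P A B E R e := by
    simp only [Finset.sum_add_distrib, ← Finset.mul_sum, ← Finset.sum_mul, P.sum_pr_image]
    ring
  have h4 := sum_err_le P A B E R
  linarith

end two

/-! ### Near invariance under translations -/

section inv

variable {V : Type*} [SeminormedAddCommGroup V]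

/-- near invariance of the law of `Z` under the translation by `δ` -/
def Inv (P : Law Ω) (Z : Ω → V) (c : ℝ) (δ : V) (τ : ℝ) : Prop :=
  ∀ I : Set V, ev P (fun ω => Z ω ∈ I) ≤ ev P (fun ω => ∃ y ∈ I, dist (Z ω) (y + δ) ≤ c) + τ

lemma Inv.mono {P : Law Ω} {Z : Ω → V} {c c' : ℝ} {δ : V} {τ τ' : ℝ} (h : Inv P Z c δ τ)
    (hc : c ≤ c') (hτ : τ ≤ τ') : Inv P Z c' δ τ' := fun I =>
  (h I).trans (add_le_add (ev_mono P fun _ _ ⟨y, hy, h2⟩ => ⟨y, hy, h2.trans hc⟩) hτ)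

lemma Inv.zero (P : Law Ω) (Z : Ω → V) : Inv P Z 0 0 0 := fun I => by
  rw [add_zero]
  exact ev_mono P fun ω _ h => ⟨Z ω, h, by simp⟩

lemma Inv.add {P : Law Ω} {Z : Ω → V} {c c' : ℝ} {δ δ' : V} {τ τ' : ℝ} (h : Inv P Z c δ τ)
    (h' : Inv P Z c' δ' τ') : Inv P Z (c + c') (δ + δ') (τ + τ') := fun I => by
  refine (h I).trans ?_
  have h2 := h' {z | ∃ y ∈ I, dist z (y + δ) ≤ c}
  have h3 : ev P (fun ω => ∃ y ∈ {z | ∃ y ∈ I, dist z (y + δ) ≤ c}, dist (Z ω) (y + δ') ≤ c') ≤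
      ev P fun ω => ∃ y ∈ I, dist (Z ω) (y + (δ + δ')) ≤ c + c' := by
    refine ev_mono P fun ω _ ⟨z, ⟨y, hy, hz⟩, h4⟩ => ⟨y, hy, ?_⟩
    calc dist (Z ω) (y + (δ + δ')) ≤ dist (Z ω) (z + δ') + dist (z + δ') (y + (δ + δ')) :=
          dist_triangle _ _ _
      _ ≤ c' + c := by
          refine add_le_add h4 ?_
          rwa [← add_assoc, dist_add_right]
      _ = c + c' := add_comm _ _
  have h4 : ev P (fun ω => Z ω ∈ {z | ∃ y ∈ I, dist z (y + δ) ≤ c}) =
    ev P (fun ω => ∃ y ∈ I, dist (Z ω) (y + δ) ≤ c) := rfl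
  rw [← h4]
  linarith

lemma Inv.nsmul {P : Law Ω} {Z : Ω → V} {c : ℝ} {δ : V} {τ : ℝ} (h : Inv P Z c δ τ) (n : ℕ) :
    Inv P Z (n * c) (n • δ) (n * τ) := by
  induction n with
  | zero => simpa using Inv.zero P Z
  | succ n ih =>
    have := ih.add h
    rw [succ_nsmul]
    push_cast
    convert this using 1 <;> ring

/-- packing: translates of a set under many near invariances -/
theorem mass_le (P : Law Ω) (Z : Ω → V) {ι : Type*} (F : Finset ι) (g : ι → V) {c τ : ℝ} {M : ℕ}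
    (hF : ∀ i ∈ F, Inv P Z c (g i) τ) (I : Set V)
    (hM : ∀ v : V, ∀ F' ⊆ F, (∀ i ∈ F', ∃ y ∈ I, dist v (y + g i) ≤ c) → F'.card ≤ M) :
    F.card * ev P (fun ω => Z ω ∈ I) ≤ M + F.card * τ := by
  classical
  have h1 : (F.card : ℝ) * ev P (fun ω => Z ω ∈ I) ≤
      ∑ i ∈ F, (ev P (fun ω => ∃ y ∈ I, dist (Z ω) (y + g i) ≤ c) + τ) := by
    rw [← nsmul_eq_mul, ← Finset.sum_const]
    exact Finset.sum_le_sum fun i hi => hF i hi I
  have h2 : ∑ i ∈ F, ev P (fun ω => ∃ y ∈ I, dist (Z ω) (y + g i) ≤ c) ≤ M := by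
    have : ∑ i ∈ F, ev P (fun ω => ∃ y ∈ I, dist (Z ω) (y + g i) ≤ c) =
        P.ex fun ω => ∑ i ∈ F, Law.ind (∃ y ∈ I, dist (Z ω) (y + g i) ≤ c) := by
      unfold ev Law.ex
      rw [Finset.sum_comm]
      exact Finset.sum_congr rfl fun ω _ => by rw [Finset.mul_sum]
    rw [this]
    refine (P.ex_mono (g := fun _ => (M : ℝ)) fun ω _ => ?_).trans (le_of_eq (P.ex_const _))
    have h3 : ∑ i ∈ F, Law.ind (∃ y ∈ I, dist (Z ω) (y + g i) ≤ c) =
        ((F.filter fun i => ∃ y ∈ I, dist (Z ω) (y + g i) ≤ c).card : ℝ) := by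
      rw [Finset.card_eq_sum_ones, Finset.sum_filter]
      push_cast
      exact Finset.sum_congr rfl fun i _ => rfl
    rw [h3]
    exact_mod_cast hM (Z ω) _ (Finset.filter_subset _ _) fun i hi => (Finset.mem_filter.1 hi).2
  rw [Finset.sum_add_distrib, Finset.sum_const, nsmul_eq_mul] at h1
  linarith

end inv

/-! ### From masses of selections to entropies -/

/-- If every selection of a fine cell in each coarse cell has mass at most `p`, the conditional
entropy is at least `- log p`. -/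
theorem neg_log_le_H (P : Law Ω) (Q : Ω → S) (R : Ω → T) {p : ℝ}
    (h : ∀ σ : S → T, ev P (fun ω => R ω = σ (Q ω)) ≤ p) :
    - Real.log p ≤ P.H (fun ω => (R ω, Q ω)) - P.H Q := by
  classical
  have hne : Nonempty Ω := by
    by_contra hcon
    rw [not_nonempty_iff] at hcon
    have := P.sum_one
    simp at this
  obtain ⟨ω₀⟩ := hne
  have hR : (img R).Nonempty := ⟨R ω₀, mem_img.2 ⟨ω₀, rfl⟩⟩
  have hσ : ∀ q : S, ∃ r ∈ img R, ∀ r' ∈ img R, P.pr (fun ω => (R ω, Q ω)) (r', q) ≤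
      P.pr (fun ω => (R ω, Q ω)) (r, q) := fun q =>
    Finset.exists_max_image (img R) (fun r => P.pr (fun ω => (R ω, Q ω)) (r, q)) hR
  choose σ hσ1 hσ2 using hσ
  set m : S → ℝ := fun q => P.pr (fun ω => (R ω, Q ω)) (σ q, q) with hm
  have hmsum : ∑ q ∈ img Q, m q = ev P (fun ω => R ω = σ (Q ω)) := by
    rw [ev_split P Q]
    refine Finset.sum_congr rfl fun q _ => ?_
    rw [hm]
    simp only
    rw [pr_eq_ev]
    refine ev_congr P fun ω _ => ?_
    constructor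
    · intro h
      have h1 : R ω = σ q := congrArg Prod.fst h
      have h2 : Q ω = q := congrArg Prod.snd h
      exact ⟨by rw [h1, h2], h2⟩
    · rintro ⟨h1, h2⟩
      rw [h1, h2]
  have hp : 0 < p := by
    obtain ⟨ω₁, hω₁⟩ : ∃ ω, 0 < P.w ω := by
      by_contra hcon
      push Not at hcon
      have : ∑ ω, P.w ω ≤ 0 := Finset.sum_nonpos fun ω _ => hcon ω
      rw [P.sum_one] at this
      linarith
    have h1 : 0 < m (Q ω₁) :=
      (P.pr_pos (fun ω => (R ω, Q ω)) hω₁).trans_le (hσ2 (Q ω₁) (R ω₁) (mem_img.2 ⟨ω₁, rfl⟩))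
    have h2 : m (Q ω₁) ≤ ∑ q ∈ img Q, m q :=
      Finset.single_le_sum (f := m) (fun q _ => P.pr_nonneg _ _) (mem_img.2 ⟨ω₁, rfl⟩)
    exact h1.trans_le (h2.trans (hmsum.le.trans (h σ)))
  have h1 : P.ex (fun ω => - Real.log p + 1 - m (Q ω) / P.pr Q (Q ω) / p) ≤
      P.H (fun ω => (R ω, Q ω)) - P.H Q := by
    unfold Law.H
    rw [← P.ex_sub]
    refine P.ex_mono fun ω hω => ?_
    have k1 := P.pr_pos (fun ω => (R ω, Q ω)) hω
    have k2 := P.pr_pos Q hω
    have k3 : P.pr (fun ω => (R ω, Q ω)) (R ω, Q ω) ≤ m (Q ω) :=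
      hσ2 (Q ω) (R ω) (mem_img.2 ⟨ω, rfl⟩)
    have k4 : 0 < m (Q ω) := k1.trans_le k3
    have k5 := Real.log_le_log k1 k3
    have k6 : Real.log (m (Q ω) / P.pr Q (Q ω) / p) ≤ m (Q ω) / P.pr Q (Q ω) / p - 1 :=
      Real.log_le_sub_one_of_pos (by positivity)
    rw [Real.log_div (by positivity) hp.ne', Real.log_div k4.ne' k2.ne'] at k6
    linarith
  refine le_trans ?_ h1
  rw [P.ex_sub, P.ex_const]
  have h2 : P.ex (fun ω => m (Q ω) / P.pr Q (Q ω) / p) ≤ 1 := by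
    rw [P.ex_comp Q fun q => m q / P.pr Q q / p]
    have h3 : ∑ q ∈ img Q, P.pr Q q * (m q / P.pr Q q / p) ≤ ∑ q ∈ img Q, m q / p := by
      refine Finset.sum_le_sum fun q _ => ?_
      have k0 : 0 ≤ m q := P.pr_nonneg _ _
      rcases (P.pr_nonneg Q q).eq_or_lt with h0 | h0
      · rw [← h0, zero_mul]
        exact div_nonneg k0 hp.le
      · refine le_of_eq ?_
        field_simp
    refine h3.trans ?_
    rw [← Finset.sum_div, hmsum]
    exact (div_le_one hp).2 (h σ)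
  linarith

/-- saturation: many near invariances force large entropy of the fine cell given the coarse cell -/
theorem sat_entropy {V : Type*} [SeminormedAddCommGroup V] (P : Law Ω) (Z : Ω → V) (q : V → S)
    (r : V → T) {ι : Type*} (F : Finset ι) (g : ι → V) {c τ : ℝ} {M : ℕ}
    (hF : ∀ i ∈ F, Inv P Z c (g i) τ) (h0 : F.Nonempty)
    (hM : ∀ (σ : S → T) (v : V), ∀ F' ⊆ F,
      (∀ i ∈ F', ∃ y, r y = σ (q y) ∧ dist v (y + g i) ≤ c) → F'.card ≤ M) :
    - Real.log (M / F.card + τ) ≤ P.H (fun ω => (r (Z ω), q (Z ω))) - P.H fun ω => q (Z ω) := by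
  refine neg_log_le_H P (fun ω => q (Z ω)) (fun ω => r (Z ω)) fun σ => ?_
  have h1 := mass_le P Z F g hF {y | r y = σ (q y)} fun v F' hF' h =>
    hM σ v F' hF' fun i hi => by
      obtain ⟨y, hy, h2⟩ := h i hi
      exact ⟨y, hy, h2⟩
  have h2 : (0 : ℝ) < F.card := by exact_mod_cast h0.card_pos
  have h3 : ev P (fun ω => r (Z ω) = σ (q (Z ω))) =
    ev P (fun ω => Z ω ∈ {y | r y = σ (q y)}) := rfl
  rw [h3, ← mul_le_mul_iff_right₀ h2]
  calc _ ≤ M + F.card * τ := h1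
    _ = _ := by field_simp

/-- two integer parts of numbers at distance at most `1` -/
lemma floor_two {x y : ℝ} (h : x ≤ y) (h' : y ≤ x + 1) : ⌊y⌋ = ⌊x⌋ ∨ ⌊y⌋ = ⌊x⌋ + 1 := by
  have h1 := Int.floor_le_floor h
  have h2 := Int.floor_le_floor h'
  rw [Int.floor_add_one] at h2
  omega

/-- saturation on the line -/
theorem sat_one (P : Law Ω) (Z : Ω → ℝ) {c τ δ w w' : ℝ} {J : ℕ} (hJ : 0 < J) (hc : 0 ≤ c)
    (hτ : 0 ≤ τ) (hw : 0 < w) (hw' : 0 < w') (h : Inv P Z c δ τ)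
    (h1 : w' + 2 * (J * c) ≤ |δ|) (h2 : J * |δ| + 2 * (J * c) ≤ w) :
    - Real.log (2 / J + J * τ) ≤
      P.H (fun ω => (⌊Z ω / w'⌋, ⌊Z ω / w⌋)) - P.H fun ω => ⌊Z ω / w⌋ := by
  classical
  have hJ' : (0 : ℝ) < J := by exact_mod_cast hJ
  have key := sat_entropy P Z (fun v => ⌊v / w⌋) (fun v => ⌊v / w'⌋) (Finset.range J)
    (fun j => j • δ) (c := J * c) (τ := J * τ) (M := 2) (fun j hj => by
      have hj' : (j : ℝ) ≤ J := by exact_mod_cast (Finset.mem_range.1 hj).le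
      exact (h.nsmul j).mono (mul_le_mul_of_nonneg_right hj' hc)
        (mul_le_mul_of_nonneg_right hj' hτ))
    (Finset.nonempty_range_iff.2 hJ.ne') ?_
  · simpa using key
  · intro σ v F' hF' hy
    choose! y hy1 hy2 using hy
    set x₀ : ℝ := v - J * |δ| - J * c with hx₀
    -- all the points lie in one interval of length `w`
    have hpos : ∀ j ∈ F', |(j : ℝ) * δ| ≤ J * |δ| := by
      intro j hj
      rw [abs_mul, abs_of_nonneg (by positivity : (0 : ℝ) ≤ j)]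
      have hj' : (j : ℝ) ≤ J := by exact_mod_cast (Finset.mem_range.1 (hF' hj)).le
      exact mul_le_mul_of_nonneg_right hj' (abs_nonneg _)
    -- injectivity of the coarse cell on `F'`
    have hinj : ∀ j ∈ F', ∀ j' ∈ F', ⌊y j / w⌋ = ⌊y j' / w⌋ → j = j' := by
      intro j hj j' hj' he
      by_contra hne
      have e1 : ⌊y j / w'⌋ = ⌊y j' / w'⌋ := by rw [hy1 j hj, hy1 j' hj', he]
      have e2 : |y j / w' - y j' / w'| < 1 := Int.abs_sub_lt_one_of_floor_eq_floor e1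
      rw [← sub_div, abs_div, abs_of_pos hw', div_lt_one hw'] at e2
      have e3 := hy2 j hj
      have e4 := hy2 j' hj'
      rw [Real.dist_eq, nsmul_eq_mul] at e3 e4
      have e5 : |δ| ≤ |((j : ℝ) - j') * δ| := by
        rw [abs_mul]
        have : (1 : ℝ) ≤ |(j : ℝ) - j'| := by
          have h3 : (j : ℤ) - j' ≠ 0 := sub_ne_zero.2 (by exact_mod_cast hne)
          have h4 := Int.one_le_abs h3
          exact_mod_cast h4
        exact le_mul_of_one_le_left (abs_nonneg _) this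
      have e6 : |((j : ℝ) - j') * δ| ≤ |y j - y j'| + 2 * (J * c) := by
        have : ((j : ℝ) - j') * δ = -(y j - y j') - (v - (y j + j * δ)) + (v - (y j' + j' * δ)) := by
          ring
        rw [this]
        calc _ ≤ |-(y j - y j') - (v - (y j + j * δ))| + |v - (y j' + j' * δ)| := abs_add_le _ _
          _ ≤ |-(y j - y j')| + |v - (y j + j * δ)| + |v - (y j' + j' * δ)| :=
              add_le_add_left (abs_sub _ _) _
          _ ≤ _ := by
              rw [abs_neg]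
              linarith
      linarith
    -- at most two coarse cells
    have htwo : ∀ j ∈ F', ∀ j' ∈ F', |y j - y j'| ≤ w := by
      intro j hj j' hj'
      have e3 := hy2 j hj
      have e4 := hy2 j' hj'
      rw [Real.dist_eq, nsmul_eq_mul] at e3 e4
      have e5 : |((j' : ℝ) - j) * δ| ≤ J * |δ| := by
        rw [abs_mul]
        refine mul_le_mul_of_nonneg_right ?_ (abs_nonneg _)
        have g1 : (j : ℝ) ≤ J := by exact_mod_cast (Finset.mem_range.1 (hF' hj)).le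
        have g2 : (j' : ℝ) ≤ J := by exact_mod_cast (Finset.mem_range.1 (hF' hj')).le
        have g3 : (0 : ℝ) ≤ j := by positivity
        have g4 : (0 : ℝ) ≤ j' := by positivity
        rw [abs_le]
        constructor <;> linarith
      have : y j - y j' = ((j' : ℝ) - j) * δ - (v - (y j + j * δ)) + (v - (y j' + j' * δ)) := by
        ring
      rw [this]
      calc _ ≤ |((j' : ℝ) - j) * δ - (v - (y j + j * δ))| + |v - (y j' + j' * δ)| := abs_add_le _ _
        _ ≤ |((j' : ℝ) - j) * δ| + |v - (y j + j * δ)| + |v - (y j' + j' * δ)| :=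
            add_le_add_left (abs_sub _ _) _
        _ ≤ _ := by linarith
    by_contra hcard
    push Not at hcard
    -- three indices
    obtain ⟨s, hs, hs3⟩ := Finset.exists_subset_card_eq (s := F') (n := 3) (by omega)
    obtain ⟨a, b, d, hab, had, hbd, rfl⟩ := Finset.card_eq_three.1 hs3
    have ha : a ∈ F' := hs (by simp)
    have hb : b ∈ F' := hs (by simp)
    have hd : d ∈ F' := hs (by simp)
    have n1 : ⌊y a / w⌋ ≠ ⌊y b / w⌋ := fun e => hab (hinj a ha b hb e)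
    have n2 : ⌊y a / w⌋ ≠ ⌊y d / w⌋ := fun e => had (hinj a ha d hd e)
    have n3 : ⌊y b / w⌋ ≠ ⌊y d / w⌋ := fun e => hbd (hinj b hb d hd e)
    have fl : ∀ j ∈ F', ∀ j' ∈ F', ⌊y j / w⌋ ≤ ⌊y j' / w⌋ + 1 := by
      intro j hj j' hj'
      have g1 : y j / w ≤ y j' / w + 1 := by
        rw [div_add_one hw.ne']
        exact div_le_div_of_nonneg_right (by linarith [(abs_le.1 (htwo j hj j' hj')).2]) hw.le
      have g2 := Int.floor_le_floor g1
      rwa [Int.floor_add_one] at g2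
    have f1 := fl a ha b hb
    have f2 := fl b hb a ha
    have f3 := fl a ha d hd
    have f4 := fl d hd a ha
    have f5 := fl b hb d hd
    have f6 := fl d hd b hb
    omega

/-! ### Conditional versions -/

section cond

variable {S' T' : Type*}

lemma cond_pos {P : Law Ω} {D : Ω → U} {d : U} (h : 0 < P.pr D d) {ω : Ω}
    (hω : 0 < (P.cond D d).w ω) : D ω = d ∧ 0 < P.w ω := by
  rw [P.cond_w D d h] at hω
  split_ifs at hω with hd
  · refine ⟨hd, ?_⟩
    rcases (P.nn ω).eq_or_lt with h0 | h0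
    · rw [← h0, zero_div] at hω
      exact absurd hω (lt_irrefl _)
    · exact h0
  · exact absurd hω (lt_irrefl _)

/-- mutual information given `D` is the average of the mutual informations of the conditioned
laws -/
theorem mi_eq_sum (P : Law Ω) (X : Ω → S) (Y : Ω → T) (D : Ω → U) :
    mi P X Y D = ∑ d ∈ img D, P.pr D d * mi0 (P.cond D d) X Y := by
  have h1 := P.H_cond_eq X D
  have h2 := P.H_cond_eq Y D
  have h3 := P.H_cond_eq (fun ω => (X ω, Y ω)) D
  have h4 : P.H (fun ω => (X ω, Y ω, D ω)) = P.H fun ω => ((X ω, Y ω), D ω) :=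
    H_congr' P (fun ω ω' _ _ e => by simp only [Prod.mk.injEq] at e ⊢; tauto)
      (fun ω ω' _ _ e => by simp only [Prod.mk.injEq] at e ⊢; tauto)
  have h5 : ∑ d ∈ img D, P.pr D d * mi0 (P.cond D d) X Y =
      ∑ d ∈ img D, P.pr D d * (P.cond D d).H X + ∑ d ∈ img D, P.pr D d * (P.cond D d).H Y -
        ∑ d ∈ img D, P.pr D d * (P.cond D d).H fun ω => (X ω, Y ω) := by
    rw [← Finset.sum_add_distrib, ← Finset.sum_sub_distrib]
    refine Finset.sum_congr rfl fun d _ => ?_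
    unfold mi0
    ring
  rw [h5, ← h1, ← h2, ← h3]
  unfold mi hc
  simp only
  rw [h4]
  ring

/-- conditional entropy given a pair -/
theorem hc_eq_sum (P : Law Ω) (X : Ω → S) (Y : Ω → T) (D : Ω → U) :
    hc P X (fun ω => (Y ω, D ω)) = ∑ d ∈ img D, P.pr D d * hc (P.cond D d) X Y := by
  have h2 := P.H_cond_eq Y D
  have h3 := P.H_cond_eq (fun ω => (X ω, Y ω)) D
  have h4 : P.H (fun ω => (X ω, Y ω, D ω)) = P.H fun ω => ((X ω, Y ω), D ω) :=
    H_congr' P (fun ω ω' _ _ e => by simp only [Prod.mk.injEq] at e ⊢; tauto)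
      (fun ω ω' _ _ e => by simp only [Prod.mk.injEq] at e ⊢; tauto)
  have h5 : ∑ d ∈ img D, P.pr D d * hc (P.cond D d) X Y =
      ∑ d ∈ img D, P.pr D d * (P.cond D d).H (fun ω => (X ω, Y ω)) -
        ∑ d ∈ img D, P.pr D d * (P.cond D d).H Y := by
    rw [← Finset.sum_sub_distrib]
    refine Finset.sum_congr rfl fun d _ => ?_
    unfold hc
    ring
  rw [h5, ← h2, ← h3]
  unfold hc
  rw [h4]
  ring

/-- averages over conditioned laws -/
theorem ex_eq_sum (P : Law Ω) (D : Ω → U) (f : Ω → ℝ) :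
    P.ex f = ∑ d ∈ img D, P.pr D d * (P.cond D d).ex f := by
  classical
  unfold Law.ex
  rw [← Finset.sum_fiberwise_of_maps_to (g := D) (t := img D) (s := univ) (by simp)]
  refine Finset.sum_congr rfl fun d _ => ?_
  rcases (P.pr_nonneg D d).eq_or_lt with h0 | h0
  · rw [← h0, zero_mul]
    refine Finset.sum_eq_zero fun ω hω => ?_
    have hω' : D ω = d := by simpa using hω
    have : P.w ω ≤ 0 := by
      have := P.w_le_pr D ω
      rwa [hω', ← h0] at this
    rw [le_antisymm this (P.nn ω), zero_mul]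
  · simp only [P.cond_w D d h0, ite_mul, zero_mul]
    rw [← Finset.sum_filter, Finset.mul_sum]
    refine Finset.sum_congr rfl fun ω _ => ?_
    field_simp

theorem ev_eq_sum_cond (P : Law Ω) (D : Ω → U) (p : Ω → Prop) :
    ev P p = ∑ d ∈ img D, P.pr D d * ev (P.cond D d) p := ex_eq_sum P D _

/-- Jensen for the square root -/
lemma sum_sqrt_le (P : Law Ω) (D : Ω → U) (x : U → ℝ) (hx : ∀ d ∈ img D, 0 ≤ x d) :
    ∑ d ∈ img D, P.pr D d * Real.sqrt (x d) ≤ Real.sqrt (∑ d ∈ img D, P.pr D d * x d) := by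
  refine Real.le_sqrt_of_sq_le ?_
  have h1 := Finset.sum_mul_sq_le_sq_mul_sq (img D) (fun d => Real.sqrt (P.pr D d))
    fun d => Real.sqrt (P.pr D d) * Real.sqrt (x d)
  have h2 : ∀ d ∈ img D, Real.sqrt (P.pr D d) * (Real.sqrt (P.pr D d) * Real.sqrt (x d)) =
      P.pr D d * Real.sqrt (x d) := fun d _ => by
    rw [← mul_assoc, Real.mul_self_sqrt (P.pr_nonneg D d)]
  have h3 : ∑ d ∈ img D, Real.sqrt (P.pr D d) ^ 2 = 1 := by
    rw [← P.sum_pr_image D]
    exact Finset.sum_congr rfl fun d _ => Real.sq_sqrt (P.pr_nonneg D d)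
  have h4 : ∑ d ∈ img D, (Real.sqrt (P.pr D d) * Real.sqrt (x d)) ^ 2 =
      ∑ d ∈ img D, P.pr D d * x d := Finset.sum_congr rfl fun d hd => by
    rw [mul_pow, Real.sq_sqrt (P.pr_nonneg D d), Real.sq_sqrt (hx d hd)]
  rw [Finset.sum_congr rfl h2, h3, h4, one_mul] at h1
  exact h1

lemma mi0_nonneg (P : Law Ω) (X : Ω → S) (Y : Ω → T) : 0 ≤ mi0 P X Y := by
  have h := Stk.hc_le_H P X Y
  unfold Stk.hc at h
  unfold mi0
  linarith

/-- the average over `D` of the total error in the two independences -/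
lemma sum_total_le (P : Law Ω) (A : Ω → S) (B : Ω → T) (E : Ω → U) (D : Ω → S')
    (R : S' → S → U → T → Prop) {ε : ℝ} (hA : mi P A E D ≤ ε) (hB : mi P B E D ≤ ε)
    (hR : ev P (fun ω => ¬ R (D ω) (A ω) (E ω) (B ω)) ≤ ε) :
    ∑ d ∈ img D, P.pr D d * (2 * Real.sqrt (mi0 (P.cond D d) A E) +
      2 * Real.sqrt (mi0 (P.cond D d) B E) +
      ev (P.cond D d) fun ω => ¬ R d (A ω) (E ω) (B ω)) ≤ 4 * Real.sqrt ε + ε := by
  have h1 := sum_sqrt_le P D (fun d => mi0 (P.cond D d) A E) fun d _ => mi0_nonneg _ _ _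
  have h2 := sum_sqrt_le P D (fun d => mi0 (P.cond D d) B E) fun d _ => mi0_nonneg _ _ _
  rw [← mi_eq_sum] at h1 h2
  have h3 := h1.trans (Real.sqrt_le_sqrt hA)
  have h4 := h2.trans (Real.sqrt_le_sqrt hB)
  have h5 : ∑ d ∈ img D, P.pr D d * ev (P.cond D d) (fun ω => ¬ R d (A ω) (E ω) (B ω)) ≤ ε := by
    refine le_trans (le_of_eq ?_) hR
    rw [ev_eq_sum_cond P D]
    refine Finset.sum_congr rfl fun d _ => ?_
    rcases (P.pr_nonneg D d).eq_or_lt with h0 | h0
    · rw [← h0, zero_mul, zero_mul]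
    · congr 1
      exact ev_congr _ fun ω hω => by rw [(cond_pos h0 hω).1]
  have h6 : ∑ d ∈ img D, P.pr D d * (2 * Real.sqrt (mi0 (P.cond D d) A E) +
      2 * Real.sqrt (mi0 (P.cond D d) B E) +
      ev (P.cond D d) fun ω => ¬ R d (A ω) (E ω) (B ω)) =
      2 * (∑ d ∈ img D, P.pr D d * Real.sqrt (mi0 (P.cond D d) A E)) +
      2 * (∑ d ∈ img D, P.pr D d * Real.sqrt (mi0 (P.cond D d) B E)) +
      ∑ d ∈ img D, P.pr D d * ev (P.cond D d) (fun ω => ¬ R d (A ω) (E ω) (B ω)) := by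
    rw [Finset.mul_sum, Finset.mul_sum, ← Finset.sum_add_distrib, ← Finset.sum_add_distrib]
    exact Finset.sum_congr rfl fun d _ => by ring
  rw [h6]
  linarith

/-- Markov's inequality for functions of `D` -/
lemma markov (P : Law Ω) (D : Ω → U) (x : U → ℝ) (hx : ∀ d ∈ img D, 0 ≤ x d) {T θ : ℝ}
    (hθ : 0 < θ) (hT : ∑ d ∈ img D, P.pr D d * x d ≤ T) :
    ev P (fun ω => θ ≤ x (D ω)) ≤ T / θ := by
  rw [le_div_iff₀ hθ]
  refine le_trans ?_ hT
  rw [← P.ex_comp D x]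
  unfold ev
  rw [mul_comm, ← P.ex_const_mul]
  refine P.ex_mono fun ω _ => ?_
  by_cases h : θ ≤ x (D ω)
  · rw [Law.ind_of h, mul_one]
    exact h
  · rw [Law.ind_not h, mul_zero]
    exact hx _ (mem_img.2 ⟨ω, rfl⟩)

/-- lower bound of a conditional entropy by a bound on most atoms of `D` -/
lemma hc_ge_of_good (P : Law Ω) (X : Ω → S) (Y : Ω → T) (D : Ω → U) (Bad : U → Prop) {β p : ℝ}
    (hβ : 0 ≤ β) (hbad : ev P (fun ω => Bad (D ω)) ≤ p)
    (h : ∀ d, 0 < P.pr D d → ¬ Bad d → β ≤ hc (P.cond D d) X Y) :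
    (1 - p) * β ≤ hc P X fun ω => (Y ω, D ω) := by
  rw [hc_eq_sum]
  have h1 : (1 - p) * β ≤ P.ex fun ω => (1 - Law.ind (Bad (D ω))) * β := by
    have : (fun ω => (1 - Law.ind (Bad (D ω))) * β) =
        fun ω => β * ((fun _ => (1 : ℝ)) ω - Law.ind (Bad (D ω))) := by
      funext ω
      ring
    rw [this, P.ex_const_mul, P.ex_sub, P.ex_const, mul_comm β]
    exact mul_le_mul_of_nonneg_right (by unfold ev at hbad; linarith) hβ
  refine h1.trans ?_
  rw [P.ex_comp D fun d => (1 - Law.ind (Bad d)) * β]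
  refine Finset.sum_le_sum fun d _ => ?_
  rcases (P.pr_nonneg D d).eq_or_lt with h0 | h0
  · rw [← h0, zero_mul, zero_mul]
  · refine mul_le_mul_of_nonneg_left ?_ h0.le
    by_cases hd : Bad d
    · rw [Law.ind_of hd, sub_self, zero_mul]
      exact Stk.hc_nonneg _ _ _
    · rw [Law.ind_not hd, sub_zero, one_mul]
      exact h d h0 hd

/-- **Two independences imply saturation**, on the line: given `D`, the discretised position `A`
and the moved position `B` are both nearly independent of the digit block `E`, which moves the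
position by `f D E`; then the position is saturated between the scales `w` and `w'`. -/
theorem shift_one (P : Law Ω) (A : Ω → S) (B : Ω → T) (E : Ω → U) (D : Ω → S')
    (R : S' → S → U → T → Prop) (pA : S' → S → ℝ) (f : S' → U → ℝ) {c w w' c₀ ε p₀ : ℝ} {J : ℕ}
    (hJ : 3 ≤ J) (hc0 : 0 ≤ c) (hw : 0 < w) (hw' : 0 < w') (hc₀ : 0 < c₀)
    (hA : mi P A E D ≤ ε) (hB : mi P B E D ≤ ε)
    (hR : ev P (fun ω => ¬ R (D ω) (A ω) (E ω) (B ω)) ≤ ε)
    (hpos : ∀ d a a' b e₁ e₂, R d a e₁ b → R d a' e₂ b →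
      |pA d a' - (pA d a + (f d e₁ - f d e₂))| ≤ c)
    (hgood : ev P (fun ω => ¬ c₀ ≤ ∑ e₁ ∈ img E, ∑ e₂ ∈ img E,
      Law.ind (w' + 2 * (J * c) ≤ |f (D ω) e₁ - f (D ω) e₂| ∧
        J * |f (D ω) e₁ - f (D ω) e₂| + 2 * (J * c) ≤ w) *
        ((P.cond D (D ω)).pr E e₁ * (P.cond D (D ω)).pr E e₂)) ≤ p₀) :
    (1 - (p₀ + (4 * Real.sqrt ε + ε) * (2 * J ^ 2 / c₀ + 1))) * Real.log (J / 3) ≤
      hc P (fun ω => ⌊pA (D ω) (A ω) / w'⌋) fun ω => (⌊pA (D ω) (A ω) / w⌋, D ω) := by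
  classical
  have hJ0 : 0 < J := by omega
  have hJ' : (3 : ℝ) ≤ J := by exact_mod_cast hJ
  have hJ1 : (0 : ℝ) < J := by linarith
  have hlog : 0 ≤ Real.log ((J : ℝ) / 3) :=
    Real.log_nonneg (by rw [le_div_iff₀ (by norm_num)]; linarith)
  set τ : ℝ := 1 / J ^ 2 with hτ
  have hτ0 : 0 < τ := by positivity
  set tot : S' → ℝ := fun d => 2 * Real.sqrt (mi0 (P.cond D d) A E) +
      2 * Real.sqrt (mi0 (P.cond D d) B E) +
      ev (P.cond D d) fun ω => ¬ R d (A ω) (E ω) (B ω) with htot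
  have htot0 : ∀ d, 0 ≤ tot d := fun d => by
    have := ev_nonneg (P.cond D d) fun ω => ¬ R d (A ω) (E ω) (B ω)
    have h1 := Real.sqrt_nonneg (mi0 (P.cond D d) A E)
    have h2 := Real.sqrt_nonneg (mi0 (P.cond D d) B E)
    rw [htot]
    simp only
    linarith
  set θ : ℝ := 1 / (2 * J ^ 2 / c₀ + 1) with hθ
  have hθ0 : 0 < θ := by positivity
  have hθτ : 2 * θ < τ * c₀ := by
    rw [hθ, hτ, mul_one_div, div_lt_iff₀ (by positivity)]
    have : 1 / (J : ℝ) ^ 2 * c₀ * (2 * J ^ 2 / c₀ + 1) = 2 + c₀ / J ^ 2 := by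
      field_simp
    rw [this]
    have : 0 < c₀ / (J : ℝ) ^ 2 := by positivity
    linarith
  set GG : S' → Prop := fun d => c₀ ≤ ∑ e₁ ∈ img E, ∑ e₂ ∈ img E,
      Law.ind (w' + 2 * (J * c) ≤ |f d e₁ - f d e₂| ∧
        J * |f d e₁ - f d e₂| + 2 * (J * c) ≤ w) *
        ((P.cond D d).pr E e₁ * (P.cond D d).pr E e₂) with hGG
  have hbad : ev P (fun ω => ¬ GG (D ω) ∨ θ ≤ tot (D ω)) ≤
      p₀ + (4 * Real.sqrt ε + ε) * (2 * J ^ 2 / c₀ + 1) := by
    refine (ev_or_le P _ _).trans (add_le_add hgood ?_)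
    refine (markov P D tot (fun d _ => htot0 d) hθ0 (sum_total_le P A B E D R hA hB hR)).trans
      (le_of_eq ?_)
    rw [hθ, div_div_eq_mul_div, div_one]
  refine hc_ge_of_good P _ _ D (fun d => ¬ GG d ∨ θ ≤ tot d)
    hlog hbad fun d hd hnb => ?_
  push Not at hnb
  obtain ⟨hg, ht⟩ := hnb
  -- one good atom
  obtain ⟨e₁, e₂, hG, -, -, hI⟩ := exists_pair (P.cond D d) A B E (R d)
    (fun e₁ e₂ => w' + 2 * (J * c) ≤ |f d e₁ - f d e₂| ∧
        J * |f d e₁ - f d e₂| + 2 * (J * c) ≤ w) hτ0.le hg (by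
      have : 2 * tot d < τ * c₀ := by linarith
      exact this)
  have hinv : Inv (P.cond D d) (fun ω => pA d (A ω)) c (f d e₁ - f d e₂) τ := by
    intro I
    refine ((hI {a | pA d a ∈ I}).1).trans (add_le_add ?_ le_rfl)
    refine ev_mono _ fun ω _ ⟨a, ha, b, h1, h2⟩ => ⟨pA d a, ha, ?_⟩
    rw [Real.dist_eq]
    exact hpos d a (A ω) b e₁ e₂ h1 h2
  have h1 := sat_one (P.cond D d) (fun ω => pA d (A ω)) hJ0 hc0 hτ0.le hw hw' hinv hG.1 hG.2
  have h2 : (2 : ℝ) / J + J * τ = 3 / J := by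
    rw [hτ]
    field_simp
    norm_num
  rw [h2, ← Real.log_inv, inv_div] at h1
  refine h1.trans (le_of_eq ?_)
  unfold hc
  have e1 : (P.cond D d).H (fun ω => (⌊pA d (A ω) / w'⌋, ⌊pA d (A ω) / w⌋)) =
      (P.cond D d).H fun ω => (⌊pA (D ω) (A ω) / w'⌋, ⌊pA (D ω) (A ω) / w⌋) :=
    H_congr' _
      (fun ω ω' p p' e => by
        rw [(cond_pos hd p).1, (cond_pos hd p').1]
        exact e)
      (fun ω ω' p p' e => by
        rw [(cond_pos hd p).1, (cond_pos hd p').1] at e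
        exact e)
  have e2 : (P.cond D d).H (fun ω => ⌊pA d (A ω) / w⌋) =
      (P.cond D d).H fun ω => ⌊pA (D ω) (A ω) / w⌋ :=
    H_congr' _
      (fun ω ω' p p' e => by
        rw [(cond_pos hd p).1, (cond_pos hd p').1]
        exact e)
      (fun ω ω' p p' e => by
        rw [(cond_pos hd p).1, (cond_pos hd p').1] at e
        exact e)
  rw [e1, e2]

end cond

end Vale.Agent.P127.U.Shift
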