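import Vale.Agent.P127.U.Flat
import Vale.Agent.P127.U.PlaneOf

/-!
# P127 / U : the slab of a planar ball (helper611), given any side information `C`

After helper513's `Flat.lean`: if the tubelets through the ball `Z_s`, `s = (1-r) L`, lie in a slab of
thickness `2^-(r L)` whose direction `θ` is a function of `(Z_s, C)`, then in the ball system `bl s l t`
the label `(θ_R, 0, R, ...)` of the slab `R = L - s` is a function of the point `(Z_L, C)` and of the
tube `(tbs, Z_s, C)`.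
-/

set_option autoImplicit false

namespace Vale.Agent.P127.U

open Filter Topology Vale.Agent.P127 Vale.Agent.P127.Stk Sys Apx Coa Flat

namespace SlabOf

variable {S : Sys} {γ : Type}

theorem slab_fn {l : S.RV Ln} {t : S.RV ℝ} (hl : LnA l) (ht : T01 t) (C : S.RV γ)
    {r : ℝ} (hr : 0 ≤ r) (hr1 : r ≤ 1) {θ : S.RV ℝ}
    (hθ4 : S.Ae fun i ω => |θ i ω| ≤ 4)
    (hθ : S.hc (fun i ω => (fl1 (S.sc r i) (θ i ω),
        fl1 (S.sc r i) (co (qa (S.sc r i) (θ i ω)) (dir l i ω) 1)))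
        (Sys.pr (S.pqs (S.sc (1 - r)) (pt l t)) C) = 0) :
    BxA (slab (fun i => S.L i - S.sc (1 - r) i) θ (bl (S.sc (1 - r)) l t)) ∧
    S.hc (slab (fun i => S.L i - S.sc (1 - r) i) θ (bl (S.sc (1 - r)) l t)).lab
      (Sys.pr (pqs (fun i => S.L i - S.sc (1 - r) i)
        (pt (bl (S.sc (1 - r)) l t) (LocB.tb' (S.sc (1 - r)) t)))
        (Sys.pr (pqs (S.sc (1 - r)) (pt l t)) C)) = 0 ∧
    S.hc (slab (fun i => S.L i - S.sc (1 - r) i) θ (bl (S.sc (1 - r)) l t)).lab
      (Sys.pr (tbs (fun i => S.L i - S.sc (1 - r) i) (bl (S.sc (1 - r)) l t))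
        (Sys.pr (pqs (S.sc (1 - r)) (pt l t)) C)) = 0 := by
  set s : ℕ → ℕ := S.sc (1 - r) with hs_def
  set m : ℕ → ℕ := S.sc r with hm_def
  set R : ℕ → ℕ := fun i => S.L i - s i with hR_def
  have hs : ∀ i, s i ≤ S.L i := sc_le (by linarith)
  have hbs : S.Bd s := bd_of_le Bd_L hs
  have hbR : S.Bd R := bd_of_le Bd_L fun i => Nat.sub_le _ _
  have hbm : S.Bd m := bd_sc hr
  have hmR : ∀ i, m i ≤ R i ∧ R i ≤ m i + 1 := by
    intro i
    have hL : (0:ℝ) ≤ S.L i := Nat.cast_nonneg _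
    have a1 : (s i : ℝ) ≤ (1 - r) * S.L i := Nat.floor_le (mul_nonneg (by linarith) hL)
    have a2 : (1 - r) * S.L i < s i + 1 := Nat.lt_floor_add_one _
    have b1 : (m i : ℝ) ≤ r * S.L i := Nat.floor_le (mul_nonneg hr hL)
    have b2 : r * S.L i < m i + 1 := Nat.lt_floor_add_one _
    have c : (R i : ℝ) = S.L i - s i := by
      rw [hR_def]
      exact Nat.cast_sub (hs i)
    constructor
    · have : (m i : ℝ) < R i + 1 := by linarith
      exact Nat.lt_succ_iff.1 (by exact_mod_cast this)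
    · have : (R i : ℝ) < m i + 1 + 1 := by linarith
      exact Nat.lt_succ_iff.1 (by exact_mod_cast this)
  -- the lines in the ball
  set l' : S.RV Ln := bl s l t with hl'_def
  set t' : S.RV ℝ := LocB.tb' s t with ht'_def
  have hl' : LnA l' := by
    filter_upwards [hl] with i hi ω hω
    refine ⟨fun j => ?_, (hi ω hω).2⟩
    show |Int.fract _| ≤ 1
    rw [abs_of_nonneg (Int.fract_nonneg _)]
    exact (Int.fract_lt_one _).le
  have ht01 : T01 t' := Eventually.of_forall fun i ω _ => ⟨Int.fract_nonneg _, (Int.fract_lt_one _).le⟩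
  have hsl : BxA (slab R θ l') := by
    obtain ⟨c, hc⟩ := hbR
    refine ⟨(Ae.and hl' hθ4).mono fun i ω g => ⟨g.1, g.2, Nat.zero_le _⟩, c, ?_⟩
    filter_upwards [hc] with i hi ω _
    exact hi
  -- tameness
  have T1 : Tame (tbs R l') := Sys.tame_tbs hbR hl'
  have T2 : Tame (dgv R (dir l)) := tame_dir hbR hl
  have T3 : Tame (pqs s (pt l t)) := Sys.tame_pt hbs hl ht
  have T4 : Tame (pqs R (pt l' t')) := Sys.tame_pt hbR hl' ht01
  have T5 : Tame (dg S.L t) := tame_dg_t Bd_L ht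
  have T6 : Tame (dg R t') := tame_dg_t hbR ht01
  have T7 : Tame (slab R θ l').lab := tame_lab hsl
  set A : S.RV (ℤ × ℤ) := fun i ω => (fl1 (m i) (θ i ω), fl1 (m i) (co (qa (m i) (θ i ω)) (dir l i ω) 1)) with hA
  have TA : Tame A := by
    refine (tame_dg hbm (X := θ) 4 hθ4 |>.pr (tame_dg hbm
      (X := fun i ω => co (qa (m i) (θ i ω)) (dir l i ω) 1) 2 ?_)).mono
      (Eventually.of_forall fun _ _ _ _ _ e => e)
    refine hl.mono fun i ω g => ?_
    have := co_le (qa (m i) (θ i ω)) (l i ω).2 (M := 1) g.2 1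
    rw [mul_one] at this
    exact_mod_cast this
  have hA0 : ∀ {δ : Type} (Z : S.RV δ), Fn (Sys.pr (pqs s (pt l t)) C) Z → S.hc A Z = 0 := by
    intro δ Z hZ
    refine le_antisymm ?_ (hc_nonneg TA Z)
    rw [← hθ]
    exact hc_mono_right TA hZ
  -- the slab is a function of the point
  have K1 : S.hc (slab R θ l').lab (Sys.pr (pqs R (pt l' t')) (Sys.pr (pqs s (pt l t)) C)) = 0 := by
    have g0 : S.hc A (Sys.pr (pqs R (pt l' t')) (Sys.pr (pqs s (pt l t)) C)) = 0 :=
      hA0 _ (Eventually.of_forall fun _ _ _ _ _ e => congrArg Prod.snd e)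
    refine le_antisymm ?_ (hc_nonneg T7 _)
    have g1 := hc_le_add T7 TA (Sys.pr (pqs R (pt l' t')) (Sys.pr (pqs s (pt l t)) C))
    rw [g0, add_zero] at g1
    refine g1.trans (le_of_eq ?_)
    refine hc_zero_of_le (Real.log (2 * (22 : ℕ) + 3) + (2 * Real.log 11 + 2 * Real.log (2 * (22 : ℕ) + 3))) ?_
    filter_upwards [hl, hl', ht01] with i hi hi' hti
    have hRp : (0 : ℝ) < (1 / 2) ^ R i := by positivity
    have key : ∀ ω ω', 0 < (S.P i).w ω → 0 < (S.P i).w ω' →
        (Sys.pr A (Sys.pr (pqs R (pt l' t')) (Sys.pr (pqs s (pt l t)) C))) i ω =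
          (Sys.pr A (Sys.pr (pqs R (pt l' t')) (Sys.pr (pqs s (pt l t)) C))) i ω' →
        |co (qa (R i) (θ i ω)) (fun j => (l i ω).2 j - (l i ω').2 j) 1| ≤ 18 * (1 / 2 : ℝ) ^ R i := by
      intro ω ω' p p' e
      have a1 : fl1 (m i) (θ i ω) = fl1 (m i) (θ i ω') := congrArg (fun q => q.1.1) e
      have a2 : fl1 (m i) (co (qa (m i) (θ i ω)) (l i ω).2 1) =
        fl1 (m i) (co (qa (m i) (θ i ω')) (l i ω').2 1) := congrArg (fun q => q.1.2) e
      exact frame_le (hmR i).2 (hmR i).1 a1 (hi ω p).2 (hi ω' p').2 a2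
    refine slab_le (S.P i) (R i) 22 (l' i) (θ i) _ hi' ?_ ?_ ?_
    · intro ω ω' p p' e
      have a1 : fl1 (m i) (θ i ω) = fl1 (m i) (θ i ω') := congrArg (fun q => q.1.1) e
      have a2 := Apx.fl1_close a1
      have a3 := half_pow_mono (hmR i).2
      rw [pow_succ] at a3
      push_cast
      linarith
    · intro ω ω' p p' e _
      have b1 : fl1 (R i) (t' i ω) = fl1 (R i) (t' i ω') := congrArg (fun q => q.2.1.1) e
      have b2 : fl (R i) (pos (l' i ω) (t' i ω)) = fl (R i) (pos (l' i ω') (t' i ω')) :=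
        congrArg (fun q => q.2.1.2) e
      have b3 := Apx.fl1_close b1
      have b4 := Apx.fl_close b2
      have k := key ω ω' p p' e
      set φ := qa (R i) (θ i ω) with hφ
      have c1 : co φ (fun j => (l' i ω).1 j - (l' i ω').1 j) 1 =
          co φ (fun j => pos (l' i ω) (t' i ω) j - pos (l' i ω') (t' i ω') j) 1 -
          t' i ω * co φ (fun j => (l i ω).2 j - (l i ω').2 j) 1 -
          (t' i ω - t' i ω') * co φ (l i ω').2 1 := by
        have d1 : ∀ ω, (l' i ω).2 = (l i ω).2 := fun _ => rfl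
        simp only [co1, pos, d1]
        ring
      have c2 : |co φ (fun j => pos (l' i ω) (t' i ω) j - pos (l' i ω') (t' i ω') j) 1| ≤
          2 * (1 / 2 : ℝ) ^ R i := co_le φ _ (M := (1 / 2 : ℝ) ^ R i) b4 1
      have c3 : |t' i ω * co φ (fun j => (l i ω).2 j - (l i ω').2 j) 1| ≤ 18 * (1 / 2 : ℝ) ^ R i := by
        rw [abs_mul, abs_of_nonneg (hti ω p).1]
        calc t' i ω * |co φ (fun j => (l i ω).2 j - (l i ω').2 j) 1| ≤ 1 * (18 * (1 / 2 : ℝ) ^ R i) :=
              mul_le_mul (hti ω p).2 k (abs_nonneg _) (by norm_num)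
          _ = _ := one_mul _
      have c4 : |(t' i ω - t' i ω') * co φ (l i ω').2 1| ≤ 2 * (1 / 2 : ℝ) ^ R i := by
        rw [abs_mul]
        have d := co_le φ (l i ω').2 (M := 1) (hi ω' p').2 1
        calc |t' i ω - t' i ω'| * |co φ (l i ω').2 1| ≤ (1 / 2 : ℝ) ^ R i * (2 * 1) :=
              mul_le_mul b3 d (abs_nonneg _) hRp.le
          _ = _ := by ring
      rw [c1]
      push_cast
      rw [abs_le] at c2 c3 c4 ⊢
      constructor <;> linarith [c2.1, c2.2, c3.1, c3.2, c4.1, c4.2]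
    · intro ω ω' p p' e _
      have k := key ω ω' p p' e
      have d1 : ∀ ω, (l' i ω).2 = (l i ω).2 := fun _ => rfl
      simp only [d1]
      push_cast
      linarith
  -- the slab is a function of the tube
  have K2 : S.hc (slab R θ l').lab (Sys.pr (tbs R l') (Sys.pr (pqs s (pt l t)) C)) = 0 := by
    have g0 : S.hc A (Sys.pr (tbs R l') (Sys.pr (pqs s (pt l t)) C)) = 0 :=
      hA0 _ (Eventually.of_forall fun _ _ _ _ _ e => congrArg Prod.snd e)
    refine le_antisymm ?_ (hc_nonneg T7 _)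
    have g1 := hc_le_add T7 TA (Sys.pr (tbs R l') (Sys.pr (pqs s (pt l t)) C))
    rw [g0, add_zero] at g1
    refine g1.trans (le_of_eq ?_)
    refine hc_zero_of_le (Real.log (2 * (2 : ℕ) + 3) + (2 * Real.log 11 + 2 * Real.log (2 * (2 : ℕ) + 3))) ?_
    filter_upwards [hl'] with i hi'
    refine slab_le (S.P i) (R i) 2 (l' i) (θ i) _ hi' ?_ ?_ ?_
    · intro ω ω' p p' e
      have a1 : fl1 (m i) (θ i ω) = fl1 (m i) (θ i ω') := congrArg (fun q => q.1.1) e
      have a2 := Apx.fl1_close a1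
      have a3 := half_pow_mono (hmR i).2
      rw [pow_succ] at a3
      push_cast
      linarith
    · intro ω ω' p p' e _
      have b1 : fl (R i) (l' i ω).1 = fl (R i) (l' i ω').1 := congrArg (fun q => q.2.1.1) e
      have b4 := Apx.fl_close b1
      have := co_le (qa (R i) (θ i ω)) _ (M := (1 / 2 : ℝ) ^ R i) b4 1
      exact_mod_cast this
    · intro ω ω' p p' e _
      have b1 : fl (R i) (l' i ω).2 = fl (R i) (l' i ω').2 := congrArg (fun q => q.2.1.2) e
      have b4 := Apx.fl_close b1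
      have := co_le (qa (R i) (θ i ω)) _ (M := (1 / 2 : ℝ) ^ R i) b4 1
      exact_mod_cast this
  exact ⟨hsl, K1, K2⟩

end SlabOf

end Vale.Agent.P127.U
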