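import Vale.Agent.P127.U.ExcBase
import Vale.Agent.P127.U.ApxS

/-!
# P127 / U / Str : linear algebra of boxes (helper499)

* `svd` : principal axes of an ellipse in the plane
-/

set_option autoImplicit false

namespace Vale.Agent.P127.U.Str

open Filter Topology Vale.Agent.P127 Vale.Agent.P127.Stk Vale.Agent.P127.U Sys

theorem co0 (θ : ℝ) (v : Fin 2 → ℝ) : co θ v 0 = Real.cos θ * v 0 + Real.sin θ * v 1 := by simp [co]
theorem co1 (θ : ℝ) (v : Fin 2 → ℝ) : co θ v 1 = -Real.sin θ * v 0 + Real.cos θ * v 1 := by simp [co]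

/-- principal axes -/
theorem svd (α0 β0 α1 β1 : ℝ) (hd : 0 < α0 * β1 - α1 * β0) : ∃ θ s0 s1 : ℝ, |θ| ≤ 2 ∧ 0 < s0 ∧ s0 ≤ s1 ∧
    s0 * s1 = α0 * β1 - α1 * β0 ∧
    ∀ v : Fin 2 → ℝ, (α0 * v 0 + β0 * v 1) ^ 2 + (α1 * v 0 + β1 * v 1) ^ 2 =
      (s0 * co θ v 0) ^ 2 + (s1 * co θ v 1) ^ 2 := by
  set p := α0 ^ 2 + α1 ^ 2 with hp
  set q := α0 * β0 + α1 * β1 with hq
  set r := β0 ^ 2 + β1 ^ 2 with hr
  set σ := (p + r) / 2 with hσ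
  set δ := (p - r) / 2 with hδ
  have hdet : p * r - q ^ 2 = (α0 * β1 - α1 * β0) ^ 2 := by rw [hp, hq, hr]; ring
  have hdpos : 0 < p * r - q ^ 2 := by rw [hdet]; positivity
  set z : ℂ := ⟨-δ, -q⟩ with hz
  set ρ := ‖z‖ with hρ
  have hρ0 : 0 ≤ ρ := norm_nonneg _
  have hρ2 : ρ ^ 2 = δ ^ 2 + q ^ 2 := by
    rw [hρ, ← Complex.normSq_eq_norm_sq, hz, Complex.normSq_mk]; ring
  have c2 : ρ * Real.cos (Complex.arg z) = -δ := Complex.norm_mul_cos_arg z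
  have s2 : ρ * Real.sin (Complex.arg z) = -q := Complex.norm_mul_sin_arg z
  have hσ0 : 0 ≤ σ := by rw [hσ, hp, hr]; positivity
  have hprod : (σ - ρ) * (σ + ρ) = p * r - q ^ 2 := by
    have : (σ - ρ) * (σ + ρ) = σ ^ 2 - ρ ^ 2 := by ring
    rw [this, hρ2, hσ, hδ]; ring
  have hpl : 0 < σ + ρ := by
    rcases (by positivity : 0 ≤ σ + ρ).eq_or_lt with h | h
    · rw [← h, mul_zero] at hprod; linarith
    · exact h
  have hmi : 0 < σ - ρ := by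
    by_contra hcon
    push Not at hcon
    have : (σ - ρ) * (σ + ρ) ≤ 0 := mul_nonpos_of_nonpos_of_nonneg hcon hpl.le
    linarith
  refine ⟨Complex.arg z / 2, Real.sqrt (σ - ρ), Real.sqrt (σ + ρ), ?_, Real.sqrt_pos.2 hmi,
    Real.sqrt_le_sqrt (by linarith), ?_, ?_⟩
  · have h1 := Complex.abs_arg_le_pi z
    have h2 := Real.pi_le_four
    rw [abs_div]
    norm_num
    linarith
  · rw [← Real.sqrt_mul hmi.le, hprod, hdet, Real.sqrt_sq hd.le]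
  · intro v
    rw [mul_pow, mul_pow, Real.sq_sqrt hmi.le, Real.sq_sqrt hpl.le, co0, co1]
    set θ := Complex.arg z / 2 with hθ
    have e2 : Complex.arg z = 2 * θ := by rw [hθ]; ring
    rw [e2] at c2 s2
    rw [Real.cos_two_mul'] at c2
    rw [Real.sin_two_mul] at s2
    have t := Real.sin_sq_add_cos_sq θ
    have e3 : (σ - ρ) * (Real.cos θ * v 0 + Real.sin θ * v 1) ^ 2 +
        (σ + ρ) * (-Real.sin θ * v 0 + Real.cos θ * v 1) ^ 2 =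
        σ * (v 0 ^ 2 + v 1 ^ 2) * (Real.sin θ ^ 2 + Real.cos θ ^ 2) -
          (ρ * (Real.cos θ ^ 2 - Real.sin θ ^ 2)) * (v 0 ^ 2 - v 1 ^ 2) -
          2 * (ρ * (2 * Real.sin θ * Real.cos θ)) * (v 0 * v 1) := by ring
    rw [e3, t, c2, s2, hσ, hδ, hp, hq, hr]
    ring

/-- stretched vector -/
noncomputable def stv (φ : ℝ) (a b : ℕ) (v : Fin 2 → ℝ) : Fin 2 → ℝ :=
  ![(2:ℝ) ^ a * co φ v 0, (2:ℝ) ^ b * co φ v 1]

@[simp] theorem stv0 (φ : ℝ) (a b : ℕ) (v : Fin 2 → ℝ) : stv φ a b v 0 = (2:ℝ) ^ a * co φ v 0 := rfl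
@[simp] theorem stv1 (φ : ℝ) (a b : ℕ) (v : Fin 2 → ℝ) : stv φ a b v 1 = (2:ℝ) ^ b * co φ v 1 := rfl

/-- squared gauge of a box -/
noncomputable def gq (θ : ℝ) (k j : ℕ) (v : Fin 2 → ℝ) : ℝ :=
  ((2:ℝ) ^ k * co θ v 0) ^ 2 + ((2:ℝ) ^ j * co θ v 1) ^ 2

/-- the wide direction -/
noncomputable def mv (θ : ℝ) : Fin 2 → ℝ := ![Real.cos θ, Real.sin θ]
/-- the normal direction -/
noncomputable def nv (θ : ℝ) : Fin 2 → ℝ := ![-Real.sin θ, Real.cos θ]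

theorem co_mv0 (φ θ : ℝ) : co φ (mv θ) 0 = Real.cos (θ - φ) := by
  rw [co0, Real.cos_sub]; simp [mv]; ring
theorem co_mv1 (φ θ : ℝ) : co φ (mv θ) 1 = Real.sin (θ - φ) := by
  rw [co1, Real.sin_sub]; simp [mv]; ring
theorem co_nv0 (φ θ : ℝ) : co φ (nv θ) 0 = -Real.sin (θ - φ) := by
  rw [co0, Real.sin_sub]; simp [nv]; ring
theorem co_nv1 (φ θ : ℝ) : co φ (nv θ) 1 = Real.cos (θ - φ) := by
  rw [co1, Real.cos_sub]; simp [nv]; ring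

theorem co_sq (θ : ℝ) (v : Fin 2 → ℝ) : co θ v 0 ^ 2 + co θ v 1 ^ 2 = v 0 ^ 2 + v 1 ^ 2 := by
  rw [co0, co1]
  have t := Real.sin_sq_add_cos_sq θ
  linear_combination (v 0 ^ 2 + v 1 ^ 2) * t

theorem gq_nonneg (θ : ℝ) (k j : ℕ) (v : Fin 2 → ℝ) : 0 ≤ gq θ k j v := by unfold gq; positivity

theorem gq_ge (θ : ℝ) (k j : ℕ) (v : Fin 2 → ℝ) : v 0 ^ 2 + v 1 ^ 2 ≤ gq θ k j v := by
  rw [← co_sq θ]
  unfold gq
  rw [mul_pow, mul_pow]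
  have h1 : (1:ℝ) ≤ ((2:ℝ) ^ k) ^ 2 := one_le_pow₀ (one_le_pow₀ (by norm_num))
  have h2 : (1:ℝ) ≤ ((2:ℝ) ^ j) ^ 2 := one_le_pow₀ (one_le_pow₀ (by norm_num))
  nlinarith [sq_nonneg (co θ v 0), sq_nonneg (co θ v 1)]

theorem stv_ge (φ : ℝ) (a b : ℕ) (v : Fin 2 → ℝ) : v 0 ^ 2 + v 1 ^ 2 ≤ stv φ a b v 0 ^ 2 + stv φ a b v 1 ^ 2 := by
  have := gq_ge φ a b v
  unfold gq at this
  simpa using this

/-- **unstretching a box** -/
theorem unst (φ : ℝ) (a b : ℕ) (θ : ℝ) (k j : ℕ) : ∃ (ψ : ℝ) (k' j' : ℕ), |ψ| ≤ 2 ∧ k' ≤ j' ∧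
    k' + j' = k + j + a + b ∧
    (∀ v, gq ψ k' j' v ≤ 4 * gq θ k j (stv φ a b v)) ∧
    (∀ v, gq θ k j (stv φ a b v) ≤ 4 * gq ψ k' j' v) := by
  obtain ⟨ψ, s0, s1, hψ, h0, h01, hd, hG⟩ := svd
    ((2:ℝ) ^ k * (Real.cos θ * 2 ^ a * Real.cos φ - Real.sin θ * 2 ^ b * Real.sin φ))
    ((2:ℝ) ^ k * (Real.cos θ * 2 ^ a * Real.sin φ + Real.sin θ * 2 ^ b * Real.cos φ))
    ((2:ℝ) ^ j * (-Real.sin θ * 2 ^ a * Real.cos φ - Real.cos θ * 2 ^ b * Real.sin φ))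
    ((2:ℝ) ^ j * (-Real.sin θ * 2 ^ a * Real.sin φ + Real.cos θ * 2 ^ b * Real.cos φ)) (by
      have t := Real.sin_sq_add_cos_sq θ
      have t' := Real.sin_sq_add_cos_sq φ
      have e : ((2:ℝ) ^ k * (Real.cos θ * 2 ^ a * Real.cos φ - Real.sin θ * 2 ^ b * Real.sin φ)) *
          ((2:ℝ) ^ j * (-Real.sin θ * 2 ^ a * Real.sin φ + Real.cos θ * 2 ^ b * Real.cos φ)) -
          ((2:ℝ) ^ j * (-Real.sin θ * 2 ^ a * Real.cos φ - Real.cos θ * 2 ^ b * Real.sin φ)) *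
          ((2:ℝ) ^ k * (Real.cos θ * 2 ^ a * Real.sin φ + Real.sin θ * 2 ^ b * Real.cos φ)) =
          (2:ℝ) ^ k * 2 ^ j * 2 ^ a * 2 ^ b * ((Real.sin θ ^ 2 + Real.cos θ ^ 2) * (Real.sin φ ^ 2 + Real.cos φ ^ 2)) := by
        ring
      rw [e, t, t']
      positivity)
  have hdet : s0 * s1 = (2:ℝ) ^ (k + j + a + b) := by
    rw [hd]
    have t := Real.sin_sq_add_cos_sq θ
    have t' := Real.sin_sq_add_cos_sq φ
    have e : ((2:ℝ) ^ k * (Real.cos θ * 2 ^ a * Real.cos φ - Real.sin θ * 2 ^ b * Real.sin φ)) *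
          ((2:ℝ) ^ j * (-Real.sin θ * 2 ^ a * Real.sin φ + Real.cos θ * 2 ^ b * Real.cos φ)) -
          ((2:ℝ) ^ j * (-Real.sin θ * 2 ^ a * Real.cos φ - Real.cos θ * 2 ^ b * Real.sin φ)) *
          ((2:ℝ) ^ k * (Real.cos θ * 2 ^ a * Real.sin φ + Real.sin θ * 2 ^ b * Real.cos φ)) =
          (2:ℝ) ^ k * 2 ^ j * 2 ^ a * 2 ^ b * ((Real.sin θ ^ 2 + Real.cos θ ^ 2) * (Real.sin φ ^ 2 + Real.cos φ ^ 2)) := by
        ring
    rw [e, t, t', pow_add, pow_add, pow_add]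
    ring
  have hG' : ∀ v, gq θ k j (stv φ a b v) = (s0 * co ψ v 0) ^ 2 + (s1 * co ψ v 1) ^ 2 := by
    intro v
    rw [← hG v]
    unfold gq
    rw [co0, co1, stv0, stv1, co0, co1]
    ring
  have hs0 : 1 ≤ s0 := by
    have h1 := (stv_ge φ a b (mv ψ)).trans (gq_ge θ k j (stv φ a b (mv ψ)))
    rw [hG', co_mv0, co_mv1, sub_self, Real.cos_zero, Real.sin_zero] at h1
    have h2 : mv ψ 0 ^ 2 + mv ψ 1 ^ 2 = 1 := by
      simp [mv]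
    rw [h2] at h1
    nlinarith
  set k' := Nat.log 2 ⌊s0⌋₊ with hk'
  have f1 : 1 ≤ ⌊s0⌋₊ := Nat.le_floor (by exact_mod_cast hs0)
  have l1 : (2:ℝ) ^ k' ≤ s0 := by
    have h1 : 2 ^ k' ≤ ⌊s0⌋₊ := Nat.pow_log_le_self 2 (by omega)
    have h2 : ((2 ^ k' : ℕ) : ℝ) ≤ ⌊s0⌋₊ := by exact_mod_cast h1
    push_cast at h2
    exact h2.trans (Nat.floor_le (by linarith))
  have l2 : s0 < (2:ℝ) ^ (k' + 1) := by
    have h1 : ⌊s0⌋₊ < 2 ^ (k' + 1) := Nat.lt_pow_succ_log_self (by norm_num) _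
    have h2 : ((⌊s0⌋₊ + 1 : ℕ) : ℝ) ≤ ((2 ^ (k' + 1) : ℕ) : ℝ) := by exact_mod_cast h1
    push_cast at h2
    exact (Nat.lt_floor_add_one s0).trans_le h2
  set T := k + j + a + b with hT
  have hk2 : k' + k' ≤ T := by
    have h1 : (2:ℝ) ^ (k' + k') ≤ 2 ^ T := by
      rw [pow_add, ← hdet]
      exact mul_le_mul l1 (l1.trans h01) (by positivity) h0.le
    exact (pow_le_pow_iff_right₀ (by norm_num)).1 h1
  have hkT : k' ≤ T := by omega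
  have e1 : (2:ℝ) ^ T = 2 ^ k' * 2 ^ (T - k') := by
    rw [← pow_add]; congr 1; omega
  have u1 : s1 ≤ (2:ℝ) ^ (T - k') := by
    have h1 : (2:ℝ) ^ k' * s1 ≤ 2 ^ k' * 2 ^ (T - k') := by
      rw [← e1, ← hdet]
      exact mul_le_mul_of_nonneg_right l1 (h0.le.trans h01)
    exact le_of_mul_le_mul_left h1 (by positivity)
  have u2 : (2:ℝ) ^ (T - k') ≤ 2 * s1 := by
    have h1 : (2:ℝ) ^ k' * 2 ^ (T - k') ≤ 2 ^ k' * (2 * s1) := by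
      rw [← e1, ← hdet]
      calc s0 * s1 ≤ 2 ^ (k' + 1) * s1 := mul_le_mul_of_nonneg_right l2.le (h0.le.trans h01)
        _ = _ := by rw [pow_succ]; ring
    exact le_of_mul_le_mul_left h1 (by positivity)
  refine ⟨ψ, k', T - k', hψ, by omega, by omega, fun v => ?_, fun v => ?_⟩
  · rw [hG']
    unfold gq
    rw [mul_pow, mul_pow, mul_pow, mul_pow]
    have a1 : ((2:ℝ) ^ k') ^ 2 ≤ 4 * s0 ^ 2 := by nlinarith [pow_pos (show (0:ℝ) < 2 by norm_num) k']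
    have a2 : ((2:ℝ) ^ (T - k')) ^ 2 ≤ 4 * s1 ^ 2 := by nlinarith [pow_pos (show (0:ℝ) < 2 by norm_num) (T - k')]
    nlinarith [mul_le_mul_of_nonneg_right a1 (sq_nonneg (co ψ v 0)), mul_le_mul_of_nonneg_right a2 (sq_nonneg (co ψ v 1))]
  · rw [hG']
    unfold gq
    rw [mul_pow, mul_pow, mul_pow, mul_pow]
    have l2' : s0 ≤ 2 * 2 ^ k' := by rw [pow_succ] at l2; linarith
    have a1 : s0 ^ 2 ≤ 4 * ((2:ℝ) ^ k') ^ 2 := by nlinarith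
    have a2 : s1 ^ 2 ≤ 4 * ((2:ℝ) ^ (T - k')) ^ 2 := by nlinarith
    nlinarith [mul_le_mul_of_nonneg_right a1 (sq_nonneg (co ψ v 0)), mul_le_mul_of_nonneg_right a2 (sq_nonneg (co ψ v 1))]

end Vale.Agent.P127.U.Str
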