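import Vale.Agent.P127.U.StrA

/-!
# P127 / U / Str : labels of comparable boxes (helper499)

* `lab_count` : comparable boxes have boundedly many labels
-/

set_option autoImplicit false

namespace Vale.Agent.P127.U.Str

open Filter Topology Vale.Agent.P127 Vale.Agent.P127.Stk Vale.Agent.P127.U Sys

theorem gq_mv (θ : ℝ) (k j : ℕ) : gq θ k j (mv θ) = ((2:ℝ) ^ k) ^ 2 := by
  unfold gq
  rw [co_mv0, co_mv1, sub_self, Real.cos_zero, Real.sin_zero]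
  ring

theorem gq_nv (θ : ℝ) (k j : ℕ) : gq θ k j (nv θ) = ((2:ℝ) ^ j) ^ 2 := by
  unfold gq
  rw [co_nv0, co_nv1, sub_self, Real.cos_zero, Real.sin_zero]
  ring

theorem gq_mv_ge {θ ψ : ℝ} {k j : ℕ} (h : k ≤ j) : ((2:ℝ) ^ k) ^ 2 ≤ gq θ k j (mv ψ) := by
  unfold gq
  rw [co_mv0, co_mv1]
  have t := Real.sin_sq_add_cos_sq (ψ - θ)
  have h1 : ((2:ℝ) ^ k) ^ 2 ≤ ((2:ℝ) ^ j) ^ 2 := pow_le_pow_left₀ (by positivity) (pow_le_pow_right₀ (by norm_num) h) 2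
  rw [mul_pow, mul_pow]
  nlinarith [sq_nonneg (Real.sin (ψ - θ)), sq_nonneg (Real.cos (ψ - θ))]

theorem gq_nv_le {θ ψ : ℝ} {k j : ℕ} (h : k ≤ j) : gq θ k j (nv ψ) ≤ ((2:ℝ) ^ j) ^ 2 := by
  unfold gq
  rw [co_nv0, co_nv1]
  have t := Real.sin_sq_add_cos_sq (ψ - θ)
  have h1 : ((2:ℝ) ^ k) ^ 2 ≤ ((2:ℝ) ^ j) ^ 2 := pow_le_pow_left₀ (by positivity) (pow_le_pow_right₀ (by norm_num) h) 2
  rw [mul_pow, mul_pow]
  nlinarith [sq_nonneg (Real.sin (ψ - θ)), sq_nonneg (Real.cos (ψ - θ))]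

theorem pow_le_of_sq {k k' m : ℕ} (h : ((2:ℝ) ^ k) ^ 2 ≤ ((2:ℝ) ^ m) ^ 2 * ((2:ℝ) ^ k') ^ 2) : k ≤ k' + m := by
  rw [← mul_pow] at h
  have h1 : (2:ℝ) ^ k ≤ 2 ^ m * 2 ^ k' := le_of_sq_le_sq h (by positivity)
  rw [← pow_add] at h1
  have := (pow_le_pow_iff_right₀ (by norm_num : (1:ℝ) < 2)).1 h1
  omega

/-- comparable gauges: exponents and angles -/
theorem cmp_shape {θ1 θ2 : ℝ} {k1 j1 k2 j2 m : ℕ} (h1 : k1 ≤ j1) (h2 : k2 ≤ j2)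
    (hc : ∀ v, gq θ2 k2 j2 v ≤ ((2:ℝ) ^ m) ^ 2 * gq θ1 k1 j1 v) :
    k2 ≤ k1 + m ∧ j2 ≤ j1 + m ∧ (2:ℝ) ^ j2 * |Real.sin (θ1 - θ2)| ≤ 2 ^ m * 2 ^ k1 := by
  refine ⟨pow_le_of_sq ?_, pow_le_of_sq ?_, ?_⟩
  · calc ((2:ℝ) ^ k2) ^ 2 ≤ gq θ2 k2 j2 (mv θ1) := gq_mv_ge h2
      _ ≤ _ := hc _
      _ = _ := by rw [gq_mv]
  · calc ((2:ℝ) ^ j2) ^ 2 = gq θ2 k2 j2 (nv θ2) := (gq_nv _ _ _).symm
      _ ≤ _ := hc _
      _ ≤ _ := by
        have := gq_nv_le (θ := θ1) (ψ := θ2) h1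
        gcongr
  · have h3 := hc (mv θ1)
    rw [gq_mv] at h3
    unfold gq at h3
    rw [co_mv0, co_mv1] at h3
    rw [← mul_pow] at h3
    have h4 : ((2:ℝ) ^ j2 * |Real.sin (θ1 - θ2)|) ^ 2 ≤ (2 ^ m * 2 ^ k1) ^ 2 := by
      refine le_trans ?_ h3
      rw [mul_pow, sq_abs, ← mul_pow]
      nlinarith [sq_nonneg ((2:ℝ) ^ k2 * Real.cos (θ1 - θ2))]
    exact le_of_sq_le_sq h4 (by positivity)

/-- small sine, not too large angle -/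
theorem sin_small {x : ℝ} (hx : |x| ≤ 4) : ∃ δ ∈ ({-Real.pi, 0, Real.pi} : Finset ℝ), |x - δ| ≤ 2 * |Real.sin x| := by
  have hpi := Real.pi_gt_three
  have hpi4 := Real.pi_le_four
  have hpi' := Real.pi_lt_d2
  have key : ∀ y : ℝ, |y| ≤ Real.pi / 2 → |y| ≤ 2 * |Real.sin y| := by
    intro y hy
    have h1 := Real.mul_abs_le_abs_sin hy
    have h2 : 2 / Real.pi * |y| * Real.pi ≤ |Real.sin y| * Real.pi := by gcongr
    have h3 : 2 / Real.pi * |y| * Real.pi = 2 * |y| := by field_simp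
    rw [h3] at h2
    nlinarith [abs_nonneg (Real.sin y)]
  rw [abs_le] at hx
  rcases le_or_gt (-(Real.pi / 2)) x with h1 | h1
  · rcases le_or_gt x (Real.pi / 2) with h2 | h2
    · refine ⟨0, by simp, ?_⟩
      rw [sub_zero]
      exact key x (abs_le.2 ⟨h1, h2⟩)
    · refine ⟨Real.pi, by simp, ?_⟩
      have h3 := key (x - Real.pi) (abs_le.2 ⟨by linarith, by linarith⟩)
      rwa [Real.sin_sub_pi, abs_neg] at h3
  · refine ⟨-Real.pi, by simp, ?_⟩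
    have h3 := key (x + Real.pi) (abs_le.2 ⟨by linarith, by linarith⟩)
    rw [Real.sin_add_pi, abs_neg] at h3
    rwa [sub_neg_eq_add]

/-- multiples of `π` -/
noncomputable def pis : Finset ℝ := (Finset.Icc (-3 : ℤ) 3).image fun k : ℤ => (k : ℝ) * Real.pi

theorem card_pis : pis.card ≤ 7 := by
  refine Finset.card_image_le.trans ?_
  rw [Int.card_Icc]
  norm_num

theorem sin_small' {x : ℝ} (hx : |x| ≤ 8) : ∃ δ ∈ pis, |x - δ| ≤ 2 * |Real.sin x| := by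
  have hpi := Real.pi_gt_three
  have hpi4 := Real.pi_le_four
  have key : ∀ (k : ℤ), -1 ≤ k → k ≤ 1 → |x - k * (2 * Real.pi)| ≤ 4 → ∃ δ ∈ pis, |x - δ| ≤ 2 * |Real.sin x| := by
    intro k hk1 hk2 h
    obtain ⟨δ, hδ, h1⟩ := sin_small h
    rw [Real.sin_sub_int_mul_two_pi] at h1
    have h2 : ∃ a : ℤ, -1 ≤ a ∧ a ≤ 1 ∧ δ = a * Real.pi := by
      simp only [Finset.mem_insert, Finset.mem_singleton] at hδ
      rcases hδ with h | h | h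
      · exact ⟨-1, by norm_num, by norm_num, by rw [h]; push_cast; ring⟩
      · exact ⟨0, by norm_num, by norm_num, by rw [h]; push_cast; ring⟩
      · exact ⟨1, by norm_num, by norm_num, by rw [h]; push_cast; ring⟩
    obtain ⟨a, ha1, ha2, ha3⟩ := h2
    refine ⟨((2 * k + a : ℤ) : ℝ) * Real.pi, ?_, ?_⟩
    · unfold pis
      rw [Finset.mem_image]
      refine ⟨2 * k + a, ?_, rfl⟩
      rw [Finset.mem_Icc]
      constructor <;> linarith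
    · refine le_trans (le_of_eq ?_) h1
      congr 1
      rw [ha3]
      push_cast
      ring
  rw [abs_le] at hx
  rcases le_or_gt x 4 with h1 | h1
  · rcases le_or_gt (-4) x with h2 | h2
    · exact key 0 (by norm_num) (by norm_num) (by rw [abs_le]; constructor <;> push_cast <;> linarith)
    · exact key (-1) (by norm_num) (by norm_num) (by rw [abs_le]; constructor <;> push_cast <;> linarith)
  · exact key 1 (by norm_num) (by norm_num) (by rw [abs_le]; constructor <;> push_cast <;> linarith)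

theorem sin_le_of_qa {w : ℕ} {θ : ℝ} : |Real.sin (qa w θ - θ)| ≤ (1 / 2 : ℝ) ^ w := by
  have h1 : |Real.sin (qa w θ - θ)| ≤ |qa w θ - θ| := by
    have := abs_sin_sub_le (qa w θ - θ) 0
    simpa using this
  refine h1.trans ?_
  rw [abs_sub_comm]
  exact qa_close w θ

/-- coordinates in the rounded frame -/
theorem rnd_frame {θ : ℝ} {k j : ℕ} (h : k ≤ j) {M : ℝ} {u : Fin 2 → ℝ}
    (h0 : |co θ u 0| ≤ M * (1 / 2 : ℝ) ^ k) (h1 : |co θ u 1| ≤ M * (1 / 2 : ℝ) ^ j) :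
    |co (qa (j - k) θ) u 0| ≤ 2 * M * (1 / 2 : ℝ) ^ k ∧ |co (qa (j - k) θ) u 1| ≤ 2 * M * (1 / 2 : ℝ) ^ j := by
  have hp : ∀ n : ℕ, (0:ℝ) < (1 / 2) ^ n := fun n => by positivity
  have hM : 0 ≤ M := by
    by_contra hcon
    push Not at hcon
    have := (abs_nonneg _).trans h0
    have := hp k
    nlinarith
  have hkj : (1 / 2 : ℝ) ^ j ≤ (1 / 2) ^ k := pow_le_pow_of_le_one (by norm_num) (by norm_num) h
  have hs := sin_le_of_qa (w := j - k) (θ := θ)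
  have hs1 := Real.abs_sin_le_one (qa (j - k) θ - θ)
  have hc1 := Real.abs_cos_le_one (qa (j - k) θ - θ)
  constructor
  · rw [co_rot0 θ]
    calc |Real.cos (qa (j - k) θ - θ) * co θ u 0 + Real.sin (qa (j - k) θ - θ) * co θ u 1|
        ≤ |Real.cos (qa (j - k) θ - θ)| * |co θ u 0| + |Real.sin (qa (j - k) θ - θ)| * |co θ u 1| := by
          rw [← abs_mul, ← abs_mul]; exact abs_add_le _ _
      _ ≤ 1 * (M * (1 / 2 : ℝ) ^ k) + 1 * (M * (1 / 2 : ℝ) ^ j) := by gcongr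
      _ ≤ 1 * (M * (1 / 2 : ℝ) ^ k) + 1 * (M * (1 / 2 : ℝ) ^ k) := by gcongr
      _ = _ := by ring
  · rw [co_rot1 θ]
    have e : (1 / 2 : ℝ) ^ (j - k) * (1 / 2) ^ k = (1 / 2) ^ j := by
      rw [← pow_add]; congr 1; omega
    calc |-Real.sin (qa (j - k) θ - θ) * co θ u 0 + Real.cos (qa (j - k) θ - θ) * co θ u 1|
        ≤ |Real.sin (qa (j - k) θ - θ)| * |co θ u 0| + |Real.cos (qa (j - k) θ - θ)| * |co θ u 1| := by
          refine (abs_add_le _ _).trans ?_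
          rw [abs_mul, abs_mul, abs_neg]
      _ ≤ (1 / 2 : ℝ) ^ (j - k) * (M * (1 / 2 : ℝ) ^ k) + 1 * (M * (1 / 2 : ℝ) ^ j) := by gcongr
      _ = M * ((1 / 2 : ℝ) ^ (j - k) * (1 / 2) ^ k) + M * (1 / 2) ^ j := by ring
      _ = _ := by rw [e]; ring

theorem gq_bd {θ : ℝ} {k j m : ℕ} {u : Fin 2 → ℝ} (h : gq θ k j u ≤ ((2:ℝ) ^ m) ^ 2) :
    |co θ u 0| ≤ 2 ^ m * (1 / 2 : ℝ) ^ k ∧ |co θ u 1| ≤ 2 ^ m * (1 / 2 : ℝ) ^ j := by
  unfold gq at h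
  have e : ∀ n : ℕ, (1 / 2 : ℝ) ^ n * 2 ^ n = 1 := fun n => by rw [← mul_pow]; norm_num
  have key : ∀ (n : ℕ) (x : ℝ), ((2:ℝ) ^ n * x) ^ 2 ≤ ((2:ℝ) ^ m) ^ 2 → |x| ≤ 2 ^ m * (1 / 2 : ℝ) ^ n := by
    intro n x hx
    have h1 : |(2:ℝ) ^ n * x| ≤ 2 ^ m := abs_le_of_sq_le_sq hx (by positivity)
    rw [abs_mul, abs_of_pos (by positivity)] at h1
    calc |x| = (1 / 2 : ℝ) ^ n * 2 ^ n * |x| := by rw [e, one_mul]
      _ = (1 / 2 : ℝ) ^ n * (2 ^ n * |x|) := by ring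
      _ ≤ (1 / 2 : ℝ) ^ n * 2 ^ m := by gcongr
      _ = _ := by ring
  exact ⟨key k _ (by nlinarith [sq_nonneg ((2:ℝ) ^ j * co θ u 1)]), key j _ (by nlinarith [sq_nonneg ((2:ℝ) ^ k * co θ u 0)])⟩

theorem mem_Icc_of_abs {a b : ℤ} {N : ℕ} (h : |a - b| ≤ N) : a ∈ Finset.Icc (b - N) (b + N) := by
  have := abs_le.1 h
  rw [Finset.mem_Icc]
  constructor <;> linarith [this.1, this.2]

theorem card_Icc_N (b : ℤ) (N : ℕ) : (Finset.Icc (b - N) (b + N)).card = 2 * N + 1 := by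
  rw [Int.card_Icc]
  omega

/-- digits of a vector in a fixed frame -/
noncomputable def dgs (k j : ℕ) (χ : ℝ) (v : Fin 2 → ℝ) : ℤ × ℤ := fkj k j (co χ v)

/-- all labels near the label of `(θ, k, j, l)` -/
noncomputable def labF (m N : ℕ) (θ : ℝ) (k j : ℕ) (l : Ln) : Finset Lab := by
  classical exact
  (Finset.Icc (k - m) (k + m)).biUnion fun k2 => (Finset.Icc (j - m) (j + m)).biUnion fun j2 =>
    pis.biUnion fun δ =>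
      (Finset.Icc (fl1 (j2 - k2) (θ - δ) - N) (fl1 (j2 - k2) (θ - δ) + N)).biUnion fun a =>
        {k2} ×ˢ {j2} ×ˢ {a} ×ˢ
          (Finset.Icc ((dgs k2 j2 ((a:ℝ) / 2 ^ (j2 - k2)) l.1).1 - N) ((dgs k2 j2 ((a:ℝ) / 2 ^ (j2 - k2)) l.1).1 + N) ×ˢ
           Finset.Icc ((dgs k2 j2 ((a:ℝ) / 2 ^ (j2 - k2)) l.1).2 - N) ((dgs k2 j2 ((a:ℝ) / 2 ^ (j2 - k2)) l.1).2 + N)) ×ˢ
          (Finset.Icc ((dgs k2 j2 ((a:ℝ) / 2 ^ (j2 - k2)) l.2).1 - N) ((dgs k2 j2 ((a:ℝ) / 2 ^ (j2 - k2)) l.2).1 + N) ×ˢ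
           Finset.Icc ((dgs k2 j2 ((a:ℝ) / 2 ^ (j2 - k2)) l.2).2 - N) ((dgs k2 j2 ((a:ℝ) / 2 ^ (j2 - k2)) l.2).2 + N))

theorem card_labF (m N : ℕ) (θ : ℝ) (k j : ℕ) (l : Ln) :
    (labF m N θ k j l).card ≤ (2 * m + 1) * ((2 * m + 1) * (7 * ((2 * N + 1) * (2 * N + 1) ^ 4))) := by
  classical
  unfold labF
  refine (Finset.card_biUnion_le_card_mul _ _ ((2 * m + 1) * (7 * ((2 * N + 1) * (2 * N + 1) ^ 4))) ?_).trans ?_
  · intro k2 _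
    refine (Finset.card_biUnion_le_card_mul _ _ (7 * ((2 * N + 1) * (2 * N + 1) ^ 4)) ?_).trans ?_
    · intro j2 _
      refine (Finset.card_biUnion_le_card_mul _ _ ((2 * N + 1) * (2 * N + 1) ^ 4) ?_).trans ?_
      · intro δ _
        refine (Finset.card_biUnion_le_card_mul _ _ ((2 * N + 1) ^ 4) ?_).trans ?_
        · intro a _
          simp only [Finset.card_product, Finset.card_singleton, card_Icc_N]
          apply le_of_eq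
          ring
        · rw [card_Icc_N]
      · exact Nat.mul_le_mul_right _ card_pis
    · refine Nat.mul_le_mul_right _ ?_
      rw [Nat.card_Icc]
      omega
  · refine Nat.mul_le_mul_right _ ?_
    rw [Nat.card_Icc]
    omega

/-- **comparable boxes have boundedly many labels** -/
theorem lab_mem {m : ℕ} {θ1 θ2 : ℝ} {k1 j1 k2 j2 : ℕ} {l1 l2 : Ln} (hθ1 : |θ1| ≤ 4) (hθ2 : |θ2| ≤ 4)
    (h1 : k1 ≤ j1) (h2 : k2 ≤ j2)
    (hc : ∀ v, gq θ2 k2 j2 v ≤ ((2:ℝ) ^ m) ^ 2 * gq θ1 k1 j1 v)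
    (hc' : ∀ v, gq θ1 k1 j1 v ≤ ((2:ℝ) ^ m) ^ 2 * gq θ2 k2 j2 v)
    (hl1 : gq θ1 k1 j1 (fun i => l2.1 i - l1.1 i) ≤ ((2:ℝ) ^ m) ^ 2)
    (hl2 : gq θ1 k1 j1 (fun i => l2.2 i - l1.2 i) ≤ ((2:ℝ) ^ m) ^ 2) :
    lab θ2 k2 j2 l2 ∈ labF m (2 ^ (2 * m + 1) + 1) θ1 k1 j1 l1 := by
  classical
  obtain ⟨a1, a2, a3⟩ := cmp_shape h1 h2 hc
  obtain ⟨b1, b2, b3⟩ := cmp_shape h2 h1 hc'
  have e2 : ∀ n : ℕ, (1 / 2 : ℝ) ^ n * 2 ^ n = 1 := fun n => by rw [← mul_pow]; norm_num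
  obtain ⟨δ, hδ, hx⟩ := sin_small' (x := θ1 - θ2) (by
    calc |θ1 - θ2| ≤ |θ1| + |θ2| := abs_sub _ _
      _ ≤ 8 := by linarith)
  have hang : |fl1 (j2 - k2) θ2 - fl1 (j2 - k2) (θ1 - δ)| ≤ ((2 ^ (2 * m + 1) + 1 : ℕ) : ℤ) := by
    have h3 : |θ2 - (θ1 - δ)| ≤ ((2 ^ (2 * m + 1) : ℕ) : ℝ) * (1 / 2 : ℝ) ^ (j2 - k2) := by
      have e3 : |θ2 - (θ1 - δ)| = |θ1 - θ2 - δ| := by rw [← abs_neg]; congr 1; ring
      rw [e3]
      refine hx.trans ?_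
      have hs : |Real.sin (θ1 - θ2)| ≤ 2 ^ m * 2 ^ k1 * (1 / 2 : ℝ) ^ j2 := by
        calc |Real.sin (θ1 - θ2)| = ((1 / 2 : ℝ) ^ j2 * 2 ^ j2) * |Real.sin (θ1 - θ2)| := by rw [e2, one_mul]
          _ = (1 / 2 : ℝ) ^ j2 * (2 ^ j2 * |Real.sin (θ1 - θ2)|) := by ring
          _ ≤ (1 / 2 : ℝ) ^ j2 * (2 ^ m * 2 ^ k1) := by gcongr
          _ = _ := by ring
      have hk : (2:ℝ) ^ k1 ≤ 2 ^ (k2 + m) := pow_le_pow_right₀ (by norm_num) b1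
      have ej : (1 / 2 : ℝ) ^ j2 = (1 / 2 : ℝ) ^ (j2 - k2) * (1 / 2) ^ k2 := by
        rw [← pow_add]; congr 1; omega
      push_cast
      calc 2 * |Real.sin (θ1 - θ2)| ≤ 2 * (2 ^ m * 2 ^ (k2 + m) * ((1 / 2 : ℝ) ^ (j2 - k2) * (1 / 2) ^ k2)) := by
            rw [← ej]
            refine mul_le_mul_of_nonneg_left (hs.trans ?_) (by norm_num)
            gcongr
        _ = 2 ^ (2 * m + 1) * (1 / 2 : ℝ) ^ (j2 - k2) * ((1 / 2) ^ k2 * 2 ^ k2) := by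
            rw [pow_add (2:ℝ) k2 m]; ring
        _ = _ := by rw [e2, mul_one]
    exact_mod_cast fl1_sub_le h3
  have hdig : ∀ v w : Fin 2 → ℝ, gq θ1 k1 j1 (fun i => v i - w i) ≤ ((2:ℝ) ^ m) ^ 2 →
      |(dgs k2 j2 (qa (j2 - k2) θ2) v).1 - (dgs k2 j2 (qa (j2 - k2) θ2) w).1| ≤ ((2 ^ (2 * m + 1) + 1 : ℕ) : ℤ) ∧
      |(dgs k2 j2 (qa (j2 - k2) θ2) v).2 - (dgs k2 j2 (qa (j2 - k2) θ2) w).2| ≤ ((2 ^ (2 * m + 1) + 1 : ℕ) : ℤ) := by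
    intro v w hvw
    have g1 : gq θ2 k2 j2 (fun i => v i - w i) ≤ ((2:ℝ) ^ (2 * m)) ^ 2 := by
      refine (hc _).trans ?_
      calc ((2:ℝ) ^ m) ^ 2 * gq θ1 k1 j1 (fun i => v i - w i) ≤ ((2:ℝ) ^ m) ^ 2 * ((2:ℝ) ^ m) ^ 2 := by gcongr
        _ = _ := by rw [← mul_pow, ← pow_add]; congr 2; ring
    obtain ⟨g2, g3⟩ := gq_bd g1
    obtain ⟨g4, g5⟩ := rnd_frame h2 g2 g3
    have e4 : (2:ℝ) * 2 ^ (2 * m) = ((2 ^ (2 * m + 1) : ℕ) : ℝ) := by push_cast; rw [pow_succ]; ring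
    rw [e4] at g4 g5
    rw [co_sub] at g4 g5
    exact ⟨by exact_mod_cast fl1_sub_le g4, by exact_mod_cast fl1_sub_le g5⟩
  obtain ⟨c1, c2⟩ := hdig _ _ hl1
  obtain ⟨c3, c4⟩ := hdig _ _ hl2
  unfold labF
  rw [Finset.mem_biUnion]
  refine ⟨k2, by rw [Finset.mem_Icc]; constructor <;> omega, ?_⟩
  rw [Finset.mem_biUnion]
  refine ⟨j2, by rw [Finset.mem_Icc]; constructor <;> omega, ?_⟩
  rw [Finset.mem_biUnion]
  refine ⟨δ, hδ, ?_⟩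
  rw [Finset.mem_biUnion]
  refine ⟨fl1 (j2 - k2) θ2, mem_Icc_of_abs hang, ?_⟩
  unfold lab
  simp only [Finset.mem_product, Finset.mem_singleton, true_and]
  exact ⟨⟨mem_Icc_of_abs c1, mem_Icc_of_abs c2⟩, mem_Icc_of_abs c3, mem_Icc_of_abs c4⟩

end Vale.Agent.P127.U.Str
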