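import Vale.Agent.P127.U.StrB

/-!
# P127 / U / Str : the label of the unstretched box (helper499)

* `stl` : the stretched line (relative to a box), modulo integers
* `hc_unst` : the label of the unstretched box is known from the label of the stretched box
-/

set_option autoImplicit false

namespace Vale.Agent.P127.U.Str

open Filter Topology Vale.Agent.P127 Vale.Agent.P127.Stk Vale.Agent.P127.U Sys

/-- the line seen in the stretched coordinates of a box, modulo integers -/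
noncomputable def stl (φ : ℝ) (a b : ℕ) (l : Ln) : Ln :=
  (fun i => Int.fract (stv φ a b l.1 i), fun i => Int.fract (stv φ a b l.2 i))

theorem stl_ok (φ : ℝ) (a b : ℕ) (l : Ln) : LnOk (stl φ a b l) := by
  have key : ∀ x : ℝ, |Int.fract x| ≤ 1 := fun x => by
    rw [abs_of_nonneg (Int.fract_nonneg x)]
    exact (Int.fract_lt_one x).le
  exact ⟨fun i => key _, fun i => key _⟩

theorem gq_rot {θ θ' : ℝ} {k j : ℕ} (h : k ≤ j) (hs : |Real.sin (θ' - θ)| ≤ (1 / 2 : ℝ) ^ (j - k)) (w : Fin 2 → ℝ) :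
    gq θ' k j w ≤ 4 * gq θ k j w := by
  set X := (2:ℝ) ^ k * |co θ w 0| with hX
  set Y := (2:ℝ) ^ j * |co θ w 1| with hY
  have hX0 : 0 ≤ X := by positivity
  have hY0 : 0 ≤ Y := by positivity
  have hkj : (2:ℝ) ^ k ≤ 2 ^ j := pow_le_pow_right₀ (by norm_num) h
  have hs1 := Real.abs_sin_le_one (θ' - θ)
  have hc1 := Real.abs_cos_le_one (θ' - θ)
  have e : (2:ℝ) ^ j * (1 / 2) ^ (j - k) = 2 ^ k := by
    have : (2:ℝ) ^ j = 2 ^ (j - k) * 2 ^ k := by rw [← pow_add]; congr 1; omega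
    rw [this]
    have e2 : (2:ℝ) ^ (j - k) * (1 / 2) ^ (j - k) = 1 := by rw [← mul_pow]; norm_num
    calc (2:ℝ) ^ (j - k) * 2 ^ k * (1 / 2) ^ (j - k) = 2 ^ (j - k) * (1 / 2) ^ (j - k) * 2 ^ k := by ring
      _ = _ := by rw [e2, one_mul]
  have g0 : |(2:ℝ) ^ k * co θ' w 0| ≤ X + Y := by
    rw [abs_mul, abs_of_pos (by positivity), co_rot0 θ]
    calc (2:ℝ) ^ k * |Real.cos (θ' - θ) * co θ w 0 + Real.sin (θ' - θ) * co θ w 1|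
        ≤ (2:ℝ) ^ k * (|Real.cos (θ' - θ)| * |co θ w 0| + |Real.sin (θ' - θ)| * |co θ w 1|) := by
          gcongr
          rw [← abs_mul, ← abs_mul]; exact abs_add_le _ _
      _ ≤ (2:ℝ) ^ k * (1 * |co θ w 0| + 1 * |co θ w 1|) := by gcongr
      _ = (2:ℝ) ^ k * |co θ w 0| + (2:ℝ) ^ k * |co θ w 1| := by ring
      _ ≤ X + Y := by rw [hX, hY]; gcongr
  have g1 : |(2:ℝ) ^ j * co θ' w 1| ≤ X + Y := by
    rw [abs_mul, abs_of_pos (by positivity), co_rot1 θ]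
    calc (2:ℝ) ^ j * |-Real.sin (θ' - θ) * co θ w 0 + Real.cos (θ' - θ) * co θ w 1|
        ≤ (2:ℝ) ^ j * (|Real.sin (θ' - θ)| * |co θ w 0| + |Real.cos (θ' - θ)| * |co θ w 1|) := by
          gcongr
          refine (abs_add_le _ _).trans ?_
          rw [abs_mul, abs_mul, abs_neg]
      _ ≤ (2:ℝ) ^ j * ((1 / 2 : ℝ) ^ (j - k) * |co θ w 0| + 1 * |co θ w 1|) := by gcongr
      _ = ((2:ℝ) ^ j * (1 / 2 : ℝ) ^ (j - k)) * |co θ w 0| + (2:ℝ) ^ j * |co θ w 1| := by ring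
      _ = X + Y := by rw [e]
  have e3 : gq θ k j w = X ^ 2 + Y ^ 2 := by
    unfold gq
    rw [hX, hY, mul_pow, mul_pow, mul_pow, mul_pow, sq_abs, sq_abs]
  have e4 : gq θ' k j w = |(2:ℝ) ^ k * co θ' w 0| ^ 2 + |(2:ℝ) ^ j * co θ' w 1| ^ 2 := by
    unfold gq
    rw [sq_abs, sq_abs]
  rw [e3, e4]
  have h0 := pow_le_pow_left₀ (abs_nonneg _) g0 2
  have h1 := pow_le_pow_left₀ (abs_nonneg _) g1 2
  nlinarith [sq_nonneg (X - Y)]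

theorem sin_of_fl1 {w : ℕ} {θ θ' : ℝ} (h : fl1 w θ' = fl1 w θ) : |Real.sin (θ' - θ)| ≤ (1 / 2 : ℝ) ^ w := by
  have h1 : |Real.sin (θ' - θ)| ≤ |θ' - θ| := by
    have := abs_sin_sub_le (θ' - θ) 0
    simpa using this
  exact h1.trans (fl1_close h)

/-- vectors with the same digits -/
theorem gq_dig {θ : ℝ} {k j : ℕ} (h : k ≤ j) {v w : Fin 2 → ℝ}
    (e : fkj k j (co (qa (j - k) θ) v) = fkj k j (co (qa (j - k) θ) w)) :
    gq θ k j (fun i => v i - w i) ≤ 8 := by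
  have h1 : gq (qa (j - k) θ) k j (fun i => v i - w i) ≤ 2 := by
    unfold fkj at e
    rw [Prod.mk.injEq] at e
    have u0 := fl1_close e.1
    have u1 := fl1_close e.2
    rw [← co_sub] at u0 u1
    unfold gq
    have key : ∀ (n : ℕ) (x : ℝ), |x| ≤ (1 / 2 : ℝ) ^ n → ((2:ℝ) ^ n * x) ^ 2 ≤ 1 := by
      intro n x hx
      have h2 : |(2:ℝ) ^ n * x| ≤ 1 := by
        rw [abs_mul, abs_of_pos (by positivity)]
        calc (2:ℝ) ^ n * |x| ≤ (2:ℝ) ^ n * (1 / 2 : ℝ) ^ n := by gcongr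
          _ = 1 := by rw [← mul_pow]; norm_num
      rw [← sq_abs]
      exact pow_le_one₀ (abs_nonneg _) h2
    have := key k _ u0
    have := key j _ u1
    linarith
  have h2 := gq_rot (θ := qa (j - k) θ) (θ' := θ) h (by
    have := sin_le_of_qa (w := j - k) (θ := θ)
    have e0 : θ - qa (j - k) θ = -(qa (j - k) θ - θ) := by ring
    rwa [e0, Real.sin_neg, abs_neg]) (fun i => v i - w i)
  linarith

theorem stv_sub (φ : ℝ) (a b : ℕ) (v w : Fin 2 → ℝ) (i : Fin 2) :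
    stv φ a b (fun i => v i - w i) i = stv φ a b v i - stv φ a b w i := by
  fin_cases i
  · show (2:ℝ) ^ a * co φ (fun i => v i - w i) 0 = (2:ℝ) ^ a * co φ v 0 - (2:ℝ) ^ a * co φ w 0
    rw [co_sub]; ring
  · show (2:ℝ) ^ b * co φ (fun i => v i - w i) 1 = (2:ℝ) ^ b * co φ v 1 - (2:ℝ) ^ b * co φ w 1
    rw [co_sub]; ring

/-- the difference of two lines in the same box -/
theorem stv_fract {φ : ℝ} {a b : ℕ} {v w : Fin 2 → ℝ} (e : fkj a b (co φ v) = fkj a b (co φ w)) :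
    stv φ a b (fun i => v i - w i) = fun i => Int.fract (stv φ a b v i) - Int.fract (stv φ a b w i) := by
  unfold fkj fl1 at e
  rw [Prod.mk.injEq] at e
  funext i
  rw [stv_sub]
  have key : ∀ x y : ℝ, ⌊x⌋ = ⌊y⌋ → x - y = Int.fract x - Int.fract y := by
    intro x y h
    unfold Int.fract
    rw [h]; ring
  fin_cases i
  · exact key _ _ e.1
  · exact key _ _ e.2

section finite

variable {Ω : Type} [Fintype Ω] {γ : Type*}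

/-- **the label of the unstretched box is known** -/
theorem hc_unst (P : Law Ω) (W T W' : Bx Ω) (Y : Ω → γ) (m : ℕ)
    (hT : ∀ ω, 0 < P.w ω → T.k ω ≤ T.j ω ∧
      T.l ω = stl (qa (W.j ω - W.k ω) (W.θ ω)) (W.k ω) (W.j ω) (W.l ω))
    (hW' : ∀ ω, 0 < P.w ω → W'.l ω = W.l ω ∧ |W'.θ ω| ≤ 4 ∧ W'.k ω ≤ W'.j ω ∧
      (∀ v, gq (W'.θ ω) (W'.k ω) (W'.j ω) v ≤ ((2:ℝ) ^ m) ^ 2 *
        gq (T.θ ω) (T.k ω) (T.j ω) (stv (qa (W.j ω - W.k ω) (W.θ ω)) (W.k ω) (W.j ω) v)) ∧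
      (∀ v, gq (T.θ ω) (T.k ω) (T.j ω) (stv (qa (W.j ω - W.k ω) (W.θ ω)) (W.k ω) (W.j ω) v) ≤
        ((2:ℝ) ^ m) ^ 2 * gq (W'.θ ω) (W'.k ω) (W'.j ω) v)) :
    Stk.hc P W'.lab (fun ω => (T.lab ω, (W.lab ω, Y ω))) ≤
      Real.log (((2 * (2 * m + 2) + 1) * ((2 * (2 * m + 2) + 1) * (7 *
        ((2 * (2 ^ (2 * (2 * m + 2) + 1) + 1) + 1) * (2 * (2 ^ (2 * (2 * m + 2) + 1) + 1) + 1) ^ 4))) : ℕ) : ℝ) := by
  refine Stk.hc_le_log P _ _ _ fun ω hω => ?_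
  refine ⟨labF (2 * m + 2) (2 ^ (2 * (2 * m + 2) + 1) + 1) (W'.θ ω) (W'.k ω) (W'.j ω) (W'.l ω),
    card_labF _ _ _ _ _ _, ?_⟩
  intro ω' hω' e
  obtain ⟨t1, t2⟩ := hT ω hω
  obtain ⟨t1', t2'⟩ := hT ω' hω'
  obtain ⟨w1, w2, w3, w4, w5⟩ := hW' ω hω
  obtain ⟨w1', w2', w3', w4', w5'⟩ := hW' ω' hω'
  simp only [Prod.mk.injEq] at e
  obtain ⟨eT, eW, -⟩ := e
  unfold Bx.lab lab at eT eW
  simp only [Prod.mk.injEq] at eT eW
  obtain ⟨ek, ej, eθ, ex, ey⟩ := eT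
  obtain ⟨fk, fj, fθ, fx, fy⟩ := eW
  rw [ek, ej] at eθ ex ey
  rw [fk, fj] at fθ fx fy
  have fq : qa (W.j ω - W.k ω) (W.θ ω') = qa (W.j ω - W.k ω) (W.θ ω) := by unfold qa; rw [fθ]
  have eq' : qa (T.j ω - T.k ω) (T.θ ω') = qa (T.j ω - T.k ω) (T.θ ω) := by unfold qa; rw [eθ]
  rw [fq] at fx fy
  rw [eq'] at ex ey
  rw [fk, fj, fq] at t2' w4' w5'
  rw [ek, ej] at w4' w5'
  set φ := qa (W.j ω - W.k ω) (W.θ ω) with hφ
  set a := W.k ω with ha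
  set b := W.j ω with hb
  have rot1 : ∀ w, gq (T.θ ω') (T.k ω) (T.j ω) w ≤ 4 * gq (T.θ ω) (T.k ω) (T.j ω) w :=
    gq_rot t1 (sin_of_fl1 eθ)
  have rot2 : ∀ w, gq (T.θ ω) (T.k ω) (T.j ω) w ≤ 4 * gq (T.θ ω') (T.k ω) (T.j ω) w :=
    gq_rot t1 (sin_of_fl1 eθ.symm)
  have p1 : (1:ℝ) ≤ 2 ^ m := one_le_pow₀ (by norm_num)
  have big : ((2:ℝ) ^ m) ^ 2 * 4 * ((2:ℝ) ^ m) ^ 2 ≤ ((2:ℝ) ^ (2 * m + 2)) ^ 2 := by
    have : ((2:ℝ) ^ (2 * m + 2)) ^ 2 = 4 * (((2:ℝ) ^ m) ^ 2 * 4 * ((2:ℝ) ^ m) ^ 2) := by ring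
    rw [this]
    have : 0 ≤ ((2:ℝ) ^ m) ^ 2 * 4 * ((2:ℝ) ^ m) ^ 2 := by positivity
    linarith
  have line : ∀ v w : Fin 2 → ℝ, fkj a b (co φ v) = fkj a b (co φ w) →
      fkj (T.k ω) (T.j ω) (co (qa (T.j ω - T.k ω) (T.θ ω)) (fun i => Int.fract (stv φ a b v i))) =
      fkj (T.k ω) (T.j ω) (co (qa (T.j ω - T.k ω) (T.θ ω)) (fun i => Int.fract (stv φ a b w i))) →
      gq (W'.θ ω) (W'.k ω) (W'.j ω) (fun i => v i - w i) ≤ ((2:ℝ) ^ (2 * m + 2)) ^ 2 := by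
    intro v w h1 h2
    refine (w4 _).trans ?_
    rw [stv_fract h1]
    have h3 := gq_dig t1 h2
    calc ((2:ℝ) ^ m) ^ 2 * gq (T.θ ω) (T.k ω) (T.j ω) (fun i => Int.fract (stv φ a b v i) - Int.fract (stv φ a b w i))
        ≤ ((2:ℝ) ^ m) ^ 2 * 8 := by gcongr
      _ ≤ _ := by
        have e5 : ((2:ℝ) ^ (2 * m + 2)) ^ 2 = ((2:ℝ) ^ m) ^ 2 * (16 * ((2:ℝ) ^ m) ^ 2) := by ring
        rw [e5]
        gcongr
        nlinarith
  show lab (W'.θ ω') (W'.k ω') (W'.j ω') (W'.l ω') ∈ _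
  refine lab_mem w2 w2' w3 w3' (fun v => ?_) (fun v => ?_) ?_ ?_
  · calc gq (W'.θ ω') (W'.k ω') (W'.j ω') v ≤ ((2:ℝ) ^ m) ^ 2 * gq (T.θ ω') (T.k ω) (T.j ω) (stv φ a b v) := w4' v
      _ ≤ ((2:ℝ) ^ m) ^ 2 * (4 * gq (T.θ ω) (T.k ω) (T.j ω) (stv φ a b v)) := by gcongr; exact rot1 _
      _ ≤ ((2:ℝ) ^ m) ^ 2 * (4 * (((2:ℝ) ^ m) ^ 2 * gq (W'.θ ω) (W'.k ω) (W'.j ω) v)) := by gcongr; exact w5 _
      _ = (((2:ℝ) ^ m) ^ 2 * 4 * ((2:ℝ) ^ m) ^ 2) * gq (W'.θ ω) (W'.k ω) (W'.j ω) v := by ring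
      _ ≤ _ := mul_le_mul_of_nonneg_right big (gq_nonneg _ _ _ _)
  · calc gq (W'.θ ω) (W'.k ω) (W'.j ω) v ≤ ((2:ℝ) ^ m) ^ 2 * gq (T.θ ω) (T.k ω) (T.j ω) (stv φ a b v) := w4 v
      _ ≤ ((2:ℝ) ^ m) ^ 2 * (4 * gq (T.θ ω') (T.k ω) (T.j ω) (stv φ a b v)) := by gcongr; exact rot2 _
      _ ≤ ((2:ℝ) ^ m) ^ 2 * (4 * (((2:ℝ) ^ m) ^ 2 * gq (W'.θ ω') (W'.k ω') (W'.j ω') v)) := by gcongr; exact w5' _
      _ = (((2:ℝ) ^ m) ^ 2 * 4 * ((2:ℝ) ^ m) ^ 2) * gq (W'.θ ω') (W'.k ω') (W'.j ω') v := by ring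
      _ ≤ _ := mul_le_mul_of_nonneg_right big (gq_nonneg _ _ _ _)
  · rw [w1, w1']
    refine line _ _ fx ?_
    rw [t2, t2'] at ex
    exact ex
  · rw [w1, w1']
    refine line _ _ fy ?_
    rw [t2, t2'] at ey
    exact ey

end finite

end Vale.Agent.P127.U.Str
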