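import Vale.Agent.P127.U.StrC
import Vale.Agent.P127.U.Blocks1

/-!
# P127 / U / Str : gauges of coarser boxes (helper499)

* `gq_mono`, `gq_shift`, `gq_of_sub`, `sub_of_gq`
-/

set_option autoImplicit false

namespace Vale.Agent.P127.U.Str

open Filter Topology Vale.Agent.P127 Vale.Agent.P127.Stk Vale.Agent.P127.U Sys

theorem gq_mono {θ : ℝ} {k j k2 j2 : ℕ} (hk : k ≤ k2) (hj : j ≤ j2) (v : Fin 2 → ℝ) :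
    gq θ k j v ≤ gq θ k2 j2 v := by
  unfold gq
  rw [mul_pow, mul_pow, mul_pow, mul_pow]
  have h1 : ((2:ℝ) ^ k) ^ 2 ≤ ((2:ℝ) ^ k2) ^ 2 :=
    pow_le_pow_left₀ (by positivity) (pow_le_pow_right₀ (by norm_num) hk) 2
  have h2 : ((2:ℝ) ^ j) ^ 2 ≤ ((2:ℝ) ^ j2) ^ 2 :=
    pow_le_pow_left₀ (by positivity) (pow_le_pow_right₀ (by norm_num) hj) 2
  gcongr

theorem gq_shift {θ : ℝ} {k j k2 j2 m : ℕ} (hk : k2 ≤ k + m) (hj : j2 ≤ j + m) (v : Fin 2 → ℝ) :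
    gq θ k2 j2 v ≤ ((2:ℝ) ^ m) ^ 2 * gq θ k j v := by
  refine (gq_mono hk hj v).trans (le_of_eq ?_)
  unfold gq
  rw [pow_add, pow_add]
  ring

/-- the gauge of a coarser box -/
theorem gq_of_sub {Ω : Type} {c : ℝ} {m : ℕ} (hm : c ≤ 2 ^ m) {B T : Bx Ω} {ω : Ω} (hB : B.k ω ≤ B.j ω)
    (h : Sub c B T ω) (v : Fin 2 → ℝ) :
    gq (T.θ ω) (T.k ω) (T.j ω) v ≤ ((2:ℝ) ^ (m + 1)) ^ 2 * gq (B.θ ω) (B.k ω) (B.j ω) v := by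
  obtain ⟨-, -, h3, h4, h5, h6⟩ := h
  set X := (2:ℝ) ^ (B.k ω) * |co (B.θ ω) v 0| with hX
  set Y := (2:ℝ) ^ (B.j ω) * |co (B.θ ω) v 1| with hY
  have hX0 : 0 ≤ X := by positivity
  have hY0 : 0 ≤ Y := by positivity
  have hs1 := Real.abs_sin_le_one (T.θ ω - B.θ ω)
  have hc1 := Real.abs_cos_le_one (T.θ ω - B.θ ω)
  have e2 : ∀ n : ℕ, (1 / 2 : ℝ) ^ n * 2 ^ n = 1 := fun n => by rw [← mul_pow]; norm_num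
  have hsin : (2:ℝ) ^ (T.j ω) * |Real.sin (T.θ ω - B.θ ω)| ≤ 2 ^ m * 2 ^ (B.k ω) := by
    have e3 : |Real.sin (T.θ ω - B.θ ω)| = |Real.sin (B.θ ω - T.θ ω)| := by
      rw [← abs_neg, ← Real.sin_neg]; congr 2; ring
    rw [e3]
    have h7 : |Real.sin (B.θ ω - T.θ ω)| * (1 / 2 : ℝ) ^ B.k ω ≤ 2 ^ m * (1 / 2 : ℝ) ^ T.j ω := by
      refine h6.trans ?_
      gcongr
    calc (2:ℝ) ^ (T.j ω) * |Real.sin (B.θ ω - T.θ ω)|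
        = 2 ^ (T.j ω) * (|Real.sin (B.θ ω - T.θ ω)| * (1 / 2 : ℝ) ^ B.k ω) * 2 ^ B.k ω := by
          rw [mul_assoc, mul_assoc, e2, mul_one]
      _ ≤ 2 ^ (T.j ω) * (2 ^ m * (1 / 2 : ℝ) ^ T.j ω) * 2 ^ B.k ω := by gcongr
      _ = 2 ^ m * ((1 / 2 : ℝ) ^ T.j ω * 2 ^ T.j ω) * 2 ^ B.k ω := by ring
      _ = _ := by rw [e2, mul_one]
  have p1 : (2:ℝ) ^ (T.k ω) ≤ 2 ^ (B.k ω) := pow_le_pow_right₀ (by norm_num) h4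
  have p2 : (2:ℝ) ^ (T.k ω) ≤ 2 ^ (B.j ω) := pow_le_pow_right₀ (by norm_num) (h4.trans hB)
  have p3 : (2:ℝ) ^ (T.j ω) ≤ 2 ^ (B.j ω) := pow_le_pow_right₀ (by norm_num) h5
  have g0 : |(2:ℝ) ^ (T.k ω) * co (T.θ ω) v 0| ≤ X + Y := by
    rw [abs_mul, abs_of_pos (by positivity), co_rot0 (B.θ ω)]
    calc (2:ℝ) ^ (T.k ω) * |Real.cos (T.θ ω - B.θ ω) * co (B.θ ω) v 0 + Real.sin (T.θ ω - B.θ ω) * co (B.θ ω) v 1|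
        ≤ (2:ℝ) ^ (T.k ω) * (|Real.cos (T.θ ω - B.θ ω)| * |co (B.θ ω) v 0| +
            |Real.sin (T.θ ω - B.θ ω)| * |co (B.θ ω) v 1|) := by
          gcongr
          rw [← abs_mul, ← abs_mul]; exact abs_add_le _ _
      _ ≤ (2:ℝ) ^ (T.k ω) * (1 * |co (B.θ ω) v 0| + 1 * |co (B.θ ω) v 1|) := by gcongr
      _ = (2:ℝ) ^ (T.k ω) * |co (B.θ ω) v 0| + (2:ℝ) ^ (T.k ω) * |co (B.θ ω) v 1| := by ring
      _ ≤ X + Y := by rw [hX, hY]; gcongr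
  have g1 : |(2:ℝ) ^ (T.j ω) * co (T.θ ω) v 1| ≤ 2 ^ m * X + Y := by
    rw [abs_mul, abs_of_pos (by positivity), co_rot1 (B.θ ω)]
    calc (2:ℝ) ^ (T.j ω) * |-Real.sin (T.θ ω - B.θ ω) * co (B.θ ω) v 0 + Real.cos (T.θ ω - B.θ ω) * co (B.θ ω) v 1|
        ≤ (2:ℝ) ^ (T.j ω) * (|Real.sin (T.θ ω - B.θ ω)| * |co (B.θ ω) v 0| +
            |Real.cos (T.θ ω - B.θ ω)| * |co (B.θ ω) v 1|) := by
          gcongr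
          refine (abs_add_le _ _).trans ?_
          rw [abs_mul, abs_mul, abs_neg]
      _ ≤ (2:ℝ) ^ (T.j ω) * (|Real.sin (T.θ ω - B.θ ω)| * |co (B.θ ω) v 0| + 1 * |co (B.θ ω) v 1|) := by gcongr
      _ = ((2:ℝ) ^ (T.j ω) * |Real.sin (T.θ ω - B.θ ω)|) * |co (B.θ ω) v 0| +
            (2:ℝ) ^ (T.j ω) * |co (B.θ ω) v 1| := by ring
      _ ≤ (2 ^ m * 2 ^ (B.k ω)) * |co (B.θ ω) v 0| + (2:ℝ) ^ (B.j ω) * |co (B.θ ω) v 1| := by gcongr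
      _ = _ := by rw [hX, hY]; ring
  have e3 : gq (B.θ ω) (B.k ω) (B.j ω) v = X ^ 2 + Y ^ 2 := by
    unfold gq
    rw [hX, hY, mul_pow, mul_pow, mul_pow, mul_pow, sq_abs, sq_abs]
  have e4 : gq (T.θ ω) (T.k ω) (T.j ω) v =
      |(2:ℝ) ^ (T.k ω) * co (T.θ ω) v 0| ^ 2 + |(2:ℝ) ^ (T.j ω) * co (T.θ ω) v 1| ^ 2 := by
    unfold gq
    rw [sq_abs, sq_abs]
  rw [e3, e4, pow_succ (2:ℝ) m]
  have h0 := pow_le_pow_left₀ (abs_nonneg _) g0 2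
  have h1 := pow_le_pow_left₀ (abs_nonneg _) g1 2
  have hm1 : (1:ℝ) ≤ 2 ^ m := one_le_pow₀ (by norm_num)
  have hm2 : (1:ℝ) ≤ (2 ^ m) ^ 2 := one_le_pow₀ hm1
  refine (add_le_add h0 h1).trans ?_
  nlinarith [sq_nonneg (X - Y), sq_nonneg (2 ^ m * X - Y), mul_nonneg (sub_nonneg.2 hm2) (sq_nonneg X),
    mul_nonneg (sub_nonneg.2 hm2) (sq_nonneg Y)]

/-- a box with smaller gauge contains -/
theorem sub_of_gq {Ω : Type} {m : ℕ} {B : Bx Ω} {ω : Ω} (hB : B.k ω ≤ B.j ω) {ψ : ℝ} {k' j' : ℕ}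
    (hψ : |ψ| ≤ 4) (hk : k' ≤ j') (hc : ∀ v, gq ψ k' j' v ≤ ((2:ℝ) ^ m) ^ 2 * gq (B.θ ω) (B.k ω) (B.j ω) v)
    {U : Bx Ω} (hU : U.l ω = B.l ω ∧ U.θ ω = ψ ∧ U.k ω = min k' (B.k ω) ∧ U.j ω = min j' (B.j ω)) :
    Sub (2 ^ m) B U ω ∧ (∀ v, gq (U.θ ω) (U.k ω) (U.j ω) v ≤ gq ψ k' j' v) ∧
      ∀ v, gq ψ k' j' v ≤ ((2:ℝ) ^ m) ^ 2 * gq (U.θ ω) (U.k ω) (U.j ω) v := by
  obtain ⟨u1, u2, u3, u4⟩ := hU
  obtain ⟨a1, a2, a3⟩ := cmp_shape hB hk hc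
  rw [u2, u3, u4]
  refine ⟨⟨u1, by rw [u2]; exact hψ, ?_, ?_, ?_, ?_⟩, fun v => gq_mono (min_le_left _ _) (min_le_left _ _) v,
    fun v => gq_shift (by omega) (by omega) v⟩
  · rw [u3, u4]; exact min_le_min hk hB
  · rw [u3]; exact min_le_right _ _
  · rw [u4]; exact min_le_right _ _
  · rw [u2, u4]
    have e2 : ∀ n : ℕ, (1 / 2 : ℝ) ^ n * 2 ^ n = 1 := fun n => by rw [← mul_pow]; norm_num
    calc |Real.sin (B.θ ω - ψ)| * (1 / 2 : ℝ) ^ (B.k ω)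
        = (1 / 2 : ℝ) ^ j' * ((2:ℝ) ^ j' * |Real.sin (B.θ ω - ψ)|) *
            (1 / 2 : ℝ) ^ (B.k ω) := by rw [← mul_assoc ((1 / 2 : ℝ) ^ j'), e2, one_mul]
      _ ≤ (1 / 2 : ℝ) ^ j' * (2 ^ m * 2 ^ (B.k ω)) * (1 / 2 : ℝ) ^ (B.k ω) := by gcongr
      _ = 2 ^ m * (1 / 2 : ℝ) ^ j' * ((1 / 2 : ℝ) ^ (B.k ω) * 2 ^ (B.k ω)) := by ring
      _ = 2 ^ m * (1 / 2 : ℝ) ^ j' := by rw [e2, mul_one]
      _ ≤ 2 ^ m * (1 / 2 : ℝ) ^ (min j' (B.j ω)) := by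
          have := pow_le_pow_of_le_one (by norm_num : (0:ℝ) ≤ 1 / 2) (by norm_num) (min_le_left j' (B.j ω))
          gcongr

end Vale.Agent.P127.U.Str
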