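import Vale.Agent.P127.U.TriS
import Vale.Agent.P127.U.PlaneD

/-!
# P127 / U : the trilinear inequality with side information (helper611)
-/

set_option autoImplicit false

namespace Vale.Agent.P127.U.PlaneOf

open Filter Topology Finset Vale.Agent.P127 Vale.Agent.P127.Stk Vale.Agent.P127.U.Tri Sys
  Vale.Agent.P127.U.Plane

section finite

variable {Ω : Type} [Fintype Ω] {A B T V : Type*}

theorem hc_cond_sum (P : Law Ω) (X : Ω → A) (Y : Ω → T) (Z : Ω → V) :
    Stk.hc P X (fun ω => (Y ω, Z ω)) = ∑ z ∈ img Z, P.pr Z z * Stk.hc (P.cond Z z) X Y := by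
  have h1 := P.H_cond_eq (fun ω => (X ω, Y ω)) Z
  have h2 := P.H_cond_eq Y Z
  have h3 : P.H (fun ω => (X ω, (Y ω, Z ω))) = P.H (fun ω => ((X ω, Y ω), Z ω)) :=
    P.H_congr fun ω ω' => by
      simp only [Prod.mk.injEq]
      tauto
  have h4 : ∑ z ∈ img Z, P.pr Z z * Stk.hc (P.cond Z z) X Y =
      ∑ z ∈ img Z, P.pr Z z * (P.cond Z z).H (fun ω => (X ω, Y ω)) -
        ∑ z ∈ img Z, P.pr Z z * (P.cond Z z).H Y := by
    rw [← Finset.sum_sub_distrib]
    refine Finset.sum_congr rfl fun z _ => ?_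
    unfold Stk.hc
    ring
  rw [h4, ← h1, ← h2]
  unfold Stk.hc
  rw [h3]
  ring

theorem H_cond_sum (P : Law Ω) (X : Ω → A) (Z : Ω → V) :
    ∑ z ∈ img Z, P.pr Z z * (P.cond Z z).H X = Stk.hc P X Z := (P.H_cond_eq X Z).symm

theorem ex_cond_sum (P : Law Ω) (f : Ω → ℝ) (C : Ω → V) :
    ∑ z ∈ img C, P.pr C z * (P.cond C z).ex f = P.ex f := by
  classical
  unfold Law.ex
  simp only [Finset.mul_sum]
  rw [Finset.sum_comm]
  refine Finset.sum_congr rfl fun ω _ => ?_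
  rw [Finset.sum_eq_single (C ω)]
  · rcases (P.pr_nonneg C (C ω)).eq_or_lt with h0 | h0
    · have h1 := P.w_le_pr C ω
      rw [← h0] at h1
      rw [← h0, zero_mul, le_antisymm h1 (P.nn ω), zero_mul]
    · rw [P.cond_w C (C ω) h0, if_pos rfl]
      field_simp
  · intro z _ hz
    rcases (P.pr_nonneg C z).eq_or_lt with h0 | h0
    · rw [← h0, zero_mul]
    · rw [P.cond_w C z h0, if_neg (Ne.symm hz), zero_mul, mul_zero]
  · intro h
    exact absurd (mem_img.2 ⟨ω, rfl⟩) h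

theorem cond_supp {P : Law Ω} {C : Ω → V} {z : V} (hz : 0 < P.pr C z) {ω : Ω}
    (h : 0 < (P.cond C z).w ω) : 0 < P.w ω := by
  classical
  rw [P.cond_w C z hz] at h
  split_ifs at h with h1
  · by_contra hcon
    have h0 : P.w ω = 0 := le_antisymm (not_lt.1 hcon) (P.nn ω)
    rw [h0, zero_div] at h
    exact lt_irrefl _ h
  · exact absurd h (lt_irrefl _)

theorem tri_fin_c {P : Law Ω} {L K : ℕ} {S : Type} {p : Ω → Fin 2 → ℝ}
    {t : Ω → ℝ} {x y : Fin 3 → Ω → Fin 2 → ℝ} {l : Fin 3 → Ω → S} {γ : Ω → ℝ}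
    (h : Ok P L K p t x y l γ) (C : Ω → V) (w n : ℕ) (hn : n * w ≤ L) (hn' : L ≤ n * w + w) :
    ∑ j, Stk.hc P (fun ω => fl1 L (t ω)) (fun ω => (l j ω, C ω)) ≤
      Stk.hc P (fun ω => (fl L (p ω), fl1 L (t ω))) C +
        n * (c1 K + 12 * (Real.log 2 * P.ex γ)) + 21 * (w * Real.log 2) + 18 * Real.log 3 := by
  have h1 : ∀ z ∈ img C, P.pr C z * ∑ j, Stk.hc (P.cond C z) (fun ω => fl1 L (t ω)) (l j) ≤
      P.pr C z * ((P.cond C z).H (fun ω => (fl L (p ω), fl1 L (t ω)))) +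
        (P.pr C z * (n * c1 K + 21 * (w * Real.log 2) + 18 * Real.log 3) +
          n * 12 * Real.log 2 * (P.pr C z * (P.cond C z).ex γ)) := by
    intro z _
    rcases (P.pr_nonneg C z).eq_or_lt with h0 | h0
    · rw [← h0]
      simp
    · have hok : Ok (P.cond C z) L K p t x y l γ :=
        ⟨fun ω hω => h.t0 ω (cond_supp h0 hω), fun ω hω => h.t1 ω (cond_supp h0 hω),
          fun j ω hω => h.y1 j ω (cond_supp h0 hω), fun j ω hω => h.hp j ω (cond_supp h0 hω),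
          fun j ω ω' hω hω' => h.hx j ω ω' (cond_supp h0 hω) (cond_supp h0 hω'),
          fun j ω ω' hω hω' => h.hy j ω ω' (cond_supp h0 hω) (cond_supp h0 hω'),
          fun ω hω => h.wedge ω (cond_supp h0 hω)⟩
      have := mul_le_mul_of_nonneg_left (tri_fin hok w n hn hn') h0.le
      refine this.trans (le_of_eq ?_)
      ring
  have h2 := Finset.sum_le_sum h1
  rw [Finset.sum_add_distrib, Finset.sum_add_distrib, ← Finset.sum_mul, P.sum_pr_image, one_mul,
    ← Finset.mul_sum, ex_cond_sum, H_cond_sum] at h2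
  have h3 : ∑ z ∈ img C, P.pr C z * ∑ j, Stk.hc (P.cond C z) (fun ω => fl1 L (t ω)) (l j) =
      ∑ j, Stk.hc P (fun ω => fl1 L (t ω)) (fun ω => (l j ω, C ω)) := by
    simp only [Finset.mul_sum, hc_cond_sum]
    exact Finset.sum_comm
  rw [h3] at h2
  linarith

end finite

/-- the trilinear inequality with side information, free parameter -/
theorem tri_theta_c (S : Sys) (K : ℕ) {α : Type} {γ' : Type*} (C : S.RV γ')
    {p : S.RV (Fin 2 → ℝ)} {t : S.RV ℝ}
    {x y : Fin 3 → S.RV (Fin 2 → ℝ)} {l : Fin 3 → S.RV α} {γ : S.RV ℝ}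
    (hq : Sys.Tame (S := S) (fun i ω => (fl (S.L i) (p i ω), fl1 (S.L i) (t i ω))))
    (hγ : Sys.OL γ)
    (h : ∀ᶠ i in (uf : Filter ℕ), Ok (S.P i) (S.L i) K (p i) (t i) (fun j => x j i)
      (fun j => y j i) (fun j => l j i) (γ i)) {θ : ℝ} (h0 : 0 < θ) (h1 : θ ≤ 1) :
    ∑ j, S.hc (fun i ω => fl1 (S.L i) (t i ω)) (Sys.pr (l j) C) ≤
      S.hc (fun i ω => (fl (S.L i) (p i ω), fl1 (S.L i) (t i ω))) C +
        (21 * θ + 12 / θ * S.av γ) := by
  have hlog : 0 < Real.log 2 := Real.log_pos (by norm_num)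
  have htt : Sys.Tame (S := S) (fun i ω => fl1 (S.L i) (t i ω)) :=
    hq.mono (Eventually.of_forall fun i ω ω' _ _ e => (Prod.mk.injEq _ _ _ _ ▸ e).2)
  have key : ∀ᶠ i in (uf : Filter ℕ),
      ∑ j, Stk.hc (S.P i) (fun ω => fl1 (S.L i) (t i ω)) (Sys.pr (l j) C i) / S.nm i ≤
        (Stk.hc (S.P i) (fun ω => (fl (S.L i) (p i ω), fl1 (S.L i) (t i ω))) (C i) /
          S.nm i + (21 * θ + 12 / θ * ((S.P i).ex (γ i) / S.L i))) +
        (c1 K / θ + 36 * Real.log 2 / θ + 21 * Real.log 2 + 18 * Real.log 3) / S.nm i := by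
    have hL : ∀ᶠ i in (uf : Filter ℕ), (2 : ℝ) / θ ≤ S.L i :=
      (tendsto_natCast_atTop_atTop.comp S.Ltop).eventually_ge_atTop (2 / θ)
    filter_upwards [h, S.L_pos, S.nm_pos, hL] with i hi hLp hn hLi
    set L := S.L i with hLdef
    have hLr : (0 : ℝ) < L := by exact_mod_cast hLp
    set w : ℕ := ⌈θ * L⌉₊ with hwdef
    have hw1 : θ * L ≤ w := Nat.le_ceil _
    have hw2 : (w : ℝ) < θ * L + 1 := Nat.ceil_lt_add_one (by positivity)
    have hw0 : 0 < w := by
      rw [hwdef, Nat.ceil_pos]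
      positivity
    have hwL : w ≤ L := by
      rw [hwdef, Nat.ceil_le]
      nlinarith
    set n : ℕ := L / w with hndef
    have hn1 : n * w ≤ L := Nat.div_mul_le_self _ _
    have hn2 : L ≤ n * w + w := by
      have := Nat.lt_div_mul_add (a := L) hw0
      exact this.le
    have hn3 : (n : ℝ) ≤ 1 / θ := by
      rw [le_div_iff₀ h0]
      have g1 : (n : ℝ) * w ≤ L := by exact_mod_cast hn1
      have g2 : (n : ℝ) * (θ * L) ≤ n * w := mul_le_mul_of_nonneg_left hw1 (Nat.cast_nonneg _)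
      have g3 : (n : ℝ) * θ * L ≤ 1 * L := by nlinarith
      exact le_of_mul_le_mul_right g3 hLr
    have hfin := tri_fin_c hi (C i) w n hn1 hn2
    have hEγ : (0 : ℝ) ≤ (S.P i).ex (γ i) + 3 := by
      have : (S.P i).ex (fun _ => (-3 : ℝ)) ≤ (S.P i).ex (γ i) := by
        refine (S.P i).ex_mono fun ω hω => ?_
        have g1 := hi.wedge ω hω
        have g2 := dt_le (fun j i' => hi.y1 j ω hω i')
        have g3 : (2 : ℝ) ^ (-γ i ω) ≤ 2 ^ (3 : ℝ) := by
          refine (g1.trans g2).trans ?_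
          norm_num
        have g4 := (Real.rpow_le_rpow_left_iff (by norm_num : (1 : ℝ) < 2)).1 g3
        linarith
      rw [(S.P i).ex_const] at this
      linarith
    rw [← Finset.sum_div]
    have hnm : S.nm i = L * Real.log 2 := rfl
    rw [div_le_iff₀ hn]
    have hx : (n : ℝ) * (c1 K + 12 * (Real.log 2 * (S.P i).ex (γ i))) ≤
        1 / θ * (c1 K + 12 * (Real.log 2 * (S.P i).ex (γ i))) + 36 * (1 / θ) * Real.log 2 := by
      have g1 : 0 ≤ c1 K + 12 * (Real.log 2 * ((S.P i).ex (γ i) + 3)) := by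
        have := c1_nonneg K
        positivity
      have g2 := mul_le_mul_of_nonneg_right hn3 g1
      have g3 : 0 ≤ (n : ℝ) * (36 * Real.log 2) := by positivity
      nlinarith
    have hy : 21 * ((w : ℝ) * Real.log 2) ≤ 21 * (θ * L * Real.log 2) + 21 * Real.log 2 := by
      nlinarith
    have hz : ((Stk.hc (S.P i) (fun ω => (fl L (p i ω), fl1 L (t i ω))) (C i) / S.nm i +
        (21 * θ + 12 / θ * ((S.P i).ex (γ i) / L))) +
        (c1 K / θ + 36 * Real.log 2 / θ + 21 * Real.log 2 + 18 * Real.log 3) / S.nm i) * S.nm i =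
        Stk.hc (S.P i) (fun ω => (fl L (p i ω), fl1 L (t i ω))) (C i) +
          21 * (θ * L * Real.log 2) +
          1 / θ * (12 * (Real.log 2 * (S.P i).ex (γ i))) +
        (1 / θ * c1 K + 36 * (1 / θ) * Real.log 2 + 21 * Real.log 2 + 18 * Real.log 3) := by
      rw [hnm]
      field_simp
      ring
    rw [hz]
    have hfin' : ∑ j, Stk.hc (S.P i) (fun ω => fl1 L (t i ω)) (Sys.pr (l j) C i) ≤
        Stk.hc (S.P i) (fun ω => (fl L (p i ω), fl1 L (t i ω))) (C i) +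
        n * (c1 K + 12 * (Real.log 2 * (S.P i).ex (γ i))) + 21 * (w * Real.log 2) +
          18 * Real.log 3 := hfin
    linarith
  have u1 : ∀ j, UB fun i => Stk.hc (S.P i) (fun ω => fl1 (S.L i) (t i ω)) (Sys.pr (l j) C i) /
      S.nm i := fun j => Sys.UB.hc htt (Sys.pr (l j) C)
  have u2 : UB fun i => Stk.hc (S.P i) (fun ω => (fl (S.L i) (p i ω), fl1 (S.L i) (t i ω)))
      (C i) / S.nm i := Sys.UB.hc hq C
  have u3 : UB fun i => (S.P i).ex (γ i) / S.L i := Sys.UB.av hγ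
  have e1 : ∑ j, S.hc (fun i ω => fl1 (S.L i) (t i ω)) (Sys.pr (l j) C) =
      ulim fun i => ∑ j, Stk.hc (S.P i) (fun ω => fl1 (S.L i) (t i ω)) (Sys.pr (l j) C i) /
        S.nm i := by
    symm
    refine ulim_eq ?_
    exact tendsto_finsetSum _ fun j _ => (u1 j).tendsto
  have e2 : S.hc (fun i ω => (fl (S.L i) (p i ω), fl1 (S.L i) (t i ω))) C +
        (21 * θ + 12 / θ * S.av γ) = ulim fun i =>
        Stk.hc (S.P i) (fun ω => (fl (S.L i) (p i ω), fl1 (S.L i) (t i ω))) (C i) /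
          S.nm i + (21 * θ + 12 / θ * ((S.P i).ex (γ i) / S.L i)) := by
    symm
    refine ulim_eq ?_
    exact u2.tendsto.add (tendsto_const_nhds.add (u3.tendsto.const_mul _))
  rw [e1, e2]
  refine ulim_le_of_sub (UB.of_tendsto (tendsto_finsetSum _ fun j _ => (u1 j).tendsto))
    (UB.of_tendsto (u2.tendsto.add (tendsto_const_nhds.add (u3.tendsto.const_mul _))))
    (S.const_div_nm _) key

/-- **the trilinear inequality with side information** -/
theorem tri_sys_c (S : Sys) (K : ℕ) {α : Type} {γ' : Type*} (C : S.RV γ')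
    {p : S.RV (Fin 2 → ℝ)} {t : S.RV ℝ}
    {x y : Fin 3 → S.RV (Fin 2 → ℝ)} {l : Fin 3 → S.RV α} {γ : S.RV ℝ}
    (hq : Sys.Tame (S := S) (fun i ω => (fl (S.L i) (p i ω), fl1 (S.L i) (t i ω))))
    (hγ : Sys.OL γ)
    (h : ∀ᶠ i in (uf : Filter ℕ), Ok (S.P i) (S.L i) K (p i) (t i) (fun j => x j i)
      (fun j => y j i) (fun j => l j i) (γ i)) (hav : 0 < S.av γ) (hav1 : S.av γ ≤ 1) :
    ∑ j, S.hc (fun i ω => fl1 (S.L i) (t i ω)) (Sys.pr (l j) C) ≤
      S.hc (fun i ω => (fl (S.L i) (p i ω), fl1 (S.L i) (t i ω))) C + 33 * √(S.av γ) := by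
  have hs : 0 < √(S.av γ) := Real.sqrt_pos.2 hav
  have hs1 : √(S.av γ) ≤ 1 := Real.sqrt_le_one.2 hav1
  have h2 := tri_theta_c S K C hq hγ h (θ := √(S.av γ)) hs hs1
  have h3 : 12 / √(S.av γ) * S.av γ = 12 * √(S.av γ) := by
    have h4 : √(S.av γ) * √(S.av γ) = S.av γ := Real.mul_self_sqrt hav.le
    field_simp
    linarith
  rw [h3] at h2
  linarith

end Vale.Agent.P127.U.PlaneOf
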